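/-
Row 249, part B2 (helper474): definitions.

* `nab Γ x W X Y Z = (∇_W R)(X, Y) Z` for a connection form `Γ` (conventions of `R244.CF`);
* `ParCurv M`: parallel curvature (evaluated at every point in its preferred chart);
* `Frame R0 p`: a linear isometry `R^n → T_p M` carrying the algebraic curvature tensor `R0` to the
  curvature of `M` at `p`;
* `Mdl n`: a homogeneous model space presented by a pseudo-distance `d` on a type `X` with a
  transitive group, an exponential map `e` on the injectivity domain `D`, its inverse `lg` on the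
  regular set `Reg` and the metric `g0` in normal coordinates.
-/
import Crest.Agent.R226.ChartMet_842
import Crest.Prelude.Def_ChartCurvature

set_option autoImplicit false
set_option maxSynthPendingDepth 3

open Bundle Set Filter Topology
open scoped ContDiff Manifold
open Crest.Agent.R244.CF (IsLC curv cov LocIsoAt)
open Crest.Agent.R226.ChartMet842 (gm Gm)

noncomputable section

namespace Crest.Agent.R249.B2Defs_474

section nab

variable {E : Type*} [NormedAddCommGroup E] [NormedSpace ℝ E]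

/-- covariant derivative of the curvature: `(∇_W R)(X, Y) Z` -/
def nab (Γ : E → E →L[ℝ] E →L[ℝ] E) (x W X Y Z : E) : E :=
  fderiv ℝ (fun y => curv Γ y X Y Z) x W + Γ x W (curv Γ x X Y Z)
    - curv Γ x (Γ x W X) Y Z - curv Γ x X (Γ x W Y) Z - curv Γ x X Y (Γ x W Z)

end nab

section M

variable (n : ℕ) (M : Type*) [MetricSpace M] [ChartedSpace (EuclideanSpace ℝ (Fin n)) M]
  [IsManifold (𝓡 n) ∞ M]
  [RiemannianBundle (fun p : M => TangentSpace (𝓡 n) p)]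
  [IsContMDiffRiemannianBundle (𝓡 n) ∞ (EuclideanSpace ℝ (Fin n)) (fun p : M => TangentSpace (𝓡 n) p)]

local notation "𝔼" => EuclideanSpace ℝ (Fin n)

/-- The curvature tensor of `M` is parallel. -/
def ParCurv : Prop :=
  ∀ p : M, ∀ W X Y Z : 𝔼, nab (Gm p) (chartAt 𝔼 p p) W X Y Z = 0

variable {M}

/-- `I : R^n → T_p M` is a linear isometry carrying `R0` to the curvature at `p` (in the preferred
chart of `p`, where `T_p M = R^n`). -/
structure Frame (R0 : 𝔼 → 𝔼 → 𝔼 → 𝔼) (p : M) where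
  /-- the isometry -/
  I : 𝔼 →L[ℝ] 𝔼
  iso : ∀ u v, gm p (chartAt 𝔼 p p) (I u) (I v) = inner ℝ u v
  curv_eq : ∀ u v w, curv (Gm p) (chartAt 𝔼 p p) (I u) (I v) (I w) = I (R0 u v w)

end M

/-- Model spaces. -/
structure Mdl (n : ℕ) where
  /-- points (possibly several representatives of the same point, at distance `0`) -/
  X : Type
  /-- group of isometries -/
  G : Type
  [grp : Group G]
  [act : MulAction G X]
  /-- pseudo-distance -/
  d : X → X → ℝ
  /-- exponential map at the base point `e 0` -/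
  e : EuclideanSpace ℝ (Fin n) → X
  /-- inverse of the exponential map on the regular set -/
  lg : X → EuclideanSpace ℝ (Fin n)
  /-- injectivity domain -/
  D : Set (EuclideanSpace ℝ (Fin n))
  /-- complement of the cut locus of the base point -/
  Reg : Set X
  /-- curvature at the base point -/
  R0 : EuclideanSpace ℝ (Fin n) → EuclideanSpace ℝ (Fin n) → EuclideanSpace ℝ (Fin n) →
    EuclideanSpace ℝ (Fin n)
  /-- the metric in normal coordinates -/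
  g0 : EuclideanSpace ℝ (Fin n) → EuclideanSpace ℝ (Fin n) →L[ℝ] EuclideanSpace ℝ (Fin n) →L[ℝ] ℝ
  /-- Jacobi solutions: `J v u 0 = 0`, `J' v u 0 = u`, `J'' = - R0 (J, v) v` -/
  J : EuclideanSpace ℝ (Fin n) → EuclideanSpace ℝ (Fin n) → ℝ → EuclideanSpace ℝ (Fin n)
  J' : EuclideanSpace ℝ (Fin n) → EuclideanSpace ℝ (Fin n) → ℝ → EuclideanSpace ℝ (Fin n)
  D_open : IsOpen D
  D_zero : (0 : EuclideanSpace ℝ (Fin n)) ∈ D
  D_star : ∀ w ∈ D, ∀ t ∈ Icc (0 : ℝ) 1, t • w ∈ D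
  g0_smooth : ContDiffOn ℝ ∞ g0 D
  g0_symm : ∀ w ∈ D, ∀ u v, g0 w u v = g0 w v u
  g0_pos : ∀ w ∈ D, ∀ u, u ≠ 0 → 0 < g0 w u u
  J_zero : ∀ v u, J v u 0 = 0
  J_one : ∀ v u, J' v u 0 = u
  J_deriv : ∀ v u t, HasDerivAt (J v u) (J' v u t) t
  J'_deriv : ∀ v u t, HasDerivAt (J' v u) (-R0 (J v u t) v v) t
  J_g0 : ∀ v ∈ D, ∀ u u', g0 v u u' = inner ℝ (J v u 1) (J v u' 1)
  d_symm : ∀ x y, d x y = d y x
  d_self : ∀ x, d x x = 0
  d_tri : ∀ x y z, d x z ≤ d x y + d y z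
  d_smul : ∀ (g : G) (x y : X), d (g • x) (g • y) = d x y
  d_e : ∀ w ∈ D, d (e 0) (e w) = ‖w‖
  e_cont : ∀ w ∈ D, ∀ ε > 0, ∃ δ > 0, ∀ w', ‖w' - w‖ < δ → d (e w) (e w') < ε
  e_mem : ∀ w ∈ D, e w ∈ Reg
  lg_mem : ∀ x ∈ Reg, lg x ∈ D
  lg_e : ∀ w ∈ D, lg (e w) = w
  e_lg : ∀ x ∈ Reg, d (e (lg x)) x = 0
  lg_congr : ∀ x y, d x y = 0 → x ∈ Reg → y ∈ Reg ∧ lg y = lg x
  lg_cont : ∀ x ∈ Reg, ∀ ε > 0, ∃ δ > 0, ∀ y, d x y < δ → y ∈ Reg ∧ ‖lg y - lg x‖ < ε
  trans : ∀ x : X, ∃ g : G, g • e 0 = x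
  kappa : ∀ (g : G), ∀ w ∈ D, g • e w ∈ Reg → LocIsoAt D g0 D g0 (fun w => lg (g • e w)) w
  star_dense : ∀ g : G, g • e 0 ∈ Reg → ∀ w ∈ D, ∀ ε > 0, ∃ w', ‖w' - w‖ < ε ∧
    ∀ t ∈ Icc (0 : ℝ) 1, t • w' ∈ D ∧ g • e (t • w') ∈ Reg
  dense : ∀ x : X, ∀ ε > 0, ∃ z ∈ Reg, d x z < ε
  cov : ∀ x : X, ∃ g : G, g • e 0 ∈ Reg ∧ g⁻¹ • x ∈ Reg

attribute [instance] Mdl.grp Mdl.act

end Crest.Agent.R249.B2Defs_474
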