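import Crest.Agent.R249.OriD_285

/-!
# R249, leaf ORI (helper285), part E: reduction of S0383 to oriented manifolds

`push_sphere`, `push_proj`, `push_prod` : the three covering predicates pass down along a
surjective local isometry; `s0383_of_oriented` : S0383 follows from its oriented version in the
lowest universe.
-/

set_option autoImplicit false
set_option maxSynthPendingDepth 3

open Bundle Set Filter Topology
open scoped ContDiff Manifold
open Crest.GeometryTopology.CoordMetric Crest.GeometryTopology.ChartCurvature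
open Crest.Agent.R249.Mk_285 Crest.Agent.R249.Loc1_285 Crest.Agent.R249.Loc2_285
open Crest.Agent.R249.OriD_285

noncomputable section

namespace Crest.Agent.R249.OriE_285

variable {n : ℕ} {N M : Type*}
  [MetricSpace N] [ChartedSpace (EuclideanSpace ℝ (Fin n)) N]
  [IsManifold 𝓘(ℝ, EuclideanSpace ℝ (Fin n)) ∞ N]
  [RiemannianBundle (fun x : N => TangentSpace 𝓘(ℝ, EuclideanSpace ℝ (Fin n)) x)]
  [IsContMDiffRiemannianBundle 𝓘(ℝ, EuclideanSpace ℝ (Fin n)) ∞
      (EuclideanSpace ℝ (Fin n)) (fun x : N => TangentSpace 𝓘(ℝ, EuclideanSpace ℝ (Fin n)) x)]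
  [IsRiemannianManifold 𝓘(ℝ, EuclideanSpace ℝ (Fin n)) N]
  [MetricSpace M] [ChartedSpace (EuclideanSpace ℝ (Fin n)) M]
  [IsManifold 𝓘(ℝ, EuclideanSpace ℝ (Fin n)) ∞ M]
  [RiemannianBundle (fun x : M => TangentSpace 𝓘(ℝ, EuclideanSpace ℝ (Fin n)) x)]
  [IsContMDiffRiemannianBundle 𝓘(ℝ, EuclideanSpace ℝ (Fin n)) ∞
      (EuclideanSpace ℝ (Fin n)) (fun x : M => TangentSpace 𝓘(ℝ, EuclideanSpace ℝ (Fin n)) x)]
  [IsRiemannianManifold 𝓘(ℝ, EuclideanSpace ℝ (Fin n)) M]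
  {ϖ : N → M}

/-- composition of a map preserving small distances with a local isometry. -/
theorem push {X : Type*} [PseudoMetricSpace X] {Φ : X → N} {D : X → X → ℝ}
    (hD : ∀ p, ContinuousAt (fun q => D p q) p) (hD0 : ∀ p, D p p = 0)
    (hϖ : LocIso n ϖ)
    (hΦ : ∀ p, ∃ ε : ℝ, 0 < ε ∧ ∀ q q', dist p q < ε → dist p q' < ε →
      dist (Φ q) (Φ q') = D q q') (p : X) :
    ∃ ε : ℝ, 0 < ε ∧ ∀ q q', dist p q < ε → dist p q' < ε →
      dist (ϖ (Φ q)) (ϖ (Φ q')) = D q q' := by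
  obtain ⟨ε, hε, h1⟩ := hΦ p
  obtain ⟨δ, hδ, h2⟩ := exists_dist_eq hϖ (Φ p)
  have h3 : ∀ᶠ q in 𝓝 p, D p q < δ := by
    have := hD p
    rw [ContinuousAt, hD0] at this
    exact this.eventually (gt_mem_nhds hδ)
  obtain ⟨η, hη, h4⟩ := Metric.eventually_nhds_iff.1 h3
  refine ⟨min ε η, lt_min hε hη, fun q q' hq hq' => ?_⟩
  have hp : dist p p < ε := by rw [dist_self]; exact hε
  have h5 : ∀ q, dist p q < min ε η → dist (Φ p) (Φ q) < δ := by
    intro q hq
    rw [h1 p q hp (hq.trans_le (min_le_left _ _))]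
    exact h4 (by rw [dist_comm]; exact hq.trans_le (min_le_right _ _))
  rw [h2 _ _ (h5 q hq) (h5 q' hq')]
  exact h1 q q' (hq.trans_le (min_le_left _ _)) (hq'.trans_le (min_le_left _ _))

theorem push_sphere {m : ℕ} {a : ℝ} (hϖ : LocIso n ϖ) (hs : Function.Surjective ϖ)
    (h : IsLocallyCoveredByRoundSphere N m a) : IsLocallyCoveredByRoundSphere M m a := by
  obtain ⟨ha, Φ, hΦ, h1⟩ := h
  refine ⟨ha, ϖ ∘ Φ, hs.comp hΦ, ?_⟩
  refine push (n := n) (Φ := Φ) (ϖ := ϖ) (X := Metric.sphere (0 : EuclideanSpace ℝ (Fin (m + 1))) 1)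
    (D := fun q q' => Real.arccos (inner ℝ (q : EuclideanSpace ℝ (Fin (m + 1))) q') / Real.sqrt a)
    ?_ ?_ hϖ h1
  · intro p
    refine (ContinuousAt.div_const ?_ _)
    refine Real.continuous_arccos.continuousAt.comp ?_
    exact (continuous_const.inner continuous_subtype_val).continuousAt
  · intro p
    have hp : ‖(p : EuclideanSpace ℝ (Fin (m + 1)))‖ = 1 := by simp
    simp [hp]

theorem push_proj {m : ℕ} {a : ℝ} (hϖ : LocIso n ϖ) (hs : Function.Surjective ϖ)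
    (h : IsLocallyCoveredByComplexProjective N m a) :
    IsLocallyCoveredByComplexProjective M m a := by
  obtain ⟨ha, Φ, hΦ, h1⟩ := h
  refine ⟨ha, ϖ ∘ Φ, hs.comp hΦ, ?_⟩
  refine push (n := n) (Φ := Φ) (ϖ := ϖ) (X := Metric.sphere (0 : EuclideanSpace ℂ (Fin (m + 1))) 1)
    (D := fun q q' => Real.arccos ‖inner ℂ (q : EuclideanSpace ℂ (Fin (m + 1))) q'‖ / Real.sqrt a)
    ?_ ?_ hϖ h1
  · intro p
    refine (ContinuousAt.div_const ?_ _)
    refine Real.continuous_arccos.continuousAt.comp ?_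
    exact (continuous_const.inner continuous_subtype_val).norm.continuousAt
  · intro p
    have hp : ‖(p : EuclideanSpace ℂ (Fin (m + 1)))‖ = 1 := by simp
    simp [inner_self_eq_norm_sq_to_K, hp]

theorem push_prod {a : ℝ} (hϖ : LocIso n ϖ) (hs : Function.Surjective ϖ)
    (h : IsLocallyCoveredBySphereProduct N a) : IsLocallyCoveredBySphereProduct M a := by
  obtain ⟨ha, Φ, hΦ, h1⟩ := h
  refine ⟨ha, ϖ ∘ Φ, hs.comp hΦ, ?_⟩
  refine push (n := n) (Φ := Φ) (ϖ := ϖ) (X := Metric.sphere (0 : EuclideanSpace ℝ (Fin 3)) 1 ×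
      Metric.sphere (0 : EuclideanSpace ℝ (Fin 3)) 1)
    (D := fun q q' => Real.sqrt (Real.arccos (inner ℝ (q.1 : EuclideanSpace ℝ (Fin 3)) q'.1) ^ 2 +
          Real.arccos (inner ℝ (q.2 : EuclideanSpace ℝ (Fin 3)) q'.2) ^ 2) / Real.sqrt a)
    ?_ ?_ hϖ h1
  · intro p
    refine Continuous.continuousAt ?_
    refine Continuous.div_const ?_ _
    refine Real.continuous_sqrt.comp ?_
    refine Continuous.add ((Real.continuous_arccos.comp ?_).pow 2)
      ((Real.continuous_arccos.comp ?_).pow 2)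
    · exact continuous_const.inner (continuous_subtype_val.comp continuous_fst)
    · exact continuous_const.inner (continuous_subtype_val.comp continuous_snd)
  · intro p
    have hp : ‖(p.1 : EuclideanSpace ℝ (Fin 3))‖ = 1 := by simp
    have hp' : ‖(p.2 : EuclideanSpace ℝ (Fin 3))‖ = 1 := by simp
    simp [hp, hp']

/-- the oriented version of S0383 in the lowest universe. -/
def S0383Oriented : Prop :=
  ∀ (N : Type) [MetricSpace N] [ChartedSpace (EuclideanSpace ℝ (Fin 4)) N]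
    [IsManifold 𝓘(ℝ, EuclideanSpace ℝ (Fin 4)) ∞ N] [CompactSpace N] [ConnectedSpace N]
    [RiemannianBundle (fun x : N => TangentSpace 𝓘(ℝ, EuclideanSpace ℝ (Fin 4)) x)]
    [IsContMDiffRiemannianBundle 𝓘(ℝ, EuclideanSpace ℝ (Fin 4)) ∞ (EuclideanSpace ℝ (Fin 4))
      (fun x : N => TangentSpace 𝓘(ℝ, EuclideanSpace ℝ (Fin 4)) x)]
    [IsRiemannianManifold 𝓘(ℝ, EuclideanSpace ℝ (Fin 4)) N],
    Oriented 4 N → ∀ c : ℝ, 0 < c → IsEinsteinWith 4 N c → HasNonnegSectionalCurvature 4 N →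
      ∃ a : ℝ, 0 < a ∧ (IsLocallyCoveredByRoundSphere N 4 a ∨
        IsLocallyCoveredByComplexProjective N 2 a ∨ IsLocallyCoveredBySphereProduct N a)

/-- **S0383 from its oriented version.** -/
theorem s0383_of_oriented (h : S0383Oriented)
    (M : Type*) [MetricSpace M] [ChartedSpace (EuclideanSpace ℝ (Fin 4)) M]
    [IsManifold 𝓘(ℝ, EuclideanSpace ℝ (Fin 4)) ∞ M] [CompactSpace M] [ConnectedSpace M]
    [RiemannianBundle (fun x : M => TangentSpace 𝓘(ℝ, EuclideanSpace ℝ (Fin 4)) x)]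
    [IsContMDiffRiemannianBundle 𝓘(ℝ, EuclideanSpace ℝ (Fin 4)) ∞ (EuclideanSpace ℝ (Fin 4))
      (fun x : M => TangentSpace 𝓘(ℝ, EuclideanSpace ℝ (Fin 4)) x)]
    [IsRiemannianManifold 𝓘(ℝ, EuclideanSpace ℝ (Fin 4)) M]
    (c : ℝ) (hc : 0 < c) (hE : IsEinsteinWith 4 M c) (hK : HasNonnegSectionalCurvature 4 M) :
    ∃ a : ℝ, 0 < a ∧ (IsLocallyCoveredByRoundSphere M 4 a ∨
      IsLocallyCoveredByComplexProjective M 2 a ∨ IsLocallyCoveredBySphereProduct M a) := by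
  obtain ⟨G, ϖ, hcp, hor, hs, hl⟩ := exists_oriented_cover 4 M
  obtain ⟨a, ha, h1⟩ := h G.S hor c hc (hl.einstein hE) (hl.nonnegSec hK)
  refine ⟨a, ha, ?_⟩
  rcases h1 with h1 | h1 | h1
  · exact Or.inl (push_sphere hl hs h1)
  · exact Or.inr (Or.inl (push_proj hl hs h1))
  · exact Or.inr (Or.inr (push_prod hl hs h1))

end Crest.Agent.R249.OriE_285
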