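import Crest.Agent.R249.Top1_49
import Crest.Agent.R249.OriE_285
import Crest.Agent.R249.B2Defs_474

/-!
Row 249 (helper49): assembly of S0383 from its parts (all statements in the lowest universe, for an
oriented manifold; OriE_285 removes both restrictions).

* `Mod R0 N` : the curvature is parallel and of algebraic type `R0` (input of part B2);
* `WPair RS RC RP N c qp qm` : what parts B1 and C deliver (`qp = |W⁺|²`, `qm = |W⁻|²`);
* `s0383Oriented_of` : the assembly.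
-/

set_option autoImplicit false
set_option maxSynthPendingDepth 3

open scoped ContDiff Manifold
open Bundle Crest.GeometryTopology.CoordMetric Crest.GeometryTopology.ChartCurvature
  Crest.GeometryTopology.PointedLimit
open Crest.Agent.R249.Top49 Crest.Agent.R249.OriD_285 Crest.Agent.R249.OriE_285
open Crest.Agent.R249.B2Defs_474

noncomputable section

namespace Crest.Agent.R249.Asm49

local notation "E4" => EuclideanSpace ℝ (Fin 4)

section

variable (R0 : E4 → E4 → E4 → E4) (N : Type) [MetricSpace N]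
  [ChartedSpace (EuclideanSpace ℝ (Fin 4)) N]
  [IsManifold 𝓘(ℝ, EuclideanSpace ℝ (Fin 4)) ∞ N]
  [RiemannianBundle (fun x : N => TangentSpace 𝓘(ℝ, EuclideanSpace ℝ (Fin 4)) x)]
  [IsContMDiffRiemannianBundle 𝓘(ℝ, EuclideanSpace ℝ (Fin 4)) ∞ (EuclideanSpace ℝ (Fin 4))
      (fun x : N => TangentSpace 𝓘(ℝ, EuclideanSpace ℝ (Fin 4)) x)]

/-- parallel curvature of algebraic type `R0`. -/
def Mod : Prop := ParCurv 4 N ∧ ∀ p : N, Nonempty (Frame 4 R0 p)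

/-- output of parts B1 and C for an oriented Einstein manifold with `sec ≥ 0`. -/
structure WPair (RS RC RP : ℝ → E4 → E4 → E4 → E4) (c : ℝ) (qp qm : N → ℝ) : Prop where
  hp : STHyp N c qp
  hm : STHyp N c qm
  cons : ∀ x, Real.sqrt (qp x) + Real.sqrt (qm x) ≤ 2 * c * Real.sqrt (2 / 3)
  caseIII : (∀ x, qp x = 2 / 3 * c ^ 2 ∧ qm x = 2 / 3 * c ^ 2) → Mod (RP c) N
  caseI : (∀ x, qm x = 0) → Mod (RS c) N ∨ Mod (RC c) N
  caseI' : (∀ x, qp x = 0) → Mod (RS c) N ∨ Mod (RC c) N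

end

/-- a statement about closed connected Riemannian 4-manifolds with `Mod`. -/
def CovS (RS : ℝ → E4 → E4 → E4 → E4) : Prop :=
  ∀ (N : Type) [MetricSpace N] [ChartedSpace (EuclideanSpace ℝ (Fin 4)) N]
    [IsManifold 𝓘(ℝ, EuclideanSpace ℝ (Fin 4)) ∞ N] [CompactSpace N] [ConnectedSpace N]
    [RiemannianBundle (fun x : N => TangentSpace 𝓘(ℝ, EuclideanSpace ℝ (Fin 4)) x)]
    [IsContMDiffRiemannianBundle 𝓘(ℝ, EuclideanSpace ℝ (Fin 4)) ∞ (EuclideanSpace ℝ (Fin 4))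
      (fun x : N => TangentSpace 𝓘(ℝ, EuclideanSpace ℝ (Fin 4)) x)]
    [IsRiemannianManifold 𝓘(ℝ, EuclideanSpace ℝ (Fin 4)) N] (c : ℝ), 0 < c →
    Mod (RS c) N → ∃ a : ℝ, 0 < a ∧ IsLocallyCoveredByRoundSphere N 4 a

def CovC (RC : ℝ → E4 → E4 → E4 → E4) : Prop :=
  ∀ (N : Type) [MetricSpace N] [ChartedSpace (EuclideanSpace ℝ (Fin 4)) N]
    [IsManifold 𝓘(ℝ, EuclideanSpace ℝ (Fin 4)) ∞ N] [CompactSpace N] [ConnectedSpace N]
    [RiemannianBundle (fun x : N => TangentSpace 𝓘(ℝ, EuclideanSpace ℝ (Fin 4)) x)]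
    [IsContMDiffRiemannianBundle 𝓘(ℝ, EuclideanSpace ℝ (Fin 4)) ∞ (EuclideanSpace ℝ (Fin 4))
      (fun x : N => TangentSpace 𝓘(ℝ, EuclideanSpace ℝ (Fin 4)) x)]
    [IsRiemannianManifold 𝓘(ℝ, EuclideanSpace ℝ (Fin 4)) N] (c : ℝ), 0 < c →
    Mod (RC c) N → ∃ a : ℝ, 0 < a ∧ IsLocallyCoveredByComplexProjective N 2 a

def CovP (RP : ℝ → E4 → E4 → E4 → E4) : Prop :=
  ∀ (N : Type) [MetricSpace N] [ChartedSpace (EuclideanSpace ℝ (Fin 4)) N]
    [IsManifold 𝓘(ℝ, EuclideanSpace ℝ (Fin 4)) ∞ N] [CompactSpace N] [ConnectedSpace N]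
    [RiemannianBundle (fun x : N => TangentSpace 𝓘(ℝ, EuclideanSpace ℝ (Fin 4)) x)]
    [IsContMDiffRiemannianBundle 𝓘(ℝ, EuclideanSpace ℝ (Fin 4)) ∞ (EuclideanSpace ℝ (Fin 4))
      (fun x : N => TangentSpace 𝓘(ℝ, EuclideanSpace ℝ (Fin 4)) x)]
    [IsRiemannianManifold 𝓘(ℝ, EuclideanSpace ℝ (Fin 4)) N] (c : ℝ), 0 < c →
    Mod (RP c) N → ∃ a : ℝ, 0 < a ∧ IsLocallyCoveredBySphereProduct N a

/-- output of parts B1 and C. -/
def BC (RS RC RP : ℝ → E4 → E4 → E4 → E4) : Prop :=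
  ∀ (N : Type) [MetricSpace N] [ChartedSpace (EuclideanSpace ℝ (Fin 4)) N]
    [IsManifold 𝓘(ℝ, EuclideanSpace ℝ (Fin 4)) ∞ N] [CompactSpace N] [ConnectedSpace N]
    [RiemannianBundle (fun x : N => TangentSpace 𝓘(ℝ, EuclideanSpace ℝ (Fin 4)) x)]
    [IsContMDiffRiemannianBundle 𝓘(ℝ, EuclideanSpace ℝ (Fin 4)) ∞ (EuclideanSpace ℝ (Fin 4))
      (fun x : N => TangentSpace 𝓘(ℝ, EuclideanSpace ℝ (Fin 4)) x)]
    [IsRiemannianManifold 𝓘(ℝ, EuclideanSpace ℝ (Fin 4)) N],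
    Oriented 4 N → ∀ c : ℝ, 0 < c → IsEinsteinWith 4 N c → HasNonnegSectionalCurvature 4 N →
      ∃ qp qm : N → ℝ, WPair N RS RC RP c qp qm

/-- an Einstein manifold has `Ric ≥ c`. -/
theorem ricciLowerBound_of_einstein {n : ℕ} {M : Type*} [TopologicalSpace M]
    [ChartedSpace (EuclideanSpace ℝ (Fin n)) M]
    [IsManifold 𝓘(ℝ, EuclideanSpace ℝ (Fin n)) ∞ M]
    [RiemannianBundle (fun x : M => TangentSpace 𝓘(ℝ, EuclideanSpace ℝ (Fin n)) x)]
    [IsContMDiffRiemannianBundle 𝓘(ℝ, EuclideanSpace ℝ (Fin n)) ∞ (EuclideanSpace ℝ (Fin n))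
      (fun x : M => TangentSpace 𝓘(ℝ, EuclideanSpace ℝ (Fin n)) x)]
    {c : ℝ} (h : IsEinsteinWith n M c) : HasRicciLowerBound n M c := by
  intro x v
  refine le_of_eq ?_
  rw [quadForm, Finset.mul_sum]
  refine Finset.sum_congr rfl fun i _ => ?_
  rw [Finset.mul_sum]
  refine Finset.sum_congr rfl fun j _ => ?_
  rw [h x i j]
  ring

/-- **Assembly of S0383 (oriented, lowest universe).** -/
theorem s0383Oriented_of {RS RC RP : ℝ → E4 → E4 → E4 → E4} (hST : Top49.ST.{0}) (hBC : BC RS RC RP)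
    (hS : CovS RS) (hC : CovC RC) (hP : CovP RP) : S0383Oriented := by
  intro N _ _ _ _ _ _ _ _ hor c hc hE hK
  obtain ⟨qp, qm, hw⟩ := hBC N hor c hc hE hK
  have key : Mod (RS c) N ∨ Mod (RC c) N ∨ Mod (RP c) N := by
    rcases hST N c hc (ricciLowerBound_of_einstein hE) qp qm hw.hp hw.hm hw.cons with h | h | h
    · rcases hw.caseI' h with h | h
      · exact Or.inl h
      · exact Or.inr (Or.inl h)
    · rcases hw.caseI h with h | h
      · exact Or.inl h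
      · exact Or.inr (Or.inl h)
    · exact Or.inr (Or.inr (hw.caseIII h))
  rcases key with h | h | h
  · obtain ⟨a, ha, h1⟩ := hS N c hc h
    exact ⟨a, ha, Or.inl h1⟩
  · obtain ⟨a, ha, h1⟩ := hC N c hc h
    exact ⟨a, ha, Or.inr (Or.inl h1)⟩
  · obtain ⟨a, ha, h1⟩ := hP N c hc h
    exact ⟨a, ha, Or.inr (Or.inr h1)⟩

end Crest.Agent.R249.Asm49

end
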