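import Crest.Agent.R249.LimDef_41
import Crest.Agent.R249.Ul4_174
import Crest.Agent.R249.Dens_274

/-!
# R249 (helper174), D3-LIM/ST: strong `L¹` convergence of the Gram matrices

* `ev_forall` : uniform statements from statements about sequences;
* `ev_cover`, `ev_symm_close` : nets of the ultralimit and the chart along the sequence;
* `stOut` : `HData`, `AvOut`, `ChOut`, `SpOut` imply `StOut`.
-/

set_option autoImplicit false
noncomputable section
open Set Filter Topology Bundle MeasureTheory Metric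
open scoped ContDiff Manifold ENNReal NNReal Matrix
open Crest.GeometryTopology.CoordMetric Crest.GeometryTopology.ChartCurvature
  Crest.GeometryTopology.RicciEnergy Crest.GeometryTopology.PointedLimit
open Crest.Agent.R247.Bo84
open Crest.Agent.R249.D1Def104 Crest.Agent.R249.Ul174 Crest.Agent.R249.Len47
open Crest.Agent.R249.AsmD832 Crest.Agent.R249.LimDef41

namespace Crest.Agent.R249.St174

local notation "𝔼" => EuclideanSpace ℝ (Fin 4)

/-- a statement holds for all points of `S k`, for almost every `k`, if it holds along all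
sequences -/
theorem ev_forall {M : ℕ → Type*} [∀ k, Nonempty (M k)] {S : ∀ k, Set (M k)}
    {P : ∀ k, M k → Prop}
    (h : ∀ y : ∀ k, M k, (∀ᶠ k in om, y k ∈ S k) → ∀ᶠ k in om, P k (y k)) :
    ∀ᶠ k in om, ∀ y ∈ S k, P k y := by
  classical
  rcases ev_or_not (fun k => ∀ y ∈ S k, P k y) with h1 | h1
  · exact h1
  · exfalso
    have h2 : ∀ k, ∃ y : M k, (¬ ∀ y ∈ S k, P k y) → y ∈ S k ∧ ¬ P k y := by
      intro k
      by_cases hk : ∀ y ∈ S k, P k y
      · exact ⟨Classical.arbitrary _, fun h => absurd hk h⟩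
      · push Not at hk
        obtain ⟨y, hy1, hy2⟩ := hk
        exact ⟨y, fun _ => ⟨hy1, hy2⟩⟩
    choose y hy using h2
    have h3 : ∀ᶠ k in om, y k ∈ S k := h1.mono fun k hk => (hy k hk).1
    obtain ⟨k, hk1, hk2⟩ := (h1.and (h y h3)).exists
    exact (hy k hk1).2 hk2

section ul

variable {M : ℕ → Type} [∀ k, MetricSpace (M k)] {q : ∀ k, M k}

/-- sequences in a closed ball define points of the closed ball -/
theorem bd_of_closedBall {x : ∀ k, M k} (hx : Bd q x) {r : ℝ} {y : ∀ k, M k}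
    (hy : ∀ᶠ k in om, y k ∈ closedBall (x k) r) : Bd q y :=
  hx.trans (C := r) (hy.mono fun k hk => by rw [dist_comm]; exact hk)

theorem mem_closedBall_mk {x : ∀ k, M k} (hx : Bd q x) {r : ℝ} {y : ∀ k, M k} (hyb : Bd q y)
    (hy : ∀ᶠ k in om, y k ∈ closedBall (x k) r) : UL.mk y hyb ∈ closedBall (UL.mk x hx) r := by
  rw [mem_closedBall]
  exact UL.dist_le hyb hx (hy.mono fun k hk => hk)

/-- a net of a ball of the ultralimit covers the ball of almost every space -/
theorem ev_cover {x : ∀ k, M k} (hx : Bd q x) {r s s' : ℝ} (hs : s < s') {Z : Finset (UL q)}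
    (hZ : ∀ y ∈ closedBall (UL.mk x hx) r, ∃ z ∈ Z, dist y z < s) :
    ∀ᶠ k in om, ∀ y ∈ closedBall (x k) r, ∃ z ∈ Z, dist y (z.rep k) < s' := by
  have : ∀ k, Nonempty (M k) := fun k => ⟨x k⟩
  refine ev_forall fun y hy => ?_
  have hyb := bd_of_closedBall hx hy
  obtain ⟨z, hz, hyz⟩ := hZ _ (mem_closedBall_mk hx hyb hy)
  have h1 : ∀ᶠ k in om, dist (y k) (z.rep k) < s' := by
    refine UL.ev_lt hyb z.bd_rep ?_
    rw [UL.mk_rep]
    linarith
  exact h1.mono fun k hk => ⟨z, hz, hk⟩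

/-- the inverse of the chart along the sequence -/
theorem ev_symm_close {x : ∀ k, M k} (hx : Bd q x) {r₀ r₁ R s : ℝ} (hs : 0 < s) (hr : r₁ < r₀)
    (hR : r₀ ≤ R) {u : ∀ k, Fin 4 → M k → ℝ} {U : UL q → EuclideanSpace ℝ (Fin 4)}
    {e : OpenPartialHomeomorph (UL q) (EuclideanSpace ℝ (Fin 4))}
    (hlim : ∀ a, LimOn (ball (UL.mk x hx) R) (fun k => u k a) fun y => U y a)
    (he : ∀ y, e y = U y) (hsrc : e.source = ball (UL.mk x hx) r₀) (Z : Finset (UL q)) :
    ∀ᶠ k in om, ∀ y ∈ closedBall (x k) r₁, ∀ z ∈ Z, dist y (z.rep k) < 2 * s →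
      dist (e.symm (WithLp.toLp 2 fun a => u k a y)) z < 3 * s := by
  have : ∀ k, Nonempty (M k) := fun k => ⟨x k⟩
  refine ev_forall fun y hy => ?_
  have hyb := bd_of_closedBall hx hy
  have hY : UL.mk y hyb ∈ e.source := by
    rw [hsrc, mem_ball]
    exact (mem_closedBall.1 (mem_closedBall_mk hx hyb hy)).trans_lt hr
  have hYR : UL.mk y hyb ∈ ball (UL.mk x hx) R := by
    rw [hsrc] at hY
    exact ball_subset_ball hR hY
  have h1 : Tendsto (fun k => (WithLp.toLp 2 fun a => u k a (y k) : 𝔼)) om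
      (𝓝 (U (UL.mk y hyb))) := by
    have h2 : Tendsto (fun k => (fun a => u k a (y k) : Fin 4 → ℝ)) om
        (𝓝 fun a => U (UL.mk y hyb) a) := by
      rw [tendsto_pi_nhds]
      exact fun a => hlim a y hyb hYR
    exact ((PiLp.continuous_toLp 2 _).tendsto _).comp h2
  have h3 : Tendsto (fun k => e.symm (WithLp.toLp 2 fun a => u k a (y k))) om
      (𝓝 (UL.mk y hyb)) := by
    rw [← he] at h1
    have h4 := (e.continuousAt_symm (e.map_source hY)).tendsto.comp h1
    rwa [e.left_inv hY] at h4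
  have h5 : ∀ᶠ k in om, dist (e.symm (WithLp.toLp 2 fun a => u k a (y k))) (UL.mk y hyb) < s / 2 :=
    (Metric.tendsto_nhds.1 h3) _ (by positivity)
  rw [eventually_all_finset]
  intro z _
  have h6 : ∀ᶠ k in om, |dist (y k) (z.rep k) - dist (UL.mk y hyb) z| < s / 2 := by
    have h7 := UL.tendsto_dist hyb z.bd_rep
    rw [UL.mk_rep] at h7
    have h8 := (Metric.tendsto_nhds.1 h7) (s / 2) (by positivity)
    exact h8.mono fun k hk => by rwa [Real.dist_eq] at hk
  filter_upwards [h5, h6] with k hk5 hk6 hk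
  have h7 := dist_triangle (e.symm (WithLp.toLp 2 fun a => u k a (y k))) (UL.mk y hyb) z
  have h8 := (abs_lt.1 hk6).1
  linarith

end ul


section main

variable {M : ℕ → Type} [∀ k, MetricSpace (M k)] [∀ k, CompleteSpace (M k)]
  [∀ k, ConnectedSpace (M k)] [∀ k, ChartedSpace (EuclideanSpace ℝ (Fin 4)) (M k)]
  [∀ k, IsManifold 𝓘(ℝ, EuclideanSpace ℝ (Fin 4)) ∞ (M k)]
  [∀ k, RiemannianBundle (fun x : M k => TangentSpace 𝓘(ℝ, EuclideanSpace ℝ (Fin 4)) x)]
  [∀ k, IsContMDiffRiemannianBundle 𝓘(ℝ, EuclideanSpace ℝ (Fin 4)) ∞ (EuclideanSpace ℝ (Fin 4))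
    (fun x : M k => TangentSpace 𝓘(ℝ, EuclideanSpace ℝ (Fin 4)) x)]
  [∀ k, IsRiemannianManifold 𝓘(ℝ, EuclideanSpace ℝ (Fin 4)) (M k)]
  [∀ k, MeasurableSpace (M k)] [∀ k, BorelSpace (M k)] {q : ∀ k, M k}

/-- volume of the unit ball -/
def om4 : ℝ := (volume (ball (0 : 𝔼) 1)).toReal

theorem om4_pos : 0 < om4 :=
  ENNReal.toReal_pos Dens_274.vol_ball_one_ne_zero Dens_274.vol_ball_one_ne_top

theorem vol_ball_eq (x : 𝔼) {r : ℝ} (hr : 0 < r) :
    volume (ball x r) = ENNReal.ofReal (om4 * r ^ 4) := by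
  rw [Dens_274.vol_ball x hr, om4, mul_comm,
    ENNReal.ofReal_mul ENNReal.toReal_nonneg, ENNReal.ofReal_toReal Dens_274.vol_ball_one_ne_top]

end main

section one

variable {M : Type} [MetricSpace M] [CompleteSpace M] [ConnectedSpace M]
  [ChartedSpace (EuclideanSpace ℝ (Fin 4)) M]
  [IsManifold 𝓘(ℝ, EuclideanSpace ℝ (Fin 4)) ∞ M]
  [RiemannianBundle (fun x : M => TangentSpace 𝓘(ℝ, EuclideanSpace ℝ (Fin 4)) x)]
  [IsContMDiffRiemannianBundle 𝓘(ℝ, EuclideanSpace ℝ (Fin 4)) ∞ (EuclideanSpace ℝ (Fin 4))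
    (fun x : M => TangentSpace 𝓘(ℝ, EuclideanSpace ℝ (Fin 4)) x)]
  [IsRiemannianManifold 𝓘(ℝ, EuclideanSpace ℝ (Fin 4)) M]
  [MeasurableSpace M] [BorelSpace M]

theorem vol_le (hRic : HasRicciLowerBound 4 M 0) (x : M) {r : ℝ} (hr : 0 < r) :
    (μHE[4] : Measure M) (ball x r) ≤ ENNReal.ofReal (om4 * r ^ 4) := by
  have h := Dens_274.theta_le_one (n := 4) hRic x hr
  unfold Dens_274.theta at h
  rw [ENNReal.div_le_iff (measure_ball_pos _ _ hr).ne' measure_ball_lt_top.ne, one_mul,
    vol_ball_eq 0 hr] at h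
  exact h

/-- packing bound from the volume -/
theorem card_mul_le (hRic : HasRicciLowerBound 4 M 0) {x : M} {R δ : ℝ} (hR : 0 < R)
    (hδ : δ ≤ 1 / 2) {ι : Type*} (Z : Finset ι) (c : ι → M) {s : ℝ} (hs : 0 < s)
    (hsR : s ≤ R)
    (hpin : ∀ y ∈ ball x R, ∀ r : ℝ, 0 < r → r ≤ R →
      ENNReal.ofReal (1 - δ) * volume (ball (0 : 𝔼) r) ≤ (μHE[4] : Measure M) (ball y r))
    (hc : ∀ z ∈ Z, c z ∈ ball x R) (hd : ∀ z ∈ Z, ∀ z' ∈ Z, z ≠ z' → 2 * s ≤ dist (c z) (c z')) :
    (Z.card : ℝ) * s ^ 4 ≤ 2 * (2 * R) ^ 4 := by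
  classical
  have hw := om4_pos
  have h1 : (Z.card : ℝ≥0∞) * ENNReal.ofReal (1 / 2 * (om4 * s ^ 4)) ≤
      ENNReal.ofReal (om4 * (2 * R) ^ 4) := by
    calc (Z.card : ℝ≥0∞) * ENNReal.ofReal (1 / 2 * (om4 * s ^ 4))
        = ∑ z ∈ Z, ENNReal.ofReal (1 / 2 * (om4 * s ^ 4)) := by
          rw [Finset.sum_const, nsmul_eq_mul]
      _ ≤ ∑ z ∈ Z, (μHE[4] : Measure M) (ball (c z) s) := by
          refine Finset.sum_le_sum fun z hz => ?_
          refine le_trans ?_ (hpin (c z) (hc z hz) s hs hsR)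
          rw [vol_ball_eq 0 hs, ← ENNReal.ofReal_mul (by linarith)]
          refine ENNReal.ofReal_le_ofReal ?_
          have : 0 ≤ om4 * s ^ 4 := by positivity
          nlinarith
      _ = (μHE[4] : Measure M) (⋃ z ∈ Z, ball (c z) s) := by
          rw [measure_biUnion_finset]
          · intro z hz z' hz' hne
            refine ball_disjoint_ball ?_
            have := hd z hz z' hz' hne
            linarith
          · exact fun z _ => measurableSet_ball
      _ ≤ (μHE[4] : Measure M) (ball x (2 * R)) := by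
          refine measure_mono (iUnion₂_subset fun z hz => ?_)
          refine ball_subset_ball' ?_
          have := mem_ball.1 (hc z hz)
          linarith
      _ ≤ ENNReal.ofReal (om4 * (2 * R) ^ 4) := vol_le hRic x (by positivity)
  rw [← ENNReal.ofReal_natCast, ← ENNReal.ofReal_mul (by positivity),
    ENNReal.ofReal_le_ofReal_iff (by positivity)] at h1
  have h2 : om4 * ((Z.card : ℝ) * s ^ 4) ≤ om4 * (2 * (2 * R) ^ 4) := by nlinarith
  exact le_of_mul_le_mul_left h2 hw

/-- integrability of the deviation of the Gram matrix -/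
theorem integrableOn_dev {u : Fin 4 → M → ℝ} {x : M} {W : ℝ}
    (hu : ∀ a, ContMDiffOn 𝓘(ℝ, 𝔼) 𝓘(ℝ, ℝ) ∞ (u a) (ball x W)) (A : Matrix (Fin 4) (Fin 4) ℝ)
    {z : M} {r : ℝ} (hz : closedBall z r ⊆ ball x W) (c : ℝ) :
    IntegrableOn (fun y => c * (∑ a, ∑ b, |mGam 4 (u a) (u b) y - A a b|)) (ball z r)
      (μHE[4] : Measure M) := by
  have := Crest.Agent.R247.HR216.properSpace_of_riemannian 4 M
  have := Crest.Agent.R247.GluM923.isLocallyFinite 4 M
  have h1 : ContinuousOn (fun y => c * (∑ a, ∑ b, |mGam 4 (u a) (u b) y - A a b|))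
      (closedBall z r) := by
    intro y hy
    refine ContinuousAt.continuousWithinAt ?_
    have hy' := hz hy
    refine continuousAt_const.mul ?_
    refine tendsto_finsetSum _ fun a _ => tendsto_finsetSum _ fun b _ => ?_
    have h2 : ∀ a, ContMDiffAt 𝓘(ℝ, 𝔼) 𝓘(ℝ, ℝ) 2 (u a) y := fun a =>
      ((hu a).contMDiffAt (isOpen_ball.mem_nhds hy')).of_le two_le_infty
    have h3 : ContMDiffAt 𝓘(ℝ, 𝔼) 𝓘(ℝ, ℝ) 1 (mGam 4 (u a) (u b)) y :=
      contMDiffAt_mGam (h2 a) (h2 b) (by norm_num) two_le_infty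
    exact (h3.continuousAt.sub continuousAt_const).abs
  exact (h1.integrableOn_compact (isCompact_closedBall z r)).mono_set ball_subset_closedBall

end one


section final

variable {M : ℕ → Type} [∀ k, MetricSpace (M k)] [∀ k, CompleteSpace (M k)]
  [∀ k, ConnectedSpace (M k)] [∀ k, ChartedSpace (EuclideanSpace ℝ (Fin 4)) (M k)]
  [∀ k, IsManifold 𝓘(ℝ, EuclideanSpace ℝ (Fin 4)) ∞ (M k)]
  [∀ k, RiemannianBundle (fun x : M k => TangentSpace 𝓘(ℝ, EuclideanSpace ℝ (Fin 4)) x)]
  [∀ k, IsContMDiffRiemannianBundle 𝓘(ℝ, EuclideanSpace ℝ (Fin 4)) ∞ (EuclideanSpace ℝ (Fin 4))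
    (fun x : M k => TangentSpace 𝓘(ℝ, EuclideanSpace ℝ (Fin 4)) x)]
  [∀ k, IsRiemannianManifold 𝓘(ℝ, EuclideanSpace ℝ (Fin 4)) (M k)]
  [∀ k, MeasurableSpace (M k)] [∀ k, BorelSpace (M k)] {q : ∀ k, M k}

/-- **ST**: strong `L¹` convergence of the Gram matrices. -/
theorem stOut {x : ∀ k, M k} {hx : Bd q x} {ρ α C C' ε ε₁ δ lam : ℝ} {lamk : ℕ → ℝ}
    {u : ∀ k, Fin 4 → M k → ℝ} {h : UL q → Matrix (Fin 4) (Fin 4) ℝ} {r₀ : ℝ}
    {U : UL q → EuclideanSpace ℝ (Fin 4)}
    {e : OpenPartialHomeomorph (UL q) (EuclideanSpace ℝ (Fin 4))} (hδ : δ ≤ 1 / 2)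
    (hD : HData x ρ α C ε δ lam lamk u) (hA : AvOut x hx ρ α C' ε₁ u h)
    (hC : ChOut x hx ρ u h r₀ U e) (hS : SpOut x u r₀ e) : StOut x u h r₀ e := by
  classical
  intro φ hφ a b
  set p : UL q := UL.mk x hx with hp
  have hρ := hD.ρ_pos
  have hr0 := hC.r_pos
  have hr4 := hC.r_le
  have hα0 : 0 < α := by linarith [hD.α_gt]
  have hα1 := hD.α_lt
  have hpack : Pack q := pack_of_ricci (n := 4) (κ := 0) le_rfl q
    (hD.ric.mono fun k hk => by simpa using hk)
  obtain ⟨r₁, hr1, hr10, hsp⟩ := hS (tsupport φ) hφ.comp hφ.supp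
  obtain ⟨B, hB0, hB⟩ := hφ.bdd
  have hw := om4_pos
  -- the constant of `AvOut` may be taken nonnegative
  set D : ℝ := |C'| with hDdef
  have hD0 : 0 ≤ D := abs_nonneg _
  set K₀ : ℝ := B * D * (32 + 48 * om4) * (162 * (8 * ρ) ^ 4) with hK₀
  have hK₀0 : 0 ≤ K₀ := by positivity
  -- the main estimate
  have key : ∀ s : ℝ, 0 < s → s ≤ ρ / 4 → s ≤ 1 → ∀ᶠ k in om,
      ∫ y in ball (x k) r₀, |φ (WithLp.toLp 2 fun a => u k a y) *
        (mGam 4 (u k a) (u k b) y - h (e.symm (WithLp.toLp 2 fun a => u k a y)) a b)|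
        ∂(μHE[4] : Measure (M k)) ≤ K₀ * s ^ α := by
    intro s hs hsρ hs1
    -- the net
    obtain ⟨N, hN⟩ := hpack.card_le (dist (UL.base q) p + r₁) hs
    obtain ⟨Z, hZ1, hZ2, hZ3⟩ := Ul174.exists_net (S := closedBall p r₁) hs (N := N)
      (fun t ht ht' => hN t (fun y hy => by
        have h1 := dist_triangle (UL.base q) p y
        have h2 := mem_closedBall'.1 (ht y hy)
        linarith) ht')
    have hcov := ev_cover hx (s' := 2 * s) (by linarith) hZ3
    have hcl := ev_symm_close hx hs hr10 (by linarith : r₀ ≤ 8 * ρ) hC.lim hC.eq hC.source Z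
    have hZ4 : ∀ z ∈ Z, z ∈ ball p (4 * ρ) := fun z hz => by
      have := mem_closedBall.1 (hZ1 z hz)
      rw [mem_ball]
      linarith
    have hav : ∀ᶠ k in om, ∀ z ∈ Z, ∫ y in ball (z.rep k) (2 * s),
        ∑ a, ∑ b, |mGam 4 (u k a) (u k b) y - h z a b| ∂(μHE[4] : Measure (M k)) ≤
          C' * (2 * s) ^ (4 + α) := by
      rw [eventually_all_finset]
      exact fun z hz => hA.av z (hZ4 z hz) (2 * s) (by linarith) (by linarith)
    have hmem : ∀ᶠ k in om, ∀ z ∈ Z, z.rep k ∈ ball (x k) (4 * ρ) := by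
      rw [eventually_all_finset]
      intro z hz
      refine UL.ev_lt z.bd_rep hx ?_
      rw [UL.mk_rep]
      exact hZ4 z hz
    have hsep : ∀ᶠ k in om, ∀ z ∈ Z, ∀ z' ∈ Z, z ≠ z' → 2 * (s / 3) ≤ dist (z.rep k) (z'.rep k) := by
      rw [eventually_all_finset]
      intro z hz
      rw [eventually_all_finset]
      intro z' hz'
      by_cases hne : z = z'
      · exact Eventually.of_forall fun k h => absurd hne h
      · have h1 := hZ2 z hz z' hz' hne
        have h2 : ∀ᶠ k in om, 2 * (s / 3) < dist (z.rep k) (z'.rep k) := by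
          refine UL.ev_gt z.bd_rep z'.bd_rep ?_
          rw [UL.mk_rep, UL.mk_rep]
          linarith
        exact h2.mono fun k hk _ => hk.le
    filter_upwards [hcov, hcl, hav, hmem, hsep, hsp, hD.ric, hD.pinch, hD.smooth] with k hcov hcl
      hav hmem hsep hsp hric hpinch hsm
    have := Crest.Agent.R247.HR216.properSpace_of_riemannian 4 (M k)
    have := Crest.Agent.R247.GluM923.isLocallyFinite 4 (M k)
    set μ : Measure (M k) := μHE[4] with hμ
    set v : M k → 𝔼 := fun y => WithLp.toLp 2 fun a => u k a y with hv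
    -- the counting bound
    have hcard : (Z.card : ℝ) * (s / 3) ^ 4 ≤ 2 * (2 * (4 * ρ)) ^ 4 := by
      refine card_mul_le hric (x := x k) (R := 4 * ρ) (δ := δ) (by positivity) hδ Z
        (fun z => z.rep k) (by positivity) (by linarith) ?_ hmem hsep
      intro y hy r hr hr'
      exact hpinch y (ball_subset_ball (by linarith) hy) r hr (by linarith)
    -- the majorant
    set g : UL q → M k → ℝ := fun z y =>
      B * (∑ a, ∑ b, |mGam 4 (u k a) (u k b) y - h z a b|) + B * D * (3 * s) ^ α with hg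
    have hg0 : ∀ z y, 0 ≤ g z y := fun z y => by
      have : 0 ≤ ∑ a, ∑ b, |mGam 4 (u k a) (u k b) y - h z a b| :=
        Finset.sum_nonneg fun _ _ => Finset.sum_nonneg fun _ _ => abs_nonneg _
      positivity
    have hcb : ∀ z ∈ Z, closedBall (z.rep k) (2 * s) ⊆ ball (x k) (16 * ρ) := by
      intro z hz y hy
      have h1 := mem_closedBall.1 hy
      have h2 := mem_ball.1 (hmem z hz)
      have h3 := dist_triangle y (z.rep k) (x k)
      rw [mem_ball]
      linarith
    have hfin : ∀ z : UL q, μ (ball (z.rep k) (2 * s)) ≠ ⊤ := fun z => measure_ball_lt_top.ne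
    have hgi : ∀ z ∈ Z, IntegrableOn (g z) (ball (z.rep k) (2 * s)) μ := by
      intro z hz
      refine (integrableOn_dev hsm (h z) (hcb z hz) B).add ?_
      exact integrableOn_const (hfin z)
    have hgi' : ∀ z ∈ Z, Integrable ((ball (z.rep k) (2 * s)).indicator (g z)) μ := fun z hz =>
      (hgi z hz).integrable_indicator measurableSet_ball
    have hGi : Integrable (fun y => ∑ z ∈ Z, (ball (z.rep k) (2 * s)).indicator (g z) y) μ :=
      integrable_finsetSum _ hgi'
    have hG0 : ∀ y, 0 ≤ ∑ z ∈ Z, (ball (z.rep k) (2 * s)).indicator (g z) y := fun y =>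
      Finset.sum_nonneg fun z _ => indicator_nonneg (fun y _ => hg0 z y) y
    -- pointwise bound
    have hpt : ∀ y ∈ ball (x k) r₀, |φ (v y) *
        (mGam 4 (u k a) (u k b) y - h (e.symm (v y)) a b)| ≤
        ∑ z ∈ Z, (ball (z.rep k) (2 * s)).indicator (g z) y := by
      intro y hy
      by_cases h0 : φ (v y) = 0
      · rw [h0, zero_mul, abs_zero]; exact hG0 y
      · have hK : v y ∈ tsupport φ := subset_tsupport _ h0
        have hy1 : y ∈ closedBall (x k) r₁ := hsp y (ball_subset_closedBall hy) hK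
        obtain ⟨z, hz, hyz⟩ := hcov y hy1
        have h1 : dist (e.symm (v y)) z < 3 * s := hcl y hy1 z hz hyz
        have h2 : e.symm (v y) ∈ ball p (4 * ρ) := by
          have h3 := e.map_target (hφ.supp hK)
          rw [hC.source] at h3
          exact ball_subset_ball (by linarith) h3
        have h3 := hA.hold z (hZ4 z hz) (e.symm (v y)) h2 a b
        have h4 : |h z a b - h (e.symm (v y)) a b| ≤ D * (3 * s) ^ α := by
          refine h3.trans ?_
          calc C' * dist z (e.symm (v y)) ^ α ≤ D * dist z (e.symm (v y)) ^ α := by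
                gcongr
                exact le_abs_self _
            _ ≤ D * (3 * s) ^ α := by
                gcongr
                rw [dist_comm]
                exact h1.le
        have h5 : |mGam 4 (u k a) (u k b) y - h z a b| ≤
            ∑ a, ∑ b, |mGam 4 (u k a) (u k b) y - h z a b| := by
          refine le_trans ?_ (Finset.single_le_sum (f := fun a =>
            ∑ b, |mGam 4 (u k a) (u k b) y - h z a b|)
            (fun _ _ => Finset.sum_nonneg fun _ _ => abs_nonneg _) (Finset.mem_univ a))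
          exact Finset.single_le_sum (f := fun b => |mGam 4 (u k a) (u k b) y - h z a b|)
            (fun _ _ => abs_nonneg _) (Finset.mem_univ b)
        have h6 : |φ (v y) * (mGam 4 (u k a) (u k b) y - h (e.symm (v y)) a b)| ≤ g z y := by
          rw [abs_mul]
          have h7 : |mGam 4 (u k a) (u k b) y - h (e.symm (v y)) a b| ≤
              (∑ a, ∑ b, |mGam 4 (u k a) (u k b) y - h z a b|) + D * (3 * s) ^ α := by
            calc |mGam 4 (u k a) (u k b) y - h (e.symm (v y)) a b|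
                = |(mGam 4 (u k a) (u k b) y - h z a b) +
                  (h z a b - h (e.symm (v y)) a b)| := by ring_nf
              _ ≤ _ := (abs_add_le _ _).trans (add_le_add h5 h4)
          calc |φ (v y)| * |mGam 4 (u k a) (u k b) y - h (e.symm (v y)) a b|
              ≤ B * ((∑ a, ∑ b, |mGam 4 (u k a) (u k b) y - h z a b|) + D * (3 * s) ^ α) :=
                mul_le_mul (hB _) h7 (abs_nonneg _) hB0
            _ = g z y := by simp only [hg]; ring
        refine h6.trans ?_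
        have h8 : g z y = (ball (z.rep k) (2 * s)).indicator (g z) y := by
          rw [indicator_of_mem]; exact hyz
        rw [h8]
        exact Finset.single_le_sum (f := fun z => (ball (z.rep k) (2 * s)).indicator (g z) y)
          (fun z _ => indicator_nonneg (fun y _ => hg0 z y) y) hz
    -- each term
    have hterm : ∀ z ∈ Z, ∫ y in ball (x k) r₀, (ball (z.rep k) (2 * s)).indicator (g z) y ∂μ ≤
        B * D * (32 + 48 * om4) * s ^ 4 * s ^ α := by
      intro z hz
      have h2s : (2 * s) ^ (4 + α) ≤ 32 * s ^ 4 * s ^ α := by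
        rw [Real.rpow_add (by positivity), Real.mul_rpow (by norm_num) hs.le (z := α)]
        have h1 : (2 : ℝ) ^ α ≤ 2 := by
          calc (2 : ℝ) ^ α ≤ 2 ^ (1 : ℝ) := Real.rpow_le_rpow_of_exponent_le (by norm_num) hα1.le
            _ = 2 := Real.rpow_one 2
        have h2 : (2 * s) ^ (4 : ℝ) = 16 * s ^ 4 := by
          rw [show (4 : ℝ) = ((4 : ℕ) : ℝ) by norm_num, Real.rpow_natCast]; ring
        rw [h2]
        have h3 : 0 ≤ s ^ α := by positivity
        have h4 : 0 ≤ s ^ 4 * s ^ α := by positivity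
        nlinarith
      have h3s : (3 * s) ^ α ≤ 3 * s ^ α := by
        rw [Real.mul_rpow (by norm_num) hs.le (z := α)]
        have h1 : (3 : ℝ) ^ α ≤ 3 := by
          calc (3 : ℝ) ^ α ≤ 3 ^ (1 : ℝ) := Real.rpow_le_rpow_of_exponent_le (by norm_num) hα1.le
            _ = 3 := Real.rpow_one 3
        have h3 : 0 ≤ s ^ α := by positivity
        nlinarith
      have hvol : μ.real (ball (z.rep k) (2 * s)) ≤ om4 * (2 * s) ^ 4 := by
        have h1 := vol_le hric (z.rep k) (r := 2 * s) (by positivity)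
        exact ENNReal.toReal_le_of_le_ofReal (by positivity) h1
      have hi1 := integrableOn_dev hsm (h z) (hcb z hz) B
      have hi2 : IntegrableOn (fun _ : M k => B * D * (3 * s) ^ α) (ball (z.rep k) (2 * s)) μ :=
        integrableOn_const (hfin z)
      calc ∫ y in ball (x k) r₀, (ball (z.rep k) (2 * s)).indicator (g z) y ∂μ
          ≤ ∫ y, (ball (z.rep k) (2 * s)).indicator (g z) y ∂μ :=
            setIntegral_le_integral (hgi' z hz)
              (Eventually.of_forall fun y => indicator_nonneg (fun y _ => hg0 z y) y)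
        _ = ∫ y in ball (z.rep k) (2 * s), g z y ∂μ := integral_indicator measurableSet_ball
        _ = (∫ y in ball (z.rep k) (2 * s),
              B * (∑ a, ∑ b, |mGam 4 (u k a) (u k b) y - h z a b|) ∂μ) +
            ∫ y in ball (z.rep k) (2 * s), B * D * (3 * s) ^ α ∂μ := integral_add hi1 hi2
        _ = B * (∫ y in ball (z.rep k) (2 * s),
              (∑ a, ∑ b, |mGam 4 (u k a) (u k b) y - h z a b|) ∂μ) +
            μ.real (ball (z.rep k) (2 * s)) * (B * D * (3 * s) ^ α) := by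
          rw [integral_const_mul, setIntegral_const, smul_eq_mul]
        _ ≤ B * (D * (32 * s ^ 4 * s ^ α)) +
            (om4 * (2 * s) ^ 4) * (B * D * (3 * s ^ α)) := by
          have h1 := hav z hz
          have h2 : C' * (2 * s) ^ (4 + α) ≤ D * (32 * s ^ 4 * s ^ α) := by
            calc C' * (2 * s) ^ (4 + α) ≤ D * (2 * s) ^ (4 + α) := by
                  gcongr
                  exact le_abs_self _
              _ ≤ _ := by gcongr
          gcongr
          exact h1.trans h2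
        _ = B * D * (32 + 48 * om4) * s ^ 4 * s ^ α := by ring
    calc ∫ y in ball (x k) r₀, |φ (v y) *
        (mGam 4 (u k a) (u k b) y - h (e.symm (v y)) a b)| ∂μ
        ≤ ∫ y in ball (x k) r₀, ∑ z ∈ Z, (ball (z.rep k) (2 * s)).indicator (g z) y ∂μ := by
          refine integral_mono_of_nonneg (Eventually.of_forall fun y => abs_nonneg _)
            hGi.integrableOn ?_
          exact (ae_restrict_iff' measurableSet_ball).2 (Eventually.of_forall hpt)
      _ = ∑ z ∈ Z, ∫ y in ball (x k) r₀, (ball (z.rep k) (2 * s)).indicator (g z) y ∂μ :=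
          integral_finsetSum _ fun z hz => (hgi' z hz).integrableOn
      _ ≤ ∑ z ∈ Z, B * D * (32 + 48 * om4) * s ^ 4 * s ^ α := Finset.sum_le_sum hterm
      _ = B * D * (32 + 48 * om4) * (((Z.card : ℝ) * (s / 3) ^ 4) * 81) * s ^ α := by
          rw [Finset.sum_const, nsmul_eq_mul]; ring
      _ ≤ B * D * (32 + 48 * om4) * ((2 * (2 * (4 * ρ)) ^ 4) * 81) * s ^ α := by gcongr
      _ = K₀ * s ^ α := by rw [hK₀]; ring
  rw [Metric.tendsto_nhds]
  intro η hη
  -- choice of the scale
  have ht : Tendsto (fun s : ℝ => K₀ * s ^ α) (𝓝[>] 0) (𝓝 0) := by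
    have h1 : Tendsto (fun s : ℝ => s ^ α) (𝓝[>] 0) (𝓝 0) := by
      have h2 := (Real.continuousAt_rpow_const (0 : ℝ) α (Or.inr hα0.le)).tendsto
      rw [Real.zero_rpow hα0.ne'] at h2
      exact h2.mono_left nhdsWithin_le_nhds
    simpa using h1.const_mul K₀
  have h1 : ∀ᶠ s : ℝ in 𝓝[>] 0, K₀ * s ^ α < η := (tendsto_order.1 ht).2 η hη
  have h2 : ∀ᶠ s : ℝ in 𝓝[>] 0, s ∈ Ioo (0 : ℝ) (min (ρ / 4) 1) :=
    Ioo_mem_nhdsGT (lt_min (by positivity) one_pos)
  obtain ⟨s, hs1, hs2⟩ := (h1.and h2).exists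
  filter_upwards [key s hs2.1 (hs2.2.le.trans (min_le_left _ _)) (hs2.2.le.trans (min_le_right _ _))]
    with k hk
  rw [Real.dist_eq, sub_zero, abs_of_nonneg (integral_nonneg fun y => abs_nonneg _)]
  exact hk.trans_lt hs1

end final

end Crest.Agent.R249.St174
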