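import Crest.Agent.R249.Ms1_717
import Crest.Agent.R249.LimDef_41
import Crest.Agent.R249.St1_174

/-!
# R249, D3-LIM/MS (1b) (helper717): `MS1`, the limit measure for `HData`

`MS1'` : the limit measure `ν` of the push-forwards of `μHE[4]` on `ball (x k) r₀` under `u k`,
with `LimMeas` (convergence of integrals, open/compact comparisons);
`MS1`  : the form asked by helper222.
-/

set_option autoImplicit false
noncomputable section
open Set Filter Topology Bundle MeasureTheory Metric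
open scoped ContDiff Manifold ENNReal NNReal Matrix
open Crest.GeometryTopology.CoordMetric Crest.GeometryTopology.ChartCurvature
  Crest.GeometryTopology.RicciEnergy Crest.GeometryTopology.PointedLimit
open Crest.Agent.R247.Bo84
open Crest.Agent.R249.D1Def104 Crest.Agent.R249.Ul174 Crest.Agent.R249.Len47
open Crest.Agent.R249.AsmD832 Crest.Agent.R249.LimDef41

namespace Crest.Agent.R249.Ms1_717

local notation "𝔼" => EuclideanSpace ℝ (Fin 4)

variable {M : ℕ → Type} [∀ k, MetricSpace (M k)] [∀ k, CompleteSpace (M k)]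
  [∀ k, ConnectedSpace (M k)]
  [∀ k, ChartedSpace (EuclideanSpace ℝ (Fin 4)) (M k)]
  [∀ k, IsManifold 𝓘(ℝ, EuclideanSpace ℝ (Fin 4)) ∞ (M k)]
  [∀ k, RiemannianBundle (fun x : M k => TangentSpace 𝓘(ℝ, EuclideanSpace ℝ (Fin 4)) x)]
  [∀ k, IsContMDiffRiemannianBundle 𝓘(ℝ, EuclideanSpace ℝ (Fin 4)) ∞ (EuclideanSpace ℝ (Fin 4))
    (fun x : M k => TangentSpace 𝓘(ℝ, EuclideanSpace ℝ (Fin 4)) x)]
  [∀ k, IsRiemannianManifold 𝓘(ℝ, EuclideanSpace ℝ (Fin 4)) (M k)]
  [∀ k, MeasurableSpace (M k)] [∀ k, BorelSpace (M k)]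

/-- the limit measure, with comparisons -/
theorem MS1' {x : ∀ k, M k} {ρ α C ε δ lam : ℝ} {lamk : ℕ → ℝ} {u : ∀ k, Fin 4 → M k → ℝ}
    (H : HData x ρ α C ε δ lam lamk u) {r₀ : ℝ} (hr : 0 < r₀) (hrρ : 4 * r₀ ≤ ρ) :
    ∃ ν : Measure 𝔼, LimMeas
      (fun k => (μHE[4] : Measure (M k)).restrict (ball (x k) r₀))
      (fun k y => (WithLp.toLp 2 fun a => u k a y : 𝔼)) ν := by
  refine exists_riesz _ _ (St174.om4 * r₀ ^ 4) ?_ ?_
  · filter_upwards [H.ric] with k hk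
    rw [Measure.restrict_apply_univ]
    exact St174.vol_le hk (x k) hr
  · filter_upwards [H.smooth] with k hk
    have hρ := H.ρ_pos
    have hsub : ball (x k) r₀ ⊆ ball (x k) (16 * ρ) := ball_subset_ball (by linarith)
    have hc : ContinuousOn (fun y => (WithLp.toLp 2 fun a => u k a y : 𝔼)) (ball (x k) r₀) := by
      refine (PiLp.continuous_toLp 2 _).comp_continuousOn ?_
      exact continuousOn_pi.2 fun a => ((hk a).continuousOn).mono hsub
    exact hc.aemeasurable measurableSet_ball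

/-- **MS1** -/
theorem MS1 {x : ∀ k, M k} {ρ α C ε δ lam : ℝ} {lamk : ℕ → ℝ} {u : ∀ k, Fin 4 → M k → ℝ}
    (H : HData x ρ α C ε δ lam lamk u) {r₀ : ℝ} (hr : 0 < r₀) (hrρ : 4 * r₀ ≤ ρ) :
    ∃ ν : Measure 𝔼, IsFiniteMeasure ν ∧ ∀ φ : 𝔼 → ℝ, Continuous φ → HasCompactSupport φ →
      Tendsto (fun k => ∫ y in ball (x k) r₀, φ (WithLp.toLp 2 fun a => u k a y)
        ∂(μHE[4] : Measure (M k))) om (𝓝 (∫ z, φ z ∂ν)) := by
  obtain ⟨ν, hν⟩ := MS1' H hr hrρ
  exact ⟨ν, hν.fin, hν.lim⟩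

end Crest.Agent.R249.Ms1_717
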