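import Crest.Agent.R249.Ms2_222
import Crest.Agent.R249.Ms1b_717

/-!
# R249 (helper222), D3-LIM/MS: `msOut` and the closed statement `msStStmt : MsStStmt`
-/

set_option autoImplicit false
noncomputable section
open Set Filter Topology Bundle MeasureTheory Metric
open scoped ContDiff Manifold ENNReal NNReal Matrix
open Crest.GeometryTopology.CoordMetric Crest.GeometryTopology.ChartCurvature
  Crest.GeometryTopology.RicciEnergy Crest.GeometryTopology.PointedLimit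
open Crest.Agent.R247.Bo84
open Crest.Agent.R249.D1Def104 Crest.Agent.R249.Ul174 Crest.Agent.R249.Len47
open Crest.Agent.R249.AsmD832 Crest.Agent.R249.LimDef41 Crest.Agent.R249.St174

namespace Crest.Agent.R249.Ms3_222

section final

variable {M : ℕ → Type} [∀ k, MetricSpace (M k)] [∀ k, CompleteSpace (M k)]
  [∀ k, ConnectedSpace (M k)] [∀ k, ChartedSpace (EuclideanSpace ℝ (Fin 4)) (M k)]
  [∀ k, IsManifold 𝓘(ℝ, EuclideanSpace ℝ (Fin 4)) ∞ (M k)]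
  [∀ k, RiemannianBundle (fun x : M k => TangentSpace 𝓘(ℝ, EuclideanSpace ℝ (Fin 4)) x)]
  [∀ k, IsContMDiffRiemannianBundle 𝓘(ℝ, EuclideanSpace ℝ (Fin 4)) ∞ (EuclideanSpace ℝ (Fin 4))
    (fun x : M k => TangentSpace 𝓘(ℝ, EuclideanSpace ℝ (Fin 4)) x)]
  [∀ k, IsRiemannianManifold 𝓘(ℝ, EuclideanSpace ℝ (Fin 4)) (M k)]
  [∀ k, MeasurableSpace (M k)] [∀ k, BorelSpace (M k)] {q : ∀ k, M k}

/-- **MS**: convergence of the measures. -/
theorem msOut {x : ∀ k, M k} {hx : Bd q x} {ρ α C C' ε ε₁ δ lam : ℝ} {lamk : ℕ → ℝ}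
    {u : ∀ k, Fin 4 → M k → ℝ} {h : UL q → Matrix (Fin 4) (Fin 4) ℝ} {r₀ : ℝ}
    {U : UL q → EuclideanSpace ℝ (Fin 4)}
    {e : OpenPartialHomeomorph (UL q) (EuclideanSpace ℝ (Fin 4))} (hδ : δ ≤ 1 / 2)
    (hε₁ : ε₁ ≤ 1 / 2) (hD : HData x ρ α C ε δ lam lamk u) (hA : AvOut x hx ρ α C' ε₁ u h)
    (hC : ChOut x hx ρ u h r₀ U e) : MsOut x u h r₀ e := by
  obtain ⟨ν, hfin, hν⟩ := Ms1_717.MS1 hD hC.r_pos hC.r_le
  exact Ms2_222.msOut_of hδ hε₁ hD hA hC hν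

end final

/-- **D3-LIM/MS + ST** -/
theorem msStStmt : MsStStmt := by
  refine ⟨1 / 2, 1 / 2, by norm_num, by norm_num, ?_⟩
  intro M _ _ _ _ _ _ _ _ _ _ q x hx ρ α C C' ε δ lam lamk u h r₀ U e hδ hD hA hC hS
  exact ⟨msOut hδ le_rfl hD hA hC, stOut hδ hD hA hC hS⟩

end Crest.Agent.R249.Ms3_222
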