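import Crest.Agent.R249.AsmD9_832
import Crest.Agent.R249.Ms3_222

/-!
# R249 (S0386), part D: what is left (helper832), 5

`S0386_of_bd` : the statement of S0386 from `IdxStmt` (part C) and `BDStmt`;
`rthm_of_bd` : `BDStmt → RThm`.
-/

set_option autoImplicit false
open Crest.GeometryTopology.RicciEnergy
open Crest.Agent.R249.D1Def104 Crest.Agent.R249.LimDef41 Crest.Agent.R249.Fin832

namespace Crest.Agent.R249.AsmD832

theorem rthm_of_bd (hB : BDStmt) : RThm :=
  rthm_of SD308.sdStmt Av509.avStmt Ch174.chStmt Ms3_222.msStStmt (sys_of_bd hB) regStmt whStmt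

/-- S0386 from part C and the remaining statement of D3 -/
theorem S0386_of_bd (hI : IdxStmt)
    (hB : BDStmt) (hcl : EinsteinNonnegSectionalAreModelCovered) : S0386Concl :=
  S0386_of_idx_r hI (rthm_of_bd hB) hcl

end Crest.Agent.R249.AsmD832
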