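import Crest.Agent.R249.BDc_41

/-!
R249 / D3-LIM / BD (helper41).  Assembly: `Lim41.LData` from `HData`, `AvOut`, `ChOut`, `SpOut`, `MsOut`,
`StOut` and the Ricci group (R1)-(R3).
-/

set_option autoImplicit false
set_option maxSynthPendingDepth 3
noncomputable section
open Set Filter Topology Bundle MeasureTheory Metric
open scoped ContDiff Manifold ENNReal NNReal Matrix
open Crest.GeometryTopology.CoordMetric Crest.GeometryTopology.ChartCurvature
  Crest.GeometryTopology.RicciEnergy Crest.GeometryTopology.PointedLimit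
open Crest.Agent.R247.Bo84
open Crest.Agent.R249.D1Def104 Crest.Agent.R249.Ul174 Crest.Agent.R249.Len47
open Crest.Agent.R249.AsmD832 Crest.Agent.R249.LimDef41
open Crest.Agent.R249.Vf281 (Tst FF PP SS RR Fm kosz sFun eFun)
open Crest.Agent.R249.LPt_191 (N1 sS kos)
open Crest.Agent.R249.St174 (om4 om4_pos)

namespace Crest.Agent.R249.BD41

local notation "𝔼" => EuclideanSpace ℝ (Fin 4)

section seq

variable {M : ℕ → Type} [∀ k, MetricSpace (M k)] [∀ k, CompleteSpace (M k)]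
  [∀ k, ConnectedSpace (M k)]
  [∀ k, ChartedSpace (EuclideanSpace ℝ (Fin 4)) (M k)]
  [∀ k, IsManifold 𝓘(ℝ, EuclideanSpace ℝ (Fin 4)) ∞ (M k)]
  [∀ k, RiemannianBundle (fun x : M k => TangentSpace 𝓘(ℝ, EuclideanSpace ℝ (Fin 4)) x)]
  [∀ k, IsContMDiffRiemannianBundle 𝓘(ℝ, EuclideanSpace ℝ (Fin 4)) ∞ (EuclideanSpace ℝ (Fin 4))
    (fun x : M k => TangentSpace 𝓘(ℝ, EuclideanSpace ℝ (Fin 4)) x)]
  [∀ k, IsRiemannianManifold 𝓘(ℝ, EuclideanSpace ℝ (Fin 4)) (M k)]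
  [∀ k, MeasurableSpace (M k)] [∀ k, BorelSpace (M k)] {q : ∀ k, M k}

variable {x : ∀ k, M k} {hx : Bd q x} {ρ α C C' ε ε₁ δ lam : ℝ} {lamk : ℕ → ℝ}
  {u : ∀ k, Fin 4 → M k → ℝ}
  {h : UL q → Matrix (Fin 4) (Fin 4) ℝ} {r₀ : ℝ} {U : UL q → EuclideanSpace ℝ (Fin 4)}
  {e : OpenPartialHomeomorph (UL q) (EuclideanSpace ℝ (Fin 4))}

theorem hold_symm' {α C' ε₁ : ℝ} (hα : 0 ≤ α) (hA : AvOut x hx ρ α C' ε₁ u h)
    (hC : ChOut x hx ρ u h r₀ U e) {z w : 𝔼} (hz : z ∈ e.target) (hw : w ∈ e.target)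
    (a b : Fin 4) :
    |h (e.symm z) a b - h (e.symm w) a b| ≤ max C' 0 * (10 / 9) ^ α * dist z w ^ α := by
  refine hold_symm hα (le_max_right _ _) (⟨hA.symm, hA.near, fun z hz z' hz' a b =>
    (hA.hold z hz z' hz' a b).trans (mul_le_mul_of_nonneg_right (le_max_left _ _)
      (Real.rpow_nonneg dist_nonneg _)), fun z hz s hs hsρ => ?_⟩ : AvOut x hx ρ α (max C' 0) ε₁ u h)
    hC hz hw a b
  filter_upwards [hA.av z hz s hs hsρ] with k hk
  exact hk.trans (mul_le_mul_of_nonneg_right (le_max_left _ _) (Real.rpow_nonneg hs.le _))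

/-- **assembly of `LData`** -/
theorem ldata_of (H : HData x ρ α C ε δ lam lamk u) (hA : AvOut x hx ρ α C' ε₁ u h)
    (hε : ε₁ ≤ 1 / 8) (hC : ChOut x hx ρ u h r₀ U e) (hS : SpOut x u r₀ e)
    (hM : MsOut x u h r₀ e) (hSt : StOut x u h r₀ e)
    (R1 : ∃ A, ∀ k a b, ∫ y, mLap 4 (mGam 4 (u k a) (u k b)) y ^ 2
      ∂(mm x ρ α C lam lamk u r₀ k) ≤ A)
    (R2 : ∀ k a b, Integrable (fun y => RR 4 (uu u k) a b y) (mm x ρ α C lam lamk u r₀ k))
    (R3 : ∀ a b, Tendsto (fun k => ∫ y, |RR 4 (uu u k) a b y - lam * mGam 4 (u k a) (u k b) y|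
      ∂(mm x ρ α C lam lamk u r₀ k)) om (𝓝 0)) :
    ∃ C'', Lim41.LData om e.target (mm x ρ α C lam lamk u r₀) (vv x ρ α C lam lamk u)
      (fun y => h (e.symm y)) (Fk u)
      (fun k y a b c => mGam 4 (mGam 4 (u k a) (u k b)) (u k c) y)
      (fun k y a b => mGam 4 (mGam 4 (u k a) (u k b)) (mGam 4 (u k a) (u k b)) y)
      (fun k y a b => mLap 4 (mGam 4 (u k a) (u k b)) y)
      (fun k y a b => RR 4 (uu u k) a b y) lam (om4 * r₀ ^ 4) C'' α := by
  obtain ⟨A, hAG⟩ := R1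
  have hρ := H.ρ_pos
  have hα0 : 0 < α := lt_trans (by norm_num) H.α_gt
  have hC0 := H.C_pos
  set K1 := max C' 0 * (10 / 9 : ℝ) ^ α with hK1
  set K2 := C * (8 * ρ) ^ (2 + 2 * α) with hK2
  set K3 := 64 * C * (2 : ℝ) ^ (2 + 2 * α) with hK3
  have hK1' : 0 ≤ K1 := by positivity
  have hK2' : 0 ≤ K2 := by positivity
  have hK3' : 0 ≤ K3 := by positivity
  have hA0 : 0 ≤ A := le_trans (integral_nonneg fun y => sq_nonneg _) (hAG 0 0 0)
  set C'' := 4 + K1 + 64 * K2 + K3 + A with hC''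
  refine ⟨C'', ?_⟩
  exact
  { base := base H hC
    α_gt := lt_trans (by norm_num) H.α_gt
    α_le := H.α_lt.le
    C_nonneg := by positivity
    h_symm := fun y _ a b => hA.symm _ a b
    h_near := fun y hy => near_symm hA hε hC hy
    h_hold := fun y hy z hz a b => (hold_symm' hα0.le hA hC hy hz a b).trans
      (mul_le_mul_of_nonneg_right (by linarith) (Real.rpow_nonneg dist_nonneg _))
    F_meas := fun k a b => aesm_mm H hC k fun hk => hk.cont_F a b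
    F_bdd := fun k => by
      filter_upwards [F_bdd H hC k] with y hy a b
      exact (hy a b).trans (by linarith)
    P_mem := fun k a b c => memLp_mm H hC k fun hk => hk.cont_P a b c
    P_bdd := fun k a b c => (P_bdd H hC k a b c).trans (by linarith)
    D_int := fun k a b => int_mm' H hC k fun hk => hk.cont_D a b
    D_bdd := fun k a b => (D_bdd H hC k a b).trans (by linarith)
    D_nonneg := fun k a b => Eventually.of_forall fun y => mGam_self_nonneg _ _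
    G_mem := fun k a b => memLp_mm H hC k fun hk => hk.cont_G a b
    G_bdd := fun k a b => (hAG k a b).trans (by linarith)
    R_int := R2
    wc_one := wc_one H hC hM
    sc_F := fun a b => sc_F H hC hSt a b
    H4 := fun c φ hφ => H4 H hC hS c hφ
    H5 := fun a b c φ hφ => H5 H hC hS a b c hφ
    H6 := fun a b φ hφ => H6 H hC hS a b hφ
    H7 := fun a b φ hφ => H7 H hC hS a b hφ
    H9D := fun k => H9D H hC k
    H9G := fun k => H9G H hC k
    H10 := R3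
    H11 := fun z r hr hz a b c => by
      filter_upwards [morrey H hC hr hz a b c] with k hk
      refine hk.trans (mul_le_mul_of_nonneg_right ?_ (Real.rpow_nonneg hr.le _))
      linarith }

end seq

/-- the Ricci group as a closed statement -/
def RicStmt : Prop := ∀ (M : ℕ → Type) [∀ k, MetricSpace (M k)] [∀ k, CompleteSpace (M k)]
    [∀ k, ConnectedSpace (M k)] [∀ k, ChartedSpace (EuclideanSpace ℝ (Fin 4)) (M k)]
    [∀ k, IsManifold 𝓘(ℝ, EuclideanSpace ℝ (Fin 4)) ∞ (M k)]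
    [∀ k, RiemannianBundle (fun x : M k => TangentSpace 𝓘(ℝ, EuclideanSpace ℝ (Fin 4)) x)]
    [∀ k, IsContMDiffRiemannianBundle 𝓘(ℝ, EuclideanSpace ℝ (Fin 4)) ∞ (EuclideanSpace ℝ (Fin 4))
      (fun x : M k => TangentSpace 𝓘(ℝ, EuclideanSpace ℝ (Fin 4)) x)]
    [∀ k, IsRiemannianManifold 𝓘(ℝ, EuclideanSpace ℝ (Fin 4)) (M k)]
    [∀ k, MeasurableSpace (M k)] [∀ k, BorelSpace (M k)]
    (q : ∀ k, M k) (x : ∀ k, M k) (hx : Bd q x) (ρ α C ε δ lam : ℝ) (lamk : ℕ → ℝ)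
    (u : ∀ k, Fin 4 → M k → ℝ) (h : UL q → Matrix (Fin 4) (Fin 4) ℝ) (r₀ : ℝ)
    (U : UL q → EuclideanSpace ℝ (Fin 4))
    (e : OpenPartialHomeomorph (UL q) (EuclideanSpace ℝ (Fin 4))),
    HData x ρ α C ε δ lam lamk u → ChOut x hx ρ u h r₀ U e →
    (∃ A, ∀ k a b, ∫ y, mLap 4 (mGam 4 (u k a) (u k b)) y ^ 2
      ∂(mm x ρ α C lam lamk u r₀ k) ≤ A) ∧
    (∀ k a b, Integrable (fun y => RR 4 (uu u k) a b y) (mm x ρ α C lam lamk u r₀ k)) ∧
    (∀ a b, Tendsto (fun k => ∫ y, |RR 4 (uu u k) a b y - lam * mGam 4 (u k a) (u k b) y|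
      ∂(mm x ρ α C lam lamk u r₀ k)) om (𝓝 0))

theorem bd_of_ric (hR : RicStmt) : Fin832.BDStmt := by
  refine ⟨1 / 8, 1, by norm_num, by norm_num, ?_⟩
  intro M _ _ _ _ _ _ _ _ _ _ q x hx ρ α C C' ε δ lam lamk u h r₀ U e hδ hD hA hC hS hM hSt
  obtain ⟨R1, R2, R3⟩ := hR M q x hx ρ α C ε δ lam lamk u h r₀ U e hD hC
  obtain ⟨C'', hL⟩ := ldata_of hD hA le_rfl hC hS hM hSt R1 R2 R3
  exact ⟨_, _, _, _, _, _, _, _, C'', hL⟩

end Crest.Agent.R249.BD41
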