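import Crest.Agent.R249.BDb_41
import Crest.Agent.R249.RicDev_104
import Crest.Agent.R249.Sch1_104

/-!
R249 / D3-LIM / BD (helper832): the Ricci group of `Lim41.LData`: `G_mem`, `G_bdd`, `R_int`, `H10`,
and the Bochner formula `ΔF = 2⟨Hess, Hess⟩ + 2 Ric`.
-/

set_option autoImplicit false
set_option maxSynthPendingDepth 3
set_option linter.unusedSectionVars false
noncomputable section
open Set Filter Topology Bundle MeasureTheory Metric
open scoped ContDiff Manifold ENNReal NNReal Matrix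
open Crest.GeometryTopology.CoordMetric Crest.GeometryTopology.ChartCurvature
  Crest.GeometryTopology.RicciEnergy Crest.GeometryTopology.PointedLimit
open Crest.Agent.R247.Bo84
open Crest.Agent.R249.D1Def104 Crest.Agent.R249.Ul174 Crest.Agent.R249.Len47
open Crest.Agent.R249.AsmD832 Crest.Agent.R249.LimDef41
open Crest.Agent.R249.St174 (ev_forall bd_of_closedBall mem_closedBall_mk om4 om4_pos)
open Crest.Agent.R249.BD41 Crest.Agent.R249.Vf281

namespace Crest.Agent.R249.BD832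

local notation "𝔼" => EuclideanSpace ℝ (Fin 4)

section one

variable {M : Type} [MetricSpace M] [CompleteSpace M] [ConnectedSpace M]
  [ChartedSpace (EuclideanSpace ℝ (Fin 4)) M]
  [IsManifold 𝓘(ℝ, EuclideanSpace ℝ (Fin 4)) ∞ M]
  [RiemannianBundle (fun x : M => TangentSpace 𝓘(ℝ, EuclideanSpace ℝ (Fin 4)) x)]
  [IsContMDiffRiemannianBundle 𝓘(ℝ, EuclideanSpace ℝ (Fin 4)) ∞ (EuclideanSpace ℝ (Fin 4))
    (fun x : M => TangentSpace 𝓘(ℝ, EuclideanSpace ℝ (Fin 4)) x)]
  [IsRiemannianManifold 𝓘(ℝ, EuclideanSpace ℝ (Fin 4)) M]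
  [MeasurableSpace M] [BorelSpace M]

/-- `Ric(du^a, du^b)` -/
def Rr (u : Fin 4 → M → ℝ) (a b : Fin 4) (p : M) : ℝ :=
  mRic 4 p (mgrad 4 (u a) p) (mgrad 4 (u b) p)

variable {x : M} {ρ α C lam lamk : ℝ} {u : Fin 4 → M → ℝ}

omit [MeasurableSpace M] [BorelSpace M] in

theorem sc_M (_x : M) : SecondCountableTopology M := by
  have hp : ProperSpace M := Crest.Agent.R247.HR216.properSpace_of_riemannian 4 M
  infer_instance

omit [MeasurableSpace M] [BorelSpace M] in
theorem dev_nonneg (c : ℝ) (z : M) : 0 ≤ mRicDev 4 M c z := by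
  have hne : Nonempty M := ⟨z⟩
  have h2c := sc_M z
  exact Sch1_104.mRicDev_nonneg c z

omit [MeasurableSpace M] [BorelSpace M] in
theorem dev_cont (z : M) (c : ℝ) : Continuous (mRicDev 4 M c) := by
  have hne : Nonempty M := ⟨z⟩
  have h2c := sc_M z
  exact Sch1_104.continuous_mRicDev c

theorem R_dev (g : Gd x ρ α C lam lamk u) {p : M} (hp : p ∈ ball x (16 * ρ)) (a b : Fin 4) :
    |Rr u a b p - lamk * mGam 4 (u a) (u b) p| ≤ 4 * √(mRicDev 4 M lamk p) := by
  have h1 := RicDev_104.mRic_grad_dev (n := 4) lamk p (u a) (u b)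
  have h2 : √(mGam 4 (u a) (u a) p) ≤ 2 := by
    rw [show (2 : ℝ) = √4 by rw [show (4 : ℝ) = 2 ^ 2 by norm_num, Real.sqrt_sq (by norm_num)]]
    exact Real.sqrt_le_sqrt (g.harm a p hp).2
  have h3 : √(mGam 4 (u b) (u b) p) ≤ 2 := by
    rw [show (2 : ℝ) = √4 by rw [show (4 : ℝ) = 2 ^ 2 by norm_num, Real.sqrt_sq (by norm_num)]]
    exact Real.sqrt_le_sqrt (g.harm b p hp).2
  have h4 : √(mGam 4 (u a) (u a) p) * √(mGam 4 (u b) (u b) p) ≤ 2 * 2 :=
    mul_le_mul h2 h3 (Real.sqrt_nonneg _) (by norm_num)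
  have h5 := mul_le_mul_of_nonneg_left h4 (Real.sqrt_nonneg (mRicDev 4 M lamk p))
  unfold Rr
  linarith

theorem G_eq (g : Gd x ρ α C lam lamk u) {p : M} (hp : p ∈ ball x (16 * ρ)) (a b : Fin 4) :
    mLap 4 (mGam 4 (u a) (u b)) p = 2 * mHessIn 4 (u a) (u b) p + 2 * Rr u a b p := by
  have h0 : ∀ c, mLap 4 (u c) =ᶠ[𝓝 p] fun _ => 0 := by
    intro c
    filter_upwards [isOpen_ball.mem_nhds hp] with q hq using (g.harm c q hq).1
  have h1 := mBochner_polar (n := 4) ((g.smAt hp a).of_le three_le_infty)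
    ((g.smAt hp b).of_le three_le_infty)
  rw [mGam_congr (h0 a) (EventuallyEq.refl _ _), mGam_const_left,
    mGam_congr (EventuallyEq.refl _ _) (h0 b), mGam_const_right] at h1
  rw [h1]
  unfold Rr
  ring

theorem cont_HI (g : Gd x ρ α C lam lamk u) (a b : Fin 4) :
    ContinuousOn (mHessIn 4 (u a) (u b)) (ball x (16 * ρ)) := by
  intro p hp
  refine ContinuousAt.continuousWithinAt ?_
  have hev : ∀ᶠ q in 𝓝 p, mHessIn 4 (u a) (u b) q =
      (mHessSq 4 (fun q => u a q + u b q) q - mHessSq 4 (u a) q - mHessSq 4 (u b) q) / 2 := by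
    filter_upwards [isOpen_ball.mem_nhds hp] with q hq
    rw [mHessSq_add (g.smAt2 hq a) (g.smAt2 hq b)]
    ring
  refine ContinuousAt.congr ?_ (hev.mono fun _ hq => hq.symm)
  have c1 := Crest.Agent.R247.Bs84.continuousAt_mHessSq ((g.smAt2 hp a).add (g.smAt2 hp b))
  have c2 := Crest.Agent.R247.Bs84.continuousAt_mHessSq (g.smAt2 hp a)
  have c3 := Crest.Agent.R247.Bs84.continuousAt_mHessSq (g.smAt2 hp b)
  exact ((c1.sub c2).sub c3).div_const 2

theorem cont_R (g : Gd x ρ α C lam lamk u) (a b : Fin 4) :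
    ContinuousOn (Rr u a b) (ball x (16 * ρ)) := by
  have h1 : ContinuousOn (fun p => (mLap 4 (mGam 4 (u a) (u b)) p -
      2 * mHessIn 4 (u a) (u b) p) / 2) (ball x (16 * ρ)) :=
    ((g.cont_G a b).sub ((cont_HI g a b).const_mul 2)).div_const 2
  refine h1.congr fun p hp => ?_
  simp only []
  rw [G_eq g hp a b]
  ring

/-- the pointwise bound of `(ΔF)²` -/
theorem G_sq_le (g : Gd x ρ α C lam lamk u) {p : M} (hp : p ∈ ball x (16 * ρ)) (a b : Fin 4) :
    mLap 4 (mGam 4 (u a) (u b)) p ^ 2 ≤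
      8 * ∑ a, mHessSq 4 (u a) p ^ 2 + (256 * mRicDev 4 M lamk p + 256 * (lam + 1) ^ 2) := by
  have e := G_eq g hp a b
  have h1 := mHessIn_sq_le (g.smAt2 hp a) (g.smAt2 hp b)
  have h2 : mHessSq 4 (u a) p ^ 2 ≤ ∑ a, mHessSq 4 (u a) p ^ 2 :=
    Finset.single_le_sum (f := fun a => mHessSq 4 (u a) p ^ 2) (fun a _ => sq_nonneg _)
      (Finset.mem_univ a)
  have h3 : mHessSq 4 (u b) p ^ 2 ≤ ∑ a, mHessSq 4 (u a) p ^ 2 :=
    Finset.single_le_sum (f := fun a => mHessSq 4 (u a) p ^ 2) (fun a _ => sq_nonneg _)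
      (Finset.mem_univ b)
  have h4 : mHessIn 4 (u a) (u b) p ^ 2 ≤ ∑ a, mHessSq 4 (u a) p ^ 2 := by nlinarith
  have h5 := R_dev g hp a b
  have h6 := g.F_le hp a b
  have h7 := g.lam_bd
  have hD := dev_nonneg lamk p
  have h8 : (Rr u a b p - lamk * mGam 4 (u a) (u b) p) ^ 2 ≤ 16 * mRicDev 4 M lamk p := by
    have := sq_le_sq' (by linarith [(abs_le.1 h5).1]) (abs_le.1 h5).2
    rwa [mul_pow, Real.sq_sqrt hD, show (4 : ℝ) ^ 2 = 16 by norm_num] at this
  have h9 : (lamk * mGam 4 (u a) (u b) p) ^ 2 ≤ 16 * (lam + 1) ^ 2 := by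
    rw [mul_pow]
    have e1 : lamk ^ 2 ≤ (lam + 1) ^ 2 := sq_le_sq' (by linarith [(abs_le.1 h7).1]) (abs_le.1 h7).2
    have e2 : mGam 4 (u a) (u b) p ^ 2 ≤ 4 ^ 2 :=
      sq_le_sq' (by linarith [(abs_le.1 h6).1]) (abs_le.1 h6).2
    nlinarith [sq_nonneg lamk, sq_nonneg (mGam 4 (u a) (u b) p)]
  have h10 : Rr u a b p ^ 2 ≤ 32 * mRicDev 4 M lamk p + 32 * (lam + 1) ^ 2 := by
    nlinarith [sq_nonneg (Rr u a b p - 2 * (lamk * mGam 4 (u a) (u b) p))]
  rw [e]
  nlinarith [sq_nonneg (mHessIn 4 (u a) (u b) p - Rr u a b p)]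

/-- the integral of `|Ric - c g|²` as a Bochner integral -/
theorem int_dev_eq (x : M) {S : Set M} (c : ℝ) :
    ∫ z in S, mRicDev 4 M c z ∂(μHE[4] : Measure M) =
      (∫⁻ z in S, ENNReal.ofReal (mRicDev 4 M c z) ∂(μHE[4] : Measure M)).toReal := by
  have h2c := sc_M x
  exact integral_eq_lintegral_of_nonneg_ae (Eventually.of_forall fun z => dev_nonneg c z)
    (dev_cont x c).aestronglyMeasurable

end one

section seq

variable {M : ℕ → Type} [∀ k, MetricSpace (M k)] [∀ k, CompleteSpace (M k)]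
  [∀ k, ConnectedSpace (M k)]
  [∀ k, ChartedSpace (EuclideanSpace ℝ (Fin 4)) (M k)]
  [∀ k, IsManifold 𝓘(ℝ, EuclideanSpace ℝ (Fin 4)) ∞ (M k)]
  [∀ k, RiemannianBundle (fun x : M k => TangentSpace 𝓘(ℝ, EuclideanSpace ℝ (Fin 4)) x)]
  [∀ k, IsContMDiffRiemannianBundle 𝓘(ℝ, EuclideanSpace ℝ (Fin 4)) ∞ (EuclideanSpace ℝ (Fin 4))
    (fun x : M k => TangentSpace 𝓘(ℝ, EuclideanSpace ℝ (Fin 4)) x)]
  [∀ k, IsRiemannianManifold 𝓘(ℝ, EuclideanSpace ℝ (Fin 4)) (M k)]
  [∀ k, MeasurableSpace (M k)] [∀ k, BorelSpace (M k)] {q : ∀ k, M k}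

variable {x : ∀ k, M k} {hx : Bd q x} {ρ α C C' ε ε₁ δ lam : ℝ} {lamk : ℕ → ℝ}
  {u : ∀ k, Fin 4 → M k → ℝ}
  {h : UL q → Matrix (Fin 4) (Fin 4) ℝ} {r₀ : ℝ} {U : UL q → EuclideanSpace ℝ (Fin 4)}
  {e : OpenPartialHomeomorph (UL q) (EuclideanSpace ℝ (Fin 4))}

theorem G_mem (H : HData x ρ α C ε δ lam lamk u) (hC : ChOut x hx ρ u h r₀ U e) (k : ℕ)
    (a b : Fin 4) :
    MemLp (fun y => mLap 4 (mGam 4 (u k a) (u k b)) y) 2 (mm x ρ α C lam lamk u r₀ k) :=
  memLp_mm H hC k fun hk => hk.cont_G a b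

theorem R_int (H : HData x ρ α C ε δ lam lamk u) (hC : ChOut x hx ρ u h r₀ U e) (k : ℕ)
    (a b : Fin 4) :
    Integrable (fun y => Rr (u k) a b y) (mm x ρ α C lam lamk u r₀ k) :=
  int_mm' H hC k fun hk => cont_R hk a b

/-- the constant of `G_bdd` -/
def KG (C lam r₀ : ℝ) : ℝ := 8 * C + (256 + 256 * (lam + 1) ^ 2 * (om4 * r₀ ^ 4))

theorem vol_real_le {k : ℕ} (hk : Gk x ρ α C lam lamk u k) {r₀ : ℝ} (hr : 0 < r₀) :
    (μHE[4] : Measure (M k)).real (ball (x k) r₀) ≤ om4 * r₀ ^ 4 :=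
  ENNReal.toReal_le_of_le_ofReal (by have := om4_pos; positivity)
    (Crest.Agent.R249.St174.vol_le hk.ric (x k) hr)

theorem G_bdd (H : HData x ρ α C ε δ lam lamk u) (hC : ChOut x hx ρ u h r₀ U e) (k : ℕ)
    (a b : Fin 4) :
    ∫ y, mLap 4 (mGam 4 (u k a) (u k b)) y ^ 2 ∂(mm x ρ α C lam lamk u r₀ k) ≤ KG C lam r₀ := by
  have hρ := H.ρ_pos
  have hC0 := H.C_pos
  have hr := hC.r_pos
  have hom := om4_pos
  by_cases hk : Gk x ρ α C lam lamk u k
  swap
  · rw [mm_of_not hk, integral_zero_measure]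
    unfold KG
    positivity
  rw [mm_of hk]
  have h8 : closedBall (x k) (8 * ρ) ⊆ ball (x k) (16 * ρ) :=
    closedBall_subset_ball (by linarith)
  have h08 : ball (x k) r₀ ⊆ ball (x k) (8 * ρ) := by
    have := hC.r_le
    exact ball_subset_ball (by linarith)
  have cH : ContinuousOn (fun y => ∑ a, mHessSq 4 (u k a) y ^ 2) (ball (x k) (16 * ρ)) := by
    refine continuousOn_finsetSum _ fun a _ => ContinuousOn.pow (fun z hz => ?_) 2
    exact (Crest.Agent.R247.Bs84.continuousAt_mHessSq (hk.smAt2 hz a)).continuousWithinAt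
  have i1 : IntegrableOn (fun y => 8 * ∑ a, mHessSq 4 (u k a) y ^ 2) (ball (x k) (8 * ρ))
      (μHE[4] : Measure (M k)) := (integrableOn_of_cont cH h8).const_mul 8
  have cd : Continuous (mRicDev 4 (M k) (lamk k)) := dev_cont (x k) (lamk k)
  have i2 : IntegrableOn (fun y => 256 * mRicDev 4 (M k) (lamk k) y) (ball (x k) (8 * ρ))
      (μHE[4] : Measure (M k)) :=
    (integrableOn_of_cont (O := univ) cd.continuousOn (subset_univ _)).const_mul 256
  have hlf : IsLocallyFiniteMeasure (μHE[4] : Measure (M k)) :=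
    Crest.Agent.R247.GluM923.isLocallyFinite 4 (M k)
  have i3 : IntegrableOn (fun _ : M k => 256 * (lam + 1) ^ 2) (ball (x k) r₀)
      (μHE[4] : Measure (M k)) :=
    integrableOn_of_cont (O := univ) continuousOn_const (subset_univ _)
  have b1 : ∫ y in ball (x k) r₀, 8 * ∑ a, mHessSq 4 (u k a) y ^ 2 ∂(μHE[4] : Measure (M k)) ≤
      8 * C := by
    calc _ ≤ ∫ y in ball (x k) (8 * ρ), 8 * ∑ a, mHessSq 4 (u k a) y ^ 2
          ∂(μHE[4] : Measure (M k)) := by
          refine setIntegral_mono_set i1 ?_ h08.eventuallyLE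
          exact Eventually.of_forall fun y => by
            simp only [Pi.zero_apply]; positivity
      _ = 8 * ∫ y in ball (x k) (8 * ρ), ∑ a, mHessSq 4 (u k a) y ^ 2
          ∂(μHE[4] : Measure (M k)) := integral_const_mul _ _
      _ ≤ 8 * C := mul_le_mul_of_nonneg_left hk.l4 (by norm_num)
  have b2 : ∫ y in ball (x k) r₀, 256 * mRicDev 4 (M k) (lamk k) y ∂(μHE[4] : Measure (M k)) ≤
      256 := by
    have b3 : ∫ y in ball (x k) r₀, mRicDev 4 (M k) (lamk k) y ∂(μHE[4] : Measure (M k)) ≤ 1 := by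
      rw [int_dev_eq (x k)]
      refine ENNReal.toReal_le_of_le_ofReal (by norm_num) ?_
      rw [ENNReal.ofReal_one]
      exact (lintegral_mono_set (sub16 H hC k)).trans hk.ricdev
    rw [integral_const_mul]
    linarith
  have b4 : ∫ y in ball (x k) r₀, 256 * (lam + 1) ^ 2 ∂(μHE[4] : Measure (M k)) ≤
      256 * (lam + 1) ^ 2 * (om4 * r₀ ^ 4) := by
    rw [setIntegral_const, smul_eq_mul, mul_comm]
    exact mul_le_mul_of_nonneg_left (vol_real_le hk hr) (by positivity)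
  calc ∫ y in ball (x k) r₀, mLap 4 (mGam 4 (u k a) (u k b)) y ^ 2 ∂(μHE[4] : Measure (M k))
      ≤ ∫ y in ball (x k) r₀, (8 * ∑ a, mHessSq 4 (u k a) y ^ 2 +
          (256 * mRicDev 4 (M k) (lamk k) y + 256 * (lam + 1) ^ 2)) ∂(μHE[4] : Measure (M k)) := by
        apply setIntegral_mono_on (integrableOn_of_cont ((hk.cont_G a b).pow 2) (csub16 H hC k))
          ((i1.mono_set h08).add ((i2.mono_set h08).add i3)) measurableSet_ball
        exact fun y hy => G_sq_le hk (sub16 H hC k hy) a b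
    _ = ∫ y in ball (x k) r₀, 8 * ∑ a, mHessSq 4 (u k a) y ^ 2 ∂(μHE[4] : Measure (M k)) +
          (∫ y in ball (x k) r₀, 256 * mRicDev 4 (M k) (lamk k) y ∂(μHE[4] : Measure (M k)) +
            ∫ y in ball (x k) r₀, 256 * (lam + 1) ^ 2 ∂(μHE[4] : Measure (M k))) := by
        have e1 := integral_add (i1.mono_set h08) ((i2.mono_set h08).add i3)
        have e2 := integral_add (i2.mono_set h08) i3
        simp only [Pi.add_apply] at e1 e2
        rw [e1, e2]
    _ ≤ _ := by unfold KG; linarith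

/-- almost Einstein -/
theorem H10 (H : HData x ρ α C ε δ lam lamk u) (hC : ChOut x hx ρ u h r₀ U e) (a b : Fin 4) :
    Tendsto (fun k => ∫ y, |Rr (u k) a b y - lam * mGam 4 (u k a) (u k b) y|
      ∂(mm x ρ α C lam lamk u r₀ k)) om (𝓝 0) := by
  have hρ := H.ρ_pos
  have hr := hC.r_pos
  have hom := om4_pos
  set V : ℝ := om4 * r₀ ^ 4 with hV
  have hV0 : 0 ≤ V := by positivity
  have hlim : Tendsto (fun k => 4 * (√(∫⁻ z in ball (x k) (16 * ρ),
      ENNReal.ofReal (mRicDev 4 (M k) (lamk k) z) ∂(μHE[4] : Measure (M k))).toReal * √V) +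
      4 * |lamk k - lam| * V) om (𝓝 0) := by
    have t1 : Tendsto (fun k => (∫⁻ z in ball (x k) (16 * ρ),
        ENNReal.ofReal (mRicDev 4 (M k) (lamk k) z) ∂(μHE[4] : Measure (M k))).toReal) om
        (𝓝 0) := by
      have := (ENNReal.tendsto_toReal ENNReal.zero_ne_top).comp H.ricdev
      simpa [Function.comp_def] using this
    have t2 : Tendsto (fun k => |lamk k - lam|) om (𝓝 0) := by
      have := (H.lamk_lim.sub_const lam).abs
      simpa using this
    have t3 := (t1.sqrt.mul_const √V).const_mul 4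
    have t4 := (t2.const_mul 4).mul_const V
    have := t3.add t4
    simpa using this
  refine squeeze_zero' (Eventually.of_forall fun k => integral_nonneg fun y => abs_nonneg _) ?_
    hlim
  filter_upwards [ev_Gk H] with k hk
  rw [mm_of hk]
  have cd : Continuous (mRicDev 4 (M k) (lamk k)) := dev_cont (x k) (lamk k)
  have h2c := sc_M (x k)
  have cs : Continuous (fun y => √(mRicDev 4 (M k) (lamk k) y)) := cd.sqrt
  have i1 : IntegrableOn (fun y => 4 * √(mRicDev 4 (M k) (lamk k) y)) (ball (x k) r₀)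
      (μHE[4] : Measure (M k)) :=
    (integrableOn_of_cont (O := univ) cs.continuousOn (subset_univ _)).const_mul 4
  have i3 : IntegrableOn (fun _ : M k => 4 * |lamk k - lam|) (ball (x k) r₀)
      (μHE[4] : Measure (M k)) :=
    integrableOn_of_cont (O := univ) continuousOn_const (subset_univ _)
  have i0 : IntegrableOn (fun y => |Rr (u k) a b y - lam * mGam 4 (u k a) (u k b) y|)
      (ball (x k) r₀) (μHE[4] : Measure (M k)) :=
    integrableOn_of_cont ((cont_R hk a b).sub ((hk.cont_F a b).const_mul lam)).abs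
      (csub16 H hC k)
  have pt : ∀ y ∈ ball (x k) r₀, |Rr (u k) a b y - lam * mGam 4 (u k a) (u k b) y| ≤
      4 * √(mRicDev 4 (M k) (lamk k) y) + 4 * |lamk k - lam| := by
    intro y hy
    have hy16 := sub16 H hC k hy
    have h1 := R_dev hk hy16 a b
    have h2 := hk.F_le hy16 a b
    have h3 : |(lamk k - lam) * mGam 4 (u k a) (u k b) y| ≤ 4 * |lamk k - lam| := by
      rw [abs_mul]
      nlinarith [abs_nonneg (lamk k - lam)]
    have h4 := abs_add_le (Rr (u k) a b y - lamk k * mGam 4 (u k a) (u k b) y)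
      ((lamk k - lam) * mGam 4 (u k a) (u k b) y)
    have e : Rr (u k) a b y - lamk k * mGam 4 (u k a) (u k b) y +
        (lamk k - lam) * mGam 4 (u k a) (u k b) y =
        Rr (u k) a b y - lam * mGam 4 (u k a) (u k b) y := by ring
    rw [e] at h4
    linarith
  have hfin : (μHE[4] : Measure (M k)) (ball (x k) r₀) < ⊤ :=
    (Crest.Agent.R249.St174.vol_le hk.ric (x k) hr).trans_lt ENNReal.ofReal_lt_top
  have cs2 : ∫ y in ball (x k) r₀, √(mRicDev 4 (M k) (lamk k) y) ∂(μHE[4] : Measure (M k)) ≤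
      √(∫⁻ z in ball (x k) (16 * ρ), ENNReal.ofReal (mRicDev 4 (M k) (lamk k) z)
        ∂(μHE[4] : Measure (M k))).toReal * √V := by
    have hfm : IsFiniteMeasure ((μHE[4] : Measure (M k)).restrict (ball (x k) r₀)) :=
      ⟨by rwa [Measure.restrict_apply_univ]⟩
    have hd2 : IntegrableOn (mRicDev 4 (M k) (lamk k)) (ball (x k) r₀)
        (μHE[4] : Measure (M k)) :=
      integrableOn_of_cont (O := univ) cd.continuousOn (subset_univ _)
    have m1 : MemLp (fun y => √(mRicDev 4 (M k) (lamk k) y)) (ENNReal.ofReal 2)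
        ((μHE[4] : Measure (M k)).restrict (ball (x k) r₀)) := by
      rw [ENNReal.ofReal_ofNat, memLp_two_iff_integrable_sq cs.aestronglyMeasurable]
      refine hd2.congr (Eventually.of_forall fun y => ?_)
      simp only [Real.sq_sqrt (dev_nonneg (lamk k) y)]
    have m2 : MemLp (fun _ : M k => (1 : ℝ)) (ENNReal.ofReal 2)
        ((μHE[4] : Measure (M k)).restrict (ball (x k) r₀)) := memLp_const 1
    have hH := integral_mul_le_Lp_mul_Lq_of_nonneg (μ := (μHE[4] : Measure (M k)).restrict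
      (ball (x k) r₀)) (Real.HolderConjugate.two_two) (Eventually.of_forall fun y =>
        Real.sqrt_nonneg (mRicDev 4 (M k) (lamk k) y)) (Eventually.of_forall fun _ =>
        zero_le_one) m1 m2
    simp only [mul_one, Real.one_rpow, integral_const, smul_eq_mul, MeasurableSet.univ,
      measureReal_restrict_apply, univ_inter] at hH
    have e1 : ∫ y in ball (x k) r₀, √(mRicDev 4 (M k) (lamk k) y) ^ (2 : ℝ)
        ∂(μHE[4] : Measure (M k)) = ∫ y in ball (x k) r₀, mRicDev 4 (M k) (lamk k) y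
        ∂(μHE[4] : Measure (M k)) := by
      refine integral_congr_ae (Eventually.of_forall fun y => ?_)
      simp only
      rw [Real.rpow_two, Real.sq_sqrt (dev_nonneg (lamk k) y)]
    rw [e1, ← Real.sqrt_eq_rpow, ← Real.sqrt_eq_rpow] at hH
    refine hH.trans (mul_le_mul (Real.sqrt_le_sqrt ?_) (Real.sqrt_le_sqrt (vol_real_le hk hr))
      (Real.sqrt_nonneg _) (Real.sqrt_nonneg _))
    rw [int_dev_eq (x k)]
    exact ENNReal.toReal_mono (hk.ricdev.trans_lt ENNReal.one_lt_top).ne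
      (lintegral_mono_set (sub16 H hC k))
  calc ∫ y in ball (x k) r₀, |Rr (u k) a b y - lam * mGam 4 (u k a) (u k b) y|
        ∂(μHE[4] : Measure (M k))
      ≤ ∫ y in ball (x k) r₀, (4 * √(mRicDev 4 (M k) (lamk k) y) + 4 * |lamk k - lam|)
        ∂(μHE[4] : Measure (M k)) :=
        setIntegral_mono_on i0 (i1.add i3) measurableSet_ball pt
    _ = 4 * ∫ y in ball (x k) r₀, √(mRicDev 4 (M k) (lamk k) y) ∂(μHE[4] : Measure (M k)) +
        4 * |lamk k - lam| * (μHE[4] : Measure (M k)).real (ball (x k) r₀) := by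
        rw [integral_add i1 i3, integral_const_mul, setIntegral_const, smul_eq_mul]
        ring
    _ ≤ _ := by
        have := vol_real_le hk hr
        have := mul_le_mul_of_nonneg_left this (show 0 ≤ 4 * |lamk k - lam| by positivity)
        linarith

theorem RR_eq (k : ℕ) (a b : Fin 4) :
    (fun y => RR 4 (uu u k) a b y) = fun y => Rr (u k) a b y := rfl

/-- (R1) -/
theorem r1 (H : HData x ρ α C ε δ lam lamk u) (hC : ChOut x hx ρ u h r₀ U e) :
    ∃ A : ℝ, ∀ k a b, ∫ y, mLap 4 (mGam 4 (u k a) (u k b)) y ^ 2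
      ∂(mm x ρ α C lam lamk u r₀ k) ≤ A := ⟨KG C lam r₀, G_bdd H hC⟩

/-- (R2) -/
theorem r2 (H : HData x ρ α C ε δ lam lamk u) (hC : ChOut x hx ρ u h r₀ U e) :
    ∀ k a b, Integrable (fun y => RR 4 (uu u k) a b y) (mm x ρ α C lam lamk u r₀ k) :=
  fun k a b => R_int H hC k a b

/-- (R3) -/
theorem r3 (H : HData x ρ α C ε δ lam lamk u) (hC : ChOut x hx ρ u h r₀ U e) :
    ∀ a b, Tendsto (fun k => ∫ y, |RR 4 (uu u k) a b y - lam * mGam 4 (u k a) (u k b) y|
      ∂(mm x ρ α C lam lamk u r₀ k)) om (𝓝 0) :=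
  fun a b => H10 H hC a b

end seq

end Crest.Agent.R249.BD832
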