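import Crest.Agent.R249.AsmD10_832
import Crest.Agent.R249.BDe_41
import Crest.Agent.R249.BDr_832

/-!
# R249 (S0386), part D is closed (helper832)

* `bdStmt : Fin832.BDStmt`;
* `rThm : RThm` (THEOREM R);
* `S0386_of_idx` : the statement of S0386 from `IdxStmt` (part C).
-/

set_option autoImplicit false
open Crest.GeometryTopology.RicciEnergy
open Crest.Agent.R249.D1Def104 Crest.Agent.R249.LimDef41 Crest.Agent.R249.Fin832

namespace Crest.Agent.R249.AsmD832

theorem ricStmt : BD41.RicStmt := by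
  intro M _ _ _ _ _ _ _ _ _ _ q x hx ρ α C ε δ lam lamk u h r₀ U e H hC
  exact ⟨BD832.r1 H hC, BD832.r2 H hC, BD832.r3 H hC⟩

theorem bdStmt : Fin832.BDStmt := BD41.bd_of_ric ricStmt

/-- THEOREM R -/
theorem rThm : RThm := rthm_of_bd bdStmt

/-- S0386 from part C -/
theorem S0386_of_idx (hI : IdxStmt)
    (hcl : EinsteinNonnegSectionalAreModelCovered) : S0386Concl :=
  S0386_of_idx_r hI rThm hcl

end Crest.Agent.R249.AsmD832
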