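import Crest.Agent.R249.Pul3_47
import Crest.Agent.R249.Len2_47

/-!
# Row 249, leaf D6-PUL, part 4 (helper47): the local data from a local diffeomorphism to a metric
space with charts

`XCharts n X ι`: charts of a metric space `X` with smooth metrics satisfying the infinitesimal
scaling, differentiable transitions.  `XCharts.locAtlas`: a continuous map `Φ : M → X` which is a
smooth local diffeomorphism in the charts gives a `LocAtlas n M`.  `end_S0386_of_map`.
-/

set_option autoImplicit false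
set_option linter.style.haveILetI false
set_option maxSynthPendingDepth 3
set_option linter.unusedSectionVars false

noncomputable section

open Bundle Set Metric Filter
open scoped Manifold ContDiff Bundle ENNReal Topology
open Crest.GeometryTopology.CoordMetric Crest.GeometryTopology.ChartCurvature
  Crest.GeometryTopology.RicciEnergy
open Crest.Agent.R249.Len47 Crest.Agent.R202.Tens

namespace Crest.Agent.R249.Pul47

/-- charts with smooth metrics on a metric space -/
structure XCharts (n : ℕ) (X : Type*) [MetricSpace X] (ι : Type*) where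
  /-- the charts -/
  e : ι → OpenPartialHomeomorph X (EuclideanSpace ℝ (Fin n))
  /-- the metrics -/
  h : ι → MetricField n
  riem : ∀ a, IsRiemannianOn (h a) (e a).target
  inf : ∀ a, InfScale (e a) (h a)
  trans : ∀ a b, ∀ x ∈ (e a).source, x ∈ (e b).source →
    DifferentiableAt ℝ (e b ∘ (e a).symm) (e a x)

section

variable {n : ℕ} {M : Type*} [TopologicalSpace M] [ChartedSpace (EuclideanSpace ℝ (Fin n)) M]
  [IsManifold (𝓡 n) ∞ M] {X : Type*} [MetricSpace X] {ι : Type*}

local notation "𝔼" => EuclideanSpace ℝ (Fin n)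

/-- quadratic forms of transitions -/
theorem XCharts.quadForm_trans (C : XCharts n X ι) {a b : ι} {x : X} (ha : x ∈ (C.e a).source)
    (hb : x ∈ (C.e b).source) (v : 𝔼) :
    quadForm (C.h b) (C.e b x) (fderiv ℝ (C.e b ∘ (C.e a).symm) (C.e a x) v) =
      quadForm (C.h a) (C.e a x) v := by
  have h1 := nrm_transition (ContMetric.of_riem (C.riem a)) (ContMetric.of_riem (C.riem b))
    (C.inf a) (C.inf b) ha hb (C.trans a b x ha hb).hasFDerivAt v
  have hpos : ∀ (c : ι), x ∈ (C.e c).source → ∀ w : 𝔼, 0 ≤ quadForm (C.h c) (C.e c x) w := by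
    intro c hc w
    rw [quadForm_eq]
    rcases eq_or_ne w 0 with rfl | hw
    · simp
    · exact (bil_pos (C.riem c) ((C.e c).map_source hc) hw).le
  have h2 : nrm (C.h b) (C.e b x) (fderiv ℝ (C.e b ∘ (C.e a).symm) (C.e a x) v) ^ 2 =
      nrm (C.h a) (C.e a x) v ^ 2 := by rw [h1]
  rwa [nrm, nrm, Real.sq_sqrt (hpos b hb _), Real.sq_sqrt (hpos a ha _)] at h2

/-- a continuous map to `X` which is a smooth local diffeomorphism in the charts -/
structure LocDiff (C : XCharts n X ι) (Φ : M → X) : Prop where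
  cont : Continuous Φ
  cov : ∀ p : M, ∃ a, Φ p ∈ (C.e a).source
  smooth : ∀ a, ContMDiffOn (𝓡 n) (𝓡 n) ∞ (fun p => C.e a (Φ p)) (Φ ⁻¹' (C.e a).source)
  inj : ∀ a p, Φ p ∈ (C.e a).source →
    Function.Injective (mfderiv (𝓡 n) (𝓡 n) (fun p => C.e a (Φ p)) p)

/-- local data of a local diffeomorphism -/
def XCharts.locData (C : XCharts n X ι) {Φ : M → X} (hΦ : LocDiff C Φ) (a : ι) : LocData n M where
  W := Φ ⁻¹' (C.e a).source
  psi := fun p => C.e a (Φ p)
  h := C.h a
  V := (C.e a).target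
  isOpen := (C.e a).open_source.preimage hΦ.cont
  smooth := hΦ.smooth a
  inj := fun p hp => hΦ.inj a p hp
  riem := C.riem a
  maps := fun _ hp => (C.e a).map_source hp

theorem XCharts.compat (C : XCharts n X ι) {Φ : M → X} (hΦ : LocDiff C Φ) (a b : ι) (y : M)
    (ha : Φ y ∈ (C.e a).source) (hb : Φ y ∈ (C.e b).source) (v : TangentSpace (𝓡 n) y) :
    (C.locData hΦ a).q y v = (C.locData hΦ b).q y v := by
  have hma : MDifferentiableAt (𝓡 n) (𝓡 n) (fun p => C.e a (Φ p)) y :=
    ((hΦ.smooth a).contMDiffAt (((C.e a).open_source.preimage hΦ.cont).mem_nhds ha)).mdifferentiableAt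
      (by simp)
  have ht : MDifferentiableAt (𝓡 n) (𝓡 n) (C.e b ∘ (C.e a).symm) (C.e a (Φ y)) :=
    (C.trans a b _ ha hb).mdifferentiableAt
  have h1 : mfderiv (𝓡 n) (𝓡 n) (fun p => C.e b (Φ p)) y =
      (mfderiv (𝓡 n) (𝓡 n) (C.e b ∘ (C.e a).symm) (C.e a (Φ y))).comp
        (mfderiv (𝓡 n) (𝓡 n) (fun p => C.e a (Φ p)) y) := by
    have h2 : (fun p => C.e b (Φ p)) =ᶠ[𝓝 y] (C.e b ∘ (C.e a).symm) ∘ (fun p => C.e a (Φ p)) := by
      filter_upwards [((C.e a).open_source.preimage hΦ.cont).mem_nhds ha] with p hp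
      simp only [Function.comp_apply]
      rw [(C.e a).left_inv hp]
    rw [h2.mfderiv_eq]
    exact mfderiv_comp y ht hma
  have h3 := C.quadForm_trans ha hb (mfderiv (𝓡 n) (𝓡 n) (fun p => C.e a (Φ p)) y v)
  have h4 : (mfderiv (𝓡 n) (𝓡 n) (fun p => C.e b (Φ p)) y v : 𝔼) =
      fderiv ℝ (C.e b ∘ (C.e a).symm) (C.e a (Φ y))
        (mfderiv (𝓡 n) (𝓡 n) (fun p => C.e a (Φ p)) y v) := by
    rw [h1, mfderiv_eq_fderiv]; rfl
  show quadForm (C.h a) (C.e a (Φ y)) (mfderiv (𝓡 n) (𝓡 n) (fun p => C.e a (Φ p)) y v) =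
    quadForm (C.h b) (C.e b (Φ y)) (mfderiv (𝓡 n) (𝓡 n) (fun p => C.e b (Φ p)) y v)
  rw [h4]
  exact h3.symm

/-- the compatible family of a local diffeomorphism -/
def XCharts.locAtlas (C : XCharts n X ι) {Φ : M → X} (hΦ : LocDiff C Φ) : LocAtlas n M where
  D p := C.locData hΦ (hΦ.cov p).choose
  mem p := (hΦ.cov p).choose_spec
  compat p q y hp hq v := C.compat hΦ _ _ y hp hq v

end

/-- **The end of S0386**, from a smooth local diffeomorphism to the limit space. -/
theorem end_S0386_of_map (hcov : CovEnd) (hcl : EinsteinNonnegSectionalAreModelCovered)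
    (M : Type) [MetricSpace M] [ChartedSpace (EuclideanSpace ℝ (Fin 4)) M]
    [IsManifold 𝓘(ℝ, EuclideanSpace ℝ (Fin 4)) ∞ M] [CompactSpace M] [SimplyConnectedSpace M]
    {X : Type*} [MetricSpace X] {ι : Type*} (C : XCharts 4 X ι)
    (hE : ∀ a, ∀ x ∈ (C.e a).target, ∀ i j, ricci (C.h a) x i j = 3 * C.h a x i j)
    (hS : ∀ a, ∀ x ∈ (C.e a).target, ∀ u v, 0 ≤ secNumer (C.h a) x u v)
    {Φ : M → X} (hΦ : LocDiff C Φ) :
    IsDiffeoToRoundFourSphere M ∨ IsDiffeoToComplexProjectivePlane M ∨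
      IsDiffeoToTwoSphereProduct M :=
  end_S0386 hcov hcl M (C.locAtlas hΦ) (fun p => hE _) (fun p => hS _)

end Crest.Agent.R249.Pul47
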