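import Crest.Agent.R249.AsmD_832
import Crest.Agent.R249.Pul4_47

/-!
# R249 (S0386), part D: the assembly of the limit argument (helper832)

* `toXCharts`  : finitely many `RChart`s with smooth transitions give `XCharts` (helper47);
* `limit_core` : from `RThm`, `TransStmt`, `D2Out`, `D4Out`, `KRic`: a sequence of closed manifolds
  with `sec ≥ 0`, volume `≥ v`, diameter `≤ D` and `∫ |Ric - 3g|² → 0` admits, for `om`-almost every
  `k`, a `LocDiff` to its ultralimit, which carries an Einstein metric with `sec ≥ 0`.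
-/

set_option autoImplicit false
set_option maxSynthPendingDepth 3
noncomputable section
open Set Filter Topology Bundle MeasureTheory Metric
open scoped ContDiff Manifold ENNReal NNReal
open Crest.GeometryTopology.CoordMetric Crest.GeometryTopology.ChartCurvature
  Crest.GeometryTopology.RicciEnergy Crest.GeometryTopology.PointedLimit
open Crest.Agent.R247.Scal386 Crest.Agent.R247.Bo84
open Crest.Agent.R249.D1Def104 Crest.Agent.R249.Ul174 Crest.Agent.R249.Pul47
  Crest.Agent.R249.Len47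

namespace Crest.Agent.R249.AsmD832

/-- the overlap of two charts -/
def ovl {n : ℕ} {X : Type*} [MetricSpace X] {lam : ℝ} (C C' : RChart n X lam) :
    Set (EuclideanSpace ℝ (Fin n)) :=
  {y | y ∈ C.e.target ∧ C.e.symm y ∈ C'.e.source}

theorem isOpen_ovl {n : ℕ} {X : Type*} [MetricSpace X] {lam : ℝ} (C C' : RChart n X lam) :
    IsOpen (ovl C C') :=
  C.e.isOpen_inter_preimage_symm C'.e.open_source

/-- charts with smooth transitions give `XCharts` -/
def toXCharts {n : ℕ} {X : Type*} [MetricSpace X] {lam : ℝ} {ι : Type*} (C : ι → RChart n X lam)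
    (htr : ∀ a b, ContDiffOn ℝ ∞ (fun y => (C b).e ((C a).e.symm y)) (ovl (C a) (C b))) :
    XCharts n X ι where
  e a := (C a).e
  h a := (C a).h
  riem a := (C a).riem
  inf a := (C a).inf
  trans a b x ha hb := by
    have h1 : (C a).e x ∈ ovl (C a) (C b) :=
      ⟨(C a).e.map_source ha, by rw [(C a).e.left_inv ha]; exact hb⟩
    exact ((htr a b).contDiffAt ((isOpen_ovl _ _).mem_nhds h1)).differentiableAt (by simp)

theorem limit_core (hR : RThm) (hT : TransStmt) (h2 : D2Out) (h4 : D4Out) (hK : KRic)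
    (M : ℕ → Type) [∀ k, MetricSpace (M k)] [∀ k, CompactSpace (M k)]
    [∀ k, ConnectedSpace (M k)] [∀ k, ChartedSpace (EuclideanSpace ℝ (Fin 4)) (M k)]
    [∀ k, IsManifold 𝓘(ℝ, EuclideanSpace ℝ (Fin 4)) ∞ (M k)]
    [∀ k, RiemannianBundle (fun x : M k => TangentSpace 𝓘(ℝ, EuclideanSpace ℝ (Fin 4)) x)]
    [∀ k, IsContMDiffRiemannianBundle 𝓘(ℝ, EuclideanSpace ℝ (Fin 4)) ∞ (EuclideanSpace ℝ (Fin 4))
      (fun x : M k => TangentSpace 𝓘(ℝ, EuclideanSpace ℝ (Fin 4)) x)]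
    [∀ k, IsRiemannianManifold 𝓘(ℝ, EuclideanSpace ℝ (Fin 4)) (M k)]
    [∀ k, MeasurableSpace (M k)] [∀ k, BorelSpace (M k)] (v D : ℝ) (hv : 0 < v) (hD : 0 < D)
    (hS : ∀ k, HasNonnegSectionalCurvature 4 (M k))
    (hG : ∀ η : ℝ, 0 < η → ∀ᶠ k in om, Good v D η (M k)) :
    ∃ (q : ∀ k, M k) (m : ℕ) (C : Fin m → RChart 4 (UL q) 3)
      (htr : ∀ a b, ContDiffOn ℝ ∞ (fun y => (C b).e ((C a).e.symm y)) (ovl (C a) (C b))),
      ∀ᶠ k in om, ∃ Φ : M k → UL q, LocDiff (toXCharts C htr) Φ := by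
  have hne : ∀ k, Nonempty (M k) := fun k => inferInstance
  set q : ∀ k, M k := fun k => Classical.arbitrary (M k) with hq
  have hRic : ∀ᶠ k in om, HasRicciLowerBound 4 (M k) (-0) :=
    Eventually.of_forall fun k => by rw [neg_zero]; exact hK (M k) (hS k)
  have hpack : Pack q := pack_of_ricci le_rfl q hRic
  haveI : ProperSpace (UL q) := hpack.properSpace
  have hdiam : ∀ᶠ k in om, ∀ x y : M k, dist x y ≤ D :=
    (hG 1 one_pos).mono fun k hk => hk.2.1
  have hbd : ∀ x : ∀ k, M k, Bd q x := fun x => ⟨D, hdiam.mono fun k hk => hk _ _⟩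
  haveI : CompactSpace (UL q) := by
    refine ⟨?_⟩
    have h1 : (univ : Set (UL q)) = closedBall (UL.base q) D := by
      refine (eq_univ_of_forall fun y => ?_).symm
      obtain ⟨x, hx, rfl⟩ := UL.exists_rep y
      exact UL.dist_le hx (Bd.refl q) (hdiam.mono fun k hk => hk _ _)
    rw [h1]
    exact isCompact_closedBall _ _
  obtain ⟨δ₀, hδ₀, hR⟩ := hR
  obtain ⟨r₀, hr₀, hvol⟩ := h2 M v D hv hD (Eventually.of_forall hS) hG δ₀ hδ₀
  have hpin : ∀ x : ∀ k, M k, ∀ η : ℝ, 0 < η →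
      ∀ᶠ k in om, PinchAt (x k) r₀ δ₀ ((fun _ : ℕ => (3:ℝ)) k) η := by
    intro x η hη
    filter_upwards [hvol, hG η hη] with k h1 h3
    exact ⟨fun y _ r hr hr' => h1 y r hr hr', (setLIntegral_le_lintegral _ _).trans h3.2.2⟩
  have hchart : ∀ z : UL q, ∃ C : RChart 4 (UL q) 3, z ∈ C.e.source ∧ HarmChart 4 C.e ∧
      CoordHarm C ∧ WH 4 C := by
    intro z
    obtain ⟨x, hx, rfl⟩ := UL.exists_rep z
    exact hR M q x hx 3 (fun _ => 3) r₀ (by norm_num) hr₀ tendsto_const_nhds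
      (Eventually.of_forall hS) (hpin x)
  choose C0 hC0 hH0 hCo0 hW0 using hchart
  obtain ⟨t, ht⟩ := CompactSpace.elim_nhds_subcover (fun z => (C0 z).e.source)
    (fun z => (C0 z).e.open_source.mem_nhds (hC0 z))
  set eq : Fin t.card ≃ t := t.equivFin.symm with heq
  set C : Fin t.card → RChart 4 (UL q) 3 := fun a => C0 (eq a).1 with hC
  have hcov : ∀ z, ∃ a, z ∈ (C a).e.source := by
    intro z
    have h1 : z ∈ ⋃ x ∈ t, (C0 x).e.source := by rw [ht]; trivial
    simp only [mem_iUnion] at h1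
    obtain ⟨x, hx, hz⟩ := h1
    refine ⟨eq.symm ⟨x, hx⟩, ?_⟩
    simpa only [hC, Equiv.apply_symm_apply] using hz
  have htr : ∀ a b, ContDiffOn ℝ ∞ (fun y => (C b).e ((C a).e.symm y)) (ovl (C a) (C b)) :=
    fun a b => hT M q 3 (C a) (C b) (hH0 _) (hCo0 _) (hW0 _)
  refine ⟨q, t.card, C, htr, ?_⟩
  filter_upwards [h4 M q D 3 hD hpack (Eventually.of_forall hS) hdiam t.card C hcov htr]
    with k hk
  obtain ⟨Φ, hΦ, hΦ2⟩ := hk
  exact ⟨Φ, hΦ, fun p => hcov (Φ p), fun a => (hΦ2 a).1, fun a p hp => (hΦ2 a).2 p hp⟩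

end Crest.Agent.R249.AsmD832
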