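import Crest.Agent.R249.AsmD2_832

/-!
# R249 (S0386), part D: `S0386_of` (helper832)

The statement of S0386 from `D1Stmt`, `RThm`, `TransStmt`, `D2Out`, `D4Out`, `KRic`, `CovEnd`.
-/

set_option autoImplicit false
set_option maxSynthPendingDepth 3
noncomputable section
open Set Filter Topology Bundle MeasureTheory Metric
open scoped ContDiff Manifold ENNReal NNReal
open Crest.GeometryTopology.CoordMetric Crest.GeometryTopology.ChartCurvature
  Crest.GeometryTopology.RicciEnergy Crest.GeometryTopology.PointedLimit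
open Crest.Agent.R247.Scal386 Crest.Agent.R247.Bo84
open Crest.Agent.R249.D1Def104 Crest.Agent.R249.Ul174 Crest.Agent.R249.Pul47
  Crest.Agent.R249.Len47

namespace Crest.Agent.R249.AsmD832

/-- a closed simply connected Riemannian 4-manifold, bundled -/
structure Bun where
  M : Type
  [i1 : MetricSpace M]
  [i2 : ChartedSpace (EuclideanSpace ℝ (Fin 4)) M]
  [i3 : IsManifold 𝓘(ℝ, EuclideanSpace ℝ (Fin 4)) ∞ M]
  [i4 : CompactSpace M]
  [i5 : SimplyConnectedSpace M]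
  [i6 : RiemannianBundle (fun x : M => TangentSpace 𝓘(ℝ, EuclideanSpace ℝ (Fin 4)) x)]
  [i7 : IsContMDiffRiemannianBundle 𝓘(ℝ, EuclideanSpace ℝ (Fin 4)) ∞ (EuclideanSpace ℝ (Fin 4))
        (fun x : M => TangentSpace 𝓘(ℝ, EuclideanSpace ℝ (Fin 4)) x)]
  [i8 : IsRiemannianManifold 𝓘(ℝ, EuclideanSpace ℝ (Fin 4)) M]
  [i9 : MeasurableSpace M]
  [i10 : BorelSpace M]

attribute [instance] Bun.i1 Bun.i2 Bun.i3 Bun.i4 Bun.i5 Bun.i6 Bun.i7 Bun.i8 Bun.i9 Bun.i10

/-- the conclusion of S0386 -/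
def Con (M : Type) [TopologicalSpace M] [ChartedSpace (EuclideanSpace ℝ (Fin 4)) M] : Prop :=
  IsDiffeoToRoundFourSphere M ∨ IsDiffeoToComplexProjectivePlane M ∨
          IsDiffeoToTwoSphereProduct M

theorem con_of_sc (r : {r : ℝ // 0 < r}) (M : Type) [MetricSpace M]
    [ChartedSpace (EuclideanSpace ℝ (Fin 4)) M] (h : Con (Sc r M)) : Con M := h

/-- **S0386 from the interfaces of part D.** -/
theorem S0386_of (hD1 : D1Stmt) (hR : RThm) (hT : TransStmt) (h2 : D2Out) (h4 : D4Out)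
    (hK : KRic) (hcov : CovEnd) (hcl : EinsteinNonnegSectionalAreModelCovered) :
    ∃ ε : ℝ, 0 < ε ∧ ∀ (M : Type) [MetricSpace M] [ChartedSpace (EuclideanSpace ℝ (Fin 4)) M]
      [IsManifold 𝓘(ℝ, EuclideanSpace ℝ (Fin 4)) ∞ M] [CompactSpace M] [SimplyConnectedSpace M]
      [RiemannianBundle (fun x : M => TangentSpace 𝓘(ℝ, EuclideanSpace ℝ (Fin 4)) x)]
      [IsContMDiffRiemannianBundle 𝓘(ℝ, EuclideanSpace ℝ (Fin 4)) ∞ (EuclideanSpace ℝ (Fin 4))
        (fun x : M => TangentSpace 𝓘(ℝ, EuclideanSpace ℝ (Fin 4)) x)]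
      [IsRiemannianManifold 𝓘(ℝ, EuclideanSpace ℝ (Fin 4)) M]
      [MeasurableSpace M] [BorelSpace M],
      HasNonnegSectionalCurvature 4 M → tracefreeRicciEnergy 4 M < ENNReal.ofReal ε →
        IsDiffeoToRoundFourSphere M ∨ IsDiffeoToComplexProjectivePlane M ∨
          IsDiffeoToTwoSphereProduct M := by
  by_contra hcon
  have hcex : ∀ ε : ℝ, 0 < ε → ∃ B : Bun, HasNonnegSectionalCurvature 4 B.M ∧
      tracefreeRicciEnergy 4 B.M < ENNReal.ofReal ε ∧ ¬ Con B.M := by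
    intro ε hε
    by_contra h
    refine hcon ⟨ε, hε, ?_⟩
    intro M _ _ _ _ _ _ _ _ _ _ hs he
    by_contra hc
    exact h ⟨⟨M⟩, hs, he, hc⟩
  obtain ⟨v, D, C, ε₀, hv, hD, hC, hε₀, hD1⟩ := hD1
  set ε : ℕ → ℝ := fun k => min ε₀ (1 / ((k : ℝ) + 1)) with hε
  have hεpos : ∀ k, 0 < ε k := fun k => lt_min hε₀ (by positivity)
  choose B hB1 hB2 hB3 using fun k => hcex (ε k) (hεpos k)
  have h3 : ∀ k, ∃ r : {r : ℝ // 0 < r}, Good v D (C * ε k) (Sc r (B k).M) := fun k =>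
    hD1 (B k).M (hB1 k) (ε k) (hεpos k) (min_le_left _ _) (hB2 k)
  choose r hr using h3
  have hεlim : Tendsto ε atTop (𝓝 0) := by
    refine squeeze_zero (fun k => (hεpos k).le) (fun k => min_le_right _ _) ?_
    exact tendsto_one_div_add_atTop_nhds_zero_nat
  have hG : ∀ η : ℝ, 0 < η → ∀ᶠ k in om, Good v D η (Sc (r k) (B k).M) := by
    intro η hη
    have h4 : Tendsto (fun k => C * ε k) atTop (𝓝 (C * 0)) := hεlim.const_mul C
    rw [mul_zero] at h4
    filter_upwards [ev_om_of_atTop (h4.eventually_le_const hη)] with k hk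
    exact ⟨(hr k).1, (hr k).2.1, (hr k).2.2.trans (ENNReal.ofReal_le_ofReal hk)⟩
  obtain ⟨q, m, Ch, htr, hΦ⟩ := limit_core hR hT h2 h4 hK (fun k => Sc (r k) (B k).M) v D hv hD
    (fun k => nonnegSec_sc (r k) (hB1 k)) hG
  obtain ⟨k, Φ, hk⟩ := hΦ.exists
  refine hB3 k (con_of_sc (r k) (B k).M ?_)
  exact end_S0386_of_map hcov hcl (Sc (r k) (B k).M) (toXCharts Ch htr)
    (fun a x hx i j => (Ch a).ein x hx i j) (fun a x hx u v => (Ch a).sec x hx u v) hk

end Crest.Agent.R249.AsmD832
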