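import Crest.Agent.R249.AsmD_832
import Crest.Agent.R249.Trans_920

/-!
# R249 (S0386), part D: `TransStmt` (helper832), from `weyl_map` of helper920
-/

set_option autoImplicit false
set_option maxSynthPendingDepth 3
noncomputable section
open Set Filter Topology Bundle MeasureTheory Metric
open scoped ContDiff Manifold ENNReal NNReal
open Crest.GeometryTopology.CoordMetric Crest.GeometryTopology.ChartCurvature
  Crest.GeometryTopology.RicciEnergy Crest.GeometryTopology.PointedLimit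
open Crest.Agent.R247.Scal386 Crest.Agent.R247.Bo84
open Crest.Agent.R249.D1Def104 Crest.Agent.R249.Ul174 Crest.Agent.R249.Pul47
  Crest.Agent.R249.Len47 Crest.Agent.R249.Trans920

namespace Crest.Agent.R249.AsmD832

/-- **TransStmt holds.** -/
theorem transStmt : TransStmt := by
  intro M _ _ _ _ _ q lam C C' hH hCo hW y0 hy0
  obtain ⟨x, hx, hxy⟩ := UL.exists_rep (C.e.symm y0)
  obtain ⟨R, hR, hRw⟩ := hH x hx (by rw [hxy]; exact hy0.2)
  choose w hw1 hw2 using hRw
  have hmem : UL.mk x hx ∈ C.e.source := by rw [hxy]; exact C.e.map_target hy0.1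
  have hy : C.e (UL.mk x hx) = y0 := by rw [hxy, C.e.right_inv hy0.1]
  have h1 := fun a => hW x hx R (w a) (fun y => C'.e y a) hR hmem (hw1 a) (hw2 a)
  choose ρ hρ hρ1 hρ2 using h1
  have hop : IsOpen {y | y ∈ C.e.target ∧ C.e.symm y ∈ C'.e.source} :=
    C.e.isOpen_inter_preimage_symm C'.e.open_source
  obtain ⟨ρ0, hρ0, hρ0'⟩ := Metric.isOpen_iff.1 hop y0 hy0
  obtain ⟨ρ', hρ', hle, hle'⟩ : ∃ ρ' : ℝ, 0 < ρ' ∧ ρ' ≤ ρ0 ∧ ∀ a, ρ' ≤ ρ a := by
    refine ⟨min ρ0 (Finset.univ.inf' Finset.univ_nonempty ρ), lt_min hρ0 ?_, min_le_left _ _,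
      fun a => (min_le_right _ _).trans (Finset.inf'_le _ (Finset.mem_univ a))⟩
    exact (Finset.lt_inf'_iff _).2 fun a _ => hρ a
  have hsub : ball y0 ρ' ⊆ {y | y ∈ C.e.target ∧ C.e.symm y ∈ C'.e.source} :=
    (ball_subset_ball hle).trans hρ0'
  have hU : ball y0 ρ' ⊆ C.e.target := fun y hy => (hsub hy).1
  have hn : ∀ y ∈ ball y0 ρ', C.e.target ∈ 𝓝 y := fun y hy =>
    C.e.open_target.mem_nhds (hU hy)
  have h2 : ContDiffOn ℝ ∞ (fun y => C'.e (C.e.symm y)) (ball y0 ρ') := by
    refine weyl_map isOpen_ball (h := fun z => (Matrix.of fun i j => inverseField C.h z i j))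
      (J := fun z => Real.sqrt (C.h z).det) ?_ ?_ ?_ ?_ ?_ ?_ ?_
    · intro i j y hy
      exact (contDiffAt_inv C.riem (hU hy) i j).contDiffWithinAt
    · intro y hy
      exact (C.riem.posDef y (hU hy)).inv
    · intro y hy
      exact (contDiffAt_sqrt_det C.riem (hU hy)).contDiffWithinAt
    · intro y hy
      exact Real.sqrt_pos.2 (C.riem.posDef y (hU hy)).det_pos
    · intro j φ hφ hφc hφs
      exact hCo j φ hφ hφc (hφs.trans hU)
    · have hc : ContinuousOn (fun y => C'.e (C.e.symm y))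
          {y | y ∈ C.e.target ∧ C.e.symm y ∈ C'.e.source} :=
        C'.e.continuousOn.comp (C.e.continuousOn_symm.mono fun y hy => hy.1) fun y hy => hy.2
      exact hc.mono hsub
    · intro a φ hφ hφc hφs
      refine hρ2 a φ hφ hφc (hφs.trans ?_)
      rw [hy]
      exact ball_subset_ball (hle' a)
  exact (h2.contDiffAt (isOpen_ball.mem_nhds (mem_ball_self hρ'))).contDiffWithinAt

end Crest.Agent.R249.AsmD832
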