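import Crest.Agent.R249.Pul2_47
import Crest.Agent.R247.Scal4_386

/-!
# Row 249, leaf D6-PUL, part 3 (helper47): the end of S0386

`CovEnd`: a compact simply connected Riemannian 4-manifold locally isometrically covered by one of
the three models is globally homothetic to it (leaf of helper802, `Cov*_802`).
`end_S0386`: the classification hypothesis + `CovEnd` + a compatible family of local Einstein
metrics (`Ric = 3 h`, sectional curvature `≥ 0`) on `M` give the conclusion of S0386 for `M`.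
-/

set_option autoImplicit false
set_option linter.style.haveILetI false
set_option maxSynthPendingDepth 3

noncomputable section

open Bundle Set Metric
open scoped Manifold ContDiff Bundle ENNReal Topology
open Crest.GeometryTopology.CoordMetric Crest.GeometryTopology.ChartCurvature
  Crest.GeometryTopology.RicciEnergy

namespace Crest.Agent.R249.Pul47

/-- local covers of simply connected manifolds are global (to be supplied by `Cov*_802`) -/
def CovEnd : Prop :=
  ∀ (N : Type) [MetricSpace N] [ChartedSpace (EuclideanSpace ℝ (Fin 4)) N]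
    [IsManifold 𝓘(ℝ, EuclideanSpace ℝ (Fin 4)) ∞ N] [CompactSpace N] [SimplyConnectedSpace N]
    [RiemannianBundle (fun x : N => TangentSpace 𝓘(ℝ, EuclideanSpace ℝ (Fin 4)) x)]
    [IsContMDiffRiemannianBundle 𝓘(ℝ, EuclideanSpace ℝ (Fin 4)) ∞ (EuclideanSpace ℝ (Fin 4))
      (fun x : N => TangentSpace 𝓘(ℝ, EuclideanSpace ℝ (Fin 4)) x)]
    [IsRiemannianManifold 𝓘(ℝ, EuclideanSpace ℝ (Fin 4)) N] (a : ℝ), 0 < a →
    (IsLocallyCoveredByRoundSphere N 4 a → IsHomotheticToRoundSphere N 4 a) ∧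
    (IsLocallyCoveredByComplexProjective N 2 a → IsHomotheticToComplexProjective N 2 a) ∧
    (IsLocallyCoveredBySphereProduct N a → IsHomotheticToSphereProduct N a)

section scale

variable {N : Type} [MetricSpace N] {a : ℝ}

theorem sc_sphere (h : IsHomotheticToRoundSphere N 4 a)
    (r : {r : ℝ // 0 < r}) (hr : r.1 = (Real.sqrt a)⁻¹) :
    IsHomotheticToRoundSphere (R247.Scal386.Sc r N) 4 1 := by
  obtain ⟨ha, Φ, hb, hd⟩ := h
  have h0 : 0 < Real.sqrt a := Real.sqrt_pos.2 ha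
  refine ⟨one_pos, fun p => R247.Scal386.toSc r (Φ p), hb, fun p q => ?_⟩
  rw [R247.Scal386.dist_toSc, hd, hr, inv_inv, Real.sqrt_one, div_one]
  field_simp

theorem sc_proj (h : IsHomotheticToComplexProjective N 2 a)
    (r : {r : ℝ // 0 < r}) (hr : r.1 = (Real.sqrt a)⁻¹) :
    IsHomotheticToComplexProjective (R247.Scal386.Sc r N) 2 1 := by
  obtain ⟨ha, Φ, hb, hf, hd⟩ := h
  have h0 : 0 < Real.sqrt a := Real.sqrt_pos.2 ha
  refine ⟨one_pos, fun p => R247.Scal386.toSc r (Φ p), hb, hf, fun p q => ?_⟩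
  rw [R247.Scal386.dist_toSc, hd, hr, inv_inv, Real.sqrt_one, div_one]
  field_simp

theorem sc_prod (h : IsHomotheticToSphereProduct N a)
    (r : {r : ℝ // 0 < r}) (hr : r.1 = (Real.sqrt a)⁻¹) :
    IsHomotheticToSphereProduct (R247.Scal386.Sc r N) 1 := by
  obtain ⟨ha, Φ, hb, hd⟩ := h
  have h0 : 0 < Real.sqrt a := Real.sqrt_pos.2 ha
  refine ⟨one_pos, fun p => R247.Scal386.toSc r (Φ p), hb, fun p q => ?_⟩
  rw [R247.Scal386.dist_toSc, hd, hr, inv_inv, Real.sqrt_one, div_one]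
  field_simp

end scale

/-- scaling to `a = 1`: the end of the argument for a manifold with a global model -/
theorem diffeo_of_homothetic (M : Type) [TopologicalSpace M]
    [ChartedSpace (EuclideanSpace ℝ (Fin 4)) M]
    (N : Type) [MetricSpace N] [ChartedSpace (EuclideanSpace ℝ (Fin 4)) N]
    [IsManifold 𝓘(ℝ, EuclideanSpace ℝ (Fin 4)) ∞ N]
    [RiemannianBundle (fun x : N => TangentSpace 𝓘(ℝ, EuclideanSpace ℝ (Fin 4)) x)]
    [IsContMDiffRiemannianBundle 𝓘(ℝ, EuclideanSpace ℝ (Fin 4)) ∞ (EuclideanSpace ℝ (Fin 4))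
      (fun x : N => TangentSpace 𝓘(ℝ, EuclideanSpace ℝ (Fin 4)) x)]
    [IsRiemannianManifold 𝓘(ℝ, EuclideanSpace ℝ (Fin 4)) N]
    (e : Diffeomorph 𝓘(ℝ, EuclideanSpace ℝ (Fin 4)) 𝓘(ℝ, EuclideanSpace ℝ (Fin 4)) M N ∞)
    (a : ℝ)
    (h : IsHomotheticToRoundSphere N 4 a ∨ IsHomotheticToComplexProjective N 2 a ∨
      IsHomotheticToSphereProduct N a) :
    IsDiffeoToRoundFourSphere M ∨ IsDiffeoToComplexProjectivePlane M ∨
      IsDiffeoToTwoSphereProduct M := by
  have ha : 0 < a := by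
    rcases h with h | h | h
    · exact h.1
    · exact h.1
    · exact h.1
  have h0 : 0 < Real.sqrt a := Real.sqrt_pos.2 ha
  let r : {r : ℝ // 0 < r} := ⟨(Real.sqrt a)⁻¹, inv_pos.2 h0⟩
  have e' : Diffeomorph 𝓘(ℝ, EuclideanSpace ℝ (Fin 4)) 𝓘(ℝ, EuclideanSpace ℝ (Fin 4)) M
    (R247.Scal386.Sc r N) ∞ := e
  rcases h with h | h | h
  · exact Or.inl ⟨R247.Scal386.Sc r N, inferInstance, inferInstance, inferInstance, inferInstance,
      inferInstance, inferInstance, sc_sphere h r rfl, ⟨e'⟩⟩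
  · exact Or.inr (Or.inl ⟨R247.Scal386.Sc r N, inferInstance, inferInstance, inferInstance,
      inferInstance, inferInstance, inferInstance, sc_proj h r rfl, ⟨e'⟩⟩)
  · exact Or.inr (Or.inr ⟨R247.Scal386.Sc r N, inferInstance, inferInstance, inferInstance,
      inferInstance, inferInstance, inferInstance, sc_prod h r rfl, ⟨e'⟩⟩)

/-- **The end of S0386.** -/
theorem end_S0386 (hcov : CovEnd) (hcl : EinsteinNonnegSectionalAreModelCovered)
    (M : Type) [MetricSpace M] [ChartedSpace (EuclideanSpace ℝ (Fin 4)) M]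
    [IsManifold 𝓘(ℝ, EuclideanSpace ℝ (Fin 4)) ∞ M] [CompactSpace M] [SimplyConnectedSpace M]
    (A : LocAtlas 4 M)
    (hE : ∀ p, ∀ x ∈ (A.D p).V, ∀ i j, ricci (A.D p).h x i j = 3 * (A.D p).h x i j)
    (hS : ∀ p, ∀ x ∈ (A.D p).V, ∀ u v, 0 ≤ secNumer (A.D p).h x u v) :
    IsDiffeoToRoundFourSphere M ∨ IsDiffeoToComplexProjectivePlane M ∨
      IsDiffeoToTwoSphereProduct M := by
  obtain ⟨a, ha, h⟩ := hcl (MG A.met) (A.isEinsteinWith hE) (A.hasNonneg hS)
  obtain ⟨h1, h2, h3⟩ := hcov (MG A.met) a ha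
  exact diffeo_of_homothetic M (MG A.met) (diffMG A.met) a
    (h.imp h1 (Or.imp h2 h3))

end Crest.Agent.R249.Pul47
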