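import Crest.Agent.R249.D1Def_104
import Crest.Agent.R249.Ul4_174
import Crest.Agent.R249.Pul3_47
import Crest.Agent.R249.Dens_274
import Crest.Agent.R249.Len2_47
import Crest.Agent.R247.Bo8_84

/-!
# R249 (S0386), part D: interfaces of the limit argument and assembly (helper832)

* `RChart n X lam`     : smooth chart of a metric space with an Einstein metric, `sec ≥ 0`;
* `WH`                 : limits of harmonic functions are very weakly harmonic in such a chart;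
* `PinchAt`, `RThm`    : THEOREM R(lambda) (D3, output of 41/717/672), pointwise form;
* `TransStmt`          : charts with `WH`, given by limits of harmonic maps, have smooth transitions;
* `D2Out`              : uniform volume pinching (D2, output of 174);
* `D4Out`              : smooth local diffeomorphisms `M k → X` (D4, output of 789);
* `S0386_of`           : the assembly.
-/

set_option autoImplicit false
noncomputable section
open Set Filter Topology Bundle MeasureTheory Metric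
open scoped ContDiff Manifold ENNReal NNReal
open Crest.GeometryTopology.CoordMetric Crest.GeometryTopology.ChartCurvature
  Crest.GeometryTopology.RicciEnergy Crest.GeometryTopology.PointedLimit
open Crest.Agent.R247.Scal386 Crest.Agent.R247.Bo84
open Crest.Agent.R249.D1Def104 Crest.Agent.R249.Ul174 Crest.Agent.R249.Pul47 Crest.Agent.R249.Len47

namespace Crest.Agent.R249.AsmD832

universe u

/-- Smooth chart of a metric space `X` carrying an Einstein metric with `sec ≥ 0`, such that the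
distance of `X` is infinitesimally the distance of the metric. -/
structure RChart (n : ℕ) (X : Type*) [MetricSpace X] (lam : ℝ) where
  /-- the chart -/
  e : OpenPartialHomeomorph X (EuclideanSpace ℝ (Fin n))
  /-- the metric -/
  h : MetricField n
  riem : IsRiemannianOn h e.target
  ein : ∀ x ∈ e.target, ∀ i j, ricci h x i j = lam * h x i j
  sec : ∀ x ∈ e.target, ∀ u v, 0 ≤ secNumer h x u v
  inf : InfScale e h

/-- the coordinates of the chart are weakly harmonic: `∑ᵢ ∂ᵢ (√det h · h^{ij}) = 0`. -/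
def CoordHarm {n : ℕ} {X : Type*} [MetricSpace X] {lam : ℝ} (C : RChart n X lam) : Prop :=
  ∀ j : Fin n, ∀ φ : EuclideanSpace ℝ (Fin n) → ℝ, ContDiff ℝ ∞ φ → HasCompactSupport φ →
    tsupport φ ⊆ C.e.target →
    ∫ z, (∑ i, pderiv i φ z * inverseField C.h z i j) * Real.sqrt (C.h z).det = 0

section seq

variable {n : ℕ} {M : ℕ → Type u} [∀ k, MetricSpace (M k)]
  [∀ k, ChartedSpace (EuclideanSpace ℝ (Fin n)) (M k)]
  [∀ k, IsManifold 𝓘(ℝ, EuclideanSpace ℝ (Fin n)) ∞ (M k)]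
  [∀ k, RiemannianBundle (fun x : M k => TangentSpace 𝓘(ℝ, EuclideanSpace ℝ (Fin n)) x)]
  [∀ k, IsContMDiffRiemannianBundle 𝓘(ℝ, EuclideanSpace ℝ (Fin n)) ∞ (EuclideanSpace ℝ (Fin n))
    (fun x : M k => TangentSpace 𝓘(ℝ, EuclideanSpace ℝ (Fin n)) x)]

variable (n) in
/-- `w k` are harmonic functions on `ball (x k) R` with gradient at most `2`. -/
def HarmSeq (x : ∀ k, M k) (R : ℝ) (w : ∀ k, M k → ℝ) : Prop :=
  ∀ᶠ k in om, ContMDiffOn 𝓘(ℝ, EuclideanSpace ℝ (Fin n)) 𝓘(ℝ, ℝ) ∞ (w k) (ball (x k) R) ∧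
    ∀ p ∈ ball (x k) R, mLap n (w k) p = 0 ∧ mGam n (w k) (w k) p ≤ 4

/-- `f : UL q → ℝ` is on `s` the limit of the functions `w k`. -/
def LimOn {q : ∀ k, M k} (s : Set (UL q)) (w : ∀ k, M k → ℝ) (f : UL q → ℝ) : Prop :=
  ∀ (y : ∀ k, M k) (hy : Bd q y), UL.mk y hy ∈ s → Tendsto (fun k => w k (y k)) om
    (𝓝 (f (UL.mk y hy)))

variable (n) in
/-- the chart `e` is, near every point of its source, a limit of harmonic maps. -/
def HarmChart {q : ∀ k, M k} (e : OpenPartialHomeomorph (UL q) (EuclideanSpace ℝ (Fin n))) :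
    Prop :=
  ∀ (x : ∀ k, M k) (hx : Bd q x), UL.mk x hx ∈ e.source → ∃ R : ℝ, 0 < R ∧
    ∀ a : Fin n, ∃ w : ∀ k, M k → ℝ, HarmSeq n x R w ∧
      LimOn (ball (UL.mk x hx) R) w fun y => e y a

variable (n) in
/-- **weak harmonicity**: limits of harmonic functions are very weak solutions in the chart. -/
def WH {q : ∀ k, M k} {lam : ℝ} (C : RChart n (UL q) lam) : Prop :=
  ∀ (x : ∀ k, M k) (hx : Bd q x) (R : ℝ) (w : ∀ k, M k → ℝ) (f : UL q → ℝ), 0 < R →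
    UL.mk x hx ∈ C.e.source → HarmSeq n x R w → LimOn (ball (UL.mk x hx) R) w f →
    ∃ ρ : ℝ, 0 < ρ ∧ ball (C.e (UL.mk x hx)) ρ ⊆ C.e.target ∧
      ∀ φ : EuclideanSpace ℝ (Fin n) → ℝ, ContDiff ℝ ∞ φ → HasCompactSupport φ →
        tsupport φ ⊆ ball (C.e (UL.mk x hx)) ρ →
        ∫ z, f (C.e.symm z) * (∑ i, ∑ j, inverseField C.h z i j * pderiv i (pderiv j φ) z) *
          Real.sqrt (C.h z).det = 0

end seq

/-- `|Ric - lam_k g|` is small in `L²` on balls of radius `R`, volume ratio at least `1 - δ` for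
all radii at most `R`. -/
def PinchAt {M : Type u} [MetricSpace M] [ChartedSpace (EuclideanSpace ℝ (Fin 4)) M]
    [RiemannianBundle (fun x : M => TangentSpace 𝓘(ℝ, EuclideanSpace ℝ (Fin 4)) x)]
    [MeasurableSpace M] [BorelSpace M] (x : M) (R δ lam η : ℝ) : Prop :=
  (∀ y ∈ ball x R, ∀ r : ℝ, 0 < r → r ≤ R →
    ENNReal.ofReal (1 - δ) * volume (ball (0 : EuclideanSpace ℝ (Fin 4)) r) ≤
      (μHE[4] : Measure M) (ball y r)) ∧
  ∫⁻ y in ball x R, ENNReal.ofReal (mRicDev 4 M lam y) ∂(μHE[4] : Measure M) ≤ ENNReal.ofReal η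

/-- **THEOREM R(lambda)** (D3), pointwise form, `n = 4`. -/
def RThm : Prop := ∃ δ₀ : ℝ, 0 < δ₀ ∧
  ∀ (M : ℕ → Type) [∀ k, MetricSpace (M k)] [∀ k, CompactSpace (M k)]
    [∀ k, ConnectedSpace (M k)] [∀ k, ChartedSpace (EuclideanSpace ℝ (Fin 4)) (M k)]
    [∀ k, IsManifold 𝓘(ℝ, EuclideanSpace ℝ (Fin 4)) ∞ (M k)]
    [∀ k, RiemannianBundle (fun x : M k => TangentSpace 𝓘(ℝ, EuclideanSpace ℝ (Fin 4)) x)]
    [∀ k, IsContMDiffRiemannianBundle 𝓘(ℝ, EuclideanSpace ℝ (Fin 4)) ∞ (EuclideanSpace ℝ (Fin 4))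
      (fun x : M k => TangentSpace 𝓘(ℝ, EuclideanSpace ℝ (Fin 4)) x)]
    [∀ k, IsRiemannianManifold 𝓘(ℝ, EuclideanSpace ℝ (Fin 4)) (M k)]
    [∀ k, MeasurableSpace (M k)] [∀ k, BorelSpace (M k)] (q : ∀ k, M k)
    (x : ∀ k, M k) (hx : Bd q x) (lam : ℝ) (lamk : ℕ → ℝ) (R : ℝ), 0 ≤ lam → 0 < R →
    Tendsto lamk om (𝓝 lam) →
    (∀ᶠ k in om, HasNonnegSectionalCurvature 4 (M k)) →
    (∀ η : ℝ, 0 < η → ∀ᶠ k in om, PinchAt (x k) R δ₀ (lamk k) η) →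
    ∃ C : RChart 4 (UL q) lam, UL.mk x hx ∈ C.e.source ∧ HarmChart 4 C.e ∧ CoordHarm C ∧ WH 4 C

/-- **smooth transitions** (D3-TRANS). -/
def TransStmt : Prop :=
  ∀ (M : ℕ → Type) [∀ k, MetricSpace (M k)] [∀ k, ChartedSpace (EuclideanSpace ℝ (Fin 4)) (M k)]
    [∀ k, IsManifold 𝓘(ℝ, EuclideanSpace ℝ (Fin 4)) ∞ (M k)]
    [∀ k, RiemannianBundle (fun x : M k => TangentSpace 𝓘(ℝ, EuclideanSpace ℝ (Fin 4)) x)]
    [∀ k, IsContMDiffRiemannianBundle 𝓘(ℝ, EuclideanSpace ℝ (Fin 4)) ∞ (EuclideanSpace ℝ (Fin 4))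
      (fun x : M k => TangentSpace 𝓘(ℝ, EuclideanSpace ℝ (Fin 4)) x)]
    (q : ∀ k, M k) (lam : ℝ) (C C' : RChart 4 (UL q) lam), HarmChart 4 C'.e → CoordHarm C →
    WH 4 C →
    ContDiffOn ℝ ∞ (fun y => C'.e (C.e.symm y)) {y | y ∈ C.e.target ∧ C.e.symm y ∈ C'.e.source}

/-- **Output of D2**: uniform volume pinching, from `RThm`. -/
def D2Out : Prop :=
  ∀ (M : ℕ → Type) [∀ k, MetricSpace (M k)] [∀ k, CompactSpace (M k)]
    [∀ k, ConnectedSpace (M k)] [∀ k, ChartedSpace (EuclideanSpace ℝ (Fin 4)) (M k)]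
    [∀ k, IsManifold 𝓘(ℝ, EuclideanSpace ℝ (Fin 4)) ∞ (M k)]
    [∀ k, RiemannianBundle (fun x : M k => TangentSpace 𝓘(ℝ, EuclideanSpace ℝ (Fin 4)) x)]
    [∀ k, IsContMDiffRiemannianBundle 𝓘(ℝ, EuclideanSpace ℝ (Fin 4)) ∞ (EuclideanSpace ℝ (Fin 4))
      (fun x : M k => TangentSpace 𝓘(ℝ, EuclideanSpace ℝ (Fin 4)) x)]
    [∀ k, IsRiemannianManifold 𝓘(ℝ, EuclideanSpace ℝ (Fin 4)) (M k)]
    [∀ k, MeasurableSpace (M k)] [∀ k, BorelSpace (M k)] (v D : ℝ), 0 < v → 0 < D →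
    (∀ᶠ k in om, HasNonnegSectionalCurvature 4 (M k)) →
    (∀ η : ℝ, 0 < η → ∀ᶠ k in om, Good v D η (M k)) →
    ∀ δ : ℝ, 0 < δ → ∃ r₀ : ℝ, 0 < r₀ ∧ ∀ᶠ k in om, ∀ x : M k, ∀ r : ℝ, 0 < r → r ≤ r₀ →
      ENNReal.ofReal (1 - δ) * volume (ball (0 : EuclideanSpace ℝ (Fin 4)) r) ≤
        (μHE[4] : Measure (M k)) (ball x r)

/-- **Output of D4**: smooth local diffeomorphisms to the ultralimit. -/
def D4Out : Prop :=
  ∀ (M : ℕ → Type) [∀ k, MetricSpace (M k)] [∀ k, CompactSpace (M k)]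
    [∀ k, ConnectedSpace (M k)] [∀ k, ChartedSpace (EuclideanSpace ℝ (Fin 4)) (M k)]
    [∀ k, IsManifold 𝓘(ℝ, EuclideanSpace ℝ (Fin 4)) ∞ (M k)]
    [∀ k, RiemannianBundle (fun x : M k => TangentSpace 𝓘(ℝ, EuclideanSpace ℝ (Fin 4)) x)]
    [∀ k, IsContMDiffRiemannianBundle 𝓘(ℝ, EuclideanSpace ℝ (Fin 4)) ∞ (EuclideanSpace ℝ (Fin 4))
      (fun x : M k => TangentSpace 𝓘(ℝ, EuclideanSpace ℝ (Fin 4)) x)]
    [∀ k, IsRiemannianManifold 𝓘(ℝ, EuclideanSpace ℝ (Fin 4)) (M k)]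
    (q : ∀ k, M k) (D lam : ℝ) [CompactSpace (UL q)], 0 < D → Pack q →
    (∀ᶠ k in om, HasNonnegSectionalCurvature 4 (M k)) →
    (∀ᶠ k in om, ∀ x y : M k, dist x y ≤ D) →
    ∀ (m : ℕ) (C : Fin m → RChart 4 (UL q) lam), (∀ z, ∃ a, z ∈ (C a).e.source) →
    (∀ a b, ContDiffOn ℝ ∞ (fun y => (C b).e ((C a).e.symm y))
      {y | y ∈ (C a).e.target ∧ (C a).e.symm y ∈ (C b).e.source}) →
    ∀ᶠ k in om, ∃ Φ : M k → UL q, Continuous Φ ∧ ∀ a,
      ContMDiffOn 𝓘(ℝ, EuclideanSpace ℝ (Fin 4)) 𝓘(ℝ, EuclideanSpace ℝ (Fin 4)) ∞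
        (fun x => (C a).e (Φ x)) (Φ ⁻¹' (C a).e.source) ∧
      ∀ x, Φ x ∈ (C a).e.source → Function.Injective
        (mfderiv 𝓘(ℝ, EuclideanSpace ℝ (Fin 4)) 𝓘(ℝ, EuclideanSpace ℝ (Fin 4))
          (fun x => (C a).e (Φ x)) x)

/-- `sec ≥ 0` implies `Ric ≥ 0` (104, D1-ALG). -/
def KRic : Prop :=
  ∀ (M : Type) [MetricSpace M] [ChartedSpace (EuclideanSpace ℝ (Fin 4)) M]
    [IsManifold 𝓘(ℝ, EuclideanSpace ℝ (Fin 4)) ∞ M]
    [RiemannianBundle (fun x : M => TangentSpace 𝓘(ℝ, EuclideanSpace ℝ (Fin 4)) x)]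
    [IsContMDiffRiemannianBundle 𝓘(ℝ, EuclideanSpace ℝ (Fin 4)) ∞ (EuclideanSpace ℝ (Fin 4))
      (fun x : M => TangentSpace 𝓘(ℝ, EuclideanSpace ℝ (Fin 4)) x)],
    HasNonnegSectionalCurvature 4 M → HasRicciLowerBound 4 M 0

end Crest.Agent.R249.AsmD832
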