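import Crest.Agent.R249.Flat4_676

/-!
# R249, leaf D2-FLATLOC, part 5: final forms

* `exists_isometric_ball` : a metric space whose distance is, near `z` and in a coordinate system
  `e`, the Riemannian distance of a flat metric has a ball around `z` isometric to a Euclidean ball;
* `exists_isometric_ball_of_sec`, `exists_isometric_ball_of_ricci` : flatness in the form
  `secNumer = 0`, resp. `ricci = 0` and `secNumer ≥ 0`.
-/

set_option autoImplicit false
set_option maxSynthPendingDepth 3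

open Set Filter Topology Metric MeasureTheory
open scoped ContDiff
open Crest.Agent.R244 Crest.Agent.R244.CF
open Crest.GeometryTopology.CoordMetric Crest.GeometryTopology.ChartCurvature

namespace Crest.Agent.R249.Flat676

noncomputable section

variable {n : ℕ}

local notation "𝔼" => EuclideanSpace ℝ (Fin n)

variable {U : Set (EuclideanSpace ℝ (Fin n))} {g : MetricField n}

/-- the distance of a flat metric is Euclidean near every point, in a flat chart -/
theorem exists_riemDist_eq (h : IsRiemannianOn g U)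
    (hR : ∀ x ∈ U, ∀ u v w, curv (Gam g) x u v w = 0) {x0 : 𝔼} (hx0 : x0 ∈ U) :
    ∃ e : OpenPartialHomeomorph (EuclideanSpace ℝ (Fin n)) (EuclideanSpace ℝ (Fin n)),
      IsFlatChart U g e ∧ x0 ∈ e.source ∧
      ∀ y ∈ e.source, ∀ z ∈ e.source, riemDist g U y z = dist (e y) (e z) := by
  obtain ⟨e, he, hx0e⟩ := exists_isFlatChart h hR hx0
  obtain ⟨R0, hR0, hball⟩ := Metric.nhds_basis_closedBall.mem_iff.1
    (e.open_target.mem_nhds (e.map_source hx0e))
  have hR3 : 0 < R0 / 3 := by positivity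
  have hcb : closedBall (e x0) (3 * (R0 / 3)) ⊆ e.target := by
    have : 3 * (R0 / 3) = R0 := by ring
    rw [this]
    exact hball
  set O : Set 𝔼 := e.source ∩ e ⁻¹' ball (e x0) (R0 / 3) with hO
  have hOo : IsOpen O := e.isOpen_inter_preimage isOpen_ball
  have hsrc : (e.restrOpen O hOo).source = O := by
    rw [e.restrOpen_source]
    exact inter_eq_right.2 inter_subset_left
  refine ⟨e.restrOpen O hOo, ⟨?_, ?_, ?_, ?_⟩, ?_, ?_⟩
  · rw [hsrc]
    exact inter_subset_left.trans he.source_subset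
  · rw [hsrc]
    exact he.smooth.mono inter_subset_left
  · exact he.smooth_symm.mono (by
      intro p hp
      exact hp.1)
  · intro x hx
    rw [hsrc] at hx
    exact he.isom x hx.1
  · rw [hsrc]
    exact ⟨hx0e, by simp [hR3]⟩
  · intro y hy z hz
    rw [hsrc] at hy hz
    exact he.riemDist_eq h hcb hy.1 hz.1 hy.2 hz.2

/-- **A metric space with a flat coordinate system is locally Euclidean.** -/
theorem exists_isometric_ball {X : Type*} [MetricSpace X] (h : IsRiemannianOn g U)
    (hR : ∀ x ∈ U, ∀ u v w, curv (Gam g) x u v w = 0)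
    (e : OpenPartialHomeomorph X (EuclideanSpace ℝ (Fin n))) {z : X} (hz : z ∈ e.source)
    (hzU : e z ∈ U) {ρ : ℝ} (hρ : 0 < ρ)
    (hd : ∀ x ∈ ball z ρ, ∀ y ∈ ball z ρ, dist x y = riemDist g U (e x) (e y)) :
    ∃ r > 0, ∃ f : X → EuclideanSpace ℝ (Fin n),
      (∀ x ∈ ball z r, ∀ y ∈ ball z r, dist (f x) (f y) = dist x y) ∧
      f '' ball z r = ball (f z) r := by
  obtain ⟨c, hc, hzc, hcd⟩ := exists_riemDist_eq h hR hzU
  set F := e.trans c with hF
  have hFz : z ∈ F.source := by
    rw [hF, OpenPartialHomeomorph.trans_source]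
    exact ⟨hz, hzc⟩
  obtain ⟨r1, hr1, hb1⟩ := Metric.isOpen_iff.1 F.open_source z hFz
  set r2 := min r1 ρ with hr2
  have hr2p : 0 < r2 := lt_min hr1 hρ
  have hb2 : ball z r2 ⊆ F.source := (ball_subset_ball (min_le_left _ _)).trans hb1
  have hiso : ∀ x ∈ ball z r2, ∀ y ∈ ball z r2, dist (F x) (F y) = dist x y := by
    intro x hx y hy
    have hxs := hb2 hx
    have hys := hb2 hy
    rw [hF, OpenPartialHomeomorph.trans_source] at hxs hys
    rw [hd x (ball_subset_ball (min_le_right _ _) hx) y (ball_subset_ball (min_le_right _ _) hy),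
      hcd _ hxs.2 _ hys.2]
    rfl
  have hop : IsOpen (F '' ball z r2) := F.isOpen_image_of_subset_source isOpen_ball hb2
  obtain ⟨r3, hr3, hb3⟩ := Metric.isOpen_iff.1 hop (F z) ⟨z, mem_ball_self hr2p, rfl⟩
  refine ⟨min r2 r3, lt_min hr2p hr3, F, ?_, ?_⟩
  · intro x hx y hy
    exact hiso x (ball_subset_ball (min_le_left _ _) hx) y (ball_subset_ball (min_le_left _ _) hy)
  · apply Subset.antisymm
    · rintro _ ⟨x, hx, rfl⟩
      rw [mem_ball, hiso x (ball_subset_ball (min_le_left _ _) hx) z (mem_ball_self hr2p)]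
      exact hx
    · intro p hp
      obtain ⟨x, hx, rfl⟩ := hb3 (ball_subset_ball (min_le_right _ _) hp)
      refine ⟨x, ?_, rfl⟩
      rw [mem_ball, hiso x hx z (mem_ball_self hr2p)] at hp
      exact hp

theorem curv_eq_zero_of_secNumer (h : IsRiemannianOn g U)
    (hs : ∀ x ∈ U, ∀ u v, secNumer g x u v = 0) :
    ∀ x ∈ U, ∀ u v w, curv (Gam g) x u v w = 0 := fun x hx =>
  curv_eq_zero_of_sec (isLC_of_isRiemannianOn h) hx fun u v => by
    rw [← secNumer_eq h hx]; exact hs x hx u v

theorem exists_isometric_ball_of_ricci {X : Type*} [MetricSpace X] (h : IsRiemannianOn g U)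
    (hric : ∀ x ∈ U, ∀ i j, ricci g x i j = 0) (hsec : ∀ x ∈ U, ∀ u v, 0 ≤ secNumer g x u v)
    (e : OpenPartialHomeomorph X (EuclideanSpace ℝ (Fin n))) {z : X} (hz : z ∈ e.source)
    (hzU : e z ∈ U) {ρ : ℝ} (hρ : 0 < ρ)
    (hd : ∀ x ∈ ball z ρ, ∀ y ∈ ball z ρ, dist x y = riemDist g U (e x) (e y)) :
    ∃ r > 0, ∃ f : X → EuclideanSpace ℝ (Fin n),
      (∀ x ∈ ball z r, ∀ y ∈ ball z r, dist (f x) (f y) = dist x y) ∧
      f '' ball z r = ball (f z) r :=
  exists_isometric_ball h (fun x hx => curv_eq_zero_of_ricci h hx (hric x hx) (hsec x hx)) e hz hzU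
    hρ hd

end

end Crest.Agent.R249.Flat676
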