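import Crest.Agent.R249.Bad2_174
import Crest.Agent.R249.AsmD_832
import Crest.Agent.R249.Flat5_676

/-!
# R249 (helper174), D2: the output in the form of the assembly

* `chainLen_of_mid` : intermediate points give chains;
* `flatR_of_RThm` : Theorem R with `λ = 0` gives the flat local structure;
* `d2out : RThm → KRic → D2Out`.
-/

set_option autoImplicit false
noncomputable section
open Set Filter Topology Metric MeasureTheory
open scoped ContDiff Manifold ENNReal
open Bundle Crest.GeometryTopology.CoordMetric Crest.GeometryTopology.ChartCurvature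
  Crest.GeometryTopology.PointedLimit Crest.GeometryTopology.RicciEnergy

namespace Crest.Agent.R249.Bad174

open Crest.Agent.R249.Ul174 Crest.Agent.R249.Fl174 Crest.Agent.R249.D1Def104
open Crest.Agent.R247.Scal386 Crest.Agent.R249.Len47 Crest.Agent.R249.AsmD832

/-- equidistant chains -/
theorem exists_chain {X : Type*} [MetricSpace X] (hX : Mid X) (N : ℕ) :
    ∀ x y : X, ∃ c : ℕ → X, c 0 = x ∧ c (N + 1) = y ∧
      ∀ i < N + 1, dist (c i) (c (i + 1)) = dist x y / (N + 1) := by
  induction N with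
  | zero =>
    intro x y
    refine ⟨fun i => if i = 0 then x else y, by simp, by simp, fun i hi => ?_⟩
    have : i = 0 := by omega
    subst this
    simp
  | succ N ih =>
    intro x y
    have hN : (0 : ℝ) < (N : ℝ) + 1 := by positivity
    obtain ⟨z, hz1, hz2⟩ := hX x y (1 / ((N : ℝ) + 1 + 1)) ⟨by positivity, by
      rw [div_le_one (by positivity)]; linarith⟩
    obtain ⟨c, hc0, hc1, hc⟩ := ih z y
    refine ⟨fun i => if i = 0 then x else c (i - 1), by simp, ?_, fun i hi => ?_⟩
    · simp only [Nat.add_eq_zero_iff, one_ne_zero, and_false, if_false, Nat.add_sub_cancel]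
      exact hc1
    · rcases Nat.eq_zero_or_pos i with rfl | hi0
      · simp only [if_true, zero_add, one_ne_zero, if_false, Nat.sub_self]
        rw [hc0, hz1]
        push_cast
        ring
      · have h1 : i ≠ 0 := by omega
        have h2 : i + 1 ≠ 0 := by omega
        simp only [if_neg h1, if_neg h2]
        have h3 := hc (i - 1) (by omega)
        have h4 : i - 1 + 1 = i := by omega
        rw [h4] at h3
        rw [show i + 1 - 1 = i from by omega, h3, hz2]
        push_cast
        field_simp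
        ring

theorem chainLen_of_mid {X : Type*} [MetricSpace X] (hX : Mid X) : ChainLen X := by
  intro x y ε hε
  obtain ⟨N, hN⟩ := exists_nat_gt (dist x y / ε)
  obtain ⟨c, hc0, hc1, hc⟩ := exists_chain hX N x y
  have hN1 : (0 : ℝ) < (N : ℝ) + 1 := by positivity
  refine ⟨N + 1, c, hc0, hc1, fun i hi => ?_, ?_⟩
  · rw [hc i hi, div_le_iff₀ hN1]
    rw [div_lt_iff₀ hε] at hN
    nlinarith
  · rw [Finset.sum_congr rfl fun i hi => hc i (Finset.mem_range.1 hi), Finset.sum_const,
      Finset.card_range, nsmul_eq_mul]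
    push_cast
    rw [mul_div_cancel₀ _ hN1.ne']
    linarith

/-- an isometry of balls gives a Euclidean chart -/
theorem cht_of_map {n : ℕ} {Y : Type*} [MetricSpace Y] {z : Y} {r : ℝ} (hr : 0 < r)
    {f : Y → EuclideanSpace ℝ (Fin n)}
    (h1 : ∀ x ∈ ball z r, ∀ y ∈ ball z r, dist (f x) (f y) = dist x y)
    (h2 : f '' ball z r = ball (f z) r) : Cht n z r := by
  classical
  have h3 : ∀ v ∈ ball (0 : EuclideanSpace ℝ (Fin n)) r, ∃ x ∈ ball z r, f x = f z + v := by
    intro v hv
    have : f z + v ∈ f '' ball z r := by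
      rw [h2, mem_ball, dist_eq_norm, add_sub_cancel_left]
      simpa using hv
    exact this
  set φ : EuclideanSpace ℝ (Fin n) → Y := fun v =>
    if hv : v ∈ ball (0 : EuclideanSpace ℝ (Fin n)) r then Classical.choose (h3 v hv) else z with hφ
  have hφ1 : ∀ v ∈ ball (0 : EuclideanSpace ℝ (Fin n)) r, φ v ∈ ball z r ∧ f (φ v) = f z + v := by
    intro v hv
    simp only [hφ, dif_pos hv]
    exact Classical.choose_spec (h3 v hv)
  have hz : z ∈ ball z r := mem_ball_self hr
  refine ⟨φ, ?_, ?_, ?_⟩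
  · have h0 := hφ1 0 (mem_ball_self hr)
    have h4 := h1 _ h0.1 z hz
    rw [h0.2, add_zero, dist_self] at h4
    exact dist_eq_zero.1 h4.symm
  · intro v hv w hw
    rw [← h1 _ (hφ1 v hv).1 _ (hφ1 w hw).1, (hφ1 v hv).2, (hφ1 w hw).2, dist_add_left]
  · intro y hy
    have hv : f y - f z ∈ ball (0 : EuclideanSpace ℝ (Fin n)) r := by
      rw [mem_ball, dist_zero_right, ← dist_eq_norm, h1 y hy z hz]
      exact hy
    refine ⟨f y - f z, hv, ?_⟩
    have h4 := h1 _ (hφ1 _ hv).1 y hy
    rw [(hφ1 _ hv).2, add_sub_cancel, dist_self] at h4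
    exact dist_eq_zero.1 h4.symm

/-- **an Einstein chart with `λ = 0`, `sec ≥ 0` of a length space is locally Euclidean** -/
theorem cht_of_rchart {n : ℕ} {X : Type*} [MetricSpace X] (hX : Mid X) (C : RChart n X 0) {z : X}
    (hz : z ∈ C.e.source) : ∃ ρ > 0, Cht n z ρ := by
  obtain ⟨ρ, hρ, hρs, hd⟩ := dist_eq_riemDist (chainLen_of_mid hX) (ContMetric.of_riem C.riem)
    C.inf hz
  obtain ⟨r, hr, f, hf1, hf2⟩ := Flat676.exists_isometric_ball_of_ricci C.riem
    (fun x hx i j => by rw [C.ein x hx i j, zero_mul]) C.sec C.e hz (C.e.map_source hz) hρ hd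
  exact ⟨r, hr, cht_of_map hr hf1 hf2⟩

theorem flatR_of_RThm (h : RThm) : FlatR := by
  obtain ⟨δ₀, hδ₀, h⟩ := h
  refine ⟨δ₀, 1, 1, hδ₀, one_pos, one_pos, ?_⟩
  intro M _ _ _ _ _ _ _ _ _ _ q lam hK hlam hint hP
  obtain ⟨C, hC, -⟩ := h M q q (Bd.refl q) 0 lam 1 le_rfl one_pos hlam
    (Eventually.of_forall hK) (by
      intro η hη
      have h1 : ∀ᶠ k in om, ∫⁻ x in ball (q k) 1, ENNReal.ofReal (mRicDev 4 (M k) (lam k) x)
          ∂(μHE[4] : Measure (M k)) < ENNReal.ofReal η :=
        (tendsto_order.1 hint).2 _ (ENNReal.ofReal_pos.2 hη)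
      filter_upwards [h1, hP] with k h2 h3
      exact ⟨fun y hy r hr hr1 => h3 y hy r hr hr1, h2.le⟩)
  have hM : Mid (UL q) := mid_UL (Eventually.of_forall fun k =>
    mid_of_riemannian (n := 4) (M := M k))
  exact cht_of_rchart hM C hC

theorem ricNN_of_KRic (h : KRic) : RicNN := by
  intro M _ _ _ _ _ _ _ _ hK
  exact h M hK

/-- **D2, in the form of the assembly** -/
theorem d2out (hR : RThm) (hK : KRic) : D2Out := by
  classical
  intro M _ _ _ _ _ _ _ _ _ _ v D hv hD hS hG δ hδ
  -- make the curvature hypothesis hold for every index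
  obtain ⟨k₀, hk₀⟩ := hS.exists
  set s : ℕ → ℕ := fun k => if HasNonnegSectionalCurvature 4 (M k) then k else k₀ with hs
  have hs1 : ∀ k, HasNonnegSectionalCurvature 4 (M (s k)) := by
    intro k
    by_cases h : HasNonnegSectionalCurvature 4 (M k)
    · have h1 : s k = k := if_pos h
      rw [h1]; exact h
    · have h1 : s k = k₀ := if_neg h
      rw [h1]; exact hk₀
  have hs2 : ∀ᶠ k in om, s k = k := hS.mono fun k hk => if_pos hk
  -- the sequence of energies
  set a : ℕ → ℝ := fun k => (∫⁻ x, ENNReal.ofReal (mRicDev 4 (M (s k)) 3 x)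
    ∂(μHE[4] : Measure (M (s k)))).toReal with ha
  have hG' : ∀ η : ℝ, 0 < η → ∀ᶠ k in om, Good v D η (M (s k)) := by
    intro η hη
    filter_upwards [hG η hη, hs2] with k h1 h2
    rw [h2]
    exact h1
  have ha1 : ∀ᶠ k in om, Good v D (a k) (M (s k)) := by
    filter_upwards [hG' 1 one_pos] with k hk
    refine ⟨hk.1, hk.2.1, ?_⟩
    rw [ENNReal.ofReal_toReal (ne_top_of_le_ne_top ENNReal.ofReal_ne_top hk.2.2)]
  have ha2 : Tendsto a om (𝓝 0) := by
    rw [Metric.tendsto_nhds]
    intro ε hε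
    filter_upwards [hG' (ε / 2) (half_pos hε)] with k hk
    have h1 : a k ≤ ε / 2 := by
      have := ENNReal.toReal_mono ENNReal.ofReal_ne_top hk.2.2
      rwa [ENNReal.toReal_ofReal (half_pos hε).le] at this
    have h2 : 0 ≤ a k := ENNReal.toReal_nonneg
    rw [Real.dist_eq, sub_zero, abs_of_nonneg h2]
    linarith
  obtain ⟨r₀, hr₀, h⟩ := pinching (flatR_of_RThm hR) (ricNN_of_KRic hK) hv hD
    (fun k => M (s k)) hs1 ha2 ha1 hδ
  refine ⟨r₀, hr₀, ?_⟩
  filter_upwards [h, hs2] with k h1 h2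
  rw [h2] at h1
  exact fun x r hr hr' => h1 x (mem_univ x) r hr hr'

end Crest.Agent.R249.Bad174
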