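import Crest.Agent.R249.D4Mn_789
import Crest.Agent.R249.AsmD_832

/-!
R249, part D4 (helper789), file 12: `D4Out` from the projection data.
-/

set_option autoImplicit false
set_option linter.unusedSectionVars false

open MeasureTheory Set Filter Metric Bundle
open scoped ContDiff ENNReal NNReal Topology Manifold
open Crest.GeometryTopology.CoordMetric Crest.GeometryTopology.ChartCurvature
  Crest.GeometryTopology.RicciEnergy Crest.GeometryTopology.PointedLimit
open Crest.Agent.R226
open Crest.Agent.R249.Ul174 Crest.Agent.R249.AsmD832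

namespace Crest.Agent.R249.D4_789

noncomputable section

/-- the projection data exist for every compact space covered by finitely many smooth Einstein
charts with smooth transitions -/
def ProjStmt : Prop :=
  ∀ (X : Type) [MetricSpace X] [CompactSpace X] [Nonempty X] (lam : ℝ) (m : ℕ)
    (C : Fin m → RChart 4 X lam), (∀ z, ∃ a, z ∈ (C a).e.source) →
    (∀ a b, ContDiffOn ℝ ∞ (fun y => (C b).e ((C a).e.symm y))
      {y | y ∈ (C a).e.target ∧ (C a).e.symm y ∈ (C b).e.source}) →
    Nonempty (Proj 4 X (fun a => (C a).e))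

theorem d4out_of (hP : ProjStmt) : D4Out := by
  intro M _ _ _ _ _ _ _ _ q D lam _ hD hpack hK hdiam m C hcov htr
  obtain ⟨P⟩ := hP (UL q) lam m C hcov htr
  obtain ⟨ε, hε, hmain⟩ := P.exists_local_diffeo
  obtain ⟨D', hD'⟩ := Metric.isBounded_iff.1 (isCompact_univ (X := UL q)).isBounded
  have hap := hpack.approx (R := max D D' + 1 + ε) (ε := ε)
    (by have := le_max_left D D'; linarith) hε
  filter_upwards [hK, hdiam, hap] with k hKk hdk hak
  obtain ⟨g, -, hg1, hg2⟩ := hak
  obtain ⟨G⟩ := nonempty_geo (n := 4) (M := M k)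
  refine hmain (M k) G (hinge G hKk) g (fun x y => ?_) fun z => ?_
  · have h1 : ∀ x : M k, 1 * dist (q k) x < max D D' + 1 + ε := fun x => by
      have h2 := hdk (q k) x
      have h3 := le_max_left D D'
      linarith
    have h4 := hg1 x y (h1 x) (h1 y)
    rwa [one_mul] at h4
  · obtain ⟨x, -, hx⟩ := hg2 z (by
      have h2 : dist (UL.base q) z ≤ D' := hD' (mem_univ _) (mem_univ _)
      have h3 := le_max_right D D'
      linarith)
    exact ⟨x, hx⟩

end

end Crest.Agent.R249.D4_789
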