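import Crest.Agent.R249.AsmD_832
import Crest.Agent.R249.Alg2_104

/-!
# R249 (S0386), helper104: `KRic` of `AsmD_832` (`sec ≥ 0` implies `Ric ≥ 0`)
-/

set_option autoImplicit false

namespace Crest.Agent.R249.KRic104

theorem kRic : Crest.Agent.R249.AsmD832.KRic := by
  intro M _ _ _ _ _ h
  exact Crest.Agent.R249.Alg2_104.ricBound_of_sec h

end Crest.Agent.R249.KRic104
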