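import Crest.Agent.R249.Prj5_832
import Crest.Agent.R249.D4Pj_789

/-!
# R249, D4-PROJ (helper832), part 6: the structure `D4_789.Proj` of helper789
-/

set_option autoImplicit false
set_option linter.style.haveILetI false
set_option linter.unusedSectionVars false
noncomputable section
open Set Filter Topology Metric
open scoped ContDiff Manifold
open Crest.GeometryTopology.CoordMetric
open Crest.Agent.R249.Len47

namespace Crest.Agent.R249.Prj832

variable {n : ℕ} {ι : Type*} {X : Type*} [MetricSpace X]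

/-- the projection data in the form of helper789 -/
def Proj.to789 {m : ℕ} {e : ι → OpenPartialHomeomorph X (EuclideanSpace ℝ (Fin n))}
    (P : Proj m e) (hcov : ∀ x, ∃ a, x ∈ (e a).source) : D4_789.Proj n X e where
  N := m
  i := P.io
  cont_i := by
    have h1 : LipschitzWith (Real.toNNReal P.C₀) P.io := by
      refine LipschitzWith.of_dist_le_mul fun x y => ?_
      rw [dist_eq_norm, Real.coe_toNNReal _ P.C₀_pos.le]
      exact P.upper x y
    exact h1.continuous
  smooth_i := P.smooth_io
  cover := hcov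
  O := P.O
  isOpen_O := P.isOpen_O
  mem_O := P.io_mem
  pr := P.pi
  cont_pr := P.continuousOn_pi
  pr_i := P.pi_io
  smooth_pr := P.smooth_pi
  c₀ := P.c₀
  C₀ := P.C₀
  c₀_pos := P.c₀_pos
  C₀_nonneg := P.C₀_pos.le
  flat := by
    intro η hη
    obtain ⟨d₀, hd₀, h1⟩ := P.flat η hη
    refine ⟨d₀, hd₀, fun d hd hdd x₀ => ?_⟩
    obtain ⟨f, B, hB, -, h2, h3⟩ := h1 d hd hdd x₀
    exact ⟨f, B, fun c => (hB c).1, fun c => (hB c).2, fun x y hx hy => h2 x hx y hy, h3⟩

/-- **helper789's projection data from charts with `InfScale` and smooth transitions** -/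
theorem nonempty_proj789 [CompactSpace X] [Nonempty X] [Fintype ι]
    (e : ι → OpenPartialHomeomorph X (EuclideanSpace ℝ (Fin n))) (h : ι → MetricField n)
    (hh : ∀ a, IsRiemannianOn (h a) (e a).target) (hs : ∀ a, InfScale (e a) (h a))
    (hcov : ∀ x, ∃ a, x ∈ (e a).source)
    (htr : ∀ a b, ContDiffOn ℝ ∞ (fun y => e b ((e a).symm y))
      {y | y ∈ (e a).target ∧ (e a).symm y ∈ (e b).source}) :
    Nonempty (D4_789.Proj n X e) := by
  obtain ⟨m, ⟨P⟩⟩ := exists_proj_of_scale e h hh hs hcov htr
  exact ⟨P.to789 hcov⟩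

end Crest.Agent.R249.Prj832
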