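import Crest.Agent.R249.AsmD3_832
import Crest.Agent.R249.AsmD4_832
import Crest.Agent.R249.Prj6_832
import Crest.Agent.R249.D4Fin_789
import Crest.Agent.R249.D2o_174
import Crest.Agent.R249.KRic_104
import Crest.Agent.R249.D1Asm_104

/-!
# R249 (S0386), part D: what is left (helper832)

`S0386_of'` : the statement of S0386 from `IdxStmt` (part C), `PoisStmt`, `RThm` (D3), `CovEnd`.
-/

set_option autoImplicit false
set_option maxSynthPendingDepth 3
noncomputable section
open Set Filter Topology Bundle MeasureTheory Metric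
open scoped ContDiff Manifold ENNReal NNReal
open Crest.GeometryTopology.CoordMetric Crest.GeometryTopology.ChartCurvature
  Crest.GeometryTopology.RicciEnergy Crest.GeometryTopology.PointedLimit
open Crest.Agent.R249.D1Def104 Crest.Agent.R249.Ul174 Crest.Agent.R249.Pul47
  Crest.Agent.R249.Len47

namespace Crest.Agent.R249.AsmD832

/-- helper789's `ProjStmt` holds -/
theorem projStmt : D4_789.ProjStmt := by
  intro X _ _ _ lam m C hcov htr
  exact Prj832.nonempty_proj789 (fun a => (C a).e) (fun a => (C a).h) (fun a => (C a).riem)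
    (fun a => (C a).inf) hcov htr

/-- **D4 is complete** -/
theorem d4out : D4Out := D4_789.d4out_of projStmt

/-- **S0386 from the index inequality, the Poisson equation, THEOREM R(lambda) and `CovEnd`.** -/
theorem S0386_of' (hI : IdxStmt) (hP : D1Asm104.PoisStmt) (hR : RThm) (hcov : CovEnd)
    (hcl : EinsteinNonnegSectionalAreModelCovered) :
    ∃ ε : ℝ, 0 < ε ∧ ∀ (M : Type) [MetricSpace M] [ChartedSpace (EuclideanSpace ℝ (Fin 4)) M]
      [IsManifold 𝓘(ℝ, EuclideanSpace ℝ (Fin 4)) ∞ M] [CompactSpace M] [SimplyConnectedSpace M]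
      [RiemannianBundle (fun x : M => TangentSpace 𝓘(ℝ, EuclideanSpace ℝ (Fin 4)) x)]
      [IsContMDiffRiemannianBundle 𝓘(ℝ, EuclideanSpace ℝ (Fin 4)) ∞ (EuclideanSpace ℝ (Fin 4))
        (fun x : M => TangentSpace 𝓘(ℝ, EuclideanSpace ℝ (Fin 4)) x)]
      [IsRiemannianManifold 𝓘(ℝ, EuclideanSpace ℝ (Fin 4)) M]
      [MeasurableSpace M] [BorelSpace M],
      HasNonnegSectionalCurvature 4 M → tracefreeRicciEnergy 4 M < ENNReal.ofReal ε →
        IsDiffeoToRoundFourSphere M ∨ IsDiffeoToComplexProjectivePlane M ∨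
          IsDiffeoToTwoSphereProduct M :=
  S0386_of (D1Asm104.d1_of hI hP) hR transStmt (Bad174.d2out hR KRic104.kRic) d4out
    KRic104.kRic hcov hcl

end Crest.Agent.R249.AsmD832
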