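import Crest.Agent.R249.Cov10_802
import Crest.Agent.R249.Pul3_47
import Mathlib.Analysis.Normed.Module.Connected

/-!
# R249 (helper802), part 11: products of spheres; simply connected manifolds covered by the models
-/

set_option autoImplicit false
set_option linter.unusedSectionVars false
set_option maxSynthPendingDepth 3
open Set Metric Filter Topology Bundle Manifold
open scoped ContDiff
open Crest.GeometryTopology.ChartCurvature Crest.GeometryTopology.RicciEnergy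

namespace Crest.Agent.R249.Cov11_802

open Crest.Agent.R249.Cov1_802 Crest.Agent.R249.Cov2_802 Crest.Agent.R249.Cov3_802
  Crest.Agent.R249.Cov4_802 Crest.Agent.R249.Cov5_802 Crest.Agent.R249.Cov9_802
  Crest.Agent.R249.Cov10_802

noncomputable section

/-- Minkowski's inequality in the plane -/
theorem mink {a b c d : ℝ} : √((a + b) ^ 2 + (c + d) ^ 2) ≤ √(a ^ 2 + c ^ 2) + √(b ^ 2 + d ^ 2) := by
  have hA : 0 ≤ a ^ 2 + c ^ 2 := by positivity
  have hB : 0 ≤ b ^ 2 + d ^ 2 := by positivity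
  have h1 : a * b + c * d ≤ √(a ^ 2 + c ^ 2) * √(b ^ 2 + d ^ 2) := by
    rw [← Real.sqrt_mul hA]
    apply Real.le_sqrt_of_sq_le
    nlinarith [sq_nonneg (a * d - b * c)]
  rw [Real.sqrt_le_left (by positivity)]
  have h2 := Real.sq_sqrt hA
  have h3 := Real.sq_sqrt hB
  nlinarith

/-- the product pseudo-distance -/
def prodPD {S T : Type*} (P : PD S) (Q : PD T) : PD (S × T) where
  D x y := √(P.D x.1 y.1 ^ 2 + Q.D x.2 y.2 ^ 2)
  self x := by rw [P.self, Q.self]; simp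
  comm x y := by rw [P.comm, Q.comm]
  tri x y z := by
    refine le_trans (Real.sqrt_le_sqrt ?_) mink
    have h1 := P.tri x.1 y.1 z.1
    have h2 := Q.tri x.2 y.2 z.2
    have h3 := P.nonneg x.1 z.1
    have h4 := Q.nonneg x.2 z.2
    gcongr

variable {S T : Type*} (P : PD S) (Q : PD T)

theorem prodPD_D (x y : S × T) : (prodPD P Q).D x y = √(P.D x.1 y.1 ^ 2 + Q.D x.2 y.2 ^ 2) := rfl

theorem prod_ge_left (x y : S × T) : P.D x.1 y.1 ≤ (prodPD P Q).D x y := by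
  rw [prodPD_D]
  apply Real.le_sqrt_of_sq_le
  have := sq_nonneg (Q.D x.2 y.2)
  linarith

theorem prod_ge_right (x y : S × T) : Q.D x.2 y.2 ≤ (prodPD P Q).D x y := by
  rw [prodPD_D]
  apply Real.le_sqrt_of_sq_le
  have := sq_nonneg (P.D x.1 y.1)
  linarith

theorem prod_le (x y : S × T) : (prodPD P Q).D x y ≤ P.D x.1 y.1 + Q.D x.2 y.2 := by
  have h1 := P.nonneg x.1 y.1
  have h2 := Q.nonneg x.2 y.2
  rw [prodPD_D, Real.sqrt_le_left (by positivity)]
  nlinarith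

theorem prod_tendsto [TopologicalSpace S] [TopologicalSpace T]
    (hP : ∀ x, Tendsto (fun y => P.D x y) (𝓝 x) (𝓝 0))
    (hQ : ∀ x, Tendsto (fun y => Q.D x y) (𝓝 x) (𝓝 0)) (x : S × T) :
    Tendsto (fun y => (prodPD P Q).D x y) (𝓝 x) (𝓝 0) := by
  refine squeeze_zero (fun y => (prodPD P Q).nonneg x y) (fun y => prod_le P Q x y) ?_
  have h1 : Tendsto (fun y : S × T => P.D x.1 y.1) (𝓝 x) (𝓝 0) :=
    (hP x.1).comp continuous_fst.continuousAt
  have h2 : Tendsto (fun y : S × T => Q.D x.2 y.2) (𝓝 x) (𝓝 0) :=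
    (hQ x.2).comp continuous_snd.continuousAt
  simpa using h1.add h2

theorem prod_mid
    (hP : ∀ a b : S, ∀ t ∈ Icc (0 : ℝ) 1, ∃ x, P.D a x = t * P.D a b ∧ P.D x b = (1 - t) * P.D a b)
    (hQ : ∀ a b : T, ∀ t ∈ Icc (0 : ℝ) 1, ∃ x, Q.D a x = t * Q.D a b ∧ Q.D x b = (1 - t) * Q.D a b)
    (a b : S × T) (t : ℝ) (ht : t ∈ Icc (0 : ℝ) 1) : ∃ x, (prodPD P Q).D a x =
      t * (prodPD P Q).D a b ∧ (prodPD P Q).D x b = (1 - t) * (prodPD P Q).D a b := by
  obtain ⟨x, h1, h2⟩ := hP a.1 b.1 t ht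
  obtain ⟨y, h3, h4⟩ := hQ a.2 b.2 t ht
  refine ⟨(x, y), ?_, ?_⟩
  · rw [prodPD_D, prodPD_D]
    change √(P.D a.1 x ^ 2 + Q.D a.2 y ^ 2) = _
    rw [h1, h3, mul_pow, mul_pow, ← mul_add, Real.sqrt_mul (sq_nonneg t), Real.sqrt_sq ht.1]
  · rw [prodPD_D, prodPD_D]
    change √(P.D x b.1 ^ 2 + Q.D y b.2 ^ 2) = _
    rw [h2, h4, mul_pow, mul_pow, ← mul_add, Real.sqrt_mul (sq_nonneg _),
      Real.sqrt_sq (by linarith [ht.2])]

theorem prod_frames {m k : ℕ}
    (hP : ∀ η : ℝ, 0 < η → ∃ s₀ : ℝ, 0 < s₀ ∧ ∀ q : S, ∀ s : ℝ, 0 < s → s < s₀ →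
      ∃ e : Fin m → Bool → S, (∀ i b, P.D q (e i b) = s) ∧
        (∀ i, P.D (e i true) (e i false) = 2 * s) ∧
        (∀ i j b b', i ≠ j → |P.D (e i b) (e j b') - √2 * s| ≤ η * s))
    (hQ : ∀ η : ℝ, 0 < η → ∃ s₀ : ℝ, 0 < s₀ ∧ ∀ q : T, ∀ s : ℝ, 0 < s → s < s₀ →
      ∃ e : Fin k → Bool → T, (∀ i b, Q.D q (e i b) = s) ∧
        (∀ i, Q.D (e i true) (e i false) = 2 * s) ∧
        (∀ i j b b', i ≠ j → |Q.D (e i b) (e j b') - √2 * s| ≤ η * s))
    (η : ℝ) (hη : 0 < η) : ∃ s₀ : ℝ, 0 < s₀ ∧ ∀ q : S × T, ∀ s : ℝ, 0 < s → s < s₀ →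
      ∃ e : Fin (m + k) → Bool → S × T, (∀ i b, (prodPD P Q).D q (e i b) = s) ∧
        (∀ i, (prodPD P Q).D (e i true) (e i false) = 2 * s) ∧
        (∀ i j b b', i ≠ j → |(prodPD P Q).D (e i b) (e j b') - √2 * s| ≤ η * s) := by
  obtain ⟨s₁, hs₁, h1⟩ := hP η hη
  obtain ⟨s₂, hs₂, h2⟩ := hQ η hη
  refine ⟨min s₁ s₂, by positivity, fun q s hs hs' => ?_⟩
  obtain ⟨e, he1, he2, he3⟩ := h1 q.1 s hs (hs'.trans_le (min_le_left _ _))
  obtain ⟨f, hf1, hf2, hf3⟩ := h2 q.2 s hs (hs'.trans_le (min_le_right _ _))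
  have hP0 : ∀ x y : S, √(P.D x y ^ 2 + Q.D q.2 q.2 ^ 2) = P.D x y := fun x y => by
    rw [Q.self, zero_pow two_ne_zero, add_zero, Real.sqrt_sq (P.nonneg _ _)]
  have hQ0 : ∀ x y : T, √(P.D q.1 q.1 ^ 2 + Q.D x y ^ 2) = Q.D x y := fun x y => by
    rw [P.self, zero_pow two_ne_zero, zero_add, Real.sqrt_sq (Q.nonneg _ _)]
  have hss : √(s ^ 2 + s ^ 2) = √2 * s := by
    rw [← two_mul, Real.sqrt_mul (by norm_num), Real.sqrt_sq hs.le]
  let g : Fin m ⊕ Fin k → Bool → S × T := fun i b =>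
    Sum.elim (fun i => (e i b, q.2)) (fun j => (q.1, f j b)) i
  have G1 : ∀ i b, (prodPD P Q).D q (g i b) = s := by
    rintro (i | i) b
    · exact (hP0 _ _).trans (he1 i b)
    · exact (hQ0 _ _).trans (hf1 i b)
  have G2 : ∀ i, (prodPD P Q).D (g i true) (g i false) = 2 * s := by
    rintro (i | i)
    · exact (hP0 _ _).trans (he2 i)
    · exact (hQ0 _ _).trans (hf2 i)
  have G3 : ∀ i j b b', i ≠ j → |(prodPD P Q).D (g i b) (g j b') - √2 * s| ≤ η * s := by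
    rintro (i | i) (j | j) b b' hij
    · have h3 : (prodPD P Q).D (g (Sum.inl i) b) (g (Sum.inl j) b') = P.D (e i b) (e j b') :=
        hP0 _ _
      rw [h3]
      exact he3 i j b b' fun h => hij (by rw [h])
    · have h3 : (prodPD P Q).D (g (Sum.inl i) b) (g (Sum.inr j) b') =
          √(P.D (e i b) q.1 ^ 2 + Q.D q.2 (f j b') ^ 2) := rfl
      rw [h3, P.comm, he1, hf1, hss, sub_self, abs_zero]; positivity
    · have h3 : (prodPD P Q).D (g (Sum.inr i) b) (g (Sum.inl j) b') =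
          √(P.D q.1 (e j b') ^ 2 + Q.D (f i b) q.2 ^ 2) := rfl
      rw [h3, Q.comm, he1, hf1, hss, sub_self, abs_zero]; positivity
    · have h3 : (prodPD P Q).D (g (Sum.inr i) b) (g (Sum.inr j) b') = Q.D (f i b) (f j b') :=
        hQ0 _ _
      rw [h3]
      exact hf3 i j b b' fun h => hij (by rw [h])
  exact ⟨fun i => g (finSumFinEquiv.symm i), fun i b => G1 _ b, fun i => G2 _,
    fun i j b b' hij => G3 _ _ b b' fun h => hij (finSumFinEquiv.symm.injective h)⟩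

/-- **simply connected manifolds covered by a model** -/
theorem sc_core {n : ℕ} {S : Type*} [MetricSpace S] [CompactSpace S] [PathConnectedSpace S]
    (P : PD S) (hten : ∀ x, Tendsto (fun y => P.D x y) (𝓝 x) (𝓝 0))
    (hch : ∀ x y, dist x y ≤ P.D x y)
    (hmid : ∀ a b : S, ∀ t ∈ Icc (0 : ℝ) 1, ∃ x, P.D a x = t * P.D a b ∧
      P.D x b = (1 - t) * P.D a b)
    (hfr : ∀ η : ℝ, 0 < η → ∃ s₀ : ℝ, 0 < s₀ ∧ ∀ q : S, ∀ s : ℝ, 0 < s → s < s₀ →
      ∃ e : Fin n → Bool → S, (∀ i b, P.D q (e i b) = s) ∧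
        (∀ i, P.D (e i true) (e i false) = 2 * s) ∧
        (∀ i j b b', i ≠ j → |P.D (e i b) (e j b') - √2 * s| ≤ η * s))
    {M : Type*} [MetricSpace M] [SimplyConnectedSpace M] (hM : BL n M) (hE : ExM M) {a : ℝ}
    (ha : 0 < a) (Φ : S → M)
    (hloc : ∀ p, ∃ ε : ℝ, 0 < ε ∧ ∀ q q', dist p q < ε → dist p q' < ε →
      dist (Φ q) (Φ q') = P.D q q' / √a) :
    Function.Injective Φ ∧ ∀ p q, dist (Φ p) (Φ q) = P.D p q / √a := by
  have hsa : 0 < √a := Real.sqrt_pos.2 ha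
  obtain ⟨ρ, hL⟩ := exists_loc P hten hch (fun η hη => by
    obtain ⟨s₀, hs₀, h⟩ := hfr η hη
    refine ⟨s₀, hs₀, fun q s hs hs' => ?_⟩
    obtain ⟨e, h1, h2, h3⟩ := h q s hs hs'
    refine ⟨e, fun i b => ?_, fun i => ?_, h3⟩
    · rw [h1, sub_self, abs_zero]; positivity
    · rw [h2, sub_self, abs_zero]; positivity) hM hE ha Φ hloc
  set c : {c : ℝ // 0 < c} := ⟨(√a)⁻¹, inv_pos.2 hsa⟩ with hc
  have hX : ExM (Syn P c) := exM_syn hmid
  have h1 : CompactSpace (Syn P c) := compact_syn hten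
  have h2 : PathConnectedSpace (Syn P c) := pathConnected_syn hten
  have h3 : T2Space (Syn P c) := t2_syn fun x y hxy =>
    dist_eq_zero.1 (le_antisymm ((hch x y).trans hxy.le) dist_nonneg)
  have hinj := Loc.injective hL
  refine ⟨fun p q hpq => hinj (a₁ := toSyn P c p) (a₂ := toSyn P c q) hpq, fun p q => ?_⟩
  have := hL.isometry hX hE (fun x y h => by
    have : x = y := hinj h
    rw [this, dist_self]) (toSyn _ c p) (toSyn _ c q)
  rw [dist_toSyn] at this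
  rw [div_eq_inv_mul]
  exact this

section sph

variable {V : Type*} [NormedAddCommGroup V] [InnerProductSpace ℝ V] [FiniteDimensional ℝ V]

theorem pathConnected_sph {n : ℕ} (hn : n ≠ 0) (hfin : Module.finrank ℝ V = n + 1) :
    PathConnectedSpace (sphere (0 : V) 1) := by
  rw [← isPathConnected_iff_pathConnectedSpace]
  refine isPathConnected_sphere ?_ 0 zero_le_one
  rw [← Module.finrank_eq_rank, hfin]
  exact_mod_cast Nat.lt_add_of_pos_left (Nat.pos_of_ne_zero hn)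

end sph

/-- **(T3) of row 249** -/
theorem covEnd : Pul47.CovEnd := by
  intro N _ _ _ _ _ _ _ _ a _
  refine ⟨?_, ?_, ?_⟩
  · rintro ⟨ha, Φ, hsurj, hloc⟩
    have hfin : Module.finrank ℝ (EuclideanSpace ℝ (Fin (4 + 1))) = 4 + 1 := by simp
    have hpc := pathConnected_sph (by norm_num) hfin
    have key := sc_core (n := 4) (sphPD (EuclideanSpace ℝ (Fin (4 + 1)))) sphPD_tendsto chord_le
      (mid (exists_orth1 (by norm_num) hfin)) (frames (exists_orth hfin)) (bl 4 N) (exM 4 N) ha Φ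
      hloc
    exact ⟨ha, Φ, ⟨key.1, hsurj⟩, key.2⟩
  · exact cp_concrete (bl 4 N) (exM 4 N)
  · rintro ⟨ha, Φ, hsurj, hloc⟩
    have hfin : Module.finrank ℝ (EuclideanSpace ℝ (Fin 3)) = 2 + 1 := by simp
    have hpc := pathConnected_sph (by norm_num) hfin
    have hmid := mid (exists_orth1 (by norm_num) hfin)
    have hfr := frames (exists_orth hfin)
    have key := sc_core (n := 2 + 2) (prodPD (sphPD (EuclideanSpace ℝ (Fin 3)))
      (sphPD (EuclideanSpace ℝ (Fin 3))))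
      (prod_tendsto _ _ sphPD_tendsto sphPD_tendsto)
      (fun x y => by
        rw [Prod.dist_eq]
        exact max_le ((chord_le _ _).trans (prod_ge_left _ _ x y))
          ((chord_le _ _).trans (prod_ge_right _ _ x y)))
      (prod_mid _ _ hmid hmid)
      (prod_frames _ _ hfr hfr) (bl 4 N) (exM 4 N) ha Φ hloc
    exact ⟨ha, Φ, ⟨key.1, hsurj⟩, key.2⟩

end

end Crest.Agent.R249.Cov11_802
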