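import Crest.Agent.R249.Fin1_832
import Crest.Agent.R249.D2o_174

/-!
# R249, D3-LIM/FIN (helper832), part 2: `rthm_of`
-/

set_option autoImplicit false
set_option maxSynthPendingDepth 3
noncomputable section
open Set Filter Topology Bundle MeasureTheory Metric
open scoped ContDiff Manifold ENNReal NNReal Matrix
open Crest.GeometryTopology.CoordMetric Crest.GeometryTopology.ChartCurvature
  Crest.GeometryTopology.RicciEnergy Crest.GeometryTopology.PointedLimit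
open Crest.Agent.R247.Bo84
open Crest.Agent.R249.D1Def104 Crest.Agent.R249.Ul174 Crest.Agent.R249.Len47
open Crest.Agent.R249.AsmD832 Crest.Agent.R249.LimDef41
open Crest.Agent.R249.LPt_191 (N1)

namespace Crest.Agent.R249.Fin832

local notation "𝔼" => EuclideanSpace ℝ (Fin 4)

theorem quadForm_dot {n : ℕ} (g : MetricField n) (x v : EuclideanSpace ℝ (Fin n)) :
    quadForm g x v = v.ofLp ⬝ᵥ (g x *ᵥ v.ofLp) := by
  unfold quadForm
  simp only [dotProduct, Matrix.mulVec, Finset.mul_sum]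
  refine Finset.sum_congr rfl fun i _ => Finset.sum_congr rfl fun j _ => ?_
  ring

theorem n1_eq {n : ℕ} (A : Matrix (Fin n) (Fin n) ℝ) :
    N1 (A - 1) = ∑ a, ∑ b, |A a b - if a = b then 1 else 0| := by
  unfold N1
  refine Finset.sum_congr rfl fun a _ => Finset.sum_congr rfl fun b _ => ?_
  rw [Matrix.sub_apply, Matrix.one_apply]

section seq

variable {M : ℕ → Type} [∀ k, MetricSpace (M k)]
  [∀ k, ChartedSpace (EuclideanSpace ℝ (Fin 4)) (M k)]
  [∀ k, IsManifold 𝓘(ℝ, EuclideanSpace ℝ (Fin 4)) ∞ (M k)]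
  [∀ k, RiemannianBundle (fun x : M k => TangentSpace 𝓘(ℝ, EuclideanSpace ℝ (Fin 4)) x)]
  [∀ k, IsContMDiffRiemannianBundle 𝓘(ℝ, EuclideanSpace ℝ (Fin 4)) ∞ (EuclideanSpace ℝ (Fin 4))
    (fun x : M k => TangentSpace 𝓘(ℝ, EuclideanSpace ℝ (Fin 4)) x)]
  [∀ k, MeasurableSpace (M k)] [∀ k, BorelSpace (M k)] {q : ∀ k, M k}

theorem avOut_mono {x : ∀ k, M k} {hx : Bd q x} {ρ α C ε ε' : ℝ} {u : ∀ k, Fin 4 → M k → ℝ}
    {h : UL q → Matrix (Fin 4) (Fin 4) ℝ} (hA : AvOut x hx ρ α C ε u h) (hε : ε ≤ ε') :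
    AvOut x hx ρ α C ε' u h :=
  { hA with near := fun z hz => (hA.near z hz).trans hε }

/-- the metric of the chart is near the identity -/
theorem chart_near {x : ∀ k, M k} {hx : Bd q x} {ρ α C ε : ℝ} {u : ∀ k, Fin 4 → M k → ℝ}
    {h : UL q → Matrix (Fin 4) (Fin 4) ℝ} (hA : AvOut x hx ρ α C ε u h) {r₀ : ℝ}
    {U : UL q → 𝔼} {e : OpenPartialHomeomorph (UL q) 𝔼} (hC : ChOut x hx ρ u h r₀ U e)
    {y : 𝔼} (hy : y ∈ e.target) : N1 (h (e.symm y) - 1) ≤ ε := by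
  have h1 : e.symm y ∈ e.source := e.map_target hy
  rw [hC.source] at h1
  rw [n1_eq]
  refine hA.near _ (ball_subset_ball ?_ h1)
  have := hC.r_pos
  have := hC.r_le
  linarith

/-- `InfScale` from `ChOut` -/
theorem infScale_of_chOut {x : ∀ k, M k} {hx : Bd q x} {ρ : ℝ} {u : ∀ k, Fin 4 → M k → ℝ}
    {h : UL q → Matrix (Fin 4) (Fin 4) ℝ} {r₀ : ℝ}
    {U : UL q → 𝔼} {e : OpenPartialHomeomorph (UL q) 𝔼} (hC : ChOut x hx ρ u h r₀ U e) :
    InfScale e (hInv h e) := by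
  intro z hz ε hε
  have hr₀ := hC.r_pos
  obtain ⟨r, hr, h1⟩ := hC.inf (ε * (9 / 10)) (by positivity)
  have hz' : dist z (UL.mk x hx) < r₀ := by
    have := hz
    rw [hC.source] at this
    exact this
  have hmem : ∀ y, dist y z < min r (3 * r₀) → y ∈ ball (UL.mk x hx) (4 * r₀) := by
    intro y hy
    have h2 := lt_of_lt_of_le hy (min_le_right _ _)
    have h3 := dist_triangle y z (UL.mk x hx)
    rw [mem_ball]
    linarith
  refine ⟨min r (3 * r₀), by positivity, fun y y' hy hy' => ?_⟩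
  have hzm : z ∈ ball (UL.mk x hx) (4 * r₀) := by rw [mem_ball]; linarith
  have h2 := h1 z hzm y (hmem y hy) y' (hmem y' hy')
    (by rw [dist_comm]; exact lt_of_lt_of_le hy (min_le_left _ _))
    (by rw [dist_comm]; exact lt_of_lt_of_le hy' (min_le_left _ _))
  have h3 := hC.ni y (hmem y hy) y' (hmem y' hy')
  have h4 : nrm (hInv h e) (e z) (e y - e y') =
      √((U y - U y').ofLp ⬝ᵥ ((h z)⁻¹ *ᵥ (U y - U y').ofLp)) := by
    rw [nrm, quadForm_dot, hInv, e.left_inv hz, hC.eq y, hC.eq y']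
  rw [abs_sub_comm, h4]
  refine h2.trans ?_
  have h5 := (abs_le.1 h3).1
  rw [hC.eq y, hC.eq y', ← dist_eq_norm]
  nlinarith [dist_nonneg (x := y) (y := y')]

end seq

/-- **`RThm` from the closed statements.** -/
theorem rthm_of (hSD : SDStmt) (hAv : AvStmt) (hCh : ChStmt) (hMs : MsStStmt) (hSys : SysStmt)
    (hReg : RegStmt) (hWh : WhStmt) : RThm := by
  obtain ⟨ε₁, δ₁, hε₁, hδ₁, hCh⟩ := hCh
  obtain ⟨ε₂, δ₂, hε₂, hδ₂, hMs⟩ := hMs
  obtain ⟨ε₃, δ₃, hε₃, hδ₃, hSys⟩ := hSys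
  obtain ⟨ε₄, δ₄, hε₄, hδ₄, hWh⟩ := hWh
  set ε' : ℝ := min (min ε₁ ε₂) (min (min ε₃ ε₄) (1 / 8)) with hε'
  have e1 : ε' ≤ ε₁ := (min_le_left _ _).trans (min_le_left _ _)
  have e2 : ε' ≤ ε₂ := (min_le_left _ _).trans (min_le_right _ _)
  have e3 : ε' ≤ ε₃ := (min_le_right _ _).trans ((min_le_left _ _).trans (min_le_left _ _))
  have e4 : ε' ≤ ε₄ := (min_le_right _ _).trans ((min_le_left _ _).trans (min_le_right _ _))
  have e5 : ε' ≤ 1 / 8 := (min_le_right _ _).trans (min_le_right _ _)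
  obtain ⟨ε, hε, hAv⟩ := hAv ε' (by positivity)
  obtain ⟨δ₀, hδ₀, hSD⟩ := hSD ε hε
  set δ : ℝ := min (min δ₀ (1 / 2)) (min (min δ₁ δ₂) (min δ₃ δ₄)) with hδ
  have d0 : δ ≤ δ₀ := (min_le_left _ _).trans (min_le_left _ _)
  have dh : δ ≤ 1 / 2 := (min_le_left _ _).trans (min_le_right _ _)
  have d1 : δ ≤ δ₁ := (min_le_right _ _).trans ((min_le_left _ _).trans (min_le_left _ _))
  have d2 : δ ≤ δ₂ := (min_le_right _ _).trans ((min_le_left _ _).trans (min_le_right _ _))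
  have d3 : δ ≤ δ₃ := (min_le_right _ _).trans ((min_le_right _ _).trans (min_le_left _ _))
  have d4 : δ ≤ δ₄ := (min_le_right _ _).trans ((min_le_right _ _).trans (min_le_right _ _))
  refine ⟨δ, by positivity, ?_⟩
  intro M _ _ _ _ _ _ _ _ _ _ q x hx lam lamk R hlam hR hlim hsec hpin
  obtain ⟨ρ, α, C, u, hρR, hD0⟩ := hSD M x lam lamk R hlam hR hlim hsec (fun η hη =>
    (hpin η hη).mono fun k hk => ⟨fun y hy r hr hr' =>
      le_trans (by gcongr) (hk.1 y hy r hr hr'), hk.2⟩)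
  have hD : HData x ρ α C ε δ lam lamk u :=
    { hD0 with
      pinch := (hpin 1 one_pos).mono fun k hk y hy r hr hr' =>
        hk.1 y (ball_subset_ball hρR hy) r hr (hr'.trans hρR) }
  obtain ⟨C', h, hC', hA⟩ := hAv M q x hx ρ α C δ lam lamk u dh hD
  obtain ⟨r₀, U, e, hCo, hSp⟩ := hCh M q x hx ρ α C C' ε δ lam lamk u h d1 hD (avOut_mono hA e1)
  obtain ⟨hMso, hSto⟩ := hMs M q x hx ρ α C C' ε δ lam lamk u h r₀ U e d2 hD
    (avOut_mono hA e2) hCo hSp
  obtain ⟨H, C'', hHol, hL⟩ := hSys M q x hx ρ α C C' ε δ lam lamk u h r₀ U e d3 hD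
    (avOut_mono hA e3) hCo hSp hMso hSto
  have hnear : ∀ y ∈ e.target, N1 (h (e.symm y) - 1) ≤ 1 / 8 := fun y hy =>
    (chart_near hA hCo hy).trans e5
  have hsymm : ∀ y ∈ e.target, ∀ a b, h (e.symm y) a b = h (e.symm y) b a :=
    fun y _ a b => hA.symm _ a b
  obtain ⟨hsm, hein⟩ := hReg e.target (fun y => h (e.symm y)) H lam C'' α e.open_target
    hD.α_gt hD.α_lt hlam hsymm hnear hHol hL
  have hpos : ∀ y ∈ e.target, (h (e.symm y)).PosDef := fun y hy =>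
    posDef_of_near (hsymm y hy) (hnear y hy)
  have hriem : IsRiemannianOn (hInv h e) e.target :=
    ⟨e.open_target, fun i j => contDiffOn_inv_of hsm (fun y hy => (hpos y hy).det_pos.ne') i j,
      fun y hy => (hpos y hy).inv⟩
  have hinf : InfScale e (hInv h e) := infScale_of_chOut hCo
  have hmid : Hin5_615.MidIneq (UL q) := Hin6_615.midIneq_ul
    (hsec.mono fun k hk => Hin4_615.alex0 (n := 4) hk)
  have hch : ChainLen (UL q) := Bad174.chainLen_of_mid
    (mid_UL (Eventually.of_forall fun k => mid_of_riemannian 4 (M k)))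
  set Ch : RChart 4 (UL q) lam := ⟨e, hInv h e, hriem, fun y hy i j => hein y hy i j,
    fun y hy v w => Hin6_615.secNumer_nonneg_of_chart hmid hch hriem hinf hy v w, hinf⟩ with hCh
  obtain ⟨w1, w2, w3⟩ := hWh M q x hx ρ α C C' ε δ lam lamk u h r₀ U e d4 hD
    (avOut_mono hA e4) hCo hSp hMso hSto Ch rfl rfl
  refine ⟨Ch, ?_, w1, w2, w3⟩
  show UL.mk x hx ∈ e.source
  rw [hCo.source]
  exact mem_ball_self hCo.r_pos

end Crest.Agent.R249.Fin832
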