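import Crest.Agent.R249.AsmD5_832
import Crest.Agent.R249.Fin2_832
import Crest.Agent.R249.Cov11_802
import Crest.Agent.R249.PoisC_324

/-!
# R249 (S0386), part D: what is left (helper832)

`S0386_of_parts` : the statement of S0386 from `IdxStmt` (part C) and the closed statements of
D3 (`SDStmt`, `AvStmt`, `ChStmt`, `MsStStmt`, `SysStmt`, `RegStmt`, `WhStmt`).
-/

set_option autoImplicit false
set_option maxSynthPendingDepth 3
noncomputable section
open Set Filter Topology Bundle MeasureTheory Metric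
open scoped ContDiff Manifold ENNReal NNReal
open Crest.GeometryTopology.CoordMetric Crest.GeometryTopology.ChartCurvature
  Crest.GeometryTopology.RicciEnergy Crest.GeometryTopology.PointedLimit
open Crest.Agent.R249.D1Def104 Crest.Agent.R249.Ul174 Crest.Agent.R249.Pul47
  Crest.Agent.R249.Len47 Crest.Agent.R249.LimDef41 Crest.Agent.R249.Fin832

namespace Crest.Agent.R249.AsmD832

/-- the conclusion of S0386 -/
def S0386Concl : Prop :=
  ∃ ε : ℝ, 0 < ε ∧ ∀ (M : Type) [MetricSpace M] [ChartedSpace (EuclideanSpace ℝ (Fin 4)) M]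
      [IsManifold 𝓘(ℝ, EuclideanSpace ℝ (Fin 4)) ∞ M] [CompactSpace M] [SimplyConnectedSpace M]
      [RiemannianBundle (fun x : M => TangentSpace 𝓘(ℝ, EuclideanSpace ℝ (Fin 4)) x)]
      [IsContMDiffRiemannianBundle 𝓘(ℝ, EuclideanSpace ℝ (Fin 4)) ∞ (EuclideanSpace ℝ (Fin 4))
        (fun x : M => TangentSpace 𝓘(ℝ, EuclideanSpace ℝ (Fin 4)) x)]
      [IsRiemannianManifold 𝓘(ℝ, EuclideanSpace ℝ (Fin 4)) M]
      [MeasurableSpace M] [BorelSpace M],
      HasNonnegSectionalCurvature 4 M → tracefreeRicciEnergy 4 M < ENNReal.ofReal ε →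
        IsDiffeoToRoundFourSphere M ∨ IsDiffeoToComplexProjectivePlane M ∨
          IsDiffeoToTwoSphereProduct M

/-- S0386 from part C and THEOREM R -/
theorem S0386_of_idx_r (hI : IdxStmt) (hR : RThm)
    (hcl : EinsteinNonnegSectionalAreModelCovered) : S0386Concl :=
  S0386_of' hI Grn324.poisStmt hR Cov11_802.covEnd hcl

/-- S0386 from part C and the closed statements of D3 -/
theorem S0386_of_parts (hI : IdxStmt) (hSD : SDStmt) (hAv : AvStmt) (hCh : ChStmt)
    (hMs : MsStStmt) (hSys : SysStmt) (hReg : RegStmt) (hWh : WhStmt)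
    (hcl : EinsteinNonnegSectionalAreModelCovered) : S0386Concl :=
  S0386_of_idx_r hI (rthm_of hSD hAv hCh hMs hSys hReg hWh) hcl

end Crest.Agent.R249.AsmD832
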