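import Crest.Agent.R249.Fin1_832
import Crest.Agent.R249.RegEin_717

/-!
# R249, D3-LIM/FIN (helper832), part 3: `regStmt : RegStmt` (from helper717's `EinW`)
-/

set_option autoImplicit false
noncomputable section
open Set Filter Topology MeasureTheory Metric
open scoped ContDiff ENNReal NNReal Matrix
open Crest.GeometryTopology.CoordMetric
open Crest.Agent.R249.LPt_191 (N1 sS kos)
open Crest.Agent.R249.RegEin_717 Crest.Agent.R249.Ric2_672
open Crest.Agent.R249.RegKer_717 (LH WDOn)
open Crest.Agent.R247.Frd657 (L2On)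
open Crest.Agent.R249.Lim41 (CS LOut)

namespace Crest.Agent.R249.Fin832

theorem sk_eq_sS {n : ℕ} (F : Matrix (Fin n) (Fin n) ℝ) (P : Fin n → Fin n → Fin n → ℝ)
    (a b : Fin n) : Sk F⁻¹ P a b = sS F P a b := by
  unfold Sk sS
  refine Finset.sum_congr rfl fun c _ => ?_
  rw [Finset.sum_comm]
  rfl

theorem abs_entry_le {n : ℕ} {A : Matrix (Fin n) (Fin n) ℝ} (hn : N1 (A - 1) ≤ 1 / 8)
    (a b : Fin n) : |A a b| ≤ 2 := by
  have h1 := (LPt_191.abs_le_N1 (A - 1) a b).trans hn
  rw [Matrix.sub_apply] at h1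
  have h2 : |(1 : Matrix (Fin n) (Fin n) ℝ) a b| ≤ 1 := by
    rw [Matrix.one_apply]
    split_ifs <;> simp
  have h3 : |A a b| ≤ |A a b - (1 : Matrix (Fin n) (Fin n) ℝ) a b| +
      |(1 : Matrix (Fin n) (Fin n) ℝ) a b| := by
    have := abs_add_le (A a b - (1 : Matrix (Fin n) (Fin n) ℝ) a b)
      ((1 : Matrix (Fin n) (Fin n) ℝ) a b)
    rwa [sub_add_cancel] at this
  linarith

/-- the open and closed balls agree almost everywhere -/
theorem setIntegral_closedBall {n : ℕ} (f : EuclideanSpace ℝ (Fin n) → ℝ)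
    (y : EuclideanSpace ℝ (Fin n)) {r : ℝ} (hr : 0 < r) :
    ∫ t in closedBall y r, f t = ∫ t in ball y r, f t := by
  refine setIntegral_congr_set ?_
  refine (Filter.EventuallyLE.antisymm ?_ ?_)
  · rw [ae_le_set, closedBall_sdiff_ball]
    exact Measure.addHaar_sphere_of_ne_zero _ _ hr.ne'
  · exact (ball_subset_closedBall).eventuallyLE

theorem einW_of_lOut {n : ℕ} {Ω : Set (EuclideanSpace ℝ (Fin n))} {h : MetricField n}
    {H : Fin n → Fin n → Fin n → EuclideanSpace ℝ (Fin n) → ℝ} {lam C α : ℝ} (hΩ : IsOpen Ω)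
    (hα : 1 / 2 < α) (hα1 : α < 1) (hs : ∀ y ∈ Ω, ∀ a b, h y a b = h y b a)
    (hn : ∀ y ∈ Ω, N1 (h y - 1) ≤ 1 / 8)
    (hh : ∀ x ∈ Ω, ∀ y ∈ Ω, ∀ a b, |h x a b - h y a b| ≤ C * dist x y ^ α)
    (hL : LOut Ω h H lam C α) :
    EinW Ω α lam h (fun a b c y => ∑ d, h y c d * H a b d y) := by
  have hpd : ∀ x ∈ Ω, (h x).PosDef := fun x hx => posDef_of_near (hs x hx) (hn x hx)
  have hhol : ∀ a b, LH α Ω (fun x => h x a b) := fun a b =>
    LH_of_dist hΩ (fun x hx y hy => hh x hx y hy a b)
  have hcont : ∀ a b, ContinuousOn (fun x => h x a b) Ω := fun a b =>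
    RegKer_717.LH.continuousOn (by linarith) (hhol a b)
  have hCS : ∀ φ : EuclideanSpace ℝ (Fin n) → ℝ, Crest.Agent.R202.Ell.IsTest φ →
      tsupport φ ⊆ Ω → CS Ω φ := fun φ h1 h2 => ⟨h1.smooth, h1.cpt, h2⟩
  have hzero : ∀ φ : EuclideanSpace ℝ (Fin n) → ℝ, tsupport φ ⊆ Ω → ∀ x, x ∉ Ω → φ x = 0 :=
    fun φ h2 x hx => image_eq_zero_of_notMem_tsupport fun h3 => hx (h2 h3)
  have hL2 : ∀ a b c, L2On Ω (fun y => ∑ d, h y c d * H a b d y) := fun a b c =>
    l2_sum _ fun d _ => l2_mul (Crest.Agent.R247.Frd657.L2On.of_memLp (hL.mem a b d)) (hcont c d)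
  have hinv : ∀ x ∈ Ω, ∀ a b e, ∑ c, (h x)⁻¹ e c * ∑ d, h x c d * H a b d x = H a b e x := by
    intro x hx a b e
    have h1 : (h x)⁻¹ * h x = 1 := Matrix.nonsing_inv_mul _ (hpd x hx).det_pos.ne'.isUnit
    have h2 : ∀ d, ∑ c, (h x)⁻¹ e c * h x c d = if e = d then 1 else 0 := by
      intro d
      have := congrFun (congrFun h1 e) d
      rw [Matrix.mul_apply, Matrix.one_apply] at this
      exact this
    simp only [Finset.mul_sum]
    rw [Finset.sum_comm]
    have h3 : ∀ d, ∑ c, (h x)⁻¹ e c * (h x c d * H a b d x) =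
        (if e = d then 1 else 0) * H a b d x := by
      intro d
      rw [← h2 d, Finset.sum_mul]
      exact Finset.sum_congr rfl fun c _ => by ring
    simp only [h3]
    simp
  refine ⟨hα, hα1, hΩ, hhol, hpd, hL2, ?_, ?_, ?_, ?_⟩
  · -- Morrey bound
    intro x hx
    obtain ⟨r, hr, hrs⟩ := Metric.nhds_basis_closedBall.mem_iff.1 (hΩ.mem_nhds hx)
    refine ⟨r / 2, by positivity, ∑ _d : Fin n, ∑ _d : Fin n, 4 * max C 0, by positivity,
      fun y hy ρ hρ hρr a b c => ?_⟩
    have hsub : closedBall y ρ ⊆ Ω := by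
      refine Subset.trans ?_ hrs
      refine closedBall_subset_closedBall' ?_
      have := mem_closedBall.1 hy
      linarith
    have hsub' : ball y ρ ⊆ Ω := ball_subset_closedBall.trans hsub
    have hint : ∀ d, IntegrableOn (fun t => H a b d t ^ 2) (ball y ρ) := fun d =>
      ((hL.mem a b d).integrable_sq).integrableOn
    rw [setIntegral_closedBall _ _ hρ]
    have hpt : ∀ t ∈ ball y ρ, (∑ d, h t c d * H a b d t) ^ 2 ≤
        ∑ _d' : Fin n, ∑ d, 4 * H a b d t ^ 2 := by
      intro t ht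
      have hb : ∀ d, |h t c d| ≤ 2 := fun d => abs_entry_le (hn t (hsub' ht)) c d
      have h1 : (∑ d, h t c d * H a b d t) ^ 2 ≤
          (Finset.univ : Finset (Fin n)).card * ∑ d, (h t c d * H a b d t) ^ 2 :=
        sq_sum_le_card_mul_sum_sq
      refine h1.trans ?_
      rw [Finset.sum_const, nsmul_eq_mul]
      refine mul_le_mul_of_nonneg_left (Finset.sum_le_sum fun d _ => ?_) (by positivity)
      rw [mul_pow]
      have h2 : h t c d ^ 2 ≤ 4 := by
        have := hb d
        rw [← sq_abs]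
        nlinarith [abs_nonneg (h t c d)]
      nlinarith [sq_nonneg (H a b d t)]
    calc ∫ t in ball y ρ, (∑ d, h t c d * H a b d t) ^ 2
        ≤ ∫ t in ball y ρ, ∑ _d' : Fin n, ∑ d, 4 * H a b d t ^ 2 := by
          refine integral_mono_of_nonneg (Eventually.of_forall fun t => sq_nonneg _) ?_ ?_
          · exact integrable_finsetSum _ fun _ _ => integrable_finsetSum _ fun d _ =>
              (hint d).const_mul 4
          · rw [EventuallyLE, ae_restrict_iff' measurableSet_ball]
            exact Eventually.of_forall hpt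
      _ = ∑ _d' : Fin n, ∑ d, 4 * ∫ t in ball y ρ, H a b d t ^ 2 := by
          rw [integral_finsetSum _ fun _ _ => integrable_finsetSum _ fun d _ =>
              (hint d).const_mul 4]
          refine Finset.sum_congr rfl fun _ _ => ?_
          rw [integral_finsetSum _ fun d _ => (hint d).const_mul 4]
          refine Finset.sum_congr rfl fun d _ => ?_
          rw [integral_const_mul]
      _ ≤ ∑ _d' : Fin n, ∑ _d : Fin n, 4 * (max C 0 * ρ ^ ((n : ℝ) - 2 + 2 * α)) := by
          refine Finset.sum_le_sum fun _ _ => Finset.sum_le_sum fun d _ => ?_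
          refine mul_le_mul_of_nonneg_left ?_ (by norm_num)
          refine (hL.morrey y ρ hρ hsub a b d).trans ?_
          exact mul_le_mul_of_nonneg_right (le_max_left _ _) (by positivity)
      _ = (∑ _d : Fin n, ∑ _d : Fin n, 4 * max C 0) * ρ ^ ((n : ℝ) - 2 + 2 * α) := by
          simp only [Finset.sum_const, nsmul_eq_mul]
          ring
  · -- weak derivatives
    intro a b e φ hφ hφs
    have h1 := hL.wd a b e φ (hCS φ hφ hφs)
    rw [h1]
    congr 1
    refine integral_congr_ae (Eventually.of_forall fun x => ?_)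
    simp only
    by_cases hx : x ∈ Ω
    · rw [hinv x hx a b e]
      ring
    · rw [hzero φ hφs x hx]
      ring
  · -- divergence
    intro b φ hφ hφs
    rw [← hL.div b φ (hCS φ hφ hφs)]
    refine integral_congr_ae (Eventually.of_forall fun x => ?_)
    refine Finset.sum_congr rfl fun a _ => ?_
    ring
  · -- system
    intro a b φ hφ hφs
    have h1 := hL.sys a b φ (hCS φ hφ hφs)
    have e1 : ∫ x, ∑ c, (√(h x).det)⁻¹ * (∑ d, h x c d * H a b d x) * pderiv c φ x =
        ∫ y, ∑ c, pderiv c φ y * ((√(h y).det)⁻¹ * ∑ d, h y c d * H a b d y) := by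
      refine integral_congr_ae (Eventually.of_forall fun x => ?_)
      refine Finset.sum_congr rfl fun c _ => ?_
      ring
    rw [e1, h1]
    congr 1
    refine integral_congr_ae (Eventually.of_forall fun x => ?_)
    simp only
    rw [sk_eq_sS]
    ring

/-- **`RegStmt` holds.** -/
theorem regStmt : RegStmt := by
  intro Ω h H lam C α hΩ hα hα1 _ hs hn hh hL
  have hE := einW_of_lOut hΩ (by linarith) hα1 hs hn hh hL
  refine ⟨fun a b => (hE.riem (by norm_num)).contDiffOn a b, fun x hx i j => ?_⟩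
  exact hE.ricci (by norm_num) x hx i j

end Crest.Agent.R249.Fin832
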