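import Crest.Agent.R249.WH3_509
import Crest.Agent.R249.LimDef_41

/-!
# R249, D3-LIM/WH (4) (helper509): leaf WH of `LimDef_41`

`wh_all` : `HData`, `AvOut`, `ChOut`, `SpOut`, `MsOut`, `StOut` and a chart `C : RChart` with
`C.e = e`, `C.h = h⁻¹` give `HarmChart 4 C.e`, `CoordHarm C`, `WH 4 C`.
-/

set_option autoImplicit false
set_option maxSynthPendingDepth 3
set_option linter.unusedSectionVars false

open Bundle Set MeasureTheory Manifold Filter Metric Topology
open scoped ENNReal ContDiff Topology NNReal RealInnerProductSpace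
open Crest.GeometryTopology.CoordMetric Crest.GeometryTopology.ChartCurvature
open Crest.GeometryTopology.PointedLimit
open Crest.Agent.R247 Crest.Agent.R247.Bo84 Crest.Agent.R249.Ul174
open Crest.Agent.R249.AsmD832 Crest.Agent.R249.Len47 Crest.Agent.R249.LimDef41

noncomputable section
namespace Crest.Agent.R249.WH_509

variable {M : ℕ → Type} [∀ k, MetricSpace (M k)]
  [∀ k, ChartedSpace (EuclideanSpace ℝ (Fin 4)) (M k)]
  [∀ k, IsManifold 𝓘(ℝ, EuclideanSpace ℝ (Fin 4)) ∞ (M k)]
  [∀ k, RiemannianBundle (fun x : M k => TangentSpace 𝓘(ℝ, EuclideanSpace ℝ (Fin 4)) x)]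
  [∀ k, IsContMDiffRiemannianBundle 𝓘(ℝ, EuclideanSpace ℝ (Fin 4)) ∞ (EuclideanSpace ℝ (Fin 4))
    (fun x : M k => TangentSpace 𝓘(ℝ, EuclideanSpace ℝ (Fin 4)) x)]
  [∀ k, MeasurableSpace (M k)] [∀ k, BorelSpace (M k)]

variable {q : ∀ k, M k} {x : ∀ k, M k} {hx : Bd q x}

theorem Link.congr {s₀ : ℝ} {U : ∀ k, M k → EuclideanSpace ℝ (Fin 4)}
    {e : OpenPartialHomeomorph (UL q) (EuclideanSpace ℝ (Fin 4))}
    {G G' : EuclideanSpace ℝ (Fin 4) → Fin 4 → Fin 4 → ℝ} {J J' : EuclideanSpace ℝ (Fin 4) → ℝ}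
    (L : Link x hx s₀ U e G J) (hG : ∀ w ∈ e.target, ∀ a b, G' w a b = G w a b)
    (hJ : ∀ w ∈ e.target, J' w = J w) : Link x hx s₀ U e G' J' where
  harm := L.harm
  lim := L.lim
  sub := L.sub
  inj := L.inj
  supp := L.supp
  contG := fun a b => (L.contG a b).congr fun w hw => hG w hw a b
  contJ := L.contJ.congr fun w hw => hJ w hw
  meas := by
    intro φ hφ hc hs
    have h1 := L.meas φ hφ hc hs
    have e1 : (fun w => φ w * J w) = fun w => φ w * J' w := by
      funext w
      by_cases hw : w ∈ tsupport φ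
      · rw [hJ w (hs hw)]
      · rw [image_eq_zero_of_notMem_tsupport hw, zero_mul, zero_mul]
    rwa [e1] at h1
  gram := by
    intro φ hφ hc hs a b
    have h1 := L.gram φ hφ hc hs a b
    have e1 : ∀ k, (fun y => |φ (U k y)| *
        |mGam 4 (fun z => U k z a) (fun z => U k z b) y - G (U k y) a b|) = fun y =>
        |φ (U k y)| * |mGam 4 (fun z => U k z a) (fun z => U k z b) y - G' (U k y) a b| := by
      intro k
      funext y
      by_cases hw : U k y ∈ tsupport φ
      · rw [hG _ (hs hw)]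
      · rw [image_eq_zero_of_notMem_tsupport hw, abs_zero, zero_mul, zero_mul]
    simpa only [e1] using h1

variable {ρ α C C' ε ε₁ δ lam : ℝ} {lamk : ℕ → ℝ} {u : ∀ k, Fin 4 → M k → ℝ}
  {h : UL q → Matrix (Fin 4) (Fin 4) ℝ} {r₀ : ℝ} {U : UL q → EuclideanSpace ℝ (Fin 4)}
  {e : OpenPartialHomeomorph (UL q) (EuclideanSpace ℝ (Fin 4))}

theorem continuousOn_h (A : AvOut x hx ρ α C' ε₁ u h) (hα : 0 < α) (a b : Fin 4) :
    ContinuousOn (fun z => h z a b) (ball (UL.mk x hx) (4 * ρ)) := by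
  intro z hz
  rw [ContinuousWithinAt, tendsto_iff_dist_tendsto_zero]
  have h1 : Tendsto (fun z' => C' * dist z' z ^ α) (𝓝[ball (UL.mk x hx) (4 * ρ)] z) (𝓝 0) := by
    have h2 : Tendsto (fun z' => dist z' z) (𝓝[ball (UL.mk x hx) (4 * ρ)] z) (𝓝 0) := by
      have h3 : ContinuousWithinAt (fun z' => dist z' z) (ball (UL.mk x hx) (4 * ρ)) z :=
        (continuous_id.dist continuous_const).continuousWithinAt
      rw [ContinuousWithinAt, dist_self] at h3
      exact h3
    have h4 := (h2.rpow_const (p := α) (Or.inr hα.le)).const_mul C'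
    rwa [Real.zero_rpow hα.ne', mul_zero] at h4
  refine squeeze_zero' (Eventually.of_forall fun _ => dist_nonneg) ?_ h1
  filter_upwards [self_mem_nhdsWithin] with z' hz'
  rw [Real.dist_eq]
  exact A.hold z' hz' z hz a b

/-- the chart data of `LimDef_41` form a `Link`. -/
theorem link_of (H : HData x ρ α C ε δ lam lamk u) (A : AvOut x hx ρ α C' ε₁ u h)
    (Ch : ChOut x hx ρ u h r₀ U e) (Sp : SpOut x u r₀ e) (Ms : MsOut x u h r₀ e)
    (St : StOut x u h r₀ e) (hdet : ∀ w ∈ e.target, 0 < (h (e.symm w)).det) :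
    Link x hx r₀ (fun k y => WithLp.toLp 2 fun a => u k a y) e
      (fun w a b => h (e.symm w) a b) (fun w => (√(h (e.symm w)).det)⁻¹) := by
  have hr1 := Ch.r_le
  have hr0 := Ch.r_pos
  have hρ := H.ρ_pos
  have hcG : ∀ a b, ContinuousOn (fun w => h (e.symm w) a b) e.target := fun a b =>
    (continuousOn_h A (lt_trans (by norm_num) H.α_gt) a b).comp e.continuousOn_symm fun w hw => by
      have h1 := e.map_target hw
      rw [Ch.source] at h1
      exact ball_subset_ball (by linarith) h1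
  constructor
  · intro a
    filter_upwards [H.smooth, H.harm] with k hk1 hk2
    have hsub : ball (x k) r₀ ⊆ ball (x k) (16 * ρ) := ball_subset_ball (by linarith)
    exact ⟨(hk1 a).mono hsub, fun p hp => hk2 a p (hsub hp)⟩
  · intro a y hy hyb
    have h1 := Ch.lim a y hy (ball_subset_ball (by linarith) hyb)
    simp only [Ch.eq]
    exact h1
  · rw [Ch.source]
  · intro z hz _
    rw [Ch.source]
    exact hz
  · intro K hK hKt
    obtain ⟨r₁, -, hr₁, hev⟩ := Sp K hK hKt
    refine ⟨r₁, hr₁, hev.mono fun k hk y hy hyK => ?_⟩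
    rw [dist_comm]
    exact hk y (ball_subset_closedBall hy) hyK
  · exact hcG
  · have h1 : ContinuousOn (fun w => (h (e.symm w)).det) e.target := by
      have h2 : ContinuousOn (fun w => h (e.symm w)) e.target :=
        continuousOn_pi.2 fun a => continuousOn_pi.2 fun b => hcG a b
      exact continuous_id.matrix_det.comp_continuousOn h2
    refine ContinuousOn.inv₀ (Real.continuous_sqrt.comp_continuousOn h1) fun w hw => ?_
    exact (Real.sqrt_pos.2 (hdet w hw)).ne'
  · intro φ hφ hc hs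
    exact Ms φ ⟨hφ, hc, hs⟩
  · intro φ hφ hc hs a b
    have h1 := St φ ⟨hφ, hc, hs⟩ a b
    simpa only [abs_mul] using h1

variable [∀ k, IsRiemannianManifold 𝓘(ℝ, EuclideanSpace ℝ (Fin 4)) (M k)]
  [∀ k, CompleteSpace (M k)] [∀ k, ConnectedSpace (M k)]

/-- **leaf WH.** -/
theorem wh_all (H : HData x ρ α C ε δ lam lamk u) (A : AvOut x hx ρ α C' ε₁ u h)
    (Ch : ChOut x hx ρ u h r₀ U e) (Sp : SpOut x u r₀ e) (Ms : MsOut x u h r₀ e)
    (St : StOut x u h r₀ e) {lam' : ℝ} (R : RChart 4 (UL q) lam') (hRe : R.e = e)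
    (hRh : ∀ w ∈ e.target, R.h w = (h (e.symm w))⁻¹) :
    HarmChart 4 R.e ∧ CoordHarm R ∧ WH 4 R := by
  subst hRe
  have hpd : ∀ w ∈ R.e.target, (h (R.e.symm w)).PosDef := by
    intro w hw
    have h1 := R.riem.posDef w hw
    rw [hRh w hw] at h1
    have h2 : (h (R.e.symm w)).det ≠ 0 := by
      intro h0
      have h3 := h1.det_pos
      rw [Matrix.nonsing_inv_apply_not_isUnit _ (by rw [h0]; exact not_isUnit_zero)] at h3
      simp at h3
    have h4 := h1.inv
    rwa [Matrix.nonsing_inv_nonsing_inv _ (Ne.isUnit h2)] at h4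
  have hdet : ∀ w ∈ R.e.target, 0 < (h (R.e.symm w)).det := fun w hw => (hpd w hw).det_pos
  have L := link_of H A Ch Sp Ms St hdet
  have L' : Link x hx r₀ (fun k y => WithLp.toLp 2 fun a => u k a y) R.e
      (fun w i j => inverseField R.h w i j) (fun w => Real.sqrt (R.h w).det) := by
    refine L.congr (fun w hw a b => ?_) fun w hw => ?_
    · unfold inverseField
      rw [hRh w hw, Matrix.nonsing_inv_nonsing_inv _ (hdet w hw).ne'.isUnit]
    · rw [hRh w hw, Matrix.det_nonsing_inv, Ring.inverse_eq_inv', Real.sqrt_inv]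
  exact ⟨L'.harmChart, L'.coordHarm, L'.wh_chart⟩

end Crest.Agent.R249.WH_509
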