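import Crest.Agent.R249.Fin1_832
import Crest.Agent.R249.WH4_509

/-!
# R249, D3-LIM/FIN (helper832), part 4: `whStmt : WhStmt` (from helper509's `wh_all`)
-/

set_option autoImplicit false
set_option maxSynthPendingDepth 3
noncomputable section
open Set Filter Topology Bundle MeasureTheory Metric
open scoped ContDiff Manifold ENNReal NNReal Matrix
open Crest.GeometryTopology.CoordMetric Crest.GeometryTopology.ChartCurvature
  Crest.GeometryTopology.RicciEnergy Crest.GeometryTopology.PointedLimit
open Crest.Agent.R249.Ul174 Crest.Agent.R249.AsmD832 Crest.Agent.R249.LimDef41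

namespace Crest.Agent.R249.Fin832

/-- **`WhStmt` holds.** -/
theorem whStmt : WhStmt := by
  refine ⟨1, 1, one_pos, one_pos, ?_⟩
  intro M _ _ _ _ _ _ _ _ _ _ q x hx ρ α C C' ε δ lam lamk u h r₀ U e _ hD hA hC hS hM hSt R
    hRe hRh
  exact WH_509.wh_all hD hA hC hS hM hSt R hRe fun w _ => by rw [hRh]; rfl

end Crest.Agent.R249.Fin832
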