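import Crest.Agent.R249.AsmD6_832
import Crest.Agent.R249.Fin3_832
import Crest.Agent.R249.Fin4_832

/-!
# R249 (S0386), part D: what is left (helper832), 2

`S0386_of_parts'` : the statement of S0386 from `IdxStmt` (part C) and `SDStmt`, `AvStmt`, `ChStmt`,
`MsStStmt`, `SysStmt`.
-/

set_option autoImplicit false
open Crest.GeometryTopology.RicciEnergy
open Crest.Agent.R249.D1Def104 Crest.Agent.R249.LimDef41 Crest.Agent.R249.Fin832

namespace Crest.Agent.R249.AsmD832

/-- S0386 from part C and the closed statements of D3 -/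
theorem S0386_of_parts' (hI : IdxStmt) (hSD : SDStmt) (hAv : AvStmt) (hCh : ChStmt)
    (hMs : MsStStmt) (hSys : SysStmt)
    (hcl : EinsteinNonnegSectionalAreModelCovered) : S0386Concl :=
  S0386_of_parts hI hSD hAv hCh hMs hSys regStmt whStmt hcl

end Crest.Agent.R249.AsmD832
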