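import Crest.Agent.R249.Ch2_174

/-!
# R249 (helper174), D3-LIM/CH: the chart, final statement `chStmt : ChStmt`
-/

set_option autoImplicit false
noncomputable section
open Set Filter Topology Bundle MeasureTheory Metric
open scoped ContDiff Manifold ENNReal NNReal Matrix
open Crest.GeometryTopology.CoordMetric Crest.GeometryTopology.ChartCurvature
  Crest.GeometryTopology.RicciEnergy Crest.GeometryTopology.PointedLimit
open Crest.Agent.R247.Bo84
open Crest.Agent.R249.D1Def104 Crest.Agent.R249.Ul174 Crest.Agent.R249.Len47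
open Crest.Agent.R249.AsmD832 Crest.Agent.R249.LimDef41 Crest.Agent.R249.St174
open Crest.Agent.R249.VE_222 Crest.Agent.R249.Two709
open Crest.Agent.R249.UH1_544 Crest.Agent.R249.UH3_544

namespace Crest.Agent.R249.Ch174

section seq

local notation "𝔼" => EuclideanSpace ℝ (Fin 4)

variable {M : ℕ → Type} [∀ k, MetricSpace (M k)] [∀ k, CompleteSpace (M k)]
  [∀ k, ConnectedSpace (M k)] [∀ k, ChartedSpace (EuclideanSpace ℝ (Fin 4)) (M k)]
  [∀ k, IsManifold 𝓘(ℝ, EuclideanSpace ℝ (Fin 4)) ∞ (M k)]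
  [∀ k, RiemannianBundle (fun x : M k => TangentSpace 𝓘(ℝ, EuclideanSpace ℝ (Fin 4)) x)]
  [∀ k, IsContMDiffRiemannianBundle 𝓘(ℝ, EuclideanSpace ℝ (Fin 4)) ∞ (EuclideanSpace ℝ (Fin 4))
    (fun x : M k => TangentSpace 𝓘(ℝ, EuclideanSpace ℝ (Fin 4)) x)]
  [∀ k, IsRiemannianManifold 𝓘(ℝ, EuclideanSpace ℝ (Fin 4)) (M k)]
  [∀ k, MeasurableSpace (M k)] [∀ k, BorelSpace (M k)] {q : ∀ k, M k}
  {x : ∀ k, M k} {hx : Bd q x} {ρ α C C' ε ε₁ δ lam : ℝ} {lamk : ℕ → ℝ}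
  {u : ∀ k, Fin 4 → M k → ℝ} {h : UL q → Matrix (Fin 4) (Fin 4) ℝ}
  {U : UL q → EuclideanSpace ℝ (Fin 4)}

/-- the limit map is a near isometry, with respect to the Euclidean norm -/
theorem ul_ni_one (hδ : δ ≤ 1 / 2) {ε₀ : ℝ} (hε₀ : 0 < ε₀) (hε₀1 : ε₀ ≤ 1 / 2)
    (hε : ε₁ ≤ ε₀ / 16) (hD : HData x ρ α C ε δ lam lamk u)
    (hA : AvOut x hx ρ α C' ε₁ u h)
    (hlim : ∀ a, LimOn (ball (UL.mk x hx) (8 * ρ)) (fun k => u k a) fun y => U y a) :
    ∃ s₁ : ℝ, 0 < s₁ ∧ s₁ ≤ ρ ∧ ∀ y ∈ ball (UL.mk x hx) (4 * ρ),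
      ∀ y' ∈ ball (UL.mk x hx) (4 * ρ), dist y y' < s₁ →
      |dist (U y) (U y') - dist y y'| ≤ ε₀ * dist y y' := by
  have hρ := hD.ρ_pos
  have hε2 : ε₁ ≤ 1 / 2 := by linarith
  obtain ⟨s₁, h1, h2, h3⟩ := ul_ni hδ hε2 hD hA hlim (η := ε₀ / 8) (by positivity)
  refine ⟨s₁ / 2, by positivity, by linarith, ?_⟩
  intro y hy y' hy' hd
  rcases eq_or_ne y y' with rfl | hne
  · simp
  have hd0 : 0 < dist y y' := dist_pos.2 hne
  set d := dist y y' with hdd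
  have e1 := h3 y hy (2 * d) (by positivity) (by linarith) y (mem_ball_self (by positivity)) y'
    (by rw [mem_ball, dist_comm, ← hdd]; linarith)
  have hsym : (h y).IsSymm := by
    ext a b; exact hA.symm y b a
  have hε10 : 0 ≤ ε₁ := le_trans (Finset.sum_nonneg fun _ _ => Finset.sum_nonneg fun _ _ =>
    abs_nonneg _) (hA.near y hy)
  have e2 := sqrt_qf_inv_near hsym hε2 (hA.near y hy) (U y - U y')
  rw [← dist_eq_norm] at e2
  set D := dist (U y) (U y') with hDD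
  have hDn : 0 ≤ D := dist_nonneg
  have e3 := abs_le.1 e1
  have e4 := abs_le.1 e2
  -- `D ≤ 2 d`
  have e5 : D ≤ 2 * d := by nlinarith [e3.1, e3.2, e4.1, e4.2]
  have e6 : 4 * ε₁ * D ≤ ε₀ / 2 * d := by nlinarith
  rw [abs_le]
  constructor <;> nlinarith [e3.1, e3.2, e4.1, e4.2]

/-- the infinitesimal scale, uniformly -/
theorem ul_inf (hδ : δ ≤ 1 / 2) (hε : ε₁ ≤ 1 / 2) (hD : HData x ρ α C ε δ lam lamk u)
    (hA : AvOut x hx ρ α C' ε₁ u h)
    (hlim : ∀ a, LimOn (ball (UL.mk x hx) (8 * ρ)) (fun k => u k a) fun y => U y a) {r₀ : ℝ}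
    (hr : 4 * r₀ ≤ ρ)
    (hni : ∀ y ∈ ball (UL.mk x hx) (4 * r₀), ∀ y' ∈ ball (UL.mk x hx) (4 * r₀),
      |dist (U y) (U y') - dist y y'| ≤ 1 / 10 * dist y y') {η : ℝ} (hη : 0 < η) :
    ∃ r : ℝ, 0 < r ∧ ∀ y ∈ ball (UL.mk x hx) (4 * r₀),
      ∀ y' ∈ ball (UL.mk x hx) (4 * r₀), ∀ y'' ∈ ball (UL.mk x hx) (4 * r₀), dist y y' < r →
        dist y y'' < r → |√(qf (h y)⁻¹ (U y' - U y'')) - dist y' y''| ≤ η * dist y' y'' := by
  have hρ := hD.ρ_pos
  have hα0 : 0 < α := by linarith [hD.α_gt]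
  obtain ⟨s₁, h1, h2, h3⟩ := ul_ni hδ hε hD hA hlim (η := η / 4) (by positivity)
  set D : ℝ := |C'| with hDdef
  have hD0 : 0 ≤ D := abs_nonneg _
  have ht : ∀ᶠ r : ℝ in 𝓝[>] 0, (256 * D) * r ^ α < η := by
    have e1 : Tendsto (fun s : ℝ => s ^ α) (𝓝[>] 0) (𝓝 0) := by
      have e2 := (Real.continuousAt_rpow_const (0 : ℝ) α (Or.inr hα0.le)).tendsto
      rw [Real.zero_rpow hα0.ne'] at e2
      exact e2.mono_left nhdsWithin_le_nhds
    have e3 : Tendsto (fun s : ℝ => (256 * D) * s ^ α) (𝓝[>] 0) (𝓝 0) := by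
      simpa using e1.const_mul (256 * D)
    exact (tendsto_order.1 e3).2 η hη
  have ht2 : ∀ᶠ r : ℝ in 𝓝[>] 0, r ∈ Ioo (0 : ℝ) (s₁ / 4) := Ioo_mem_nhdsGT (by positivity)
  obtain ⟨r, hr1, hr2⟩ := (ht.and ht2).exists
  refine ⟨r, hr2.1, ?_⟩
  intro y hy y' hy' y'' hy'' hd1 hd2
  have h4 : ∀ w ∈ ball (UL.mk x hx) (4 * r₀), w ∈ ball (UL.mk x hx) (4 * ρ) := fun w hw =>
    ball_subset_ball (by linarith) hw
  rcases eq_or_ne y' y'' with rfl | hne
  · have : qf (h y)⁻¹ (U y' - U y') = 0 := by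
      rw [sub_self, qf_eq_sum]; simp
    rw [this]; simp
  have hd0 : 0 < dist y' y'' := dist_pos.2 hne
  set d := dist y' y'' with hdd
  have hd3 : d < 2 * r := by
    have := dist_triangle_left y' y'' y
    linarith
  have e1 := h3 y' (h4 y' hy') (2 * d) (by positivity) (by linarith [hr2.2]) y'
    (mem_ball_self (by positivity)) y'' (by rw [mem_ball, dist_comm, ← hdd]; linarith)
  have hN : ∀ w ∈ ball (UL.mk x hx) (4 * r₀), Nr (h w) := fun w hw =>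
    Nr.of_near (by ext a b; exact hA.symm w b a) hε (hA.near w (h4 w hw))
  have e2 := sqrt_qf_inv_sub (hN y hy) (hN y' hy') (U y' - U y'')
  have hS : ∑ a, ∑ b, |h y a b - h y' a b| ≤ 16 * (D * r ^ α) := by
    calc ∑ a, ∑ b, |h y a b - h y' a b| ≤ ∑ _a : Fin 4, ∑ _b : Fin 4, D * r ^ α := by
          refine Finset.sum_le_sum fun a _ => Finset.sum_le_sum fun b _ => ?_
          refine (hA.hold y (h4 y hy) y' (h4 y' hy') a b).trans ?_
          calc C' * dist y y' ^ α ≤ D * dist y y' ^ α := by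
                gcongr
                exact le_abs_self _
            _ ≤ D * r ^ α :=
                mul_le_mul_of_nonneg_left (Real.rpow_le_rpow dist_nonneg hd1.le hα0.le) hD0
      _ = 16 * (D * r ^ α) := by
          simp only [Finset.sum_const, Finset.card_univ, Fintype.card_fin, nsmul_eq_mul]
          push_cast
          ring
  have e3 : ‖U y' - U y''‖ ≤ 2 * d := by
    rw [← dist_eq_norm]
    have := (abs_le.1 (hni y' hy' y'' hy'')).2
    linarith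
  have e4 : 4 * (∑ a, ∑ b, |h y a b - h y' a b|) * ‖U y' - U y''‖ ≤ η / 2 * d := by
    have h5 : 0 ≤ ∑ a, ∑ b, |h y a b - h y' a b| :=
      Finset.sum_nonneg fun _ _ => Finset.sum_nonneg fun _ _ => abs_nonneg _
    calc 4 * (∑ a, ∑ b, |h y a b - h y' a b|) * ‖U y' - U y''‖
        ≤ 4 * (16 * (D * r ^ α)) * (2 * d) :=
          mul_le_mul (mul_le_mul_of_nonneg_left hS (by norm_num)) e3 (norm_nonneg _)
            (mul_nonneg (by norm_num) (h5.trans hS))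
      _ = (256 * D) * r ^ α / 2 * d := by ring
      _ ≤ η / 2 * d := by gcongr
  calc |√(qf (h y)⁻¹ (U y' - U y'')) - d|
      = |(√(qf (h y)⁻¹ (U y' - U y'')) - √(qf (h y')⁻¹ (U y' - U y''))) +
        (√(qf (h y')⁻¹ (U y' - U y'')) - d)| := by ring_nf
    _ ≤ |√(qf (h y)⁻¹ (U y' - U y'')) - √(qf (h y')⁻¹ (U y' - U y''))| +
        |√(qf (h y')⁻¹ (U y' - U y'')) - d| := abs_add_le _ _
    _ ≤ η / 2 * d + η / 4 * (2 * d) := add_le_add (e2.trans e4) e1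
    _ = η * d := by ring

end seq

/-- **CH** -/
theorem chStmt : ChStmt := by
  obtain ⟨ε₀, hε₀, hε₀1, hε₀η, hnum⟩ := num 4 (1 / 10) (by norm_num)
  obtain ⟨c, hc, δ', hδ', H⟩ := ul_chart_R.{0} 4 ε₀ hε₀
  refine ⟨ε₀ / 16, min (1 / 2) δ', by positivity, by positivity, ?_⟩
  intro M _ _ _ _ _ _ _ _ _ _ q x hx ρ α C C' ε δ lam lamk u h hδ hD hA
  have hρ := hD.ρ_pos
  have hδ1 : δ ≤ 1 / 2 := hδ.trans (min_le_left _ _)
  have hδ2 : δ ≤ δ' := hδ.trans (min_le_right _ _)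
  obtain ⟨U, hlim, hU0⟩ := exists_U (hx := hx) hD
  obtain ⟨s₁, hs1, hs1ρ, hni1⟩ := ul_ni_one hδ1 hε₀ hε₀1 le_rfl hD hA hlim
  -- the radius
  set r₀ : ℝ := min (s₁ / 16) (4 * c * ρ) with hr₀
  have hr0 : 0 < r₀ := by positivity
  have hr1 : r₀ ≤ s₁ / 16 := min_le_left _ _
  have hr2 : 4 * r₀ ≤ c * (16 * ρ) := by
    have : r₀ ≤ 4 * c * ρ := min_le_right _ _
    linarith
  have hr3 : 4 * r₀ ≤ ρ := by linarith
  set p : UL q := UL.mk x hx with hp
  have hNI : NI U p (4 * r₀) ε₀ := by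
    intro y y' hy hy'
    have e1 := dist_triangle_left y y' p
    exact hni1 y (by rw [mem_ball, dist_comm]; linarith) y' (by rw [mem_ball, dist_comm]; linarith)
      (by linarith)
  let _ : MeasurableSpace (UL q) := borel _
  have _ : BorelSpace (UL q) := ⟨rfl⟩
  obtain ⟨-, -, -, -, hV⟩ := H M q x hx (16 * ρ) (by positivity) hD.ric (by
    filter_upwards [hD.pinch] with k hk y hy r hr hr'
    refine le_trans ?_ (hk y hy r hr hr')
    gcongr)
  have hVL : VolLow p (4 * r₀) 4 ε₀ := (hV.1).mono hr2 le_rfl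
  have hFull : Full U p (4 * r₀) ε₀ :=
    hNI.full hε₀.le (by linarith) (hnum ε₀ hε₀.le le_rfl).1 hVL
  obtain ⟨e, he1, he2, he3⟩ := homeo hε₀.le (by linarith) (hNI.mono (R' := r₀) (by linarith) le_rfl)
    (hFull.mono (R' := r₀) (by linarith) le_rfl)
  have hni : ∀ y ∈ ball p (4 * r₀), ∀ y' ∈ ball p (4 * r₀),
      |dist (U y) (U y') - dist y y'| ≤ 1 / 10 * dist y y' := by
    intro y hy y' hy'
    refine (hNI y y' (by rw [dist_comm]; exact hy) (by rw [dist_comm]; exact hy')).trans ?_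
    gcongr
  have hsrc : e.source = ball p r₀ := he1
  refine ⟨r₀, U, e, ⟨hr0, hr3, hlim, he3, hsrc, ?_, hni, ?_⟩, ?_⟩
  · intro w hw
    rw [he2]
    obtain ⟨z, hz1, hz2⟩ := hFull p r₀ hr0 (fun y hy => by linarith) w (by
      rw [hU0, dist_comm]
      have : dist w 0 < r₀ / 2 := hw
      nlinarith)
    exact ⟨z, by rw [mem_ball, dist_comm]; exact hz1, hz2⟩
  · intro η hη
    exact ul_inf hδ1 (by linarith) hD hA hlim hr3 hni hη
  · exact spOut (R := 8 * ρ) hr0 (by linarith) hlim he3 hsrc hni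

end Crest.Agent.R249.Ch174
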