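import Crest.Agent.R249.Fin1_832
import Crest.Agent.R249.LimH_41

/-!
# R249, D3-LIM/FIN (helper832), part 5: `SysStmt` from the leaf BD and helper41's `lim_main`

* `BDStmt` : the closed statement of the leaf BD (`LData` from `HData`, ..., `StOut`);
* `sys_of_bd : BDStmt → SysStmt`.
-/

set_option autoImplicit false
set_option maxSynthPendingDepth 3
noncomputable section
open Set Filter Topology Bundle MeasureTheory Metric
open scoped ContDiff Manifold ENNReal NNReal Matrix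
open Crest.GeometryTopology.CoordMetric Crest.GeometryTopology.ChartCurvature
  Crest.GeometryTopology.RicciEnergy Crest.GeometryTopology.PointedLimit
open Crest.Agent.R249.Ul174 Crest.Agent.R249.AsmD832 Crest.Agent.R249.LimDef41

namespace Crest.Agent.R249.Fin832

/-- closed statement of the leaf BD -/
def BDStmt : Prop := ∃ ε₁ δ₁ : ℝ, 0 < ε₁ ∧ 0 < δ₁ ∧
  ∀ (M : ℕ → Type) [∀ k, MetricSpace (M k)] [∀ k, CompleteSpace (M k)]
    [∀ k, ConnectedSpace (M k)] [∀ k, ChartedSpace (EuclideanSpace ℝ (Fin 4)) (M k)]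
    [∀ k, IsManifold 𝓘(ℝ, EuclideanSpace ℝ (Fin 4)) ∞ (M k)]
    [∀ k, RiemannianBundle (fun x : M k => TangentSpace 𝓘(ℝ, EuclideanSpace ℝ (Fin 4)) x)]
    [∀ k, IsContMDiffRiemannianBundle 𝓘(ℝ, EuclideanSpace ℝ (Fin 4)) ∞ (EuclideanSpace ℝ (Fin 4))
      (fun x : M k => TangentSpace 𝓘(ℝ, EuclideanSpace ℝ (Fin 4)) x)]
    [∀ k, IsRiemannianManifold 𝓘(ℝ, EuclideanSpace ℝ (Fin 4)) (M k)]
    [∀ k, MeasurableSpace (M k)] [∀ k, BorelSpace (M k)]
    (q : ∀ k, M k) (x : ∀ k, M k) (hx : Bd q x) (ρ α C C' ε δ lam : ℝ) (lamk : ℕ → ℝ)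
    (u : ∀ k, Fin 4 → M k → ℝ) (h : UL q → Matrix (Fin 4) (Fin 4) ℝ) (r₀ : ℝ)
    (U : UL q → EuclideanSpace ℝ (Fin 4))
    (e : OpenPartialHomeomorph (UL q) (EuclideanSpace ℝ (Fin 4))), δ ≤ δ₁ →
    HData x ρ α C ε δ lam lamk u → AvOut x hx ρ α C' ε₁ u h → ChOut x hx ρ u h r₀ U e →
    SpOut x u r₀ e → MsOut x u h r₀ e → StOut x u h r₀ e →
    ∃ (m : ∀ k, Measure (M k)) (v : ∀ k, M k → EuclideanSpace ℝ (Fin 4))
      (F : ∀ k, M k → Matrix (Fin 4) (Fin 4) ℝ)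
      (P : ∀ k, M k → Fin 4 → Fin 4 → Fin 4 → ℝ) (D G R : ∀ k, M k → Fin 4 → Fin 4 → ℝ)
      (Mm C'' : ℝ),
      Lim41.LData om e.target m v (fun y => h (e.symm y)) F P D G R lam Mm C'' α

/-- the output is monotone in the constant of the Morrey bound -/
theorem lOut_mono {n : ℕ} {Ω : Set (EuclideanSpace ℝ (Fin n))}
    {h : EuclideanSpace ℝ (Fin n) → Matrix (Fin n) (Fin n) ℝ}
    {H : Fin n → Fin n → Fin n → EuclideanSpace ℝ (Fin n) → ℝ} {lam C C' α : ℝ}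
    (hL : Lim41.LOut Ω h H lam C α) (hC : C ≤ C') : Lim41.LOut Ω h H lam C' α :=
  { hL with
    morrey := fun z r hr hz a b c => (hL.morrey z r hr hz a b c).trans
      (mul_le_mul_of_nonneg_right hC (by positivity)) }

theorem sys_of_bd (hB : BDStmt) : SysStmt := by
  obtain ⟨ε₁, δ₁, hε₁, hδ₁, hB⟩ := hB
  refine ⟨ε₁, δ₁, hε₁, hδ₁, ?_⟩
  intro M _ _ _ _ _ _ _ _ _ _ q x hx ρ α C C' ε δ lam lamk u h r₀ U e hδ hD hA hC hS hM hSt
  obtain ⟨m, v, F, P, D, G, R, Mm, C'', hL⟩ :=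
    hB M q x hx ρ α C C' ε δ lam lamk u h r₀ U e hδ hD hA hC hS hM hSt
  obtain ⟨H, C₃, hO⟩ := Lim41.lim_main hL
  refine ⟨H, max C'' C₃, fun y hy z hz a b => ?_, lOut_mono hO (le_max_right _ _)⟩
  exact (hL.h_hold y hy z hz a b).trans (mul_le_mul_of_nonneg_right (le_max_left _ _)
    (by positivity))

end Crest.Agent.R249.Fin832
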