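import Crest.Agent.R249.Fin2_832
import Crest.Agent.R249.St1_174

/-!
# R249, D3-LIM/FIN (helper832), part 6: `MsStStmt` from the leaf MS and helper174's `stOut`

* `MsStmt` : the closed statement of the leaf MS (`MsOut` from `HData`, `AvOut`, `ChOut`, `SpOut`);
* `msst_of : MsStmt → MsStStmt`.
-/

set_option autoImplicit false
set_option maxSynthPendingDepth 3
noncomputable section
open Set Filter Topology Bundle MeasureTheory Metric
open scoped ContDiff Manifold ENNReal NNReal Matrix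
open Crest.GeometryTopology.CoordMetric Crest.GeometryTopology.ChartCurvature
  Crest.GeometryTopology.RicciEnergy Crest.GeometryTopology.PointedLimit
open Crest.Agent.R249.Ul174 Crest.Agent.R249.AsmD832 Crest.Agent.R249.LimDef41

namespace Crest.Agent.R249.Fin832

/-- closed statement of the leaf MS -/
def MsStmt : Prop := ∃ ε₁ δ₁ : ℝ, 0 < ε₁ ∧ 0 < δ₁ ∧
  ∀ (M : ℕ → Type) [∀ k, MetricSpace (M k)] [∀ k, CompleteSpace (M k)]
    [∀ k, ConnectedSpace (M k)] [∀ k, ChartedSpace (EuclideanSpace ℝ (Fin 4)) (M k)]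
    [∀ k, IsManifold 𝓘(ℝ, EuclideanSpace ℝ (Fin 4)) ∞ (M k)]
    [∀ k, RiemannianBundle (fun x : M k => TangentSpace 𝓘(ℝ, EuclideanSpace ℝ (Fin 4)) x)]
    [∀ k, IsContMDiffRiemannianBundle 𝓘(ℝ, EuclideanSpace ℝ (Fin 4)) ∞ (EuclideanSpace ℝ (Fin 4))
      (fun x : M k => TangentSpace 𝓘(ℝ, EuclideanSpace ℝ (Fin 4)) x)]
    [∀ k, IsRiemannianManifold 𝓘(ℝ, EuclideanSpace ℝ (Fin 4)) (M k)]
    [∀ k, MeasurableSpace (M k)] [∀ k, BorelSpace (M k)]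
    (q : ∀ k, M k) (x : ∀ k, M k) (hx : Bd q x) (ρ α C C' ε δ lam : ℝ) (lamk : ℕ → ℝ)
    (u : ∀ k, Fin 4 → M k → ℝ) (h : UL q → Matrix (Fin 4) (Fin 4) ℝ) (r₀ : ℝ)
    (U : UL q → EuclideanSpace ℝ (Fin 4))
    (e : OpenPartialHomeomorph (UL q) (EuclideanSpace ℝ (Fin 4))), δ ≤ δ₁ →
    HData x ρ α C ε δ lam lamk u → AvOut x hx ρ α C' ε₁ u h → ChOut x hx ρ u h r₀ U e →
    SpOut x u r₀ e → MsOut x u h r₀ e

theorem msst_of (hM : MsStmt) : MsStStmt := by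
  obtain ⟨ε₁, δ₁, hε₁, hδ₁, hM⟩ := hM
  refine ⟨ε₁, min δ₁ (1 / 2), hε₁, by positivity, ?_⟩
  intro M _ _ _ _ _ _ _ _ _ _ q x hx ρ α C C' ε δ lam lamk u h r₀ U e hδ hD hA hC hS
  exact ⟨hM M q x hx ρ α C C' ε δ lam lamk u h r₀ U e (hδ.trans (min_le_left _ _)) hD hA hC hS,
    St174.stOut (hδ.trans (min_le_right _ _)) hD hA hC hS⟩

end Crest.Agent.R249.Fin832
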