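import Crest.Agent.R249.Av1_509

/-!
# R249, D3-LIM/AV (2) (helper509): leaf AV of `LimDef_41`

`avStmt : LimDef41.AvStmt` : the averages of the Gram matrices converge, the limit is Hölder.
-/

set_option autoImplicit false
set_option maxSynthPendingDepth 3
set_option linter.unusedSectionVars false

open scoped ContDiff ENNReal NNReal Topology Manifold Bundle RealInnerProductSpace
open MeasureTheory Set Filter Metric Bundle
open Crest.GeometryTopology.CoordMetric Crest.GeometryTopology.ChartCurvature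
open Crest.Agent.R247 Crest.Agent.R247.Bo84
open Crest.GeometryTopology.PointedLimit Crest.Agent.R247.Mcp688
open Crest.Agent.R249.Dec308 (om4 om4_ge real_up vol4)
open Crest.Agent.R249.Ul174 Crest.Agent.R249.LimDef41
open Crest.Agent.R249.LPt_191 (N1 N1_nonneg N1_add_le N1_neg abs_le_N1)

noncomputable section

namespace Crest.Agent.R249.Av509

variable {M : ℕ → Type} [∀ k, MetricSpace (M k)] [∀ k, CompleteSpace (M k)]
  [∀ k, ConnectedSpace (M k)] [∀ k, ChartedSpace (EuclideanSpace ℝ (Fin 4)) (M k)]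
  [∀ k, IsManifold 𝓘(ℝ, EuclideanSpace ℝ (Fin 4)) ∞ (M k)]
  [∀ k, RiemannianBundle (fun x : M k => TangentSpace 𝓘(ℝ, EuclideanSpace ℝ (Fin 4)) x)]
  [∀ k, IsContMDiffRiemannianBundle 𝓘(ℝ, EuclideanSpace ℝ (Fin 4)) ∞ (EuclideanSpace ℝ (Fin 4))
    (fun x : M k => TangentSpace 𝓘(ℝ, EuclideanSpace ℝ (Fin 4)) x)]
  [∀ k, IsRiemannianManifold 𝓘(ℝ, EuclideanSpace ℝ (Fin 4)) (M k)]
  [∀ k, MeasurableSpace (M k)] [∀ k, BorelSpace (M k)]

variable {q : ∀ k, M k} {x : ∀ k, M k} {hx : Bd q x}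
variable {ρ α C ε δ lam : ℝ} {lamk : ℕ → ℝ} {u : ∀ k, Fin 4 → M k → ℝ}

/-- the integral of `Dev` over a ball -/
def DI (u : ∀ k, Fin 4 → M k → ℝ) (k : ℕ) (y : M k) (s : ℝ) (L : Matrix (Fin 4) (Fin 4) ℝ) : ℝ :=
  ∫ z in ball y s, Dev (u k) L z ∂(μHE[4] : Measure (M k))

/-- what is known for a good index `k` -/
structure Gd (x : ∀ k, M k) (ρ : ℝ) (u : ∀ k, Fin 4 → M k → ℝ) (k : ℕ) : Prop where
  ric : HasRicciLowerBound 4 (M k) 0
  smooth : ∀ a, ∀ z ∈ ball (x k) (16 * ρ), ContMDiffAt (𝓡 4) 𝓘(ℝ, ℝ) ∞ (u k a) z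
  grad : ∀ a, ∀ z ∈ ball (x k) (16 * ρ), mGam 4 (u k a) (u k a) z ≤ 4
  lo : ∀ y ∈ ball (x k) (8 * ρ), ∀ r : ℝ, 0 < r → r ≤ ρ →
    om4 / 2 * r ^ 4 ≤ (μHE[4] : Measure (M k)).real (ball y r)
  up : ∀ y : M k, ∀ r : ℝ, 0 < r → (μHE[4] : Measure (M k)).real (ball y r) ≤ om4 * r ^ 4

theorem gd (H : HData x ρ α C ε δ lam lamk u) (hδ : δ ≤ 1 / 2) : ∀ᶠ k in om, Gd x ρ u k := by
  have h0 := om4_ge
  filter_upwards [H.ric, H.smooth, H.harm, H.pinch] with k h1 h2 h3 h4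
  have hρ := H.ρ_pos
  have hup : ∀ y : M k, ∀ r : ℝ, 0 < r → (μHE[4] : Measure (M k)).real (ball y r) ≤ om4 * r ^ 4 := by
    intro y r hr
    have := HR216.secondCountable_of_riemannian 4 (M k)
    have : Nonempty (M k) := ⟨y⟩
    exact real_up h1 y r hr
  refine ⟨h1, fun a z hz => (h2 a).contMDiffAt (isOpen_ball.mem_nhds hz), fun a z hz => (h3 a z hz).2,
    fun y hy r hr hrρ => ?_, hup⟩
  have h5 := h4 y (ball_subset_ball (by linarith) hy) r hr (by linarith)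
  rw [vol4 hr, ← ENNReal.ofReal_mul (by linarith)] at h5
  have h6 : ENNReal.ofReal (om4 / 2 * r ^ 4) ≤ (μHE[4] : Measure (M k)) (ball y r) := by
    refine le_trans (ENNReal.ofReal_le_ofReal ?_) h5
    have h7 : 0 ≤ om4 * r ^ 4 := by positivity
    nlinarith
  exact (ENNReal.ofReal_le_iff_le_toReal (ball_fin y r)).1 h6

variable {k : ℕ} {y y' : M k} {s r : ℝ} {L L' : Matrix (Fin 4) (Fin 4) ℝ}

theorem Gd.sub (hρ : 0 < ρ) (hy : y ∈ ball (x k) (8 * ρ)) {t : ℝ} (ht : t ≤ 4 * ρ) :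
    closedBall y t ⊆ ball (x k) (16 * ρ) := by
  intro z hz
  rw [mem_closedBall] at hz
  rw [mem_ball] at hy ⊢
  have := dist_triangle z y (x k)
  linarith

theorem Gd.DI_le (G : Gd x ρ u k) (hρ : 0 < ρ) (hy : y ∈ ball (x k) (8 * ρ)) (hs : 0 < s)
    (hsρ : s ≤ ρ) : DI u k y s L ≤ DI u k y s L' + om4 * s ^ 4 * N1 (L - L') := by
  have h1 := int_Dev_le (L := L) (L' := L') G.smooth (Gd.sub hρ hy (t := s) (by linarith))
  have h2 := mul_le_mul_of_nonneg_right (G.up y s hs) (N1_nonneg (L - L'))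
  unfold DI
  linarith

theorem Gd.N1_le (G : Gd x ρ u k) (hρ : 0 < ρ) (hy : y ∈ ball (x k) (8 * ρ)) (hs : 0 < s)
    (hsρ : s ≤ ρ) : om4 / 2 * s ^ 4 * N1 (L - L') ≤ DI u k y s L + DI u k y s L' := by
  refine le_trans ?_ (N1_int_le G.smooth (Gd.sub hρ hy (by linarith)))
  exact mul_le_mul_of_nonneg_right (G.lo y hy s hs hsρ) (N1_nonneg (L - L'))

theorem Gd.mono (G : Gd x ρ u k) (hρ : 0 < ρ) (hy : y ∈ ball (x k) (8 * ρ)) (hsρ : s ≤ ρ)
    (h : ball y' r ⊆ ball y s) : DI u k y' r L ≤ DI u k y s L :=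
  int_Dev_mono G.smooth (Gd.sub hρ hy (by linarith)) h

theorem DI_nonneg : 0 ≤ DI u k y s L := integral_nonneg fun _ => Dev_nonneg

/-- Poincaré at all points, one scale -/
theorem av_k (H : HData x ρ α C ε δ lam lamk u) (hδ : δ ≤ 1 / 2) {s : ℝ} (hs : 0 < s)
    (hsρ : s ≤ ρ) : ∀ᶠ k in om, ∀ y ∈ ball (x k) (8 * ρ), ∃ A : Matrix (Fin 4) (Fin 4) ℝ,
      (∀ a b, |A a b| ≤ 4) ∧ DI u k y s A ≤ KP C * s ^ (4 + α) := by
  have hρ := H.ρ_pos
  have hα := H.α_gt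
  filter_upwards [gd H hδ, H.hess (2 * s) (by positivity)] with k G hh
  intro y hy
  exact exists_av G.ric (by linarith) H.α_lt.le H.C_pos.le hs isOpen_ball
    (Gd.sub hρ hy (by linarith)) G.smooth G.grad (hh y hy (2 * s) le_rfl (by linarith))

/-- the constants -/
def K1 (C : ℝ) : ℝ := KP C + om4

def K2 (C α : ℝ) : ℝ := 64 * K1 C / (1 - 2⁻¹ ^ α)

def K3 (C α : ℝ) : ℝ := 32 * (K1 C + 16 * om4 * K2 C α)

theorem K1_pos (hC : 0 < C) : 0 < K1 C := by
  have h0 := om4_ge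
  have := KP_pos hC
  unfold K1
  linarith

theorem half_pow_lt (hα : 0 < α) : (2⁻¹ : ℝ) ^ α < 1 :=
  Real.rpow_lt_one (by norm_num) (by norm_num) hα

theorem K2_pos (hC : 0 < C) (hα : 0 < α) : 0 < K2 C α := by
  have h1 := K1_pos hC
  have h2 := half_pow_lt hα
  unfold K2
  exact div_pos (by positivity) (by linarith)

theorem K3_pos (hC : 0 < C) (hα : 0 < α) : 0 < K3 C α := by
  have h1 := K1_pos hC
  have h2 := K2_pos hC hα
  have h0 := om4_ge
  unfold K3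
  positivity

/-- **the limit matrix at a point** -/
theorem exists_L (H : HData x ρ α C ε δ lam lamk u) (hδ : δ ≤ 1 / 2) {z : ∀ k, M k}
    (hz : ∀ᶠ k in om, z k ∈ ball (x k) (8 * ρ)) : ∃ L : Matrix (Fin 4) (Fin 4) ℝ,
      ∀ s : ℝ, 0 < s → s ≤ ρ → ∀ᶠ k in om, DI u k (z k) s L ≤ K3 C α * s ^ (4 + α) := by
  classical
  have hρ := H.ρ_pos
  have hα : 0 < α := by linarith [H.α_gt]
  have hC := H.C_pos
  have h0 := om4_ge
  have hK1 := K1_pos hC
  have hθ := half_pow_lt hα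
  have hθ0 : (0:ℝ) < 2⁻¹ ^ α := Real.rpow_pos_of_pos (by norm_num) _
  set sj : ℕ → ℝ := fun j => ρ * 2⁻¹ ^ j with hsj
  have hsj0 : ∀ j, 0 < sj j := fun j => by positivity
  have hsj1 : ∀ j, sj j ≤ ρ := fun j => by
    have : (2⁻¹ : ℝ) ^ j ≤ 1 := pow_le_one₀ (by norm_num) (by norm_num)
    calc sj j = ρ * 2⁻¹ ^ j := rfl
      _ ≤ ρ * 1 := by gcongr
      _ = ρ := mul_one ρ
  have hsjs : ∀ j, sj (j + 1) = sj j / 2 := fun j => by
    simp only [hsj, pow_succ]; ring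
  -- the averages
  have hA : ∀ j k, ∃ A : Matrix (Fin 4) (Fin 4) ℝ, (∀ a b, |A a b| ≤ 4) ∧
      ((∃ A : Matrix (Fin 4) (Fin 4) ℝ, (∀ a b, |A a b| ≤ 4) ∧
        DI u k (z k) (sj j) A ≤ KP C * sj j ^ (4 + α)) →
        DI u k (z k) (sj j) A ≤ KP C * sj j ^ (4 + α)) := by
    intro j k
    by_cases h : ∃ A : Matrix (Fin 4) (Fin 4) ℝ, (∀ a b, |A a b| ≤ 4) ∧
        DI u k (z k) (sj j) A ≤ KP C * sj j ^ (4 + α)
    · obtain ⟨A, hA1, hA2⟩ := h
      exact ⟨A, hA1, fun _ => hA2⟩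
    · exact ⟨0, fun a b => by simp, fun h' => absurd h' h⟩
  choose A hA1 hA2 using hA
  have hA3 : ∀ j, ∀ᶠ k in om, DI u k (z k) (sj j) (A j k) ≤ KP C * sj j ^ (4 + α) := by
    intro j
    filter_upwards [av_k H hδ (hsj0 j) (hsj1 j), hz] with k hk hzk
    exact hA2 j k (hk (z k) hzk)
  -- limits
  have hl : ∀ j a b, ∃ l : ℝ, Tendsto (fun k => A j k a b) om (𝓝 l) := fun j a b => by
    obtain ⟨l, -, hl⟩ := exists_lim_real (f := fun k => A j k a b) (C := 4)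
      (Eventually.of_forall fun k => hA1 j k a b)
    exact ⟨l, hl⟩
  choose B hB using hl
  set Bm : ℕ → Matrix (Fin 4) (Fin 4) ℝ := fun j => Matrix.of (B j) with hBm
  have hN : ∀ j, ∀ᶠ k in om, N1 (Bm j - A j k) ≤ sj j ^ α := by
    intro j
    have h1 : Tendsto (fun k => N1 (Bm j - A j k)) om (𝓝 0) := by
      have h2 : Tendsto (fun k => ∑ a, ∑ b, |B j a b - A j k a b|) om
          (𝓝 (∑ a, ∑ b, |B j a b - B j a b|)) :=
        tendsto_finsetSum _ fun a _ => tendsto_finsetSum _ fun b _ =>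
          (tendsto_const_nhds.sub (hB j a b)).abs
      simp only [sub_self, abs_zero, Finset.sum_const_zero] at h2
      exact h2
    exact (h1.eventually_lt_const (Real.rpow_pos_of_pos (hsj0 j) α)).mono fun k hk => hk.le
  have e4 : ∀ t : ℝ, 0 < t → t ^ 4 * t ^ α = t ^ (4 + α) := fun t ht => by
    rw [← Real.rpow_natCast t 4, ← Real.rpow_add ht]
    norm_num
  have hG : ∀ j, ∀ᶠ k in om, DI u k (z k) (sj j) (Bm j) ≤ K1 C * sj j ^ (4 + α) := by
    intro j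
    filter_upwards [gd H hδ, hz, hA3 j, hN j] with k G hzk h1 h2
    have h3 := G.DI_le (L := Bm j) (L' := A j k) hρ hzk (hsj0 j) (hsj1 j)
    have h4 : om4 * sj j ^ 4 * N1 (Bm j - A j k) ≤ om4 * sj j ^ 4 * sj j ^ α :=
      mul_le_mul_of_nonneg_left h2 (by have := hsj0 j; positivity)
    have h5 : om4 * sj j ^ 4 * sj j ^ α = om4 * sj j ^ (4 + α) := by
      rw [← e4 _ (hsj0 j)]; ring
    rw [h5] at h4
    unfold K1
    linarith
  -- consecutive scales
  have hstep : ∀ j, N1 (Bm j - Bm (j + 1)) ≤ 64 * K1 C * sj j ^ α := by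
    intro j
    obtain ⟨k, G, hzk, h1, h2⟩ := ((gd H hδ).and (hz.and ((hG j).and (hG (j + 1))))).exists
    have h3 := G.N1_le (L := Bm j) (L' := Bm (j + 1)) hρ hzk (hsj0 (j + 1)) (hsj1 (j + 1))
    have h4 : DI u k (z k) (sj (j + 1)) (Bm j) ≤ DI u k (z k) (sj j) (Bm j) :=
      G.mono hρ hzk (hsj1 j) (ball_subset_ball (by rw [hsjs]; linarith [hsj0 j]))
    have h5 : sj (j + 1) ^ (4 + α) ≤ sj j ^ (4 + α) :=
      Real.rpow_le_rpow (hsj0 _).le (by rw [hsjs]; linarith [hsj0 j]) (by linarith)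
    have h6 : om4 / 2 * sj (j + 1) ^ 4 * N1 (Bm j - Bm (j + 1)) ≤ 2 * K1 C * sj j ^ (4 + α) := by
      have := mul_le_mul_of_nonneg_left h5 hK1.le
      linarith
    rw [hsjs, ← e4 _ (hsj0 j)] at h6
    have h7 : 0 < sj j ^ 4 := by have := hsj0 j; positivity
    have h8 : om4 * N1 (Bm j - Bm (j + 1)) ≤ 64 * K1 C * sj j ^ α := by
      have h9 : sj j ^ 4 * (om4 * N1 (Bm j - Bm (j + 1))) ≤ sj j ^ 4 * (64 * K1 C * sj j ^ α) := by
        nlinarith
      exact le_of_mul_le_mul_left h9 h7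
    have h9 : N1 (Bm j - Bm (j + 1)) ≤ om4 * N1 (Bm j - Bm (j + 1)) :=
      le_mul_of_one_le_left (N1_nonneg _) h0
    linarith
  have hsα : ∀ j, sj j ^ α = ρ ^ α * (2⁻¹ ^ α) ^ j := fun j => by
    simp only [hsj]
    rw [Real.mul_rpow hρ.le (by positivity), ← Real.rpow_natCast (2⁻¹ : ℝ) j, ← Real.rpow_mul (by norm_num),
      ← Real.rpow_natCast ((2⁻¹ : ℝ) ^ α) j, ← Real.rpow_mul (by norm_num), mul_comm (j:ℝ) α]
  -- the limit
  have hdist : ∀ a b j, dist (B j a b) (B (j + 1) a b) ≤ 64 * K1 C * ρ ^ α * (2⁻¹ ^ α) ^ j := by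
    intro a b j
    rw [Real.dist_eq]
    have h1 := (abs_le_N1 (Bm j - Bm (j + 1)) a b).trans (hstep j)
    rw [hsα j] at h1
    refine le_trans (le_of_eq ?_) (h1.trans (le_of_eq (by ring)))
    rfl
  have hlim : ∀ a b, ∃ l, Tendsto (fun j => B j a b) atTop (𝓝 l) := fun a b =>
    cauchySeq_tendsto_of_complete (cauchySeq_of_le_geometric _ _ hθ (hdist a b))
  choose L hL using hlim
  have hBL : ∀ j, N1 (Matrix.of L - Bm j) ≤ 16 * K2 C α * sj j ^ α := by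
    intro j
    have h1 : ∀ a b, |L a b - B j a b| ≤ K2 C α * sj j ^ α := by
      intro a b
      have := dist_le_of_le_geometric_of_tendsto _ _ hθ (hdist a b) (hL a b) j
      rw [dist_comm, Real.dist_eq] at this
      refine this.trans (le_of_eq ?_)
      rw [hsα j]
      unfold K2
      field_simp
    calc N1 (Matrix.of L - Bm j) = ∑ a, ∑ b, |L a b - B j a b| := rfl
      _ ≤ ∑ _a : Fin 4, ∑ _b : Fin 4, K2 C α * sj j ^ α :=
          Finset.sum_le_sum fun a _ => Finset.sum_le_sum fun b _ => h1 a b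
      _ = 16 * K2 C α * sj j ^ α := by
          simp only [Finset.sum_const, Finset.card_univ, Fintype.card_fin, nsmul_eq_mul]
          push_cast
          ring
  refine ⟨Matrix.of L, fun s hs hsρ => ?_⟩
  obtain ⟨j, hj1, hj2⟩ := exists_nat_pow_near_of_lt_one (x := s / ρ) (y := 2⁻¹)
    (by positivity) ((div_le_one hρ).2 hsρ) (by norm_num) (by norm_num)
  have hs1 : s ≤ sj j := by
    rw [div_le_iff₀ hρ] at hj2
    simp only [hsj]
    linarith
  have hs2 : sj j ≤ 2 * s := by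
    rw [lt_div_iff₀ hρ, pow_succ] at hj1
    simp only [hsj]
    linarith
  filter_upwards [gd H hδ, hz, hG j] with k G hzk h1
  have h2 := G.DI_le (L := Matrix.of L) (L' := Bm j) hρ hzk (hsj0 j) (hsj1 j)
  have h3 : DI u k (z k) s (Matrix.of L) ≤ DI u k (z k) (sj j) (Matrix.of L) :=
    G.mono hρ hzk (hsj1 j) (ball_subset_ball hs1)
  have h4 : om4 * sj j ^ 4 * N1 (Matrix.of L - Bm j) ≤
      om4 * sj j ^ 4 * (16 * K2 C α * sj j ^ α) :=
    mul_le_mul_of_nonneg_left (hBL j) (by have := hsj0 j; positivity)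
  have h5 : om4 * sj j ^ 4 * (16 * K2 C α * sj j ^ α) = 16 * om4 * K2 C α * sj j ^ (4 + α) := by
    rw [← e4 _ (hsj0 j)]; ring
  rw [h5] at h4
  have h6 : sj j ^ (4 + α) ≤ 32 * s ^ (4 + α) := by
    calc sj j ^ (4 + α) ≤ (2 * s) ^ (4 + α) :=
          Real.rpow_le_rpow (hsj0 j).le hs2 (by linarith)
      _ = 2 ^ (4 + α) * s ^ (4 + α) := Real.mul_rpow (by norm_num) hs.le
      _ ≤ 32 * s ^ (4 + α) := by
          have h7 : (2:ℝ) ^ (4 + α) ≤ 2 ^ (5:ℝ) :=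
            Real.rpow_le_rpow_of_exponent_le (by norm_num) (by linarith [H.α_lt])
          have h8 : (2:ℝ) ^ (5:ℝ) = 32 := by norm_num
          rw [h8] at h7
          exact mul_le_mul_of_nonneg_right h7 (Real.rpow_nonneg hs.le _)
  have hK2 := K2_pos hC hα
  calc DI u k (z k) s (Matrix.of L) ≤ (K1 C + 16 * om4 * K2 C α) * sj j ^ (4 + α) := by linarith
    _ ≤ (K1 C + 16 * om4 * K2 C α) * (32 * s ^ (4 + α)) :=
        mul_le_mul_of_nonneg_left h6 (by positivity)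
    _ = K3 C α * s ^ (4 + α) := by unfold K3; ring

theorem Dev_transpose {X : Type*} [TopologicalSpace X] [ChartedSpace (EuclideanSpace ℝ (Fin 4)) X]
    [IsManifold 𝓘(ℝ, EuclideanSpace ℝ (Fin 4)) ∞ X]
    [RiemannianBundle (fun x : X => TangentSpace 𝓘(ℝ, EuclideanSpace ℝ (Fin 4)) x)]
    [IsContMDiffRiemannianBundle 𝓘(ℝ, EuclideanSpace ℝ (Fin 4)) ∞ (EuclideanSpace ℝ (Fin 4))
      (fun x : X => TangentSpace 𝓘(ℝ, EuclideanSpace ℝ (Fin 4)) x)]
    (U : Fin 4 → X → ℝ) (L : Matrix (Fin 4) (Fin 4) ℝ) (z : X) :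
    ∑ a, ∑ b, |mGam 4 (U a) (U b) z - L.transpose a b| =
      ∑ a, ∑ b, |mGam 4 (U a) (U b) z - L a b| := by
  rw [Finset.sum_comm]
  refine Finset.sum_congr rfl fun a _ => Finset.sum_congr rfl fun b _ => ?_
  rw [mGam_comm, Matrix.transpose_apply]

theorem DI_transpose : DI u k y s L.transpose = DI u k y s L := by
  unfold DI
  refine integral_congr_ae (Eventually.of_forall fun z => ?_)
  exact Dev_transpose (u k) L z

/-- passage to the limit `s → 0` -/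
theorem le_of_small {X K c : ℝ} (hα : 0 < α) (hρ : 0 < ρ)
    (h : ∀ s : ℝ, 0 < s → s ≤ ρ → X ≤ K * s ^ α + c) : X ≤ c := by
  have h1 : Tendsto (fun s : ℝ => K * s ^ α + c) (𝓝[>] 0) (𝓝 (K * 0 + c)) := by
    have h2 : Tendsto (fun s : ℝ => s ^ α) (𝓝[>] 0) (𝓝 0) := by
      have h3 := (Real.continuousAt_rpow_const 0 α (Or.inr hα.le)).tendsto
      rw [Real.zero_rpow hα.ne'] at h3
      exact h3.mono_left nhdsWithin_le_nhds
    exact (h2.const_mul K).add_const c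
  rw [mul_zero, zero_add] at h1
  refine ge_of_tendsto h1 ?_
  filter_upwards [Ioc_mem_nhdsGT hρ] with s hs
  exact h s hs.1 hs.2

/-- the property of the limit matrix at `z` -/
def Lim (u : ∀ k, Fin 4 → M k → ℝ) (ρ α K : ℝ) (z : ∀ k, M k) (L : Matrix (Fin 4) (Fin 4) ℝ) :
    Prop := ∀ s : ℝ, 0 < s → s ≤ ρ → ∀ᶠ k in om, DI u k (z k) s L ≤ K * s ^ (4 + α)

theorem e4 {t : ℝ} (ht : 0 < t) : t ^ (4 + α) = t ^ 4 * t ^ α := by
  rw [← Real.rpow_natCast t 4, ← Real.rpow_add ht]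
  norm_num

theorem Lim.near (H : HData x ρ α C ε δ lam lamk u) (hδ : δ ≤ 1 / 2) {K : ℝ} {z : ∀ k, M k}
    (hz : ∀ᶠ k in om, z k ∈ ball (x k) (8 * ρ)) (h : Lim u ρ α K z L) : N1 (L - 1) ≤ 2 * ε := by
  have hρ := H.ρ_pos
  have hα : 0 < α := by linarith [H.α_gt]
  have h0 := om4_ge
  refine le_of_small hα hρ (K := 2 * K) fun s hs hsρ => ?_
  obtain ⟨k, G, hzk, h1, h2⟩ := ((gd H hδ).and (hz.and ((h s hs hsρ).and (H.near s hs)))).exists
  have h3 := G.N1_le (L := L) (L' := 1) hρ hzk hs hsρ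
  have h4 : DI u k (z k) s 1 ≤ ε * s ^ 4 := h2 (z k) hzk s le_rfl (by linarith)
  rw [e4 hs] at h1
  have h5 : 0 < s ^ 4 := by positivity
  have h6 : s ^ 4 * (om4 * N1 (L - 1)) ≤ s ^ 4 * (2 * K * s ^ α + 2 * ε) := by nlinarith
  have h7 := le_of_mul_le_mul_left h6 h5
  have h8 : N1 (L - 1) ≤ om4 * N1 (L - 1) := le_mul_of_one_le_left (N1_nonneg _) h0
  linarith

theorem Lim.symm (H : HData x ρ α C ε δ lam lamk u) (hδ : δ ≤ 1 / 2) {K : ℝ} {z : ∀ k, M k}
    (hz : ∀ᶠ k in om, z k ∈ ball (x k) (8 * ρ)) (h : Lim u ρ α K z L) (a b : Fin 4) :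
    L a b = L b a := by
  have hρ := H.ρ_pos
  have hα : 0 < α := by linarith [H.α_gt]
  have h0 := om4_ge
  have key : N1 (L - L.transpose) ≤ 0 := by
    refine le_of_small hα hρ (K := 4 * K) fun s hs hsρ => ?_
    obtain ⟨k, G, hzk, h1⟩ := ((gd H hδ).and (hz.and (h s hs hsρ))).exists
    have h3 := G.N1_le (L := L) (L' := L.transpose) hρ hzk hs hsρ
    rw [DI_transpose] at h3
    rw [e4 hs] at h1
    have h5 : 0 < s ^ 4 := by positivity
    have h6 : s ^ 4 * (om4 * N1 (L - L.transpose)) ≤ s ^ 4 * (4 * K * s ^ α) := by nlinarith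
    have h7 := le_of_mul_le_mul_left h6 h5
    have h8 : N1 (L - L.transpose) ≤ om4 * N1 (L - L.transpose) :=
      le_mul_of_one_le_left (N1_nonneg _) h0
    linarith
  have h1 := (abs_le_N1 (L - L.transpose) a b).trans key
  have h2 : (L - L.transpose) a b = 0 := abs_nonpos_iff.1 h1
  rw [Matrix.sub_apply, Matrix.transpose_apply] at h2
  linarith

theorem Lim.hold (H : HData x ρ α C ε δ lam lamk u) (hδ : δ ≤ 1 / 2) {K d : ℝ} {z z' : ∀ k, M k}
    (hz : ∀ᶠ k in om, z k ∈ ball (x k) (8 * ρ)) (hz' : ∀ᶠ k in om, z' k ∈ ball (x k) (8 * ρ))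
    (hK : 0 < K) (hd : 0 < d) (hdρ : 4 * d ≤ ρ) (hzz : ∀ᶠ k in om, dist (z k) (z' k) < 2 * d)
    (h : Lim u ρ α K z L) (h' : Lim u ρ α K z' L') : N1 (L - L') ≤ 2050 * K * d ^ α := by
  have hρ := H.ρ_pos
  have hα : 0 < α := by linarith [H.α_gt]
  have h0 := om4_ge
  obtain ⟨k, G, hzk, hzk', hdk, h1, h2⟩ := ((gd H hδ).and (hz.and (hz'.and (hzz.and
    ((h (4 * d) (by positivity) hdρ).and (h' d hd (by linarith))))))).exists
  have h3 := G.N1_le (L := L) (L' := L') hρ hzk' hd (by linarith)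
  have h4 : DI u k (z' k) d L ≤ DI u k (z k) (4 * d) L := by
    refine G.mono hρ hzk hdρ fun y hy => ?_
    rw [mem_ball] at hy ⊢
    have := dist_triangle y (z' k) (z k)
    rw [dist_comm (z' k)] at this
    linarith
  have h5 : (4 * d) ^ (4 + α) ≤ 1024 * d ^ (4 + α) := by
    rw [Real.mul_rpow (by norm_num) hd.le]
    have h7 : (4:ℝ) ^ (4 + α) ≤ 4 ^ (5:ℝ) :=
      Real.rpow_le_rpow_of_exponent_le (by norm_num) (by linarith [H.α_lt])
    have h8 : (4:ℝ) ^ (5:ℝ) = 1024 := by norm_num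
    rw [h8] at h7
    exact mul_le_mul_of_nonneg_right h7 (Real.rpow_nonneg hd.le _)
  have h6 := mul_le_mul_of_nonneg_left h5 hK.le
  rw [e4 hd] at h2 h5 h6
  have h7 : 0 < d ^ 4 := by positivity
  have h8 : d ^ 4 * (om4 * N1 (L - L')) ≤ d ^ 4 * (2050 * K * d ^ α) := by nlinarith
  have h9 := le_of_mul_le_mul_left h8 h7
  have h10 : N1 (L - L') ≤ om4 * N1 (L - L') := le_mul_of_one_le_left (N1_nonneg _) h0
  linarith

/-- **leaf AV** -/
theorem avStmt : AvStmt := by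
  intro ε₁ hε₁
  refine ⟨ε₁ / 2, by positivity, ?_⟩
  intro M _ _ _ _ _ _ _ _ _ _ q x hx ρ α C δ lam lamk u hδ H
  classical
  have hρ := H.ρ_pos
  have hα : 0 < α := by linarith [H.α_gt]
  have hC := H.C_pos
  have hK := K3_pos hC hα
  have hzb : ∀ z ∈ ball (UL.mk x hx) (4 * ρ), ∀ᶠ k in om, z.rep k ∈ ball (x k) (8 * ρ) := by
    intro z hz
    have h1 : dist (UL.mk z.rep z.bd_rep) (UL.mk x hx) < 8 * ρ := by
      rw [UL.mk_rep]
      rw [mem_ball] at hz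
      linarith
    exact UL.ev_lt z.bd_rep hx h1
  have hex : ∀ z : UL q, ∃ L : Matrix (Fin 4) (Fin 4) ℝ,
      (z ∈ ball (UL.mk x hx) (4 * ρ) → Lim u ρ α (K3 C α) z.rep L) ∧
      (z ∉ ball (UL.mk x hx) (4 * ρ) → L = 1) := by
    intro z
    by_cases hz : z ∈ ball (UL.mk x hx) (4 * ρ)
    · obtain ⟨L, hL⟩ := exists_L H hδ (hzb z hz)
      exact ⟨L, fun _ => hL, fun h => absurd hz h⟩
    · exact ⟨1, fun h => absurd h hz, fun _ => rfl⟩
  choose h hh1 hh2 using hex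
  have hnear : ∀ z ∈ ball (UL.mk x hx) (4 * ρ), N1 (h z - 1) ≤ ε₁ := by
    intro z hz
    have := (hh1 z hz).near H hδ (hzb z hz)
    linarith
  set C' : ℝ := 2050 * K3 C α + 2 * ε₁ / (ρ / 4) ^ α with hC'
  have hρα : 0 < (ρ / 4) ^ α := Real.rpow_pos_of_pos (by positivity) _
  have hC'1 : 2050 * K3 C α ≤ C' := by
    have : 0 ≤ 2 * ε₁ / (ρ / 4) ^ α := by positivity
    linarith
  have hC'0 : 0 < C' := by positivity
  refine ⟨C', h, hC'0, ?_, ?_, ?_, ?_⟩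
  · intro z a b
    by_cases hz : z ∈ ball (UL.mk x hx) (4 * ρ)
    · exact (hh1 z hz).symm H hδ (hzb z hz) a b
    · rw [hh2 z hz, Matrix.one_apply, Matrix.one_apply]
      simp only [eq_comm]
  · intro z hz
    exact hnear z hz
  · intro z hz z' hz' a b
    by_cases hd0 : dist z z' = 0
    · rw [dist_eq_zero.1 hd0, sub_self, abs_zero, dist_self]
      positivity
    have hd : 0 < dist z z' := lt_of_le_of_ne dist_nonneg (Ne.symm hd0)
    by_cases hd1 : 4 * dist z z' ≤ ρ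
    · have hzz : ∀ᶠ k in om, dist (z.rep k) (z'.rep k) < 2 * dist z z' := by
        refine UL.ev_lt z.bd_rep z'.bd_rep ?_
        rw [UL.mk_rep, UL.mk_rep]
        linarith
      have h1 := (hh1 z hz).hold H hδ (hzb z hz) (hzb z' hz') hK hd hd1 hzz (hh1 z' hz')
      have h2 := (abs_le_N1 (h z - h z') a b).trans h1
      rw [Matrix.sub_apply] at h2
      refine h2.trans ?_
      exact mul_le_mul_of_nonneg_right hC'1 (Real.rpow_nonneg hd.le _)
    · have h1 := (abs_le_N1 (h z - 1) a b).trans (hnear z hz)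
      have h2 := (abs_le_N1 (h z' - 1) a b).trans (hnear z' hz')
      rw [Matrix.sub_apply] at h1 h2
      have h3 : |h z a b - h z' a b| ≤ 2 * ε₁ := by
        rw [abs_le] at h1 h2 ⊢
        constructor <;> linarith [h1.1, h1.2, h2.1, h2.2]
      refine h3.trans ?_
      have h4 : (ρ / 4) ^ α ≤ dist z z' ^ α :=
        Real.rpow_le_rpow (by positivity) (by linarith) hα.le
      calc 2 * ε₁ = 2 * ε₁ / (ρ / 4) ^ α * (ρ / 4) ^ α := by field_simp
        _ ≤ C' * dist z z' ^ α := by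
            refine mul_le_mul ?_ h4 hρα.le hC'0.le
            rw [hC']
            have : 0 < 2050 * K3 C α := by positivity
            linarith
  · intro z hz s hs hsρ
    filter_upwards [hh1 z hz s hs hsρ] with k hk
    have h1 : K3 C α * s ^ (4 + α) ≤ C' * s ^ (4 + α) :=
      mul_le_mul_of_nonneg_right (by linarith) (Real.rpow_nonneg hs.le _)
    exact le_trans hk h1

end Crest.Agent.R249.Av509
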