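import Crest.Agent.R249.SD3_308
import Crest.Agent.R249.Sta9_397

/-!
R249 (S0386), D3 (helper308), assembly of `SDStmt`, part 4: **`sdStmt : SDStmt`** (harmonic almost
coordinates with decay, along the sequence).
-/

set_option autoImplicit false
set_option maxSynthPendingDepth 3
set_option linter.unusedSectionVars false

open scoped ContDiff ENNReal NNReal Topology Manifold Bundle RealInnerProductSpace
open MeasureTheory Set Filter Metric Bundle
open Crest.GeometryTopology.CoordMetric Crest.GeometryTopology.ChartCurvature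
open Crest.Agent.R247 Crest.Agent.R247.Bo84 Crest.Agent.R247.Ms322 Crest.Agent.R247.Bs84
open Crest.Agent.R247.Hes124 (F S mv tr idm)
open Crest.GeometryTopology.PointedLimit Crest.Agent.R247.Mcp688
open Crest.Agent.R249.Cod992 Crest.Agent.R249.D1Def104 Crest.Agent.R249.Dec308
open Crest.Agent.R249.SobE_982 Crest.Agent.R249.SobG_982 Crest.Agent.R249.En920
open Crest.Agent.R249.Ul174 Crest.Agent.R249.AsmD832 Crest.Agent.R249.LimDef41

noncomputable section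

namespace Crest.Agent.R249.SD308

/-! ### subtracting a constant -/

section shift

variable {n : ℕ} {M : Type*} [MetricSpace M] [ChartedSpace (EuclideanSpace ℝ (Fin n)) M]
  [IsManifold (𝓡 n) ∞ M]
  [RiemannianBundle (fun p : M => TangentSpace (𝓡 n) p)]
  [IsContMDiffRiemannianBundle (𝓡 n) ∞ (EuclideanSpace ℝ (Fin n))
    (fun p : M => TangentSpace (𝓡 n) p)]
  [SecondCountableTopology M] [Nonempty M]

variable {u v : M → ℝ} {z : M}

theorem mLap_shift (hu : ContMDiffAt (𝓡 n) 𝓘(ℝ, ℝ) 2 u z) (c : ℝ) :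
    mLap n (fun q => u q + c) z = mLap n u z := by
  rw [mLap_add hu contMDiffAt_const, mLap_const, add_zero]

theorem mGam_shift (hu : MDifferentiableAt (𝓡 n) 𝓘(ℝ, ℝ) u z)
    (hv : MDifferentiableAt (𝓡 n) 𝓘(ℝ, ℝ) v z) (c d : ℝ) :
    mGam n (fun q => u q + c) (fun q => v q + d) z = mGam n u v z := by
  rw [mGam_add_left hu mdifferentiableAt_const, mGam_const_left, add_zero,
    mGam_add_right hv mdifferentiableAt_const, mGam_const_right, add_zero]

theorem mHessSq_shift (hu : ContMDiffAt (𝓡 n) 𝓘(ℝ, ℝ) 2 u z) (c : ℝ) :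
    mHessSq n (fun q => u q + c) z = mHessSq n u z := by
  have h1 : ContMDiffAt (𝓡 n) 𝓘(ℝ, ℝ) 2 (fun q => u q + c) z := hu.add contMDiffAt_const
  rw [← norm_Hf_sq h1, ← norm_Hf_sq hu]
  congr 2
  ext ij
  show mHess n (fun q => u q + c) z _ _ = mHess n u z _ _
  rw [mHess_add hu contMDiffAt_const, mHess_const, add_zero]

end shift

/-- the data on one manifold of the sequence -/
structure Good1 {M : Type} [MetricSpace M] [ChartedSpace (EuclideanSpace ℝ (Fin 4)) M]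
    [IsManifold 𝓘(ℝ, EuclideanSpace ℝ (Fin 4)) ∞ M]
    [RiemannianBundle (fun x : M => TangentSpace 𝓘(ℝ, EuclideanSpace ℝ (Fin 4)) x)]
    [IsContMDiffRiemannianBundle 𝓘(ℝ, EuclideanSpace ℝ (Fin 4)) ∞ (EuclideanSpace ℝ (Fin 4))
      (fun x : M => TangentSpace 𝓘(ℝ, EuclideanSpace ℝ (Fin 4)) x)]
    [MeasurableSpace M] [BorelSpace M] (x : M) (ρ ε₁ : ℝ) (u : Fin 4 → M → ℝ) : Prop where
  smooth : ∀ a, ContMDiff (𝓡 4) 𝓘(ℝ, ℝ) ∞ (u a)
  harm : ∀ a, ∀ z ∈ ball x (64 * ρ), mLap 4 (u a) z = 0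
  grad : ∀ a, ∀ z ∈ ball x (64 * ρ), mGam 4 (u a) (u a) z ≤ 4
  hess : ∀ a, ∫ z in ball x (64 * ρ), mHessSq 4 (u a) z ∂(μHE[4] : Measure M) ≤
    ε₁ * (64 * ρ) ^ 2
  gram : ∀ a c, ∫ z in ball x (64 * ρ), |mGam 4 (u a) (u c) z - if a = c then 1 else 0|
    ∂(μHE[4] : Measure M) ≤ ε₁ * (64 * ρ) ^ 4
  zero : ∀ a, u a x = 0

/-- START in the form of `Good1` -/
theorem exists_good1 {ε₁ : ℝ} (hε : 0 < ε₁) (hε1 : ε₁ ≤ 1) : ∃ s : ℝ, 0 < s ∧ s ≤ 1 ∧
    ∃ δ₀ : ℝ, 0 < δ₀ ∧ δ₀ ≤ 1 / 2 ∧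
    ∀ {M : Type} [MetricSpace M] [CompleteSpace M] [ConnectedSpace M]
      [ChartedSpace (EuclideanSpace ℝ (Fin 4)) M]
      [IsManifold 𝓘(ℝ, EuclideanSpace ℝ (Fin 4)) ∞ M]
      [RiemannianBundle (fun x : M => TangentSpace 𝓘(ℝ, EuclideanSpace ℝ (Fin 4)) x)]
      [IsContMDiffRiemannianBundle 𝓘(ℝ, EuclideanSpace ℝ (Fin 4)) ∞ (EuclideanSpace ℝ (Fin 4))
        (fun x : M => TangentSpace 𝓘(ℝ, EuclideanSpace ℝ (Fin 4)) x)]
      [IsRiemannianManifold 𝓘(ℝ, EuclideanSpace ℝ (Fin 4)) M]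
      [MeasurableSpace M] [BorelSpace M] {x : M} {R ρ : ℝ}, 0 < ρ → 64 * ρ ≤ s * R →
      HasRicciLowerBound 4 M 0 →
      (∀ y ∈ ball x R, ∀ r : ℝ, 0 < r → r ≤ R →
        ENNReal.ofReal (1 - δ₀) * volume (ball (0 : EuclideanSpace ℝ (Fin 4)) r) ≤
          (μHE[4] : Measure M) (ball y r)) →
      ∃ u : Fin 4 → M → ℝ, Good1 x ρ ε₁ u := by
  obtain ⟨s, hs0, hs1, δ₀, hδ0, hδ1, hst⟩ := Sta9_397.start.{0} hε
  refine ⟨s, hs0, by linarith, δ₀, hδ0, by linarith, ?_⟩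
  intro M _ _ _ _ _ _ _ _ _ _ x R ρ hρ hρR hRic hpin
  have := HR216.properSpace_of_riemannian 4 M
  have := HR216.secondCountable_of_riemannian 4 M
  have : Nonempty M := ⟨x⟩
  -- the scale
  have hR' : 0 < 64 * ρ / s := by positivity
  have hR'R : 64 * ρ / s ≤ R := by rw [div_le_iff₀ hs0]; linarith
  have hsR : s * (64 * ρ / s) = 64 * ρ := by field_simp
  obtain ⟨u, hu, -, hL, hH, hG, hsup⟩ := hst (q := x) hR' hRic
    (fun y hy r hr hrR => hpin y (ball_subset_ball hR'R hy) r hr (hrR.trans hR'R))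
  rw [hsR] at hL hH hG hsup
  have h2 : ∀ a z, ContMDiffAt (𝓡 4) 𝓘(ℝ, ℝ) 2 (u a) z := fun a z =>
    (hu a z).of_le two_le_infty
  have hmd : ∀ a z, MDifferentiableAt (𝓡 4) 𝓘(ℝ, ℝ) (u a) z := fun a z =>
    (h2 a z).mdifferentiableAt (by norm_num)
  refine ⟨fun a z => u a z + (- u a x), ?_, ?_, ?_, ?_, ?_, ?_⟩
  · exact fun a => (hu a).add contMDiff_const
  · intro a z hz
    rw [mLap_shift (h2 a z)]
    exact hL a z (ball_subset_ball (by linarith) hz)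
  · intro a z hz
    rw [mGam_shift (hmd a z) (hmd a z)]
    have h3 := hsup z hz (fun b => if b = a then 1 else 0) (by simp)
    simp only [ite_mul, one_mul, zero_mul, mul_ite, mul_one, mul_zero, Finset.sum_ite_eq',
      Finset.mem_univ, if_true] at h3
    linarith
  · intro a
    refine le_trans (le_of_eq ?_) (hH a)
    exact setIntegral_congr_fun isOpen_ball.measurableSet fun z _ => mHessSq_shift (h2 a z) _
  · intro a c
    refine le_trans (le_of_eq ?_) (hG a c)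
    refine setIntegral_congr_fun isOpen_ball.measurableSet fun z _ => ?_
    show |mGam 4 (fun z => u a z + (- u a x)) (fun z => u c z + (- u c x)) z - _| = _
    rw [mGam_shift (hmd a z) (hmd c z)]
  · intro a
    show u a x + (- u a x) = 0
    ring

theorem exists_rho {s R lam ε₁ : ℝ} (hs : 0 < s) (hR : 0 < R) (hε : 0 < ε₁) :
    ∃ ρ : ℝ, 0 < ρ ∧ ρ ≤ 1 ∧ 64 * ρ ≤ s * R ∧ 64 * ρ ≤ R ∧ (|lam| + 1) ^ 2 * ρ ^ 4 ≤ ε₁ := by
  obtain ⟨L, hL⟩ : ∃ L, L = (|lam| + 1) ^ 2 := ⟨_, rfl⟩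
  have hL1 : 1 ≤ L := by rw [hL]; nlinarith [abs_nonneg lam]
  obtain ⟨ρ, hρ⟩ : ∃ ρ, ρ = min (min 1 (s * R / 64)) (min (R / 64) (ε₁ / L)) := ⟨_, rfl⟩
  have hρ0 : 0 < ρ := by
    rw [hρ]; exact lt_min (lt_min one_pos (by positivity)) (lt_min (by positivity) (by positivity))
  have h1 : ρ ≤ 1 := by rw [hρ]; exact (min_le_left _ _).trans (min_le_left _ _)
  have h2 : ρ ≤ s * R / 64 := by rw [hρ]; exact (min_le_left _ _).trans (min_le_right _ _)
  have h3 : ρ ≤ R / 64 := by rw [hρ]; exact (min_le_right _ _).trans (min_le_left _ _)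
  have h4 : ρ ≤ ε₁ / L := by rw [hρ]; exact (min_le_right _ _).trans (min_le_right _ _)
  refine ⟨ρ, hρ0, h1, by linarith, by linarith, ?_⟩
  rw [← hL]
  have h5 : ρ ^ 4 ≤ ρ := by
    have : ρ ^ 4 ≤ ρ ^ 1 := pow_le_pow_of_le_one hρ0.le h1 (by norm_num)
    simpa using this
  calc L * ρ ^ 4 ≤ L * (ε₁ / L) := mul_le_mul_of_nonneg_left (h5.trans h4) (by linarith)
    _ = ε₁ := by field_simp

theorem exists_small_eta {ε₁ c₁ σ ρ : ℝ} (hε : 0 < ε₁) (hc : 0 < c₁) (hσ : 0 < σ) :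
    ∃ η : ℝ, 0 < η ∧ √η ≤ ε₁ ∧ η ≤ σ ^ (2 * (3 / 4 : ℝ)) ∧
      ∀ s : ℝ, σ ≤ s → s ≤ 8 * ρ → √η * (1 + Real.log (8 * ρ / s)) ≤ c₁ := by
  obtain ⟨L, hL⟩ : ∃ L, L = 1 + |Real.log (8 * ρ / σ)| := ⟨_, rfl⟩
  have hL1 : 1 ≤ L := by rw [hL]; linarith [abs_nonneg (Real.log (8 * ρ / σ))]
  obtain ⟨q, hq⟩ : ∃ q, q = min (min ε₁ (c₁ / L)) (min 1 (σ ^ (2 * (3 / 4 : ℝ)))) := ⟨_, rfl⟩
  have hq0 : 0 < q := by
    rw [hq]
    exact lt_min (lt_min hε (by positivity)) (lt_min one_pos (Real.rpow_pos_of_pos hσ _))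
  have h1 : q ≤ ε₁ := by rw [hq]; exact (min_le_left _ _).trans (min_le_left _ _)
  have h2 : q ≤ c₁ / L := by rw [hq]; exact (min_le_left _ _).trans (min_le_right _ _)
  have h3 : q ≤ 1 := by rw [hq]; exact (min_le_right _ _).trans (min_le_left _ _)
  have h4 : q ≤ σ ^ (2 * (3 / 4 : ℝ)) := by
    rw [hq]; exact (min_le_right _ _).trans (min_le_right _ _)
  refine ⟨q ^ 2, by positivity, ?_, ?_, ?_⟩
  · rw [Real.sqrt_sq hq0.le]; exact h1
  · have : q ^ 2 ≤ q * 1 := by rw [sq]; exact mul_le_mul_of_nonneg_left h3 hq0.le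
    linarith
  · intro s hs hs8
    have hs0 : 0 < s := hσ.trans_le hs
    rw [Real.sqrt_sq hq0.le]
    have h5 : Real.log (8 * ρ / s) ≤ Real.log (8 * ρ / σ) := by
      have h8 : 0 < 8 * ρ := hs0.trans_le hs8
      refine Real.log_le_log (by positivity) ?_
      exact div_le_div_of_nonneg_left h8.le hσ hs
    have h6 : 1 + Real.log (8 * ρ / s) ≤ L := by
      rw [hL]; linarith [le_abs_self (Real.log (8 * ρ / σ))]
    calc q * (1 + Real.log (8 * ρ / s)) ≤ q * L := mul_le_mul_of_nonneg_left h6 hq0.le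
      _ ≤ c₁ / L * L := mul_le_mul_of_nonneg_right h2 (by linarith)
      _ = c₁ := by field_simp

set_option maxHeartbeats 2000000 in
/-- **START + DECAY along the sequence.** -/
theorem sdStmt : SDStmt := by
  intro ε hε
  obtain ⟨ε₁, C₁, c₁, hε₁, hε₁1, hC₁, hc₁, hone⟩ := sd_one hε
  obtain ⟨s, hs, hs1, δ₀, hδ0, hδ1, hgood⟩ := exists_good1 hε₁ hε₁1
  refine ⟨δ₀, hδ0, ?_⟩
  intro M _ _ _ _ _ _ _ _ _ _ x lam lamk R hlam hR hlim hsec hpin
  obtain ⟨ρ, hρ, hρ1, hρs, hρR, hρl⟩ := exists_rho (lam := lam) hs hR hε₁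
  have hprop : ∀ k, ProperSpace (M k) := fun k => HR216.properSpace_of_riemannian 4 (M k)
  have hsc : ∀ k, SecondCountableTopology (M k) := fun k =>
    HR216.secondCountable_of_riemannian 4 (M k)
  have hne : ∀ k, Nonempty (M k) := fun k => ⟨x k⟩
  have hric : ∀ᶠ k in om, HasRicciLowerBound 4 (M k) 0 := by
    filter_upwards [hsec] with k hk using Alg2_104.ricBound_of_sec hk
  have hP1 := hpin 1 one_pos
  classical
  -- the functions
  have hex : ∀ᶠ k in om, ∃ u : Fin 4 → M k → ℝ, Good1 (x k) ρ ε₁ u := by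
    filter_upwards [hric, hP1] with k hk hPk
    exact hgood hρ hρs hk hPk.1
  let u : ∀ k, Fin 4 → M k → ℝ := fun k =>
    if h : ∃ u : Fin 4 → M k → ℝ, Good1 (x k) ρ ε₁ u then h.choose else fun _ _ => 0
  have hu : ∀ᶠ k in om, Good1 (x k) ρ ε₁ (u k) := by
    filter_upwards [hex] with k hk
    have : u k = hk.choose := by simp only [u, dif_pos hk]
    rw [this]
    exact hk.choose_spec
  have hlamk : ∀ᶠ k in om, lamk k ^ 2 * ρ ^ 4 ≤ ε₁ := by
    have h1 : ∀ᶠ k in om, |lamk k - lam| < 1 := by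
      have := (tendsto_order.1 ((hlim.sub_const lam).abs)).2 1 (by simp)
      exact this
    filter_upwards [h1] with k hk
    have h2 : |lamk k| ≤ |lam| + 1 := by
      have := abs_add_le (lamk k - lam) lam
      rw [sub_add_cancel] at this
      linarith
    have h3 : lamk k ^ 2 ≤ (|lam| + 1) ^ 2 := by
      rw [← sq_abs]; exact pow_le_pow_left₀ (abs_nonneg _) h2 2
    exact (mul_le_mul_of_nonneg_right h3 (by positivity)).trans hρl
  -- the decay, for every lower scale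
  have hmain : ∀ σ : ℝ, 0 < σ → ∀ᶠ k in om,
      (∀ y ∈ ball (x k) (8 * ρ), ∀ r : ℝ, σ ≤ r → r ≤ 8 * ρ →
        ∫ z in ball y r, T2 4 (u k) z ∂(μHE[4] : Measure (M k)) ≤
          C₁ * (ρ⁻¹ ^ (2 * (3 / 4 : ℝ)) + 1) * r ^ (2 + 2 * (3 / 4 : ℝ)) ∧
        ∫ z in ball y r, Dv (u k) z ∂(μHE[4] : Measure (M k)) ≤ ε * r ^ 4) ∧
      ∫ z in ball (x k) (8 * ρ), T2 4 (u k) z ^ 2 ∂(μHE[4] : Measure (M k)) ≤ C₁ := by
    intro σ hσ
    obtain ⟨η, hη0, hη1, hη2, hη3⟩ := exists_small_eta (ρ := ρ) hε₁ hc₁ hσ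
    filter_upwards [hu, hsec, hpin η hη0, hlamk] with k hk hsk hPk hlk
    have hR64 : ball (x k) (64 * ρ) ⊆ ball (x k) R := ball_subset_ball hρR
    have hdev : ∫⁻ z in ball (x k) (64 * ρ), ENNReal.ofReal (mRicDev 4 (M k) (lamk k) z)
        ∂(μHE[4] : Measure (M k)) ≤ ENNReal.ofReal (√η ^ 2) := by
      rw [Real.sq_sqrt hη0.le]
      exact (lintegral_mono_set hR64).trans hPk.2
    have hpk : ∀ y ∈ ball (x k) (64 * ρ), ∀ r : ℝ, 0 < r → r ≤ 64 * ρ →
        ENNReal.ofReal (1 / 2) * volume (ball (0 : EuclideanSpace ℝ (Fin 4)) r) ≤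
          (μHE[4] : Measure (M k)) (ball y r) := by
      intro y hy r hr hr2
      refine le_trans ?_ (hPk.1 y (hR64 hy) r hr (hr2.trans hρR))
      gcongr
      linarith
    obtain ⟨g1, g2⟩ := hone hsk (x k) ρ (√η) (lamk k) (u k) hρ hpk hk.smooth hk.harm hk.grad
      hk.hess hk.gram hdev (Real.sqrt_nonneg _) hη1 hlk
    refine ⟨fun y hy r hσr hr8 => ?_, g2⟩
    have hr0 : 0 < r := hσ.trans_le hσr
    obtain ⟨g3, g4⟩ := g1 y hy r hr0 hr8 (hη3 r hσr hr8)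
    refine ⟨g3.trans ?_, g4⟩
    rw [Real.sq_sqrt hη0.le]
    have h1 : η ≤ r ^ (2 * (3 / 4 : ℝ)) :=
      hη2.trans (Real.rpow_le_rpow hσ.le hσr (by norm_num))
    have h2 : (r / ρ) ^ (2 * (3 / 4 : ℝ)) = ρ⁻¹ ^ (2 * (3 / 4 : ℝ)) * r ^ (2 * (3 / 4 : ℝ)) := by
      rw [div_eq_mul_inv, mul_comm, Real.mul_rpow (by positivity) hr0.le]
    have h3 : r ^ (2 + 2 * (3 / 4 : ℝ)) = r ^ 2 * r ^ (2 * (3 / 4 : ℝ)) := by
      rw [Real.rpow_add hr0]
      norm_cast
    rw [h2, h3]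
    have h4 : ρ⁻¹ ^ (2 * (3 / 4 : ℝ)) * r ^ (2 * (3 / 4 : ℝ)) + η ≤
        (ρ⁻¹ ^ (2 * (3 / 4 : ℝ)) + 1) * r ^ (2 * (3 / 4 : ℝ)) := by linarith
    calc C₁ * r ^ 2 * (ρ⁻¹ ^ (2 * (3 / 4 : ℝ)) * r ^ (2 * (3 / 4 : ℝ)) + η)
        ≤ C₁ * r ^ 2 * ((ρ⁻¹ ^ (2 * (3 / 4 : ℝ)) + 1) * r ^ (2 * (3 / 4 : ℝ))) :=
          mul_le_mul_of_nonneg_left h4 (by positivity)
      _ = _ := by ring
  refine ⟨ρ, 3 / 4, C₁ * (ρ⁻¹ ^ (2 * (3 / 4 : ℝ)) + 1), u, by linarith, ?_⟩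
  have hρi : 0 < ρ⁻¹ ^ (2 * (3 / 4 : ℝ)) := Real.rpow_pos_of_pos (by positivity) _
  refine
    { ρ_pos := hρ
      ρ_le := hρ1
      α_gt := by norm_num
      α_lt := by norm_num
      C_pos := by positivity
      ric := hric
      sec := hsec
      pinch := ?_
      smooth := ?_
      harm := ?_
      zero := ?_
      hess := ?_
      near := ?_
      l4 := ?_
      ricdev := ?_
      lam_nonneg := hlam
      lamk_lim := hlim }
  · filter_upwards [hP1] with k hk y hy r hr hr2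
    exact hk.1 y (ball_subset_ball (by linarith) hy) r hr (by linarith)
  · filter_upwards [hu] with k hk a
    exact (hk.smooth a).contMDiffOn
  · filter_upwards [hu] with k hk a p hp
    have hp' : p ∈ ball (x k) (64 * ρ) := ball_subset_ball (by linarith) hp
    exact ⟨hk.harm a p hp', hk.grad a p hp'⟩
  · filter_upwards [hu] with k hk a
    exact hk.zero a
  · intro σ hσ
    filter_upwards [hmain σ hσ] with k hk y hy r hr1 hr2
    exact (hk.1 y hy r hr1 hr2).1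
  · intro σ hσ
    filter_upwards [hmain σ hσ] with k hk y hy r hr1 hr2
    exact (hk.1 y hy r hr1 hr2).2
  · filter_upwards [hmain 1 one_pos, hu] with k hk huk
    have hci : ∀ (f : M k → ℝ), Continuous f →
        IntegrableOn f (ball (x k) (8 * ρ)) (μHE[4] : Measure (M k)) := fun f hf => by
      have := isLocallyFinite_muHE 4 (M k)
      exact (hf.continuousOn.integrableOn_compact (isCompact_closedBall (x k) (8 * ρ))).mono_set
        ball_subset_closedBall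
    have hcm : ∀ a, Continuous (mHessSq 4 (u k a)) := fun a =>
      continuous_iff_continuousAt.2 fun z =>
        Bs84.continuousAt_mHessSq ((huk.smooth a z).of_le two_le_infty)
    have hnn : ∀ a z, 0 ≤ mHessSq 4 (u k a) z := fun a z => by
      rw [← norm_Hf_sq ((huk.smooth a z).of_le two_le_infty)]; positivity
    have h1 : ∫ z in ball (x k) (8 * ρ), ∑ a, mHessSq 4 (u k a) z ^ 2
        ∂(μHE[4] : Measure (M k)) ≤
        ∫ z in ball (x k) (8 * ρ), T2 4 (u k) z ^ 2 ∂(μHE[4] : Measure (M k)) := by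
      refine integral_mono (hci _ (continuous_finsetSum _ fun a _ => (hcm a).pow 2))
        (hci _ ((continuous_finsetSum _ fun a _ => hcm a).pow 2)) fun z => ?_
      exact Finset.sum_sq_le_sq_sum_of_nonneg fun a _ => hnn a z
    refine h1.trans (hk.2.trans ?_)
    nlinarith
  · rw [ENNReal.tendsto_nhds_zero]
    intro b hb
    rcases eq_or_ne b ⊤ with hbt | hbt
    · exact Eventually.of_forall fun k => hbt ▸ le_top
    · have hb' : 0 < b.toReal := ENNReal.toReal_pos hb.ne' hbt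
      filter_upwards [hpin b.toReal hb'] with k hk
      refine (lintegral_mono_set (ball_subset_ball (by linarith))).trans (hk.2.trans ?_)
      rw [ENNReal.ofReal_toReal hbt]

end Crest.Agent.R249.SD308
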