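import Crest.Agent.R249.AsmD8_832
import Crest.Agent.R249.SD4_308
import Crest.Agent.R249.Av2_509

/-!
# R249 (S0386), part D: what is left (helper832), 4

`S0386_of_ms_bd` : the statement of S0386 from `IdxStmt` (part C), `MsStmt` and `BDStmt`.
-/

set_option autoImplicit false
open Crest.GeometryTopology.RicciEnergy
open Crest.Agent.R249.D1Def104 Crest.Agent.R249.LimDef41 Crest.Agent.R249.Fin832

namespace Crest.Agent.R249.AsmD832

/-- S0386 from part C and the two remaining statements of D3 -/
theorem S0386_of_ms_bd (hI : IdxStmt) (hMs : MsStmt)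
    (hB : BDStmt) (hcl : EinsteinNonnegSectionalAreModelCovered) : S0386Concl :=
  S0386_of_parts'' hI SD308.sdStmt Av509.avStmt hMs hB hcl

end Crest.Agent.R249.AsmD832
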