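import Crest.Agent.R249.LPO_897
import Crest.Agent.R249.Vf3_281
import Crest.Agent.R249.SobG_982
import Crest.Agent.R249.St1_174
import Crest.Agent.R247.Bs2_84

/-!
# R249 (helper174), D3-LIM/AV, part 1: averages of the Gram matrix on one manifold

`Ric ≥ 0`, `n = 4`; `u, v` of class `C²` on the open `W ⊇ closedBall y (2s)`, `|∇u|², |∇v|² ≤ 4`:
`(∫_{ball y s} |⟨du, dv⟩ - mean|)² ≤ 16384 ω₄ s⁶ ∫_{ball y (2s)} (|Hess u|² + |Hess v|²)`.
-/

set_option autoImplicit false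
set_option maxSynthPendingDepth 3
noncomputable section
open Set Filter Topology Bundle MeasureTheory Metric
open scoped ContDiff Manifold ENNReal NNReal Matrix
open Crest.GeometryTopology.CoordMetric Crest.GeometryTopology.ChartCurvature
  Crest.GeometryTopology.RicciEnergy Crest.GeometryTopology.PointedLimit
open Crest.Agent.R247.Bo84 Crest.Agent.R249.St174
open Crest.Agent.R249.SobE_982 Crest.Agent.R249.SobG_982

namespace Crest.Agent.R249.Av174

local notation "𝔼" => EuclideanSpace ℝ (Fin 4)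

/-- Cauchy–Schwarz on a set of finite measure. -/
theorem cs_one {X : Type*} [MeasurableSpace X] {μ : Measure X} {B : Set X} {f : X → ℝ}
    (hB : μ B ≠ ⊤) (hf1 : IntegrableOn f B μ) (hf2 : IntegrableOn (fun x => f x ^ 2) B μ) :
    (∫ x in B, f x ∂μ) ^ 2 ≤ μ.real B * ∫ x in B, f x ^ 2 ∂μ := by
  have h : ∀ t : ℝ, 0 ≤ μ.real B * (t * t) + (2 * ∫ x in B, f x ∂μ) * t +
      ∫ x in B, f x ^ 2 ∂μ := by
    intro t
    have h0 : 0 ≤ ∫ x in B, (t + f x) ^ 2 ∂μ := integral_nonneg fun x => sq_nonneg _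
    have e : ∀ x, (t + f x) ^ 2 = (t * t) + (2 * t) * f x + f x ^ 2 := by
      intro x; ring
    simp_rw [e] at h0
    have j1 : IntegrableOn (fun _ : X => t * t) B μ := integrableOn_const hB
    have j2 : IntegrableOn (fun x => (2 * t) * f x) B μ := hf1.const_mul _
    have j3 : IntegrableOn (fun x => (t * t) + (2 * t) * f x) B μ := j1.add j2
    have e1 : ∫ x in B, ((t * t) + (2 * t) * f x + f x ^ 2) ∂μ =
        μ.real B * (t * t) + (2 * t) * (∫ x in B, f x ∂μ) + ∫ x in B, f x ^ 2 ∂μ := by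
      rw [integral_add j3 hf2, integral_add j1 j2, setIntegral_const, smul_eq_mul,
        integral_const_mul]
    rw [e1] at h0
    linarith
  have := discrim_le_zero h
  unfold discrim at this
  linarith

section one

variable {M : Type} [MetricSpace M] [CompleteSpace M] [ConnectedSpace M]
  [ChartedSpace (EuclideanSpace ℝ (Fin 4)) M]
  [IsManifold 𝓘(ℝ, EuclideanSpace ℝ (Fin 4)) ∞ M]
  [RiemannianBundle (fun x : M => TangentSpace 𝓘(ℝ, EuclideanSpace ℝ (Fin 4)) x)]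
  [IsContMDiffRiemannianBundle 𝓘(ℝ, EuclideanSpace ℝ (Fin 4)) ∞ (EuclideanSpace ℝ (Fin 4))
    (fun x : M => TangentSpace 𝓘(ℝ, EuclideanSpace ℝ (Fin 4)) x)]
  [IsRiemannianManifold 𝓘(ℝ, EuclideanSpace ℝ (Fin 4)) M]
  [MeasurableSpace M] [BorelSpace M]

/-- **Poincaré for the Gram matrix** -/
theorem av_pair (hRic : HasRicciLowerBound 4 M 0) {W : Set M} (hW : IsOpen W) {u v : M → ℝ}
    (hu : ∀ z ∈ W, ContMDiffAt 𝓘(ℝ, 𝔼) 𝓘(ℝ, ℝ) 2 u z)
    (hv : ∀ z ∈ W, ContMDiffAt 𝓘(ℝ, 𝔼) 𝓘(ℝ, ℝ) 2 v z)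
    (hu4 : ∀ z ∈ W, mGam 4 u u z ≤ 4) (hv4 : ∀ z ∈ W, mGam 4 v v z ≤ 4)
    {y : M} {s : ℝ} (hs : 0 < s) (hsW : closedBall y (2 * s) ⊆ W) :
    (∫ z in ball y s, |mGam 4 u v z - ⨍ w in ball y s, mGam 4 u v w ∂(μHE[4] : Measure M)|
        ∂(μHE[4] : Measure M)) ^ 2 ≤
      1024 * om4 * s ^ 6 *
        ∫ z in ball y (2 * s), (mHessSq 4 u z + mHessSq 4 v z) ∂(μHE[4] : Measure M) := by
  have := Crest.Agent.R247.HR216.properSpace_of_riemannian 4 M
  have := Crest.Agent.R247.HR216.secondCountable_of_riemannian 4 M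
  have := Crest.Agent.R247.GluM923.isLocallyFinite 4 M
  have : Nonempty M := ⟨y⟩
  have : SFinite (μHE[4] : Measure M) := inferInstance
  have hw := om4_pos
  obtain ⟨Cr⟩ := LPO_897.rad_of (n := 4) (M := M) (κ := 0) le_rfl (by simpa using hRic)
  set μ : Measure M := (μHE[4] : Measure M) with hμ
  set f : M → ℝ := mGam 4 u v with hf
  have hf1 : ∀ z ∈ W, ContMDiffAt 𝓘(ℝ, 𝔼) 𝓘(ℝ, ℝ) 1 f z := fun z hz =>
    contMDiffAt_mGam (hu z hz) (hv z hz) (by norm_num) two_le_infty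
  have hL0 : LGOn W f (fun z => ‖Crest.Agent.R247.Ms322.Gr (n := 4) f z‖) :=
    lgOn_of_contMDiffAt (n := 4) hW hf1
  set G : M → ℝ := W.indicator (fun z => ‖Crest.Agent.R247.Ms322.Gr (n := 4) f z‖) with hG
  have hGW : ∀ z ∈ W, G z = ‖Crest.Agent.R247.Ms322.Gr (n := 4) f z‖ := fun z hz =>
    indicator_of_mem hz _
  have hGev : ∀ z ∈ W, G =ᶠ[𝓝 z] (fun z => ‖Crest.Agent.R247.Ms322.Gr (n := 4) f z‖) := by
    intro z hz
    filter_upwards [hW.mem_nhds hz] with w hw using hGW w hw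
  have hL : LGOn W f G :=
    ⟨fun z hz => (hL0.contG z hz).congr (hGev z hz).symm,
      fun z hz => by rw [hGW z hz]; exact norm_nonneg _,
      fun z hz ε hε => by rw [hGW z hz]; exact hL0.lip z hz ε hε⟩
  have hGm : Measurable G := by
    classical
    have h1 : Measurable (W.piecewise (fun z => ‖Crest.Agent.R247.Ms322.Gr (n := 4) f z‖)
        (0 : M → ℝ)) := by
      refine ContinuousOn.measurable_piecewise (fun z hz => (hL0.contG z hz).continuousWithinAt)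
        continuousOn_const hW.measurableSet
    rwa [piecewise_eq_indicator] at h1
  have key := poincR Cr le_rfl hL hGm hs hsW
  set c := ⨍ w in ball y s, f w ∂μ with hc
  have hfc : ∀ z ∈ W, ContinuousAt f z := fun z hz => (hf1 z hz).continuousAt
  have hsW1 : closedBall y s ⊆ W := (closedBall_subset_closedBall (by linarith)).trans hsW
  have i1 : IntegrableOn (fun z => |f z - c|) (ball y s) μ :=
    integrableOn_ball_of_contAt (fun z hz => ((hfc z hz).sub continuousAt_const).abs) hsW1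
  have i2 : IntegrableOn (fun z => |f z - c| ^ 2) (ball y s) μ :=
    integrableOn_ball_of_contAt (fun z hz => ((hfc z hz).sub continuousAt_const).abs.pow 2) hsW1
  have hcs := cs_one (μ := μ) measure_ball_lt_top.ne i1 i2
  have hvol : μ.real (ball y s) ≤ om4 * s ^ 4 :=
    ENNReal.toReal_le_of_le_ofReal (by positivity) (vol_le hRic y hs)
  have hH : ∀ z ∈ W, 0 ≤ mHessSq 4 u z + mHessSq 4 v z := fun z hz =>
    add_nonneg (mHessSq_nonneg (hu z hz)) (mHessSq_nonneg (hv z hz))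
  have h2W : ball y (2 * s) ⊆ W := ball_subset_closedBall.trans hsW
  have hGle : ∀ z ∈ W, G z ^ 2 ≤ 8 * (mHessSq 4 u z + mHessSq 4 v z) := by
    intro z hz
    rw [hGW z hz, sq_norm_Gr]
    refine (Crest.Agent.R249.Vf281.mGam_mGam_self_le (hu z hz) (hv z hz)).trans ?_
    have e1 := mul_le_mul_of_nonneg_left (hv4 z hz) (mHessSq_nonneg (hu z hz))
    have e2 := mul_le_mul_of_nonneg_left (hu4 z hz) (mHessSq_nonneg (hv z hz))
    linarith
  have hHc : ∀ z ∈ W, ContinuousAt (fun z => mHessSq 4 u z + mHessSq 4 v z) z := by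
    intro z hz
    exact (Crest.Agent.R247.Bs84.continuousAt_mHessSq (n := 4) (hu z hz)).add
      (Crest.Agent.R247.Bs84.continuousAt_mHessSq (n := 4) (hv z hz))
  have i3 : IntegrableOn (fun z => 8 * (mHessSq 4 u z + mHessSq 4 v z)) (ball y (2 * s)) μ :=
    (integrableOn_ball_of_contAt hHc hsW).const_mul 8
  have i4 : IntegrableOn (fun z => G z ^ 2) (ball y (2 * s)) μ :=
    integrableOn_ball_of_contAt (fun z hz => (hL.contG z hz).pow 2) hsW
  have h3 : ∫ z in ball y (2 * s), G z ^ 2 ∂μ ≤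
      8 * ∫ z in ball y (2 * s), (mHessSq 4 u z + mHessSq 4 v z) ∂μ := by
    rw [← integral_const_mul]
    exact setIntegral_mono_on i4 i3 measurableSet_ball fun z hz => hGle z (h2W hz)
  have h4 : 0 ≤ ∫ z in ball y (2 * s), (mHessSq 4 u z + mHessSq 4 v z) ∂μ :=
    setIntegral_nonneg measurableSet_ball fun z hz => hH z (h2W hz)
  set J := ∫ z in ball y (2 * s), (mHessSq 4 u z + mHessSq 4 v z) ∂μ with hJ
  have h5 : ∫ z in ball y s, |f z - c| ^ 2 ∂μ ≤ 1024 * s ^ 2 * J := by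
    simp_rw [sq_abs]
    refine key.trans ?_
    have e : Real.exp (2 * 0 * s ^ 2) * 2 ^ 4 = 16 := by norm_num
    rw [e]
    calc 8 * s ^ 2 * 16 * ∫ z in ball y (2 * s), G z ^ 2 ∂μ ≤ 8 * s ^ 2 * 16 * (8 * J) := by
          gcongr
      _ = 1024 * s ^ 2 * J := by ring
  have h6 : 0 ≤ ∫ z in ball y s, |f z - c| ^ 2 ∂μ := integral_nonneg fun z => by positivity
  calc (∫ z in ball y s, |f z - c| ∂μ) ^ 2 ≤ μ.real (ball y s) * ∫ z in ball y s, |f z - c| ^ 2 ∂μ :=
        hcs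
    _ ≤ (om4 * s ^ 4) * (1024 * s ^ 2 * J) := by gcongr
    _ = 1024 * om4 * s ^ 6 * J := by ring

/-- the constant of the Morrey form -/
def KA (C : ℝ) : ℝ := √(32768 * om4 * C)

theorem KA_nonneg (C : ℝ) : 0 ≤ KA C := Real.sqrt_nonneg _

/-- the average of `⟨du, dv⟩` over a ball -/
def Av (u v : M → ℝ) (y : M) (s : ℝ) : ℝ :=
  ⨍ w in ball y s, mGam 4 u v w ∂(μHE[4] : Measure M)

theorem Av_comm (u v : M → ℝ) (y : M) (s : ℝ) : Av u v y s = Av v u y s := by
  unfold Av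
  congr 1
  funext w
  exact mGam_comm u v w

variable {x : M} {ρ α C : ℝ} {u : Fin 4 → M → ℝ}

/-- **Poincaré, Morrey form** -/
theorem av_sys (hRic : HasRicciLowerBound 4 M 0) (hC : 0 < C) (hα : α < 1)
    (hsm : ∀ a, ContMDiffOn 𝓘(ℝ, 𝔼) 𝓘(ℝ, ℝ) ∞ (u a) (ball x (16 * ρ)))
    (h4 : ∀ a, ∀ p ∈ ball x (16 * ρ), mGam 4 (u a) (u a) p ≤ 4)
    {y : M} {s : ℝ} (hs : 0 < s) (hsρ : s ≤ 4 * ρ) (hy : y ∈ ball x (8 * ρ))
    (hM : ∫ z in ball y (2 * s), ∑ a, mHessSq 4 (u a) z ∂(μHE[4] : Measure M) ≤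
      C * (2 * s) ^ (2 + 2 * α)) (a b : Fin 4) :
    ∫ z in ball y s, |mGam 4 (u a) (u b) z - Av (u a) (u b) y s| ∂(μHE[4] : Measure M) ≤
      KA C * s ^ (4 + α) := by
  have := Crest.Agent.R247.HR216.properSpace_of_riemannian 4 M
  have := Crest.Agent.R247.GluM923.isLocallyFinite 4 M
  have hw := om4_pos
  set μ : Measure M := (μHE[4] : Measure M) with hμ
  have hsub : closedBall y (2 * s) ⊆ ball x (16 * ρ) := fun z hz => by
    rw [mem_closedBall] at hz
    rw [mem_ball] at hy ⊢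
    have := dist_triangle z y x
    linarith
  have h2 : ∀ a, ∀ z ∈ ball x (16 * ρ), ContMDiffAt 𝓘(ℝ, 𝔼) 𝓘(ℝ, ℝ) 2 (u a) z := fun a z hz =>
    ((hsm a).contMDiffAt (isOpen_ball.mem_nhds hz)).of_le two_le_infty
  have key := av_pair hRic isOpen_ball (h2 a) (h2 b) (h4 a) (h4 b) hs hsub
  have hc : ∀ a, ∀ z ∈ ball x (16 * ρ), ContinuousAt (mHessSq 4 (u a)) z := fun a z hz =>
    Crest.Agent.R247.Bs84.continuousAt_mHessSq (n := 4) (h2 a z hz)
  have hcs : ∀ z ∈ ball x (16 * ρ), ContinuousAt (fun z => ∑ a, mHessSq 4 (u a) z) z :=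
    fun z hz => tendsto_finsetSum _ fun a _ => hc a z hz
  have i1 : IntegrableOn (fun z => mHessSq 4 (u a) z + mHessSq 4 (u b) z) (ball y (2 * s)) μ :=
    integrableOn_ball_of_contAt (fun z hz => (hc a z hz).add (hc b z hz)) hsub
  have i2 : IntegrableOn (fun z => 2 * ∑ a, mHessSq 4 (u a) z) (ball y (2 * s)) μ :=
    (integrableOn_ball_of_contAt hcs hsub).const_mul 2
  have h5 : ∫ z in ball y (2 * s), (mHessSq 4 (u a) z + mHessSq 4 (u b) z) ∂μ ≤
      2 * (C * (2 * s) ^ (2 + 2 * α)) := by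
    refine le_trans ?_ (mul_le_mul_of_nonneg_left hM zero_le_two)
    rw [← integral_const_mul]
    refine setIntegral_mono_on i1 i2 measurableSet_ball fun z hz => ?_
    have hz' := hsub (ball_subset_closedBall hz)
    have hn : ∀ a ∈ (Finset.univ : Finset (Fin 4)), 0 ≤ mHessSq 4 (u a) z := fun a _ =>
      mHessSq_nonneg (h2 a z hz')
    have e1 := Finset.single_le_sum hn (Finset.mem_univ a)
    have e2 := Finset.single_le_sum hn (Finset.mem_univ b)
    linarith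
  have h6 : (2 * s) ^ (2 + 2 * α) ≤ 16 * s ^ (2 + 2 * α) := by
    rw [Real.mul_rpow zero_le_two hs.le]
    have : (2 : ℝ) ^ (2 + 2 * α) ≤ 16 := by
      calc (2 : ℝ) ^ (2 + 2 * α) ≤ (2 : ℝ) ^ (4 : ℝ) :=
            Real.rpow_le_rpow_of_exponent_le one_le_two (by linarith)
        _ = 16 := by norm_num
    exact mul_le_mul_of_nonneg_right this (Real.rpow_nonneg hs.le _)
  have h7 : s ^ 6 * s ^ (2 + 2 * α) = (s ^ (4 + α)) ^ 2 := by
    rw [← Real.rpow_natCast s 6, ← Real.rpow_add hs, ← Real.rpow_natCast, ← Real.rpow_mul hs.le]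
    congr 1
    push_cast
    ring
  have h8 : (∫ z in ball y s, |mGam 4 (u a) (u b) z - Av (u a) (u b) y s| ∂μ) ^ 2 ≤
      (KA C * s ^ (4 + α)) ^ 2 := by
    refine key.trans ?_
    rw [mul_pow, KA, Real.sq_sqrt (by positivity), ← h7]
    calc 1024 * om4 * s ^ 6 * ∫ z in ball y (2 * s), (mHessSq 4 (u a) z + mHessSq 4 (u b) z) ∂μ
        ≤ 1024 * om4 * s ^ 6 * (2 * (C * (16 * s ^ (2 + 2 * α)))) := by
          refine mul_le_mul_of_nonneg_left (h5.trans ?_) (by positivity)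
          gcongr
      _ = 32768 * om4 * C * (s ^ 6 * s ^ (2 + 2 * α)) := by ring
  exact abs_le_of_sq_le_sq' h8 (mul_nonneg (KA_nonneg C) (Real.rpow_nonneg hs.le _)) |>.2

theorem integrableOn_sub {y : M} {s : ℝ}
    (hsm : ∀ a, ContMDiffOn 𝓘(ℝ, 𝔼) 𝓘(ℝ, ℝ) ∞ (u a) (ball x (16 * ρ)))
    (hsub : closedBall y s ⊆ ball x (16 * ρ)) (a b : Fin 4) (c : ℝ) :
    IntegrableOn (fun z => mGam 4 (u a) (u b) z - c) (ball y s) (μHE[4] : Measure M) := by
  have := Crest.Agent.R247.HR216.properSpace_of_riemannian 4 M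
  have := Crest.Agent.R247.GluM923.isLocallyFinite 4 M
  refine integrableOn_ball_of_contAt (U := ball x (16 * ρ)) (fun z hz => ?_) hsub
  have h2 : ∀ a, ContMDiffAt 𝓘(ℝ, 𝔼) 𝓘(ℝ, ℝ) 2 (u a) z := fun a =>
    ((hsm a).contMDiffAt (isOpen_ball.mem_nhds hz)).of_le two_le_infty
  exact (contMDiffAt_mGam (m := 1) (h2 a) (h2 b) (by norm_num) two_le_infty).continuousAt.sub
    continuousAt_const

/-- comparison of an average with a constant -/
theorem av_sub_le {y : M} {s : ℝ} (hs : 0 < s)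
    (hsm : ∀ a, ContMDiffOn 𝓘(ℝ, 𝔼) 𝓘(ℝ, ℝ) ∞ (u a) (ball x (16 * ρ)))
    (hsub : closedBall y s ⊆ ball x (16 * ρ))
    (hvol : ENNReal.ofReal (1 / 2 * (om4 * s ^ 4)) ≤ (μHE[4] : Measure M) (ball y s))
    (a b : Fin 4) (c : ℝ) :
    |Av (u a) (u b) y s - c| ≤ 2 / (om4 * s ^ 4) *
      ∫ z in ball y s, |mGam 4 (u a) (u b) z - c| ∂(μHE[4] : Measure M) := by
  have := Crest.Agent.R247.HR216.properSpace_of_riemannian 4 M
  have := Crest.Agent.R247.GluM923.isLocallyFinite 4 M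
  have hw := om4_pos
  set μ : Measure M := (μHE[4] : Measure M) with hμ
  have hV : 1 / 2 * (om4 * s ^ 4) ≤ μ.real (ball y s) := by
    have := ENNReal.toReal_mono measure_ball_lt_top.ne hvol
    rwa [ENNReal.toReal_ofReal (by positivity)] at this
  have hV0 : 0 < μ.real (ball y s) := lt_of_lt_of_le (by positivity) hV
  have i0 : IntegrableOn (fun z => mGam 4 (u a) (u b) z) (ball y s) μ := by
    simpa using integrableOn_sub hsm hsub a b 0
  have e1 : Av (u a) (u b) y s - c =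
      (μ.real (ball y s))⁻¹ * ∫ z in ball y s, (mGam 4 (u a) (u b) z - c) ∂μ := by
    rw [integral_sub i0 (integrableOn_const measure_ball_lt_top.ne), setIntegral_const, Av,
      setAverage_eq, smul_eq_mul, smul_eq_mul, ← hμ, mul_sub, ← mul_assoc,
      inv_mul_cancel₀ hV0.ne', one_mul]
  rw [e1, abs_mul, abs_of_pos (inv_pos.2 hV0)]
  have h1 : |∫ z in ball y s, (mGam 4 (u a) (u b) z - c) ∂μ| ≤
      ∫ z in ball y s, |mGam 4 (u a) (u b) z - c| ∂μ := abs_integral_le_integral_abs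
  have h2 : (μ.real (ball y s))⁻¹ ≤ 2 / (om4 * s ^ 4) := by
    rw [inv_le_comm₀ hV0 (by positivity), inv_div]
    linarith
  exact mul_le_mul h2 h1 (abs_nonneg _) (by positivity)

/-- **comparison of two averages** -/
theorem av_diff (hRic : HasRicciLowerBound 4 M 0) (hC : 0 < C) (hα : α < 1)
    (hsm : ∀ a, ContMDiffOn 𝓘(ℝ, 𝔼) 𝓘(ℝ, ℝ) ∞ (u a) (ball x (16 * ρ)))
    (h4 : ∀ a, ∀ p ∈ ball x (16 * ρ), mGam 4 (u a) (u a) p ≤ 4)
    {y : M} {s : ℝ} (hs : 0 < s) (hsρ : s ≤ 4 * ρ) (hy : y ∈ ball x (8 * ρ))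
    (hM : ∫ z in ball y (2 * s), ∑ a, mHessSq 4 (u a) z ∂(μHE[4] : Measure M) ≤
      C * (2 * s) ^ (2 + 2 * α)) {y' : M} {s' : ℝ} (hs' : 0 < s') (hss : ball y' s' ⊆ ball y s)
    (hss' : closedBall y' s' ⊆ ball x (16 * ρ))
    (hvol : ENNReal.ofReal (1 / 2 * (om4 * s' ^ 4)) ≤ (μHE[4] : Measure M) (ball y' s'))
    (a b : Fin 4) :
    |Av (u a) (u b) y' s' - Av (u a) (u b) y s| ≤
      2 / (om4 * s' ^ 4) * (KA C * s ^ (4 + α)) := by
  have hw := om4_pos
  refine (av_sub_le hs' hsm hss' hvol a b _).trans ?_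
  refine mul_le_mul_of_nonneg_left ?_ (by positivity)
  refine le_trans ?_ (av_sys hRic hC hα hsm h4 hs hsρ hy hM a b)
  have hsub : closedBall y s ⊆ ball x (16 * ρ) := fun z hz => by
    rw [mem_closedBall] at hz
    rw [mem_ball] at hy ⊢
    have := dist_triangle z y x
    linarith
  refine setIntegral_mono_set (integrableOn_sub hsm hsub a b _).abs
    (Eventually.of_forall fun z => abs_nonneg _) (LE.le.eventuallyLE hss)

/-- the `L¹` deviation from a constant -/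
theorem dev_le (hRic : HasRicciLowerBound 4 M 0) (hC : 0 < C) (hα : α < 1)
    (hsm : ∀ a, ContMDiffOn 𝓘(ℝ, 𝔼) 𝓘(ℝ, ℝ) ∞ (u a) (ball x (16 * ρ)))
    (h4 : ∀ a, ∀ p ∈ ball x (16 * ρ), mGam 4 (u a) (u a) p ≤ 4)
    {y : M} {s : ℝ} (hs : 0 < s) (hsρ : s ≤ 4 * ρ) (hy : y ∈ ball x (8 * ρ))
    (hM : ∫ z in ball y (2 * s), ∑ a, mHessSq 4 (u a) z ∂(μHE[4] : Measure M) ≤
      C * (2 * s) ^ (2 + 2 * α)) (a b : Fin 4) {c η : ℝ} (hc : |Av (u a) (u b) y s - c| ≤ η) :
    ∫ z in ball y s, |mGam 4 (u a) (u b) z - c| ∂(μHE[4] : Measure M) ≤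
      KA C * s ^ (4 + α) + om4 * s ^ 4 * η := by
  have := Crest.Agent.R247.HR216.properSpace_of_riemannian 4 M
  have := Crest.Agent.R247.GluM923.isLocallyFinite 4 M
  have hw := om4_pos
  set μ : Measure M := (μHE[4] : Measure M) with hμ
  have hη : 0 ≤ η := (abs_nonneg _).trans hc
  have hsub : closedBall y s ⊆ ball x (16 * ρ) := fun z hz => by
    rw [mem_closedBall] at hz
    rw [mem_ball] at hy ⊢
    have := dist_triangle z y x
    linarith
  have hvol : μ.real (ball y s) ≤ om4 * s ^ 4 :=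
    ENNReal.toReal_le_of_le_ofReal (by positivity) (vol_le hRic y hs)
  have i1 := (integrableOn_sub hsm hsub a b c).abs
  have i2 := (integrableOn_sub hsm hsub a b (Av (u a) (u b) y s)).abs
  have i3 : IntegrableOn (fun _ : M => η) (ball y s) μ := integrableOn_const measure_ball_lt_top.ne
  calc ∫ z in ball y s, |mGam 4 (u a) (u b) z - c| ∂μ
      ≤ ∫ z in ball y s, (|mGam 4 (u a) (u b) z - Av (u a) (u b) y s| + η) ∂μ := by
        refine integral_mono i1 (i2.add i3) fun z => ?_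
        have := abs_sub_le (mGam 4 (u a) (u b) z) (Av (u a) (u b) y s) c
        simp only
        linarith
    _ = (∫ z in ball y s, |mGam 4 (u a) (u b) z - Av (u a) (u b) y s| ∂μ) +
        μ.real (ball y s) * η := by
        rw [integral_add i2 i3, setIntegral_const, smul_eq_mul]
    _ ≤ KA C * s ^ (4 + α) + om4 * s ^ 4 * η := by
        gcongr
        exact av_sys hRic hC hα hsm h4 hs hsρ hy hM a b

end one

end Crest.Agent.R249.Av174
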