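import Crest.Agent.R249.Dec5_308
import Crest.Agent.R249.LimDef_41
import Crest.Agent.R249.LPt1_191

/-!
# R249, D3-LIM/AV (1) (helper509): averages of the Gram matrix on one manifold

`Dev U L` : the `L¹` distance of the Gram matrix of `U` from the constant matrix `L`;
`exists_av` : Poincaré, `∫_{B_s} Dev U A ≤ K s ^ (4 + α)` for the average `A`.
-/

set_option autoImplicit false
set_option maxSynthPendingDepth 3
set_option linter.unusedSectionVars false

open scoped ContDiff ENNReal NNReal Topology Manifold Bundle RealInnerProductSpace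
open MeasureTheory Set Filter Metric Bundle
open Crest.GeometryTopology.CoordMetric Crest.GeometryTopology.ChartCurvature
open Crest.Agent.R247 Crest.Agent.R247.Bo84 Crest.Agent.R247.Ms322 Crest.Agent.R247.Bs84
open Crest.Agent.R247.Hes124 (F S mv tr idm)
open Crest.GeometryTopology.PointedLimit Crest.Agent.R247.Mcp688
open Crest.Agent.R249.HRep308 Crest.Agent.R249.SobE_982 Crest.Agent.R249.SobG_982
open Crest.Agent.R249.Dec308
open Crest.Agent.R249.LPt_191 (N1 N1_nonneg N1_add_le N1_neg abs_le_N1)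

noncomputable section

namespace Crest.Agent.R249.Av509

universe u
variable {M : Type u} [MetricSpace M] [CompleteSpace M] [ConnectedSpace M]
  [ChartedSpace (EuclideanSpace ℝ (Fin 4)) M]
  [IsManifold 𝓘(ℝ, EuclideanSpace ℝ (Fin 4)) ∞ M]
  [RiemannianBundle (fun x : M => TangentSpace 𝓘(ℝ, EuclideanSpace ℝ (Fin 4)) x)]
  [IsContMDiffRiemannianBundle 𝓘(ℝ, EuclideanSpace ℝ (Fin 4)) ∞ (EuclideanSpace ℝ (Fin 4))
    (fun x : M => TangentSpace 𝓘(ℝ, EuclideanSpace ℝ (Fin 4)) x)]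
  [IsRiemannianManifold 𝓘(ℝ, EuclideanSpace ℝ (Fin 4)) M]
  [MeasurableSpace M] [BorelSpace M]

local notation "μM" => (μHE[4] : Measure M)

/-- `L¹` distance of the Gram matrix from a constant matrix -/
def Dev (U : Fin 4 → M → ℝ) (L : Matrix (Fin 4) (Fin 4) ℝ) (y : M) : ℝ :=
  ∑ a, ∑ b, |mGam 4 (U a) (U b) y - L a b|

variable {U : Fin 4 → M → ℝ} {L L' : Matrix (Fin 4) (Fin 4) ℝ} {z y : M} {s : ℝ} {W : Set M}

theorem Dev_nonneg : 0 ≤ Dev U L z :=
  Finset.sum_nonneg fun _ _ => Finset.sum_nonneg fun _ _ => abs_nonneg _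

theorem Dev_le : Dev U L z ≤ Dev U L' z + N1 (L - L') := by
  unfold Dev N1
  rw [← Finset.sum_add_distrib]
  refine Finset.sum_le_sum fun a _ => ?_
  rw [← Finset.sum_add_distrib]
  refine Finset.sum_le_sum fun b _ => ?_
  rw [Matrix.sub_apply, abs_sub_comm (L a b)]
  calc |mGam 4 (U a) (U b) z - L a b|
      = |(mGam 4 (U a) (U b) z - L' a b) + (L' a b - L a b)| := by congr 1; ring
    _ ≤ _ := abs_add_le _ _

theorem N1_le_Dev : N1 (L - L') ≤ Dev U L z + Dev U L' z := by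
  unfold Dev N1
  rw [← Finset.sum_add_distrib]
  refine Finset.sum_le_sum fun a _ => ?_
  rw [← Finset.sum_add_distrib]
  refine Finset.sum_le_sum fun b _ => ?_
  rw [Matrix.sub_apply, abs_sub_comm (mGam 4 (U a) (U b) z) (L a b)]
  calc |L a b - L' a b|
      = |(L a b - mGam 4 (U a) (U b) z) + (mGam 4 (U a) (U b) z - L' a b)| := by congr 1; ring
    _ ≤ _ := abs_add_le _ _

theorem contAt_mGam (hU : ∀ a, ∀ z ∈ W, ContMDiffAt (𝓡 4) 𝓘(ℝ, ℝ) ∞ (U a) z) (a b : Fin 4) :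
    ∀ z ∈ W, ContinuousAt (mGam 4 (U a) (U b)) z := fun z hz =>
  (contMDiffAt_mGam (m := ∞) (hU a z hz) (hU b z hz) (by simp) le_rfl).continuousAt

theorem contAt_Dev (hU : ∀ a, ∀ z ∈ W, ContMDiffAt (𝓡 4) 𝓘(ℝ, ℝ) ∞ (U a) z) :
    ∀ z ∈ W, ContinuousAt (Dev U L) z := by
  intro z hz
  have : Dev U L = fun z => ∑ a, ∑ b, |mGam 4 (U a) (U b) z - L a b| := rfl
  rw [this]
  exact tendsto_finsetSum _ fun a _ => tendsto_finsetSum _ fun b _ =>
    ((contAt_mGam hU a b z hz).sub continuousAt_const).abs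

theorem int_Dev (hU : ∀ a, ∀ z ∈ W, ContMDiffAt (𝓡 4) 𝓘(ℝ, ℝ) ∞ (U a) z)
    (hW : closedBall y s ⊆ W) : IntegrableOn (Dev U L) (ball y s) μM := by
  have := HR216.properSpace_of_riemannian 4 M
  have := isLocallyFinite_muHE 4 M
  exact integrableOn_ball_of_contAt (contAt_Dev hU) hW

theorem ball_fin (y : M) (s : ℝ) : μM (ball y s) ≠ ⊤ := by
  have := HR216.properSpace_of_riemannian 4 M
  have := isLocallyFinite_muHE 4 M
  exact measure_ball_lt_top.ne

theorem int_Dev_le (hU : ∀ a, ∀ z ∈ W, ContMDiffAt (𝓡 4) 𝓘(ℝ, ℝ) ∞ (U a) z)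
    (hW : closedBall y s ⊆ W) : ∫ z in ball y s, Dev U L z ∂μM ≤
      ∫ z in ball y s, Dev U L' z ∂μM + (μM).real (ball y s) * N1 (L - L') := by
  have hc : IntegrableOn (fun _ : M => N1 (L - L')) (ball y s) μM :=
    integrableOn_const (ball_fin y s)
  calc ∫ z in ball y s, Dev U L z ∂μM
      ≤ ∫ z in ball y s, (Dev U L' z + N1 (L - L')) ∂μM :=
        integral_mono (int_Dev hU hW) ((int_Dev hU hW).add hc) fun z => Dev_le
    _ = _ := by
        rw [integral_add (int_Dev hU hW) hc, setIntegral_const, smul_eq_mul]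

theorem N1_int_le (hU : ∀ a, ∀ z ∈ W, ContMDiffAt (𝓡 4) 𝓘(ℝ, ℝ) ∞ (U a) z)
    (hW : closedBall y s ⊆ W) : (μM).real (ball y s) * N1 (L - L') ≤
      ∫ z in ball y s, Dev U L z ∂μM + ∫ z in ball y s, Dev U L' z ∂μM := by
  have hc : IntegrableOn (fun _ : M => N1 (L - L')) (ball y s) μM :=
    integrableOn_const (ball_fin y s)
  calc (μM).real (ball y s) * N1 (L - L')
      = ∫ z in ball y s, N1 (L - L') ∂μM := by rw [setIntegral_const, smul_eq_mul]
    _ ≤ ∫ z in ball y s, (Dev U L z + Dev U L' z) ∂μM :=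
        integral_mono hc ((int_Dev hU hW).add (int_Dev hU hW)) fun z => N1_le_Dev
    _ = _ := integral_add (int_Dev hU hW) (int_Dev hU hW)

theorem int_Dev_mono (hU : ∀ a, ∀ z ∈ W, ContMDiffAt (𝓡 4) 𝓘(ℝ, ℝ) ∞ (U a) z)
    (hW : closedBall y s ⊆ W) {x : M} {r : ℝ} (h : ball x r ⊆ ball y s) :
    ∫ z in ball x r, Dev U L z ∂μM ≤ ∫ z in ball y s, Dev U L z ∂μM :=
  setIntegral_mono_set (int_Dev hU hW) (Eventually.of_forall fun _ => Dev_nonneg) h.eventuallyLE

/-- the constant of the Poincaré inequality -/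
def KP (C : ℝ) : ℝ := 262144 * C + 2 * om4

theorem KP_pos {C : ℝ} (hC : 0 < C) : 0 < KP C := by
  have := om4_ge
  unfold KP
  positivity

/-- **Poincaré**: the Gram matrix is close to a constant on small balls -/
theorem exists_av (hRic : HasRicciLowerBound 4 M 0) {α C : ℝ} (hα0 : 0 ≤ α) (hα : α ≤ 1)
    (hC : 0 ≤ C) (hs : 0 < s) (hWo : IsOpen W) (hW : closedBall y (2 * s) ⊆ W)
    (hU : ∀ a, ∀ z ∈ W, ContMDiffAt (𝓡 4) 𝓘(ℝ, ℝ) ∞ (U a) z)
    (hΛ : ∀ a, ∀ z ∈ W, mGam 4 (U a) (U a) z ≤ 4)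
    (hH : ∫ z in ball y (2 * s), ∑ a, mHessSq 4 (U a) z ∂μM ≤ C * (2 * s) ^ (2 + 2 * α)) :
    ∃ A : Matrix (Fin 4) (Fin 4) ℝ, (∀ a b, |A a b| ≤ 4) ∧
      ∫ z in ball y s, Dev U A z ∂μM ≤ KP C * s ^ (4 + α) := by
  have := HR216.properSpace_of_riemannian 4 M
  have := HR216.secondCountable_of_riemannian 4 M
  have : Nonempty M := ⟨y⟩
  have := isLocallyFinite_muHE 4 M
  have h0 := om4_ge
  have hW1 : closedBall y s ⊆ W := (closedBall_subset_closedBall (by linarith)).trans hW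
  have hG : ∀ a, ∀ z ∈ W, ‖Gr (n := 4) (U a) z‖ ≤ 2 := by
    intro a z hz
    have h1 := hΛ a z hz
    rw [← Bs84.norm_Gr_sq_eq] at h1
    nlinarith [norm_nonneg (Gr (n := 4) (U a) z)]
  have hvol := real_up hRic y s hs
  set A : Matrix (Fin 4) (Fin 4) ℝ := Matrix.of fun a b => ⨍ z in ball y s, mGam 4 (U a) (U b) z ∂μM
    with hA
  set A' : S 4 := WithLp.toLp 2 fun p => A p.1 p.2 with hA'
  have hP := poinc_Fm hRic hs hWo hW hU hG (A := A') (fun p => rfl)
  refine ⟨A, fun a b => ?_, ?_⟩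
  · have h1 : ∀ z ∈ ball y s, ‖mGam 4 (U a) (U b) z‖ ≤ 4 := by
      intro z hz
      have hzW := hW1 (ball_subset_closedBall hz)
      rw [Real.norm_eq_abs, ← Bs84.inner_Gr_eq]
      refine (abs_real_inner_le_norm _ _).trans ?_
      have h2 := hG a z hzW
      have h3 := hG b z hzW
      nlinarith [norm_nonneg (Gr (n := 4) (U a) z), norm_nonneg (Gr (n := 4) (U b) z)]
    have h2 := norm_setIntegral_le_of_norm_le_const (measure_ball_lt_top (μ := μM)) h1
    rw [hA, Matrix.of_apply, setAverage_eq, smul_eq_mul, abs_mul, ← Real.norm_eq_abs (∫ _ in _, _ ∂_)]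
    by_cases hV : (μM).real (ball y s) = 0
    · rw [hV]
      norm_num
    · have hV' : 0 < (μM).real (ball y s) := lt_of_le_of_ne ENNReal.toReal_nonneg (Ne.symm hV)
      rw [abs_of_pos (inv_pos.2 hV'), inv_mul_le_iff₀ hV']
      linarith
  · have hFc : ∀ z ∈ W, ContinuousAt (fun z => ‖Fm 4 U z - A'‖ ^ 2) z := fun z hz =>
      ((continuousAt_Fm fun a => hU a z hz).sub continuousAt_const).norm.pow 2
    have hi2 : IntegrableOn (fun z => ‖Fm 4 U z - A'‖ ^ 2) (ball y s) μM :=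
      integrableOn_ball_of_contAt hFc hW1
    have hpt : ∀ z, Dev U A z ≤ 2 * s ^ (-α) * ‖Fm 4 U z - A'‖ ^ 2 + 2 * s ^ α := by
      intro z
      have hsα : 0 < s ^ α := Real.rpow_pos_of_pos hs _
      have h1 : Dev U A z ^ 2 ≤ 16 * ‖Fm 4 U z - A'‖ ^ 2 := by
        rw [norm_Fm_sub_sq]
        have e1 : Dev U A z = ∑ p : Fin 4 × Fin 4, |mGam 4 (U p.1) (U p.2) z - A p.1 p.2| := by
          rw [Fintype.sum_prod_type]
          rfl
        have e2 : ∑ a, ∑ b, (mGam 4 (U a) (U b) z - A' (a, b)) ^ 2 =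
            ∑ p : Fin 4 × Fin 4, |mGam 4 (U p.1) (U p.2) z - A p.1 p.2| ^ 2 := by
          rw [Fintype.sum_prod_type]
          simp only [sq_abs]
          rfl
        rw [e1, e2]
        have h2 := sq_sum_le_card_mul_sum_sq (s := (Finset.univ : Finset (Fin 4 × Fin 4)))
          (f := fun p => |mGam 4 (U p.1) (U p.2) z - A p.1 p.2|)
        simpa using h2
      rw [Real.rpow_neg hs.le]
      generalize ‖Fm 4 U z - A'‖ ^ 2 = X at h1 ⊢
      have h3 : 0 ≤ (Dev U A z - 4 * s ^ α) ^ 2 := sq_nonneg _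
      have h4 : 8 * s ^ α * Dev U A z ≤ 16 * X + 16 * (s ^ α) ^ 2 := by nlinarith
      have h5 : 2 * (s ^ α)⁻¹ * X + 2 * s ^ α = (16 * X + 16 * (s ^ α) ^ 2) / (8 * s ^ α) := by
        field_simp
        ring
      rw [h5, le_div_iff₀ (by positivity)]
      linarith
    have hic : IntegrableOn (fun _ : M => 2 * s ^ α) (ball y s) μM :=
      integrableOn_const measure_ball_lt_top.ne
    have h1 : ∫ z in ball y s, Dev U A z ∂μM ≤
        2 * s ^ (-α) * ∫ z in ball y s, ‖Fm 4 U z - A'‖ ^ 2 ∂μM +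
          (μM).real (ball y s) * (2 * s ^ α) := by
      calc ∫ z in ball y s, Dev U A z ∂μM
          ≤ ∫ z in ball y s, (2 * s ^ (-α) * ‖Fm 4 U z - A'‖ ^ 2 + 2 * s ^ α) ∂μM :=
            integral_mono (int_Dev hU hW1) ((hi2.const_mul _).add hic) hpt
        _ = _ := by
            rw [integral_add (hi2.const_mul _) hic, integral_const_mul, setIntegral_const,
              smul_eq_mul]
    have hsα : 0 < s ^ α := Real.rpow_pos_of_pos hs _
    have hsna : 0 < s ^ (-α) := Real.rpow_pos_of_pos hs _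
    have e1 : (2 * s) ^ (2 + 2 * α) ≤ 16 * s ^ (2 + 2 * α) := by
      rw [Real.mul_rpow (by norm_num) hs.le]
      have h2 : (2:ℝ) ^ (2 + 2 * α) ≤ 2 ^ (4:ℝ) :=
        Real.rpow_le_rpow_of_exponent_le (by norm_num) (by linarith)
      have h3 : (2:ℝ) ^ (4:ℝ) = 16 := by norm_num
      rw [h3] at h2
      exact mul_le_mul_of_nonneg_right h2 (Real.rpow_nonneg hs.le _)
    have h2 : ∫ z in ball y s, ‖Fm 4 U z - A'‖ ^ 2 ∂μM ≤ 131072 * C * s ^ 2 * s ^ (2 + 2 * α) := by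
      refine hP.trans ?_
      have e2 : ∫ z in ball y (2 * s), T2 4 U z ∂μM ≤ C * (16 * s ^ (2 + 2 * α)) :=
        hH.trans (mul_le_mul_of_nonneg_left e1 hC)
      have e3 : 8 * s ^ 2 * 2 ^ 4 * (4 * ((4:ℕ):ℝ) * 2 ^ 2) * ∫ z in ball y (2 * s), T2 4 U z ∂μM ≤
          8 * s ^ 2 * 2 ^ 4 * (4 * ((4:ℕ):ℝ) * 2 ^ 2) * (C * (16 * s ^ (2 + 2 * α))) :=
        mul_le_mul_of_nonneg_left e2 (by positivity)
      refine e3.trans (le_of_eq ?_)
      push_cast
      ring
    have e4 : s ^ (-α) * (s ^ 2 * s ^ (2 + 2 * α)) = s ^ (4 + α) := by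
      rw [← Real.rpow_natCast s 2, ← Real.rpow_add hs, ← Real.rpow_add hs]
      congr 1
      push_cast
      ring
    have e5 : s ^ 4 * s ^ α = s ^ (4 + α) := by
      rw [← Real.rpow_natCast s 4, ← Real.rpow_add hs]
      norm_num
    refine h1.trans ?_
    have h3 : 2 * s ^ (-α) * ∫ z in ball y s, ‖Fm 4 U z - A'‖ ^ 2 ∂μM ≤
        2 * s ^ (-α) * (131072 * C * s ^ 2 * s ^ (2 + 2 * α)) :=
      mul_le_mul_of_nonneg_left h2 (by positivity)
    have h4 : (μM).real (ball y s) * (2 * s ^ α) ≤ om4 * s ^ 4 * (2 * s ^ α) :=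
      mul_le_mul_of_nonneg_right hvol (by positivity)
    have h5 : 2 * s ^ (-α) * (131072 * C * s ^ 2 * s ^ (2 + 2 * α)) =
        262144 * C * (s ^ (-α) * (s ^ 2 * s ^ (2 + 2 * α))) := by ring
    have h6 : om4 * s ^ 4 * (2 * s ^ α) = 2 * om4 * (s ^ 4 * s ^ α) := by ring
    rw [h5, e4] at h3
    rw [h6, e5] at h4
    unfold KP
    linarith

end Crest.Agent.R249.Av509
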