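import Crest.Agent.R249.Av1_174

/-!
# R249 (helper174), D3-LIM/AV, part 2: the limit of the averages, `avStmt : AvStmt`
-/

set_option autoImplicit false
set_option maxSynthPendingDepth 3
noncomputable section
open Set Filter Topology Bundle MeasureTheory Metric
open scoped ContDiff Manifold ENNReal NNReal Matrix
open Crest.GeometryTopology.CoordMetric Crest.GeometryTopology.ChartCurvature
  Crest.GeometryTopology.RicciEnergy Crest.GeometryTopology.PointedLimit
open Crest.Agent.R247.Bo84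
open Crest.Agent.R249.D1Def104 Crest.Agent.R249.Ul174 Crest.Agent.R249.Len47
open Crest.Agent.R249.AsmD832 Crest.Agent.R249.LimDef41 Crest.Agent.R249.St174
open Crest.Agent.R249.SobE_982 Crest.Agent.R249.SobG_982

namespace Crest.Agent.R249.Av174

local notation "𝔼" => EuclideanSpace ℝ (Fin 4)

/-- the second constant -/
def KB (C : ℝ) : ℝ := 512 / om4 * KA C

theorem KB_nonneg (C : ℝ) : 0 ≤ KB C := by
  have := om4_pos
  have := KA_nonneg C
  unfold KB; positivity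

section one

variable {M : Type} [MetricSpace M] [CompleteSpace M] [ConnectedSpace M]
  [ChartedSpace (EuclideanSpace ℝ (Fin 4)) M]
  [IsManifold 𝓘(ℝ, EuclideanSpace ℝ (Fin 4)) ∞ M]
  [RiemannianBundle (fun x : M => TangentSpace 𝓘(ℝ, EuclideanSpace ℝ (Fin 4)) x)]
  [IsContMDiffRiemannianBundle 𝓘(ℝ, EuclideanSpace ℝ (Fin 4)) ∞ (EuclideanSpace ℝ (Fin 4))
    (fun x : M => TangentSpace 𝓘(ℝ, EuclideanSpace ℝ (Fin 4)) x)]
  [IsRiemannianManifold 𝓘(ℝ, EuclideanSpace ℝ (Fin 4)) M]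
  [MeasurableSpace M] [BorelSpace M]

/-- what holds on one manifold, at the scales `≥ σ` -/
structure Good (x : M) (ρ α C ε σ : ℝ) (u : Fin 4 → M → ℝ) : Prop where
  ric : HasRicciLowerBound 4 M 0
  smooth : ∀ a, ContMDiffOn 𝓘(ℝ, 𝔼) 𝓘(ℝ, ℝ) ∞ (u a) (ball x (16 * ρ))
  gam : ∀ a, ∀ p ∈ ball x (16 * ρ), mGam 4 (u a) (u a) p ≤ 4
  hess : ∀ y ∈ ball x (8 * ρ), ∀ s : ℝ, σ ≤ s → s ≤ 8 * ρ →
    ∫ z in ball y s, ∑ a, mHessSq 4 (u a) z ∂(μHE[4] : Measure M) ≤ C * s ^ (2 + 2 * α)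
  near : ∀ y ∈ ball x (8 * ρ), ∀ s : ℝ, σ ≤ s → s ≤ 8 * ρ →
    ∫ z in ball y s, ∑ a, ∑ b, |mGam 4 (u a) (u b) z - if a = b then 1 else 0|
      ∂(μHE[4] : Measure M) ≤ ε * s ^ 4
  vol : ∀ y ∈ ball x (16 * ρ), ∀ r : ℝ, 0 < r → r ≤ 16 * ρ →
    ENNReal.ofReal (1 / 2 * (om4 * r ^ 4)) ≤ (μHE[4] : Measure M) (ball y r)

variable {x : M} {ρ α C ε σ : ℝ} {u : Fin 4 → M → ℝ}

theorem Good.near_av (hG : Good x ρ α C ε σ u) {y : M} (hy : y ∈ ball x (8 * ρ)) {s : ℝ}
    (hs : 0 < s) (hσ : σ ≤ s) (hsρ : s ≤ 4 * ρ) :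
    ∑ a, ∑ b, |Av (u a) (u b) y s - if a = b then 1 else 0| ≤ 2 * ε / om4 := by
  have := Crest.Agent.R247.HR216.properSpace_of_riemannian 4 M
  have := Crest.Agent.R247.GluM923.isLocallyFinite 4 M
  have hw := om4_pos
  have hsub : closedBall y s ⊆ ball x (16 * ρ) := fun z hz => by
    rw [mem_closedBall] at hz
    rw [mem_ball] at hy ⊢
    have := dist_triangle z y x
    linarith
  have hy' : y ∈ ball x (16 * ρ) := hsub (mem_closedBall_self hs.le)
  have hv := hG.vol y hy' s hs (by linarith)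
  have hi : ∀ a b, IntegrableOn (fun z => |mGam 4 (u a) (u b) z - if a = b then 1 else 0|)
      (ball y s) (μHE[4] : Measure M) := fun a b => (integrableOn_sub hG.smooth hsub a b _).abs
  calc ∑ a, ∑ b, |Av (u a) (u b) y s - if a = b then 1 else 0|
      ≤ ∑ a, ∑ b, 2 / (om4 * s ^ 4) *
        ∫ z in ball y s, |mGam 4 (u a) (u b) z - if a = b then 1 else 0|
          ∂(μHE[4] : Measure M) :=
        Finset.sum_le_sum fun a _ => Finset.sum_le_sum fun b _ =>
          av_sub_le hs hG.smooth hsub hv a b _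
    _ = 2 / (om4 * s ^ 4) * ∫ z in ball y s, ∑ a, ∑ b,
        |mGam 4 (u a) (u b) z - if a = b then 1 else 0| ∂(μHE[4] : Measure M) := by
        rw [integral_finsetSum _ fun a _ => integrable_finsetSum _ fun b _ => hi a b,
          Finset.mul_sum]
        refine Finset.sum_congr rfl fun a _ => ?_
        rw [integral_finsetSum _ fun b _ => hi a b, Finset.mul_sum]
    _ ≤ 2 / (om4 * s ^ 4) * (ε * s ^ 4) :=
        mul_le_mul_of_nonneg_left (hG.near y hy s hσ (by linarith)) (by positivity)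
    _ = 2 * ε / om4 := by field_simp

theorem Good.diff (hG : Good x ρ α C ε σ u) (hC : 0 < C) (hα : α < 1) {y y' : M}
    (hy : y ∈ ball x (8 * ρ)) {s s' : ℝ} (hs : 0 < s) (hσ : σ ≤ 2 * s) (hsρ : s ≤ 4 * ρ)
    (hs' : s / 4 ≤ s') (hd : dist y y' + s' ≤ s) (a b : Fin 4) :
    |Av (u a) (u b) y' s' - Av (u a) (u b) y s| ≤ KB C * s ^ α := by
  have hw := om4_pos
  have hs0 : 0 < s' := by linarith
  have hcb : closedBall y' s' ⊆ closedBall y s := fun z hz => by
    rw [mem_closedBall] at hz ⊢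
    have := dist_triangle z y' y
    rw [dist_comm y' y] at this
    linarith
  have hb : ball y' s' ⊆ ball y s := fun z hz => by
    rw [mem_ball] at hz ⊢
    have := dist_triangle z y' y
    rw [dist_comm y' y] at this
    linarith
  have hsub : closedBall y s ⊆ ball x (16 * ρ) := fun z hz => by
    rw [mem_closedBall] at hz
    rw [mem_ball] at hy ⊢
    have := dist_triangle z y x
    linarith
  have hss : s' ≤ s := by
    have : 0 ≤ dist y y' := dist_nonneg
    linarith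
  have key := av_diff hG.ric hC hα hG.smooth hG.gam hs hsρ hy
    (hG.hess y hy (2 * s) hσ (by linarith)) hs0 hb (hcb.trans hsub)
    (hG.vol y' (hsub (hcb (mem_closedBall_self hs0.le))) s' hs0 (by linarith)) a b
  refine key.trans ?_
  have h1 : s ^ 4 ≤ 256 * s' ^ 4 := by
    have : s ^ 4 ≤ (4 * s') ^ 4 := pow_le_pow_left₀ hs.le (by linarith) 4
    linarith [show (4 * s') ^ 4 = 256 * s' ^ 4 by ring]
  have h2 : 2 / (om4 * s' ^ 4) ≤ 512 / (om4 * s ^ 4) := by
    rw [div_le_div_iff₀ (by positivity) (by positivity)]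
    nlinarith
  have h3 : s ^ (4 + α) = s ^ 4 * s ^ α := by
    rw [Real.rpow_add hs]
    norm_num
  have hK := KA_nonneg C
  have h4 : 0 ≤ s ^ α := Real.rpow_nonneg hs.le _
  calc 2 / (om4 * s' ^ 4) * (KA C * s ^ (4 + α))
      ≤ 512 / (om4 * s ^ 4) * (KA C * s ^ (4 + α)) := by
        rw [h3]; gcongr
    _ = KB C * s ^ α := by
        rw [h3, KB]; field_simp

end one

/-- dyadic scales -/
def sc (ρ : ℝ) (j : ℕ) : ℝ := ρ * (1 / 2) ^ j

theorem sc_pos {ρ : ℝ} (hρ : 0 < ρ) (j : ℕ) : 0 < sc ρ j := by unfold sc; positivity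

theorem sc_succ (ρ : ℝ) (j : ℕ) : sc ρ (j + 1) = sc ρ j / 2 := by unfold sc; ring

theorem sc_le {ρ : ℝ} (hρ : 0 < ρ) (j : ℕ) : sc ρ j ≤ ρ := by
  unfold sc
  have : ((1 : ℝ) / 2) ^ j ≤ 1 := pow_le_one₀ (by norm_num) (by norm_num)
  nlinarith

theorem exists_sc {ρ s : ℝ} (hρ : 0 < ρ) (hs : 0 < s) (hsρ : s ≤ ρ) :
    ∃ j, sc ρ (j + 1) < s ∧ s ≤ sc ρ j := by
  obtain ⟨n, h1, h2⟩ := exists_nat_pow_near_of_lt_one (x := s / ρ) (y := (1 : ℝ) / 2)
    (by positivity) ((div_le_one hρ).2 hsρ) (by norm_num) (by norm_num)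
  refine ⟨n, ?_, ?_⟩
  · rw [lt_div_iff₀ hρ] at h1
    unfold sc; linarith
  · rw [div_le_iff₀ hρ] at h2
    unfold sc; linarith

theorem half_rpow_le {s α : ℝ} (hs : 0 < s) (hα : 1 / 2 ≤ α) : (s / 2) ^ α ≤ 3 / 4 * s ^ α := by
  rw [Real.div_rpow hs.le zero_le_two]
  have h1 : (4 : ℝ) / 3 ≤ 2 ^ α := by
    calc (4 : ℝ) / 3 ≤ √2 := by
          rw [Real.le_sqrt (by norm_num) (by norm_num)]; norm_num
      _ = 2 ^ ((1 : ℝ) / 2) := by rw [Real.sqrt_eq_rpow]
      _ ≤ 2 ^ α := Real.rpow_le_rpow_of_exponent_le one_le_two hα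
  have h2 : 0 ≤ s ^ α := Real.rpow_nonneg hs.le _
  rw [div_le_iff₀ (by positivity)]
  nlinarith

section seq

variable {M : ℕ → Type} [∀ k, MetricSpace (M k)] [∀ k, CompleteSpace (M k)]
  [∀ k, ConnectedSpace (M k)] [∀ k, ChartedSpace (EuclideanSpace ℝ (Fin 4)) (M k)]
  [∀ k, IsManifold 𝓘(ℝ, EuclideanSpace ℝ (Fin 4)) ∞ (M k)]
  [∀ k, RiemannianBundle (fun x : M k => TangentSpace 𝓘(ℝ, EuclideanSpace ℝ (Fin 4)) x)]
  [∀ k, IsContMDiffRiemannianBundle 𝓘(ℝ, EuclideanSpace ℝ (Fin 4)) ∞ (EuclideanSpace ℝ (Fin 4))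
    (fun x : M k => TangentSpace 𝓘(ℝ, EuclideanSpace ℝ (Fin 4)) x)]
  [∀ k, IsRiemannianManifold 𝓘(ℝ, EuclideanSpace ℝ (Fin 4)) (M k)]
  [∀ k, MeasurableSpace (M k)] [∀ k, BorelSpace (M k)] {q : ∀ k, M k}
  {x : ∀ k, M k} {hx : Bd q x} {ρ α C ε δ lam : ℝ} {lamk : ℕ → ℝ}
  {u : ∀ k, Fin 4 → M k → ℝ}

/-- limit of the averages at scale `s` -/
def Lav (u : ∀ k, Fin 4 → M k → ℝ) (z : UL q) (a b : Fin 4) (s : ℝ) : ℝ :=
  rlim fun k => Av (u k a) (u k b) (z.rep k) s

/-- the limit of the averages -/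
def hAv (u : ∀ k, Fin 4 → M k → ℝ) (ρ : ℝ) (z : UL q) : Matrix (Fin 4) (Fin 4) ℝ :=
  Matrix.of fun a b => rlim fun j => Lav u z a b (sc ρ j)

theorem Lav_comm (z : UL q) (a b : Fin 4) (s : ℝ) : Lav u z a b s = Lav u z b a s := by
  unfold Lav
  congr 1
  funext k
  exact Av_comm _ _ _ _

theorem hAv_symm (z : UL q) (a b : Fin 4) : hAv u ρ z a b = hAv u ρ z b a := by
  unfold hAv
  simp only [Matrix.of_apply]
  congr 1
  funext j
  exact Lav_comm z a b _

theorem ev_good (hδ : δ ≤ 1 / 2) (hD : HData x ρ α C ε δ lam lamk u) {σ : ℝ} (hσ : 0 < σ) :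
    ∀ᶠ k in om, Good (x k) ρ α C ε σ (u k) := by
  have hw := om4_pos
  filter_upwards [hD.ric, hD.smooth, hD.harm, hD.hess σ hσ, hD.near σ hσ, hD.pinch]
    with k h1 h2 h3 h4 h5 h6
  refine ⟨h1, h2, fun a p hp => (h3 a p hp).2, h4, h5, fun y hy r hr hr' => ?_⟩
  refine le_trans ?_ (h6 y hy r hr hr')
  rw [vol_ball_eq 0 hr, ← ENNReal.ofReal_mul (by linarith)]
  refine ENNReal.ofReal_le_ofReal ?_
  have : 0 ≤ om4 * r ^ 4 := by positivity
  nlinarith

theorem ev_rep {z : UL q} {R : ℝ} (hz : z ∈ ball (UL.mk x hx) R) :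
    ∀ᶠ k in om, z.rep k ∈ ball (x k) R := by
  have h : dist (UL.mk x hx) (UL.mk z.rep z.bd_rep) < R := by
    rw [UL.mk_rep, dist_comm]; exact hz
  filter_upwards [UL.ev_lt hx z.bd_rep h] with k hk
  rw [mem_ball, dist_comm]; exact hk

theorem tendsto_Lav (hδ : δ ≤ 1 / 2) (hD : HData x ρ α C ε δ lam lamk u) {z : UL q}
    (hz : z ∈ ball (UL.mk x hx) (4 * ρ)) {s : ℝ} (hs : 0 < s) (hsρ : s ≤ 4 * ρ) (a b : Fin 4) :
    Tendsto (fun k => Av (u k a) (u k b) (z.rep k) s) om (𝓝 (Lav u z a b s)) := by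
  have hρ := hD.ρ_pos
  refine tendsto_rlim (C := 2 * ε / om4 + 1) ?_
  filter_upwards [ev_good hδ hD hs, ev_rep hz] with k hG hk
  have h1 := hG.near_av (ball_subset_ball (by linarith) hk) hs le_rfl hsρ
  have h2 : |Av (u k a) (u k b) (z.rep k) s - if a = b then 1 else 0| ≤ 2 * ε / om4 := by
    refine le_trans ?_ h1
    refine le_trans ?_ (Finset.single_le_sum
      (f := fun a => ∑ b, |Av (u k a) (u k b) (z.rep k) s - if a = b then 1 else 0|)
      (fun a _ => Finset.sum_nonneg fun b _ => abs_nonneg _) (Finset.mem_univ a))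
    exact Finset.single_le_sum
      (f := fun b => |Av (u k a) (u k b) (z.rep k) s - if a = b then 1 else 0|)
      (fun b _ => abs_nonneg _) (Finset.mem_univ b)
  have h3 : |(if a = b then (1 : ℝ) else 0)| ≤ 1 := by split_ifs <;> norm_num
  have h4 := abs_sub_abs_le_abs_sub (Av (u k a) (u k b) (z.rep k) s) (if a = b then (1 : ℝ) else 0)
  linarith

theorem Lav_near (hδ : δ ≤ 1 / 2) (hD : HData x ρ α C ε δ lam lamk u) {z : UL q}
    (hz : z ∈ ball (UL.mk x hx) (4 * ρ)) {s : ℝ} (hs : 0 < s) (hsρ : s ≤ 4 * ρ) :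
    ∑ a, ∑ b, |Lav u z a b s - if a = b then 1 else 0| ≤ 2 * ε / om4 := by
  have hρ := hD.ρ_pos
  have h1 : Tendsto (fun k => ∑ a, ∑ b, |Av (u k a) (u k b) (z.rep k) s - if a = b then 1 else 0|)
      om (𝓝 (∑ a, ∑ b, |Lav u z a b s - if a = b then 1 else 0|)) :=
    tendsto_finsetSum _ fun a _ => tendsto_finsetSum _ fun b _ =>
      ((tendsto_Lav hδ hD hz hs hsρ a b).sub_const _).abs
  refine le_of_tendsto h1 ?_
  filter_upwards [ev_good hδ hD hs, ev_rep hz] with k hG hk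
  exact hG.near_av (ball_subset_ball (by linarith) hk) hs le_rfl hsρ

theorem Lav_diff (hδ : δ ≤ 1 / 2) (hD : HData x ρ α C ε δ lam lamk u) {z z' : UL q}
    (hz : z ∈ ball (UL.mk x hx) (4 * ρ)) (hz' : z' ∈ ball (UL.mk x hx) (4 * ρ)) {s s' : ℝ}
    (hs : 0 < s) (hsρ : s ≤ 4 * ρ) (hs' : s / 4 ≤ s') (hd : z = z' ∧ s' ≤ s ∨ dist z z' + s' < s)
    (a b : Fin 4) : |Lav u z' a b s' - Lav u z a b s| ≤ KB C * s ^ α := by
  have hρ := hD.ρ_pos
  have hs0 : 0 < s' := by linarith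
  have hss : s' ≤ s := by
    rcases hd with h | h
    · exact h.2
    · have : 0 ≤ dist z z' := dist_nonneg
      linarith
  have h1 : Tendsto (fun k => |Av (u k a) (u k b) (z'.rep k) s' - Av (u k a) (u k b) (z.rep k) s|)
      om (𝓝 (|Lav u z' a b s' - Lav u z a b s|)) :=
    ((tendsto_Lav hδ hD hz' hs0 (by linarith) a b).sub (tendsto_Lav hδ hD hz hs hsρ a b)).abs
  refine le_of_tendsto h1 ?_
  have h2 : ∀ᶠ k in om, dist (z.rep k) (z'.rep k) + s' ≤ s := by
    rcases hd with ⟨rfl, h⟩ | h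
    · exact Eventually.of_forall fun k => by simpa using h
    · have h3 : dist z z' < s - s' := by linarith
      have h4 := UL.tendsto_dist_rep z z'
      filter_upwards [(tendsto_order.1 h4).2 _ h3] with k hk
      linarith
  filter_upwards [ev_good hδ hD (σ := 2 * s) (by positivity), ev_rep hz, h2] with k hG hk hk2
  exact hG.diff hD.C_pos hD.α_lt (ball_subset_ball (by linarith) hk) hs le_rfl hsρ hs' hk2 a b

theorem Lav_tele (hδ : δ ≤ 1 / 2) (hD : HData x ρ α C ε δ lam lamk u) {z : UL q}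
    (hz : z ∈ ball (UL.mk x hx) (4 * ρ)) (a b : Fin 4) (i n : ℕ) :
    |Lav u z a b (sc ρ (i + n)) - Lav u z a b (sc ρ i)| ≤
      4 * KB C * (sc ρ i ^ α - sc ρ (i + n) ^ α) := by
  have hρ := hD.ρ_pos
  have hα : 1 / 2 ≤ α := by linarith [hD.α_gt]
  induction n with
  | zero => simp
  | succ n ih =>
    have h0 := sc_pos hρ (i + n)
    have h1 := Lav_diff hδ hD hz hz (s := sc ρ (i + n)) (s' := sc ρ (i + n + 1)) h0
      (by linarith [sc_le hρ (i + n)]) (by rw [sc_succ]; linarith)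
      (Or.inl ⟨rfl, by rw [sc_succ]; linarith⟩) a b
    have h2 := half_rpow_le h0 hα
    rw [← sc_succ] at h2
    have hK := KB_nonneg C
    have h3 := abs_sub_le (Lav u z a b (sc ρ (i + n + 1))) (Lav u z a b (sc ρ (i + n)))
      (Lav u z a b (sc ρ i))
    rw [← add_assoc]
    nlinarith [mul_le_mul_of_nonneg_left h2 hK]

theorem tendsto_hAv (hδ : δ ≤ 1 / 2) (hD : HData x ρ α C ε δ lam lamk u) {z : UL q}
    (hz : z ∈ ball (UL.mk x hx) (4 * ρ)) (a b : Fin 4) :
    Tendsto (fun j => Lav u z a b (sc ρ j)) om (𝓝 (hAv u ρ z a b)) := by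
  have hρ := hD.ρ_pos
  refine tendsto_rlim (C := |Lav u z a b (sc ρ 0)| + 4 * KB C * sc ρ 0 ^ α)
    (Eventually.of_forall fun j => ?_)
  have h1 := Lav_tele hδ hD hz a b 0 j
  rw [zero_add] at h1
  have h2 : 0 ≤ sc ρ j ^ α := Real.rpow_nonneg (sc_pos hρ j).le _
  have hK := KB_nonneg C
  have h3 := abs_sub_abs_le_abs_sub (Lav u z a b (sc ρ j)) (Lav u z a b (sc ρ 0))
  nlinarith

theorem hAv_sub (hδ : δ ≤ 1 / 2) (hD : HData x ρ α C ε δ lam lamk u) {z : UL q}
    (hz : z ∈ ball (UL.mk x hx) (4 * ρ)) (a b : Fin 4) (i : ℕ) :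
    |hAv u ρ z a b - Lav u z a b (sc ρ i)| ≤ 4 * KB C * sc ρ i ^ α := by
  have hρ := hD.ρ_pos
  have h1 := ((tendsto_hAv hδ hD hz a b).sub_const (Lav u z a b (sc ρ i))).abs
  refine le_of_tendsto h1 ?_
  filter_upwards [ev_ge i] with j hj
  obtain ⟨n, rfl⟩ := Nat.exists_eq_add_of_le hj
  refine (Lav_tele hδ hD hz a b i n).trans ?_
  have h2 : 0 ≤ sc ρ (i + n) ^ α := Real.rpow_nonneg (sc_pos hρ _).le _
  have hK := KB_nonneg C
  nlinarith

theorem hAv_near (hδ : δ ≤ 1 / 2) (hD : HData x ρ α C ε δ lam lamk u) {z : UL q}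
    (hz : z ∈ ball (UL.mk x hx) (4 * ρ)) :
    ∑ a, ∑ b, |hAv u ρ z a b - if a = b then 1 else 0| ≤ 2 * ε / om4 := by
  have hρ := hD.ρ_pos
  have h1 : Tendsto (fun j => ∑ a, ∑ b, |Lav u z a b (sc ρ j) - if a = b then 1 else 0|)
      om (𝓝 (∑ a, ∑ b, |hAv u ρ z a b - if a = b then 1 else 0|)) :=
    tendsto_finsetSum _ fun a _ => tendsto_finsetSum _ fun b _ =>
      ((tendsto_hAv hδ hD hz a b).sub_const _).abs
  refine le_of_tendsto h1 (Eventually.of_forall fun j => ?_)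
  exact Lav_near hδ hD hz (sc_pos hρ j) (by linarith [sc_le hρ j])

theorem hAv_hold (hδ : δ ≤ 1 / 2) (hε : 0 ≤ ε) (hD : HData x ρ α C ε δ lam lamk u) {z z' : UL q}
    (hz : z ∈ ball (UL.mk x hx) (4 * ρ)) (hz' : z' ∈ ball (UL.mk x hx) (4 * ρ)) (a b : Fin 4) :
    |hAv u ρ z a b - hAv u ρ z' a b| ≤
      (72 * KB C + 4 * ε / om4 * (4 / ρ) ^ α) * dist z z' ^ α := by
  have hρ := hD.ρ_pos
  have hw := om4_pos
  have hα0 : 0 < α := by linarith [hD.α_gt]
  have hα1 := hD.α_lt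
  have hK := KB_nonneg C
  rcases eq_or_ne z z' with rfl | hne
  · rw [dist_self, Real.zero_rpow hα0.ne', sub_self, abs_zero, mul_zero]
  have hd0 : 0 < dist z z' := dist_pos.2 hne
  set d := dist z z' with hd
  have hdα : 0 ≤ d ^ α := Real.rpow_nonneg hd0.le _
  have hP : 0 ≤ 4 * ε / om4 * (4 / ρ) ^ α := by positivity
  rcases le_or_gt (4 * d) ρ with h | h
  · obtain ⟨j, h1, h2⟩ := exists_sc hρ (s := 4 * d) (by positivity) h
    have hj := sc_pos hρ j
    have hj1 := sc_pos hρ (j + 1)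
    have e1 := hAv_sub hδ hD hz a b j
    have e2 := hAv_sub hδ hD hz' a b (j + 1)
    have e3 := Lav_diff hδ hD hz hz' (s := sc ρ j) (s' := sc ρ (j + 1)) hj
      (by linarith [sc_le hρ j]) (by rw [sc_succ]; linarith)
      (Or.inr (by rw [sc_succ, ← hd]; linarith)) a b
    have e4 : sc ρ (j + 1) ^ α ≤ sc ρ j ^ α :=
      Real.rpow_le_rpow hj1.le (by rw [sc_succ]; linarith) hα0.le
    have e5 : sc ρ j ^ α ≤ 8 * d ^ α := by
      calc sc ρ j ^ α ≤ (8 * d) ^ α :=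
            Real.rpow_le_rpow hj.le (by rw [sc_succ] at h1; linarith) hα0.le
        _ = 8 ^ α * d ^ α := Real.mul_rpow (by norm_num) hd0.le
        _ ≤ 8 * d ^ α := by
            refine mul_le_mul_of_nonneg_right ?_ hdα
            calc (8 : ℝ) ^ α ≤ 8 ^ (1 : ℝ) :=
                  Real.rpow_le_rpow_of_exponent_le (by norm_num) hα1.le
              _ = 8 := by norm_num
    have e6 : |hAv u ρ z a b - hAv u ρ z' a b| ≤
        |hAv u ρ z a b - Lav u z a b (sc ρ j)| +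
        |Lav u z' a b (sc ρ (j + 1)) - Lav u z a b (sc ρ j)| +
        |hAv u ρ z' a b - Lav u z' a b (sc ρ (j + 1))| := by
      have : hAv u ρ z a b - hAv u ρ z' a b = (hAv u ρ z a b - Lav u z a b (sc ρ j)) -
        (Lav u z' a b (sc ρ (j + 1)) - Lav u z a b (sc ρ j)) -
        (hAv u ρ z' a b - Lav u z' a b (sc ρ (j + 1))) := by ring
      rw [this]
      refine (abs_sub _ _).trans (add_le_add (abs_sub _ _) le_rfl)
    have e7 : |hAv u ρ z a b - hAv u ρ z' a b| ≤ 9 * KB C * sc ρ j ^ α := by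
      nlinarith [mul_le_mul_of_nonneg_left e4 hK]
    nlinarith [mul_le_mul_of_nonneg_left e5 hK, mul_nonneg hP hdα]
  · have n1 := hAv_near hδ hD hz
    have n2 := hAv_near hδ hD hz'
    have s1 : ∀ (w : UL q), |hAv u ρ w a b - if a = b then 1 else 0| ≤
        ∑ a, ∑ b, |hAv u ρ w a b - if a = b then 1 else 0| := by
      intro w
      refine le_trans ?_ (Finset.single_le_sum
        (f := fun a => ∑ b, |hAv u ρ w a b - if a = b then 1 else 0|)
        (fun a _ => Finset.sum_nonneg fun b _ => abs_nonneg _) (Finset.mem_univ a))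
      exact Finset.single_le_sum
        (f := fun b => |hAv u ρ w a b - if a = b then 1 else 0|)
        (fun b _ => abs_nonneg _) (Finset.mem_univ b)
    have e1 := (s1 z).trans n1
    have e2 := (s1 z').trans n2
    have e3 : |hAv u ρ z a b - hAv u ρ z' a b| ≤ 4 * ε / om4 := by
      have : hAv u ρ z a b - hAv u ρ z' a b =
        (hAv u ρ z a b - if a = b then 1 else 0) - (hAv u ρ z' a b - if a = b then 1 else 0) := by
        ring
      rw [this]
      refine (abs_sub _ _).trans ((add_le_add e1 e2).trans (le_of_eq ?_))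
      ring
    have e4 : 1 ≤ (4 / ρ) ^ α * d ^ α := by
      rw [← Real.mul_rpow (by positivity) hd0.le]
      refine Real.one_le_rpow ?_ hα0.le
      rw [div_mul_eq_mul_div, le_div_iff₀ hρ]
      linarith
    have e5 : 0 ≤ 4 * ε / om4 := by positivity
    have e6 := mul_le_mul_of_nonneg_left e4 e5
    nlinarith [mul_nonneg hK hdα]

/-- **AV** -/
theorem avOut (hδ : δ ≤ 1 / 2) (hε : 0 ≤ ε) (hD : HData x ρ α C ε δ lam lamk u) :
    ∃ C' : ℝ, 0 < C' ∧ AvOut x hx ρ α C' (2 * ε / om4) u (hAv u ρ) := by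
  have hρ := hD.ρ_pos
  have hw := om4_pos
  have hα0 : 0 < α := by linarith [hD.α_gt]
  have hα1 := hD.α_lt
  have hK := KB_nonneg C
  have hKA := KA_nonneg C
  set c1 : ℝ := 72 * KB C + 4 * ε / om4 * (4 / ρ) ^ α with hc1
  set c2 : ℝ := 16 * (KA C + om4 * (5 * KB C + 1)) with hc2
  have hc10 : 0 ≤ c1 := by positivity
  have hc20 : 0 < c2 := by positivity
  refine ⟨c1 + c2, by positivity, fun z a b => hAv_symm z a b, fun z hz => hAv_near hδ hD hz,
    fun z hz z' hz' a b => ?_, fun z hz s hs hsρ => ?_⟩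
  · refine (hAv_hold hδ hε hD hz hz' a b).trans ?_
    refine mul_le_mul_of_nonneg_right ?_ (Real.rpow_nonneg dist_nonneg _)
    linarith
  · obtain ⟨j, h1, h2⟩ := exists_sc hρ hs hsρ
    have hj1 := sc_pos hρ (j + 1)
    have hsα : 0 < s ^ α := Real.rpow_pos_of_pos hs _
    have hev : ∀ a b, ∀ᶠ k in om,
        |Av (u k a) (u k b) (z.rep k) (sc ρ (j + 1)) - Lav u z a b (sc ρ (j + 1))| ≤ s ^ α := by
      intro a b
      have h3 := tendsto_Lav hδ hD hz hj1 (by linarith) a b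
      have h4 := Metric.tendsto_nhds.1 h3 (s ^ α) hsα
      filter_upwards [h4] with k hk
      rw [Real.dist_eq] at hk
      exact hk.le
    have hev' : ∀ᶠ k in om, ∀ a b,
        |Av (u k a) (u k b) (z.rep k) (sc ρ (j + 1)) - Lav u z a b (sc ρ (j + 1))| ≤ s ^ α :=
      eventually_all.2 fun a => eventually_all.2 fun b => hev a b
    filter_upwards [ev_good hδ hD (σ := 2 * s) (by positivity), ev_rep hz, hev'] with k hG hk hk2
    have hk8 : z.rep k ∈ ball (x k) (8 * ρ) := ball_subset_ball (by linarith) hk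
    have hsub : closedBall (z.rep k) s ⊆ ball (x k) (16 * ρ) := fun w hw => by
      rw [mem_closedBall] at hw
      rw [mem_ball] at hk8 ⊢
      have := dist_triangle w (z.rep k) (x k)
      linarith
    have hone : ∀ a b, ∫ y in ball (z.rep k) s, |mGam 4 (u k a) (u k b) y - hAv u ρ z a b|
        ∂(μHE[4] : Measure (M k)) ≤ (KA C + om4 * (5 * KB C + 1)) * s ^ (4 + α) := by
      intro a b
      have e1 := hG.diff hD.C_pos hα1 hk8 hs le_rfl (by linarith) (y' := z.rep k)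
        (s' := sc ρ (j + 1)) (by rw [sc_succ] at h1 ⊢; linarith) (by rw [dist_self]; linarith) a b
      have e2 := hk2 a b
      have e3 := hAv_sub hδ hD hz a b (j + 1)
      have e4 : sc ρ (j + 1) ^ α ≤ s ^ α := Real.rpow_le_rpow hj1.le h1.le hα0.le
      have e5 : |Av (u k a) (u k b) (z.rep k) s - hAv u ρ z a b| ≤ (5 * KB C + 1) * s ^ α := by
        have : Av (u k a) (u k b) (z.rep k) s - hAv u ρ z a b =
          (Av (u k a) (u k b) (z.rep k) (sc ρ (j + 1)) - Lav u z a b (sc ρ (j + 1))) -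
          (Av (u k a) (u k b) (z.rep k) (sc ρ (j + 1)) - Av (u k a) (u k b) (z.rep k) s) -
          (hAv u ρ z a b - Lav u z a b (sc ρ (j + 1))) := by ring
        rw [this]
        refine (abs_sub _ _).trans ((add_le_add (abs_sub _ _) le_rfl).trans ?_)
        nlinarith [mul_le_mul_of_nonneg_left e4 hK]
      have e6 := dev_le hG.ric hD.C_pos hα1 hG.smooth hG.gam hs (by linarith) hk8
        (hG.hess _ hk8 (2 * s) le_rfl (by linarith)) a b e5
      refine e6.trans (le_of_eq ?_)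
      have h3 : s ^ (4 + α) = s ^ 4 * s ^ α := by
        rw [Real.rpow_add hs]
        norm_num
      rw [h3]; ring
    have hi : ∀ a b, IntegrableOn (fun y => |mGam 4 (u k a) (u k b) y - hAv u ρ z a b|)
        (ball (z.rep k) s) (μHE[4] : Measure (M k)) := fun a b =>
      (integrableOn_sub hG.smooth hsub a b _).abs
    rw [integral_finsetSum _ fun a _ => integrable_finsetSum _ fun b _ => hi a b]
    have hsum : ∑ a, ∫ y in ball (z.rep k) s, ∑ b, |mGam 4 (u k a) (u k b) y - hAv u ρ z a b|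
        ∂(μHE[4] : Measure (M k)) ≤ ∑ _a : Fin 4, ∑ _b : Fin 4,
          (KA C + om4 * (5 * KB C + 1)) * s ^ (4 + α) := by
      refine Finset.sum_le_sum fun a _ => ?_
      rw [integral_finsetSum _ fun b _ => hi a b]
      exact Finset.sum_le_sum fun b _ => hone a b
    refine hsum.trans ?_
    simp only [Finset.sum_const, Finset.card_univ, Fintype.card_fin, nsmul_eq_mul]
    push_cast
    have h5 : 0 ≤ s ^ (4 + α) := Real.rpow_nonneg hs.le _
    have h6 : 0 ≤ c1 * s ^ (4 + α) := mul_nonneg hc10 h5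
    rw [hc2]
    linarith

end seq

/-- **AV**, closed statement -/
theorem avStmt : AvStmt := by
  intro ε₁ hε₁
  have hw := om4_pos
  refine ⟨om4 * ε₁ / 2, by positivity, ?_⟩
  intro M _ _ _ _ _ _ _ _ _ _ q x hx ρ α C δ lam lamk u hδ hD
  obtain ⟨C', hC', hA⟩ := avOut (hx := hx) hδ (by positivity) hD
  have e : 2 * (om4 * ε₁ / 2) / om4 = ε₁ := by field_simp
  rw [e] at hA
  exact ⟨C', hAv u ρ, hC', hA⟩

end Crest.Agent.R249.Av174
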