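/-
Row 249, part B2 (helper474), step (1): the metric in radial coordinates of a space with parallel
curvature.

`normal_metric`: `(U, g, Γ)` Levi-Civita data, `Γ(x)(x, x) = 0` on `U`, `∇R = 0` on `U`; for `v` with
`[0,1] v ⊆ U` and solutions `j'' = - R_0(j, v) v`, `j 0 = 0`, `j' 0 = u` one has
`g (t v) (t u) (t u') = g 0 (j_u t) (j_{u'} t)`.
-/
import Crest.Agent.R249.B2Defs_474
import Crest.Agent.R202.LinODE

set_option autoImplicit false
set_option maxSynthPendingDepth 3
set_option linter.unusedSectionVars false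

open Set Filter Topology
open scoped ContDiff
open Crest.Agent.R244.CF (IsLC curv cov hasDerivAt_apply2 fderiv_apply2_const)
open Crest.Agent.R249.B2Defs_474

noncomputable section

namespace Crest.Agent.R249.B2Jac_474

section ODE

variable {F : Type*} [NormedAddCommGroup F] [NormedSpace ℝ F]

/-- uniqueness for linear ODEs on `[0,1]` -/
theorem lin_unique {A : ℝ → F →L[ℝ] F} (hA : ContinuousOn A (Icc (0 : ℝ) 1)) {x y : ℝ → F}
    (hx : ∀ t ∈ Icc (0 : ℝ) 1, HasDerivAt x (A t (x t)) t)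
    (hy : ∀ t ∈ Icc (0 : ℝ) 1, HasDerivAt y (A t (y t)) t) (h0 : x 0 = y 0) :
    ∀ t ∈ Icc (0 : ℝ) 1, x t = y t := by
  obtain ⟨K, hK⟩ : ∃ K : ℝ, ∀ t ∈ Icc (0 : ℝ) 1, ‖A t‖ ≤ K := by
    obtain ⟨K, hK⟩ := isCompact_Icc.bddAbove_image (f := fun t => ‖A t‖) hA.norm
    exact ⟨K, fun t ht => hK ⟨t, ht, rfl⟩⟩
  have hK0 : 0 ≤ K := (norm_nonneg _).trans (hK 0 ⟨le_rfl, zero_le_one⟩)
  have h := ODE_solution_unique_of_mem_Icc_right (v := fun t z => A t z) (s := fun _ => univ)
    (K := K.toNNReal) (f := x) (g := y) (a := 0) (b := 1)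
    (fun t ht => ((A t).lipschitz.weaken (by
      rw [← NNReal.coe_le_coe, Real.coe_toNNReal _ hK0]
      exact hK t ⟨ht.1, ht.2.le⟩)).lipschitzOnWith)
    (fun t ht => (hx t ht).continuousAt.continuousWithinAt)
    (fun t ht => (hx t ⟨ht.1, ht.2.le⟩).hasDerivWithinAt) (fun _ _ => trivial)
    (fun t ht => (hy t ht).continuousAt.continuousWithinAt)
    (fun t ht => (hy t ⟨ht.1, ht.2.le⟩).hasDerivWithinAt) (fun _ _ => trivial) h0
  exact fun t ht => h ht

end ODE

variable {E : Type*} [NormedAddCommGroup E] [NormedSpace ℝ E] [FiniteDimensional ℝ E]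
variable {U : Set E} {g : E → E →L[ℝ] E →L[ℝ] ℝ} {Γ : E → E →L[ℝ] E →L[ℝ] E}

/-- parallel frames along the segment `[0,1] v` -/
theorem exists_frame (h : IsLC U g Γ) {v : E} (hv : ∀ t ∈ Icc (0 : ℝ) 1, t • v ∈ U) :
    ∃ P : ℝ → E →L[ℝ] E, P 0 = ContinuousLinearMap.id ℝ E ∧
      ∀ t ∈ Icc (0 : ℝ) 1, HasDerivAt P (-(Γ (t • v) v).comp (P t)) t := by
  have : CompleteSpace E := FiniteDimensional.complete ℝ E
  let c : ℝ → ℝ := fun t => (projIcc (0 : ℝ) 1 zero_le_one t : ℝ)
  have hc : Continuous c := continuous_subtype_val.comp continuous_projIcc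
  have hcv : ∀ t, c t • v ∈ U := fun t => hv _ (projIcc (0 : ℝ) 1 zero_le_one t).2
  have hΓ : Continuous fun t => Γ (c t • v) v := by
    have h1 : Continuous fun t => Γ (c t • v) :=
      h.Γ_smooth.continuousOn.comp_continuous (hc.smul continuous_const) hcv
    exact h1.clm_apply continuous_const
  let A : Unit → ℝ → (E →L[ℝ] E) →L[ℝ] (E →L[ℝ] E) := fun _ t =>
    -(ContinuousLinearMap.compL ℝ E E E (Γ (c t • v) v))
  have hA : Continuous (Function.uncurry A) := by
    have h2 : Continuous fun p : Unit × ℝ => Γ (c p.2 • v) v := hΓ.comp continuous_snd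
    exact ((ContinuousLinearMap.compL ℝ E E E).continuous.comp h2).neg
  obtain ⟨S, -, hS0, hS⟩ := Crest.Agent.R202.LinODE.exists_flow hA 0
    (x0 := fun _ => ContinuousLinearMap.id ℝ E) continuous_const
  refine ⟨S (), hS0 (), fun t ht => ?_⟩
  have h3 := hS () t
  have h4 : c t = t := by
    show ((projIcc (0 : ℝ) 1 zero_le_one t : Icc (0:ℝ) 1) : ℝ) = t
    rw [projIcc_of_mem _ ht]
  have h5 : A () t (S () t) = -(Γ (t • v) v).comp (S () t) := by
    show -((Γ (c t • v) v).comp (S () t)) = _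
    rw [h4]
  rw [h5] at h3
  exact h3

/-- derivative of the curvature along a curve -/
theorem hasDerivAt_curv (h : IsLC U g Γ) {c A B C : ℝ → E} {c' A' B' C' : E} {t : ℝ}
    (hx : c t ∈ U) (hc : HasDerivAt c c' t) (hA : HasDerivAt A A' t) (hB : HasDerivAt B B' t)
    (hC : HasDerivAt C C' t) :
    HasDerivAt (fun s => curv Γ (c s) (A s) (B s) (C s))
      (fderiv ℝ (fun y => curv Γ y (A t) (B t) (C t)) (c t) c' + curv Γ (c t) A' (B t) (C t)
        + curv Γ (c t) (A t) B' (C t) + curv Γ (c t) (A t) (B t) C') t := by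
  have hG := h.Γ_differentiableAt hx
  have hDG : DifferentiableAt ℝ (fderiv ℝ Γ) (c t) :=
    ((h.Γ_contDiffAt hx).fderiv_right (m := ∞) (by simp)).differentiableAt (by simp)
  -- general formula, for a curve `c` with velocity `c'`
  have key : ∀ {c A B C : ℝ → E} {c' A' B' C' : E} {t : ℝ}, DifferentiableAt ℝ Γ (c t) →
      DifferentiableAt ℝ (fderiv ℝ Γ) (c t) → HasDerivAt c c' t → HasDerivAt A A' t →
      HasDerivAt B B' t → HasDerivAt C C' t →
      HasDerivAt (fun s => curv Γ (c s) (A s) (B s) (C s))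
        (fderiv ℝ (fderiv ℝ Γ) (c t) c' (A t) (B t) (C t) + fderiv ℝ Γ (c t) A' (B t) (C t)
          + fderiv ℝ Γ (c t) (A t) B' (C t) + fderiv ℝ Γ (c t) (A t) (B t) C'
        - (fderiv ℝ (fderiv ℝ Γ) (c t) c' (B t) (A t) (C t) + fderiv ℝ Γ (c t) B' (A t) (C t)
          + fderiv ℝ Γ (c t) (B t) A' (C t) + fderiv ℝ Γ (c t) (B t) (A t) C')
        + (fderiv ℝ Γ (c t) c' (A t) (Γ (c t) (B t) (C t)) + Γ (c t) A' (Γ (c t) (B t) (C t))
          + Γ (c t) (A t) (fderiv ℝ Γ (c t) c' (B t) (C t) + Γ (c t) B' (C t)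
            + Γ (c t) (B t) C'))
        - (fderiv ℝ Γ (c t) c' (B t) (Γ (c t) (A t) (C t)) + Γ (c t) B' (Γ (c t) (A t) (C t))
          + Γ (c t) (B t) (fderiv ℝ Γ (c t) c' (A t) (C t) + Γ (c t) A' (C t)
            + Γ (c t) (A t) C'))) t := by
    intro c A B C c' A' B' C' t hG hDG hc hA hB hC
    have g1 : HasDerivAt (fun s => Γ (c s)) (fderiv ℝ Γ (c t) c') t :=
      hG.hasFDerivAt.comp_hasDerivAt t hc
    have g2 : HasDerivAt (fun s => fderiv ℝ Γ (c s)) (fderiv ℝ (fderiv ℝ Γ) (c t) c') t :=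
      hDG.hasFDerivAt.comp_hasDerivAt t hc
    have a1 := hasDerivAt_apply2 (g2.clm_apply hA) hB hC
    have a2 := hasDerivAt_apply2 (g2.clm_apply hB) hA hC
    have a3 := hasDerivAt_apply2 g1 hA (hasDerivAt_apply2 g1 hB hC)
    have a4 := hasDerivAt_apply2 g1 hB (hasDerivAt_apply2 g1 hA hC)
    refine (((a1.sub a2).add a3).sub a4).congr_deriv ?_
    simp only [add_apply]
  have k0 := key hG hDG hc hA hB hC
  have k1 : ∀ W, fderiv ℝ (fun y => curv Γ y (A t) (B t) (C t)) (c t) W
      = fderiv ℝ (fderiv ℝ Γ) (c t) W (A t) (B t) (C t)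
        - fderiv ℝ (fderiv ℝ Γ) (c t) W (B t) (A t) (C t)
        + (fderiv ℝ Γ (c t) W (A t) (Γ (c t) (B t) (C t))
          + Γ (c t) (A t) (fderiv ℝ Γ (c t) W (B t) (C t)))
        - (fderiv ℝ Γ (c t) W (B t) (Γ (c t) (A t) (C t))
          + Γ (c t) (B t) (fderiv ℝ Γ (c t) W (A t) (C t))) := by
    intro W
    have hl : HasDerivAt (fun s : ℝ => c t + s • W) W 0 := by
      simpa using ((hasDerivAt_id (0 : ℝ)).smul_const W).const_add (c t)
    have hct : c t + (0 : ℝ) • W = c t := by simp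
    have hd : DifferentiableAt ℝ (fun y => curv Γ y (A t) (B t) (C t)) (c t) := by
      unfold curv
      have hAt : ∀ X Y : E, DifferentiableAt ℝ (fun y => Γ y X Y) (c t) := fun X Y =>
        (hG.clm_apply (differentiableAt_const _)).clm_apply (differentiableAt_const _)
      have hDt : ∀ X Y Z : E, DifferentiableAt ℝ (fun y => fderiv ℝ Γ y X Y Z) (c t) :=
        fun X Y Z => ((hDG.clm_apply (differentiableAt_const _)).clm_apply
          (differentiableAt_const _)).clm_apply (differentiableAt_const _)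
      exact (((hDt _ _ _).sub (hDt _ _ _)).add
        ((hG.clm_apply (differentiableAt_const _)).clm_apply (hAt _ _))).sub
        ((hG.clm_apply (differentiableAt_const _)).clm_apply (hAt _ _))
    have k2 := key (c := fun s : ℝ => c t + s • W) (A := fun _ => A t) (B := fun _ => B t)
      (C := fun _ => C t) (t := 0) (by rw [hct]; exact hG) (by rw [hct]; exact hDG) hl
      (hasDerivAt_const _ _) (hasDerivAt_const _ _) (hasDerivAt_const _ _)
    have hd' : DifferentiableAt ℝ (fun y => curv Γ y (A t) (B t) (C t)) (c t + (0 : ℝ) • W) := by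
      rw [hct]; exact hd
    have k3 := hd'.hasFDerivAt.comp_hasDerivAt (0 : ℝ) hl
    have k4 := k3.unique k2
    rw [hct] at k4
    rw [k4]
    simp only [map_zero, add_zero, zero_apply]
  refine k0.congr_deriv ?_
  rw [k1]
  simp only [curv, map_add]
  abel

theorem fderiv_rad (h : IsLC U g Γ) (hrad : ∀ x ∈ U, Γ x x x = 0) {x : E} (hx : x ∈ U) (w : E) :
    fderiv ℝ Γ x w x x + (2 : ℝ) • Γ x w x = 0 := by
  have hid : HasFDerivAt (fun y : E => y) (ContinuousLinearMap.id ℝ E) x := hasFDerivAt_id x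
  have e := Crest.Agent.R244.CF.hasFDerivAt_apply2 (h.Γ_differentiableAt hx).hasFDerivAt hid hid w
  have e1 : (fun y => Γ y y y) =ᶠ[𝓝 x] fun _ => (0 : E) := by
    filter_upwards [h.isOpen.mem_nhds hx] with y hy using hrad y hy
  rw [e1.fderiv_eq] at e
  simp only [fderiv_fun_const, Pi.zero_apply, zero_apply, ContinuousLinearMap.coe_id', id_eq] at e
  rw [two_smul, ← add_assoc]
  rw [h.Γ_symm x hx x w] at e
  exact e.symm

theorem gamma_zero (h : IsLC U g Γ) (h0 : (0 : E) ∈ U) (hrad : ∀ x ∈ U, Γ x x x = 0) (u v : E) :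
    Γ 0 u v = 0 := by
  have hdiag : ∀ w, Γ 0 w w = 0 := by
    intro w
    have hc : Tendsto (fun s : ℝ => Γ (s • w) w w) (𝓝[≠] 0) (𝓝 (Γ 0 w w)) := by
      have h1 : ContinuousAt Γ (0 : E) := (h.Γ_contDiffAt h0).continuousAt
      have h2 : Tendsto (fun s : ℝ => s • w) (𝓝[≠] 0) (𝓝 (0 : E)) := by
        have : Tendsto (fun s : ℝ => s • w) (𝓝 0) (𝓝 ((0 : ℝ) • w)) :=
          (continuous_id.smul continuous_const).tendsto 0
        rw [zero_smul] at this
        exact this.mono_left nhdsWithin_le_nhds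
      have h3 := h1.tendsto.comp h2
      exact (((ContinuousLinearMap.apply ℝ E w).continuous.comp
        (ContinuousLinearMap.apply ℝ (E →L[ℝ] E) w).continuous).tendsto _).comp h3
    have hz : (fun s : ℝ => Γ (s • w) w w) =ᶠ[𝓝[≠] 0] fun _ => (0 : E) := by
      have h4 : ∀ᶠ s : ℝ in 𝓝 0, s • w ∈ U := by
        have : Tendsto (fun s : ℝ => s • w) (𝓝 0) (𝓝 (0 : E)) := by
          have h7 : Continuous fun s : ℝ => s • w := continuous_id.smul continuous_const
          have h8 := h7.tendsto 0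
          rwa [zero_smul] at h8
        exact this.eventually (h.isOpen.mem_nhds h0)
      filter_upwards [h4.filter_mono nhdsWithin_le_nhds, self_mem_nhdsWithin] with s hs hs0
      have h5 := hrad _ hs
      simp only [map_smul, smul_apply, smul_smul] at h5
      have hs0' : s ≠ 0 := hs0
      rcases smul_eq_zero.1 h5 with h6 | h6
      · exact absurd h6 (mul_ne_zero hs0' hs0')
      · exact h6
    exact tendsto_nhds_unique (hc.congr' hz) tendsto_const_nhds
  have h1 := hdiag (u + v)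
  rw [map_add, map_add, add_apply, add_apply, hdiag u, hdiag v, h.Γ_symm 0 h0 v u, zero_add,
    add_zero, ← two_smul ℝ] at h1
  exact (smul_eq_zero.1 h1).resolve_left two_ne_zero

/-- radial identities along `t v` -/
theorem rad_facts (h : IsLC U g Γ) (h0 : (0 : E) ∈ U) (hrad : ∀ x ∈ U, Γ x x x = 0) {v : E}
    {t : ℝ} (hv : t • v ∈ U) :
    Γ (t • v) v v = 0 ∧
      ∀ w, t • fderiv ℝ Γ (t • v) w v v = -((2 : ℝ) • Γ (t • v) w v) := by
  by_cases ht : t = 0
  · subst ht
    simp only [zero_smul]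
    refine ⟨gamma_zero h h0 hrad _ _, fun w => ?_⟩
    rw [gamma_zero h h0 hrad, smul_zero, neg_zero]
  · have h1 := hrad _ hv
    simp only [map_smul, smul_apply, smul_smul] at h1
    refine ⟨(smul_eq_zero.1 h1).resolve_left (mul_ne_zero ht ht), fun w => ?_⟩
    have h2 := fderiv_rad h hrad hv w
    simp only [map_smul, smul_apply] at h2
    have h3 : t • (t • fderiv ℝ Γ (t • v) w v v + (2 : ℝ) • Γ (t • v) w v) = 0 := by
      rw [smul_add, smul_comm t (2 : ℝ)]
      exact h2
    have h4 := (smul_eq_zero.1 h3).resolve_left ht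
    exact eq_neg_of_add_eq_zero_left h4

/-- **Step (1)**. -/
theorem normal_metric (h : IsLC U g Γ) (h0 : (0 : E) ∈ U) (hrad : ∀ x ∈ U, Γ x x x = 0)
    (hnab : ∀ x ∈ U, ∀ W X Y Z, nab Γ x W X Y Z = 0) {v : E}
    (hv : ∀ t ∈ Icc (0 : ℝ) 1, t • v ∈ U) {J J' : E → ℝ → E}
    (J0 : ∀ u, J u 0 = 0) (J1 : ∀ u, J' u 0 = u) (dJ : ∀ u t, HasDerivAt (J u) (J' u t) t)
    (dJ' : ∀ u t, HasDerivAt (J' u) (-curv Γ 0 (J u t) v v) t) (u u' : E) {t : ℝ}
    (ht : t ∈ Icc (0 : ℝ) 1) :
    g (t • v) (t • u) (t • u') = g 0 (J u t) (J u' t) := by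
  obtain ⟨P, hP0, hP⟩ := exists_frame h hv
  have dl : ∀ s : ℝ, HasDerivAt (fun s : ℝ => s • v) v s := fun s => by
    simpa using (hasDerivAt_id s).smul_const v
  have ddl : ∀ s : ℝ, deriv (fun s : ℝ => s • v) s = v := fun s => (dl s).deriv
  have dPu : ∀ w, ∀ s ∈ Icc (0 : ℝ) 1, HasDerivAt (fun s => P s w) (-Γ (s • v) v (P s w)) s := by
    intro w s hs
    have := (hP s hs).clm_apply (hasDerivAt_const s w)
    simpa using this
  -- the system matrix of the parallel transport
  have hΓc : ContinuousOn (fun s : ℝ => Γ (s • v) v) (Icc 0 1) := by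
    have h1 : ContinuousOn (fun s : ℝ => Γ (s • v)) (Icc 0 1) :=
      h.Γ_smooth.continuousOn.comp (continuous_id.smul continuous_const).continuousOn hv
    exact h1.clm_apply continuousOn_const
  have par_unique : ∀ {V W : ℝ → E}, (∀ s ∈ Icc (0 : ℝ) 1, HasDerivAt V (-Γ (s • v) v (V s)) s) →
      (∀ s ∈ Icc (0 : ℝ) 1, HasDerivAt W (-Γ (s • v) v (W s)) s) → V 0 = W 0 →
      ∀ s ∈ Icc (0 : ℝ) 1, V s = W s := by
    intro V W hV hW h0'
    refine lin_unique (A := fun s => -(Γ (s • v) v)) hΓc.neg ?_ ?_ h0'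
    · intro s hs; simpa using hV s hs
    · intro s hs; simpa using hW s hs
  -- `P v = v`
  have hPv : ∀ s ∈ Icc (0 : ℝ) 1, P s v = v := by
    refine par_unique (V := fun s => P s v) (W := fun _ => v) (dPu v) ?_ (by simp [hP0])
    intro s hs
    rw [(rad_facts h h0 hrad (hv s hs)).1, neg_zero]
    exact hasDerivAt_const _ _
  -- curvature is parallel along the frame
  have hPR : ∀ a b c : E, ∀ s ∈ Icc (0 : ℝ) 1,
      curv Γ (s • v) (P s a) (P s b) (P s c) = P s (curv Γ 0 a b c) := by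
    intro a b c
    refine par_unique (V := fun s => curv Γ (s • v) (P s a) (P s b) (P s c))
      (W := fun s => P s (curv Γ 0 a b c)) ?_ (dPu _) (by simp [hP0])
    intro s hs
    have h1 := hasDerivAt_curv h (c := fun s : ℝ => s • v) (hv s hs) (dl s) (dPu a s hs)
      (dPu b s hs) (dPu c s hs)
    refine h1.congr_deriv ?_
    have h2 := hnab _ (hv s hs) v (P s a) (P s b) (P s c)
    unfold nab at h2
    have e1 : curv Γ (s • v) (-Γ (s • v) v (P s a)) (P s b) (P s c)
        = -curv Γ (s • v) (Γ (s • v) v (P s a)) (P s b) (P s c) := by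
      simp only [curv, map_neg, neg_apply]; abel
    have e2 : curv Γ (s • v) (P s a) (-Γ (s • v) v (P s b)) (P s c)
        = -curv Γ (s • v) (P s a) (Γ (s • v) v (P s b)) (P s c) := by
      simp only [curv, map_neg, neg_apply]; abel
    have e3 : curv Γ (s • v) (P s a) (P s b) (-Γ (s • v) v (P s c))
        = -curv Γ (s • v) (P s a) (P s b) (Γ (s • v) v (P s c)) := by
      simp only [curv, map_neg, neg_apply]; abel
    rw [e1, e2, e3, eq_neg_iff_add_eq_zero]
    rw [← h2]
    abel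
  -- metric is preserved
  have hPg : ∀ a b : E, ∀ s ∈ Icc (0 : ℝ) 1, g (s • v) (P s a) (P s b) = g 0 a b := by
    intro a b
    have hd : ∀ s ∈ Icc (0 : ℝ) 1, HasDerivAt (fun s => g (s • v) (P s a) (P s b)) 0 s := by
      intro s hs
      have h1 := h.hasDerivAt_g (c := fun s : ℝ => s • v) (V := fun s => P s a)
        (W := fun s => P s b) (hv s hs) (dl s).differentiableAt (dPu a s hs).differentiableAt
        (dPu b s hs).differentiableAt
      have c1 : ∀ w, cov Γ (fun s : ℝ => s • v) (fun s => P s w) s = 0 := by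
        intro w
        unfold cov
        rw [ddl, (dPu w s hs).deriv]
        simp
      rw [c1, c1, map_zero, zero_apply, map_zero, add_zero] at h1
      exact h1
    intro s hs
    have h2 := constant_of_has_deriv_right_zero (f := fun s => g (s • v) (P s a) (P s b))
      (a := 0) (b := 1) (fun s hs => (hd s hs).continuousAt.continuousWithinAt)
      (fun s hs => (hd s ⟨hs.1, hs.2.le⟩).hasDerivWithinAt) s hs
    rw [h2]
    simp [hP0]
  -- the two solutions of the Jacobi system
  let B : ℝ → (E × E) →L[ℝ] (E × E) := fun s =>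
    (ContinuousLinearMap.snd ℝ E E - (Γ (s • v) v).comp (ContinuousLinearMap.fst ℝ E E)).prod
      (-((fderiv ℝ Γ (s • v)).flip v).flip v ∘L ContinuousLinearMap.fst ℝ E E
        + ((fderiv ℝ Γ (s • v) v).flip v) ∘L ContinuousLinearMap.fst ℝ E E
        - ((Γ (s • v)).flip (Γ (s • v) v v)) ∘L ContinuousLinearMap.fst ℝ E E
        + (Γ (s • v) v ∘L (Γ (s • v)).flip v) ∘L ContinuousLinearMap.fst ℝ E E
        - (Γ (s • v) v).comp (ContinuousLinearMap.snd ℝ E E))
  have hB : ∀ s (p : E × E), B s p = (p.2 - Γ (s • v) v p.1,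
      -curv Γ (s • v) p.1 v v - Γ (s • v) v p.2) := by
    intro s p
    have : (B s p).2 = -curv Γ (s • v) p.1 v v - Γ (s • v) v p.2 := by
      simp only [B, ContinuousLinearMap.prod_apply, add_apply, sub_apply, neg_apply,
        ContinuousLinearMap.comp_apply, ContinuousLinearMap.flip_apply,
        ContinuousLinearMap.coe_fst', ContinuousLinearMap.coe_snd', curv]
      abel
    refine Prod.ext ?_ this
    simp [B]
  have c1 : ContinuousOn (fun s : ℝ => Γ (s • v)) (Icc 0 1) :=
    h.Γ_smooth.continuousOn.comp (continuous_id.smul continuous_const).continuousOn hv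
  have c2 : ContinuousOn (fun s : ℝ => fderiv ℝ Γ (s • v)) (Icc 0 1) := by
    have h1 : ContinuousOn (fderiv ℝ Γ) U := fun x hx =>
      ((h.Γ_contDiffAt hx).fderiv_right (m := ∞) (by simp)).continuousAt.continuousWithinAt
    exact h1.comp (continuous_id.smul continuous_const).continuousOn hv
  have hBc : ContinuousOn B (Icc 0 1) := by
    rw [continuousOn_clm_apply]
    intro p
    simp only [hB, curv]
    have k1 : ∀ a : E, ContinuousOn (fun s : ℝ => Γ (s • v) v a) (Icc 0 1) := fun a =>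
      hΓc.clm_apply continuousOn_const
    have k2 : ∀ a b c : E, ContinuousOn (fun s : ℝ => fderiv ℝ Γ (s • v) a b c) (Icc 0 1) :=
      fun a b c => ((c2.clm_apply continuousOn_const).clm_apply continuousOn_const).clm_apply
        continuousOn_const
    have k3 : ∀ a b : E, ContinuousOn (fun s : ℝ => Γ (s • v) a b) (Icc 0 1) := fun a b =>
      (c1.clm_apply continuousOn_const).clm_apply continuousOn_const
    refine (continuousOn_const.sub (k1 _)).prodMk ?_
    refine ContinuousOn.sub (ContinuousOn.neg ?_) (k1 _)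
    refine ((((k2 _ _ _).sub (k2 _ _ _)).add ?_).sub ?_)
    · exact (c1.clm_apply continuousOn_const).clm_apply (k1 v)
    · exact hΓc.clm_apply (k3 _ _)
  have hX1 : ∀ w, ∀ s ∈ Icc (0 : ℝ) 1,
      HasDerivAt (fun s : ℝ => ((s • w, w + Γ (s • v) v (s • w)) : E × E))
        (B s (s • w, w + Γ (s • v) v (s • w))) s := by
    intro w s hs
    have dw : HasDerivAt (fun s : ℝ => s • w) w s := by simpa using (hasDerivAt_id s).smul_const w
    have g1 : HasDerivAt (fun s : ℝ => Γ (s • v)) (fderiv ℝ Γ (s • v) v) s :=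
      (h.Γ_differentiableAt (hv s hs)).hasFDerivAt.comp_hasDerivAt s (dl s)
    have d2 := (hasDerivAt_apply2 g1 (hasDerivAt_const s v) dw).const_add w
    refine (dw.prodMk d2).congr_deriv ?_
    obtain ⟨r1, r2⟩ := rad_facts h h0 hrad (hv s hs)
    have r3 := r2 w
    rw [hB]
    refine Prod.ext ?_ ?_
    · show w = w + Γ (s • v) v (s • w) - Γ (s • v) v (s • w)
      abel
    · show fderiv ℝ Γ (s • v) v v (s • w) + Γ (s • v) 0 (s • w) + Γ (s • v) v w
        = -curv Γ (s • v) (s • w) v v - Γ (s • v) v (w + Γ (s • v) v (s • w))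
      have e1 : curv Γ (s • v) (s • w) v v = s • fderiv ℝ Γ (s • v) w v v
          - s • fderiv ℝ Γ (s • v) v v w - s • Γ (s • v) v (Γ (s • v) v w) := by
        unfold curv
        rw [r1, h.Γ_symm _ (hv s hs) (s • w) v, h.fderiv_Γ_symm (hv s hs) v (s • w) v]
        simp only [map_smul, smul_apply, map_zero, add_zero]
      rw [e1, r3]
      rw [h.Γ_symm _ (hv s hs) w v]
      simp only [map_smul, map_add, map_zero, zero_apply, smul_zero, add_zero, two_smul]
      abel
  have hX2 : ∀ w, ∀ s ∈ Icc (0 : ℝ) 1,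
      HasDerivAt (fun s : ℝ => ((P s (J w s), P s (J' w s)) : E × E))
        (B s (P s (J w s), P s (J' w s))) s := by
    intro w s hs
    have d1 := (hP s hs).clm_apply (dJ w s)
    have d2 := (hP s hs).clm_apply (dJ' w s)
    refine (d1.prodMk d2).congr_deriv ?_
    rw [hB]
    have e1 : curv Γ (s • v) (P s (J w s)) v v = P s (curv Γ 0 (J w s) v v) := by
      rw [← hPR _ _ _ s hs, hPv s hs]
    refine Prod.ext ?_ ?_
    · simp only [neg_apply, ContinuousLinearMap.comp_apply]
      abel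
    · simp only [neg_apply, ContinuousLinearMap.comp_apply, e1, map_neg]
      abel
  have hEq : ∀ w, ∀ s ∈ Icc (0 : ℝ) 1, s • w = P s (J w s) := by
    intro w s hs
    have h1 := lin_unique hBc (hX1 w) (hX2 w) (by simp [J0, J1, hP0]) s hs
    exact congrArg Prod.fst h1
  rw [hEq u t ht, hEq u' t ht, hPg _ _ t ht]

end Crest.Agent.R249.B2Jac_474
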