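/-
Row 249, part B2 (helper474): local isometries from open sets of `R^n` to `M`.

* `nab_transform`: tensoriality of `∇R`;
* `exists_isLC`: every smooth metric on an open set has Levi-Civita data;
* `IsoM g F x`: `F : R^n → M` is a local isometry at `x` for the metric `g`;
* `eq_ray`: a smooth curve with zero covariant acceleration is radial;
* `nat_exp`: naturality of the exponential map.
-/
import Crest.Agent.R249.B2Jac_474
import Crest.Agent.R249.B2Geo_474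

set_option autoImplicit false
set_option maxSynthPendingDepth 3
set_option linter.unusedSectionVars false

open Bundle Set Filter Topology MeasureTheory
open scoped ContDiff Manifold
open Crest.Agent.R244 (spray contDiffOn_spray)
open Crest.Agent.R244.CF (IsLC curv cov LocIsoAt)
open Crest.Agent.R226 Crest.Agent.R226.ChartMet842 Crest.Agent.R226.LocalNearThm996
open Crest.Agent.R226.GeoLoc577 Crest.Agent.R226.GeoBasic616
open Crest.GeometryTopology.MTW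
open Crest.Agent.R249.B2Defs_474 Crest.Agent.R249.B2Jac_474 Crest.Agent.R249.B2Geo_474

noncomputable section

namespace Crest.Agent.R249.B2Iso_474

section nab

variable {E : Type*} [NormedAddCommGroup E] [NormedSpace ℝ E] [FiniteDimensional ℝ E]
variable {U : Set E} {g : E → E →L[ℝ] E →L[ℝ] ℝ} {Γ : E → E →L[ℝ] E →L[ℝ] E}
  {U' : Set E} {g' : E → E →L[ℝ] E →L[ℝ] ℝ} {Γ' : E → E →L[ℝ] E →L[ℝ] E}

theorem curv_add1 (Γ : E → E →L[ℝ] E →L[ℝ] E) (x a a' b c : E) :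
    curv Γ x (a + a') b c = curv Γ x a b c + curv Γ x a' b c := by
  simp only [curv, map_add, add_apply]; abel

theorem curv_add2 (Γ : E → E →L[ℝ] E →L[ℝ] E) (x a b b' c : E) :
    curv Γ x a (b + b') c = curv Γ x a b c + curv Γ x a b' c := by
  simp only [curv, map_add, add_apply]; abel

theorem curv_add3 (Γ : E → E →L[ℝ] E →L[ℝ] E) (x a b c c' : E) :
    curv Γ x a b (c + c') = curv Γ x a b c + curv Γ x a b c' := by
  simp only [curv, map_add]; abel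

theorem differentiableAt_curv (h : IsLC U g Γ) {x : E} (hx : x ∈ U) (a b c : E) :
    DifferentiableAt ℝ (fun y => curv Γ y a b c) x := by
  have hG := h.Γ_differentiableAt hx
  have hDG : DifferentiableAt ℝ (fderiv ℝ Γ) x :=
    ((h.Γ_contDiffAt hx).fderiv_right (m := ∞) (by simp)).differentiableAt (by simp)
  unfold curv
  have hAt : ∀ X Y : E, DifferentiableAt ℝ (fun y => Γ y X Y) x := fun X Y =>
    (hG.clm_apply (differentiableAt_const _)).clm_apply (differentiableAt_const _)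
  have hDt : ∀ X Y Z : E, DifferentiableAt ℝ (fun y => fderiv ℝ Γ y X Y Z) x :=
    fun X Y Z => ((hDG.clm_apply (differentiableAt_const _)).clm_apply
      (differentiableAt_const _)).clm_apply (differentiableAt_const _)
  exact (((hDt _ _ _).sub (hDt _ _ _)).add
    ((hG.clm_apply (differentiableAt_const _)).clm_apply (hAt _ _))).sub
    ((hG.clm_apply (differentiableAt_const _)).clm_apply (hAt _ _))

/-- tensoriality of `∇R` -/
theorem nab_transform {φ : E → E} {x : E} (h : LocIsoAt U g U' g' φ x)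
    (hLC : IsLC U g Γ) (hLC' : IsLC U' g' Γ') (W X Y Z : E) :
    fderiv ℝ φ x (nab Γ x W X Y Z)
      = nab Γ' (φ x) (fderiv ℝ φ x W) (fderiv ℝ φ x X) (fderiv ℝ φ x Y) (fderiv ℝ φ x Z) := by
  have e1 : (fun y => fderiv ℝ φ y (curv Γ y X Y Z)) =ᶠ[𝓝 x]
      fun y => curv Γ' (φ y) (fderiv ℝ φ y X) (fderiv ℝ φ y Y) (fderiv ℝ φ y Z) := by
    filter_upwards [h.eventually hLC.isOpen hLC'.isOpen] with y hy using hy.curv hLC hLC' X Y Z
  -- restrict to the line through `x` in direction `W`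
  have hl : HasDerivAt (fun s : ℝ => x + s • W) W 0 := by
    simpa using ((hasDerivAt_id (0 : ℝ)).smul_const W).const_add x
  have hx0 : x + (0 : ℝ) • W = x := by simp
  have hlt : Tendsto (fun s : ℝ => x + s • W) (𝓝 0) (𝓝 x) := by
    have := hl.continuousAt.tendsto
    rwa [hx0] at this
  have e2 : (fun s : ℝ => fderiv ℝ φ (x + s • W) (curv Γ (x + s • W) X Y Z)) =ᶠ[𝓝 0]
      fun s => curv Γ' (φ (x + s • W)) (fderiv ℝ φ (x + s • W) X) (fderiv ℝ φ (x + s • W) Y)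
        (fderiv ℝ φ (x + s • W) Z) := hlt.eventually e1
  have dφ : HasDerivAt (fun s : ℝ => φ (x + s • W)) (fderiv ℝ φ x W) 0 := by
    have := h.hasFDerivAt
    rw [← hx0] at this
    have h2 := this.comp_hasDerivAt (0 : ℝ) hl
    rw [hx0] at h2
    exact h2
  have ddφ : HasDerivAt (fun s : ℝ => fderiv ℝ φ (x + s • W)) (fderiv ℝ (fderiv ℝ φ) x W) 0 := by
    have := h.d_hasFDerivAt
    rw [← hx0] at this
    have h2 := this.comp_hasDerivAt (0 : ℝ) hl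
    rw [hx0] at h2
    exact h2
  have dR : HasDerivAt (fun s : ℝ => curv Γ (x + s • W) X Y Z)
      (fderiv ℝ (fun y => curv Γ y X Y Z) x W) 0 := by
    have := (differentiableAt_curv hLC h.mem X Y Z).hasFDerivAt
    rw [← hx0] at this
    have h2 := this.comp_hasDerivAt (0 : ℝ) hl
    rw [hx0] at h2
    exact h2
  have ddX : ∀ X : E, HasDerivAt (fun s : ℝ => fderiv ℝ φ (x + s • W) X)
      (fderiv ℝ (fderiv ℝ φ) x W X) 0 := fun X => by
    simpa using ddφ.clm_apply (hasDerivAt_const (0 : ℝ) X)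
  have dL := ddφ.clm_apply dR
  have dRt := hasDerivAt_curv hLC' (c := fun s : ℝ => φ (x + s • W)) (t := 0)
    (by simp only [hx0]; exact h.mem') dφ (ddX X) (ddX Y) (ddX Z)
  have key := dL.unique (dRt.congr_of_eventuallyEq e2)
  simp only [hx0] at key
  have gW : ∀ A : E, fderiv ℝ φ x (Γ x W A)
      = Γ' (φ x) (fderiv ℝ φ x W) (fderiv ℝ φ x A) + fderiv ℝ (fderiv ℝ φ) x W A :=
    fun A => h.gamma hLC hLC' W A
  have cR : ∀ A B C : E, fderiv ℝ φ x (curv Γ x A B C)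
      = curv Γ' (φ x) (fderiv ℝ φ x A) (fderiv ℝ φ x B) (fderiv ℝ φ x C) :=
    fun A B C => h.curv hLC hLC' A B C
  unfold nab
  rw [map_sub, map_sub, map_sub, map_add, gW, cR, cR, cR, cR, gW, gW, gW, curv_add1, curv_add2,
    curv_add3]
  have key' : fderiv ℝ φ x (fderiv ℝ (fun y => curv Γ y X Y Z) x W) =
      fderiv ℝ (fun y => curv Γ' y (fderiv ℝ φ x X) (fderiv ℝ φ x Y) (fderiv ℝ φ x Z)) (φ x)
          (fderiv ℝ φ x W)
        + curv Γ' (φ x) (fderiv ℝ (fderiv ℝ φ) x W X) (fderiv ℝ φ x Y) (fderiv ℝ φ x Z)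
        + curv Γ' (φ x) (fderiv ℝ φ x X) (fderiv ℝ (fderiv ℝ φ) x W Y) (fderiv ℝ φ x Z)
        + curv Γ' (φ x) (fderiv ℝ φ x X) (fderiv ℝ φ x Y) (fderiv ℝ (fderiv ℝ φ) x W Z)
        - fderiv ℝ (fderiv ℝ φ) x W (curv Γ x X Y Z) := by
    rw [← key]; abel
  rw [key']
  abel

end nab

section LC

variable {n : ℕ}
local notation "𝔼" => EuclideanSpace ℝ (Fin n)

/-- Levi-Civita data of a smooth metric. -/
theorem exists_isLC {U : Set 𝔼} (hU : IsOpen U) {g : 𝔼 → 𝔼 →L[ℝ] 𝔼 →L[ℝ] ℝ}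
    (hg : ContDiffOn ℝ ∞ g U) (hs : ∀ x ∈ U, ∀ u v, g x u v = g x v u)
    (hp : ∀ x ∈ U, ∀ u, u ≠ 0 → 0 < g x u u) :
    ∃ Γ : 𝔼 → 𝔼 →L[ℝ] 𝔼 →L[ℝ] 𝔼, IsLC U g Γ := by
  let m : Crest.GeometryTopology.CoordMetric.MetricField n := fun y => Matrix.of fun i j =>
    g y (EuclideanSpace.single i 1) (EuclideanSpace.single j 1)
  have hexp : ∀ w : 𝔼, w = ∑ i, w i • EuclideanSpace.single i (1 : ℝ) := by
    intro w
    have := (EuclideanSpace.basisFun (Fin n) ℝ).sum_repr w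
    simpa using this.symm
  have hB : Crest.Agent.R244.CF.gB m = g := by
    funext y
    ext u v
    rw [Crest.Agent.R244.CF.gB_apply]
    conv_rhs => rw [hexp u, hexp v]
    simp only [map_sum, map_smul, sum_apply, smul_apply, smul_eq_mul, Finset.mul_sum]
    rw [Finset.sum_comm]
    refine Finset.sum_congr rfl fun i _ => Finset.sum_congr rfl fun j _ => ?_
    show g y (EuclideanSpace.single j 1) (EuclideanSpace.single i 1) * u j * v i = _
    ring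
  have hR : Crest.GeometryTopology.CoordMetric.IsRiemannianOn m U := by
    refine ⟨hU, fun i j => ?_, fun y hy => ?_⟩
    · exact (hg.clm_apply contDiffOn_const).clm_apply contDiffOn_const
    · refine Matrix.PosDef.of_dotProduct_mulVec_pos ?_ ?_
      · ext i j
        simp only [Matrix.conjTranspose_apply, star_trivial]
        exact hs y hy _ _
      · intro v hv
        have hv' : (WithLp.toLp 2 v : 𝔼) ≠ 0 := by
          intro h0
          apply hv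
          have := congrArg WithLp.ofLp h0
          simpa using this
        have h1 := hp y hy _ hv'
        rw [← hB, Crest.Agent.R244.CF.gB_apply] at h1
        refine h1.trans_eq ?_
        simp only [dotProduct, Matrix.mulVec, star_trivial, Finset.mul_sum]
        refine Finset.sum_congr rfl fun i _ => Finset.sum_congr rfl fun j _ => ?_
        ring
  have h := Crest.Agent.R244.CF.isLC_of_isRiemannianOn hR
  rw [hB] at h
  exact ⟨_, h⟩

end LC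

variable {n : ℕ} {M : Type*} [MetricSpace M] [ChartedSpace (EuclideanSpace ℝ (Fin n)) M]
  [IsManifold (𝓡 n) ∞ M]
  [RiemannianBundle (fun p : M => TangentSpace (𝓡 n) p)]
  [IsContMDiffRiemannianBundle (𝓡 n) ∞ (EuclideanSpace ℝ (Fin n)) (fun p : M => TangentSpace (𝓡 n) p)]

local notation "𝔼" => EuclideanSpace ℝ (Fin n)

theorem dC_self (p : M) (u : 𝔼) : (dC p p u : 𝔼) = u := by
  unfold dC
  rw [mfderiv_chartAt_eq_tangentCoordChange (mem_chart_source _ p)]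
  exact tangentCoordChange_self (mem_extChartAt_source p)

/-- `F` is a local isometry at `x` from `(R^n, g)` to `M`. -/
def IsoM (g : 𝔼 → 𝔼 →L[ℝ] 𝔼 →L[ℝ] ℝ) (F : 𝔼 → M) (x : 𝔼) : Prop :=
  (∀ᶠ z in 𝓝 x, ContMDiffAt 𝓘(ℝ, 𝔼) (𝓡 n) ∞ F z) ∧
    ∀ᶠ z in 𝓝 x, ∀ u v : 𝔼, g z u v =
      inner ℝ (mfderiv 𝓘(ℝ, 𝔼) (𝓡 n) F z u) (mfderiv 𝓘(ℝ, 𝔼) (𝓡 n) F z v)

/-- `F` in the chart at `y₀` -/
def FC (F : 𝔼 → M) (y₀ : M) (z : 𝔼) : 𝔼 := chartAt 𝔼 y₀ (F z)

theorem contDiffAt_FC {F : 𝔼 → M} {y₀ : M} {z : 𝔼} (hF : ContMDiffAt 𝓘(ℝ, 𝔼) (𝓡 n) ∞ F z)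
    (hz : F z ∈ (chartAt 𝔼 y₀).source) : ContDiffAt ℝ ∞ (FC (n := n) F y₀) z := by
  rw [← contMDiffAt_iff_contDiffAt]
  have h1 : ContMDiffAt (𝓡 n) 𝓘(ℝ, 𝔼) ∞ (chartAt 𝔼 y₀) (F z) :=
    contMDiffOn_chart.contMDiffAt ((chartAt 𝔼 y₀).open_source.mem_nhds hz)
  exact h1.comp z hF

theorem fderiv_FC {F : 𝔼 → M} {y₀ : M} {z : 𝔼} (hF : MDifferentiableAt 𝓘(ℝ, 𝔼) (𝓡 n) F z)
    (hz : F z ∈ (chartAt 𝔼 y₀).source) (u : 𝔼) :
    fderiv ℝ (FC (n := n) F y₀) z u = dC y₀ (F z) (mfderiv 𝓘(ℝ, 𝔼) (𝓡 n) F z u) := by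
  have h2 : HasMFDerivAt (𝓡 n) 𝓘(ℝ, 𝔼) (chartAt 𝔼 y₀) (F z) (dC y₀ (F z)) :=
    ((mdifferentiable_chart' y₀).mdifferentiableAt hz).hasMFDerivAt
  have h3 := h2.comp z hF.hasMFDerivAt
  have h4 : HasFDerivAt (FC (n := n) F y₀)
      ((dC y₀ (F z)).comp (mfderiv 𝓘(ℝ, 𝔼) (𝓡 n) F z) : 𝔼 →L[ℝ] 𝔼) z := h3.hasFDerivAt
  rw [h4.fderiv]
  rfl

theorem IsoM.locIso {U : Set 𝔼} {g : 𝔼 → 𝔼 →L[ℝ] 𝔼 →L[ℝ] ℝ} {Γ : 𝔼 → 𝔼 →L[ℝ] 𝔼 →L[ℝ] 𝔼}
    {F : 𝔼 → M} {x : 𝔼} (h : IsoM g F x) (hLC : IsLC U g Γ) (hx : x ∈ U) {y₀ : M}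
    (hy : F x ∈ (chartAt 𝔼 y₀).source) :
    LocIsoAt U g (chartAt 𝔼 y₀).target (gm (n := n) y₀) (FC F y₀) x := by
  have hsrc : ∀ᶠ z in 𝓝 x, F z ∈ (chartAt 𝔼 y₀).source :=
    h.1.self_of_nhds.continuousAt.eventually ((chartAt 𝔼 y₀).open_source.mem_nhds hy)
  have hiso : ∀ᶠ z in 𝓝 x, ∀ u v, g z u v = gm y₀ (FC F y₀ z) (fderiv ℝ (FC (n := n) F y₀) z u)
      (fderiv ℝ (FC (n := n) F y₀) z v) := by
    filter_upwards [hsrc, h.1, h.2] with z h1 h2 h3 u v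
    rw [h3 u v, fderiv_FC (h2.mdifferentiableAt (by simp)) h1,
      fderiv_FC (h2.mdifferentiableAt (by simp)) h1]
    exact inner_eq_gm y₀ h1 _ _
  refine ⟨hx, (chartAt 𝔼 y₀).map_source hy, ?_, ?_, hiso⟩
  · filter_upwards [hsrc, h.1] with z h1 h2 using contDiffAt_FC h2 h1
  · filter_upwards [hiso, hLC.isOpen.mem_nhds hx] with z h1 h2
    have hinj : Function.Injective (fderiv ℝ (FC (n := n) F y₀) z : 𝔼 →ₗ[ℝ] 𝔼) := by
      rw [← LinearMap.ker_eq_bot, LinearMap.ker_eq_bot']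
      intro u hu
      by_contra hne
      have h3 := hLC.g_pos z h2 u hne
      rw [h1 u u] at h3
      have h4 : fderiv ℝ (FC (n := n) F y₀) z u = 0 := hu
      rw [h4, map_zero] at h3
      exact lt_irrefl _ h3
    exact (LinearMap.injective_iff_surjective (f := (fderiv ℝ (FC (n := n) F y₀) z :
      𝔼 →ₗ[ℝ] 𝔼))).1 hinj

/-- composition of a local isometry with a local isometry of `R^n` -/
theorem IsoM.comp {U U' : Set 𝔼} {g g' : 𝔼 → 𝔼 →L[ℝ] 𝔼 →L[ℝ] ℝ} {F : 𝔼 → M} {κ : 𝔼 → 𝔼} {x : 𝔼}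
    (h : IsoM g' F (κ x)) (hκ : LocIsoAt U g U' g' κ x) : IsoM g (fun z => F (κ z)) x := by
  have hc : ContinuousAt κ x := hκ.smooth.continuousAt
  have h1 := hc.eventually h.1
  have h2 := hc.eventually h.2
  constructor
  · filter_upwards [h1, hκ.smooth'] with z hz hz'
    exact hz.comp z hz'.contMDiffAt
  · filter_upwards [h1, h2, hκ.smooth', hκ.iso] with z hz1 hz2 hz3 hz4 u v
    have hd : HasMFDerivAt 𝓘(ℝ, 𝔼) (𝓡 n) (fun z => F (κ z)) z
        ((mfderiv 𝓘(ℝ, 𝔼) (𝓡 n) F (κ z)).comp (fderiv ℝ κ z)) :=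
      (hz1.mdifferentiableAt (by simp)).hasMFDerivAt.comp z
        ((hz3.differentiableAt (by simp)).hasFDerivAt.hasMFDerivAt)
    rw [hd.mfderiv, hz4 u v, hz2]
    rfl

section ray

variable [IsRiemannianManifold (𝓡 n) M]

/-- forward uniqueness of geodesics in a chart -/
theorem geo_unique_chart {γ σ : ℝ → M} {t₀ t₁ : ℝ} (ht : t₀ < t₁)
    (hγ : ∀ t ∈ Icc t₀ t₁, ContMDiffAt 𝓘(ℝ, ℝ) (𝓡 n) ∞ γ t)
    (hσ : ∀ t ∈ Icc t₀ t₁, ContMDiffAt 𝓘(ℝ, ℝ) (𝓡 n) ∞ σ t)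
    (gγ : ∀ t ∈ Icc t₀ t₁, geoc (n := n) γ (γ t) t = 0)
    (gσ : ∀ t ∈ Icc t₀ t₁, geoc (n := n) σ (σ t) t = 0)
    (h0 : γ t₀ = σ t₀) (h1 : deriv (cc (n := n) γ (γ t₀)) t₀ = deriv (cc σ (γ t₀)) t₀) :
    ∃ δ > 0, ∀ t ∈ Icc t₀ (t₀ + δ), γ t = σ t := by
  set y₀ := γ t₀ with hy₀
  have ht0 : t₀ ∈ Icc t₀ t₁ := ⟨le_rfl, ht.le⟩
  have hsγ : ∀ᶠ t in 𝓝 t₀, γ t ∈ (chartAt 𝔼 y₀).source :=
    (hγ t₀ ht0).continuousAt.eventually
      ((chartAt 𝔼 y₀).open_source.mem_nhds (mem_chart_source _ _))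
  have hsσ : ∀ᶠ t in 𝓝 t₀, σ t ∈ (chartAt 𝔼 y₀).source :=
    (hσ t₀ ht0).continuousAt.eventually
      ((chartAt 𝔼 y₀).open_source.mem_nhds (by rw [← h0]; exact mem_chart_source _ _))
  set c1 := cc (n := n) γ y₀ with hc1
  set c2 := cc (n := n) σ y₀ with hc2
  have hLC := isLC_gm (n := n) y₀
  -- Lipschitz neighbourhood of the spray
  have hmem : ((c1 t₀, deriv c1 t₀) : 𝔼 × 𝔼) ∈ (chartAt 𝔼 y₀).target ×ˢ (univ : Set 𝔼) :=
    ⟨(chartAt 𝔼 y₀).map_source (mem_chart_source _ _), trivial⟩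
  have hspray : ContDiffAt ℝ 1 (spray (Gm (n := n) y₀)) (c1 t₀, deriv c1 t₀) :=
    ((contDiffOn_spray hLC.Γ_smooth).contDiffAt
      ((hLC.isOpen.prod isOpen_univ).mem_nhds hmem)).of_le (by
        exact le_trans (by norm_num) Crest.Agent.R244.CF.two_le_infty)
  obtain ⟨K, S, hS, hK⟩ := hspray.exists_lipschitzOnWith
  -- the two lifted curves
  have dγ : ∀ t ∈ Icc t₀ t₁, γ t ∈ (chartAt 𝔼 y₀).source →
      HasDerivAt (fun s => ((c1 s, deriv c1 s) : 𝔼 × 𝔼))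
        (spray (Gm (n := n) y₀) (c1 t, deriv c1 t)) t := by
    intro t ht' hs
    have hcd := contDiffAt_cc (n := n) (hγ t ht') hs
    obtain ⟨a1, a2⟩ := diff_facts hcd
    have a3 := geoc_change (n := n) (hγ t ht') (mem_chart_source _ _) hs (gγ t ht')
    have a4 : deriv (deriv c1) t = -Gm y₀ (c1 t) (deriv c1 t) (deriv c1 t) :=
      eq_neg_of_add_eq_zero_left a3
    refine (a1.self_of_nhds.hasDerivAt.prodMk a2.hasDerivAt).congr_deriv ?_
    rw [a4]; rfl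
  have dσ : ∀ t ∈ Icc t₀ t₁, σ t ∈ (chartAt 𝔼 y₀).source →
      HasDerivAt (fun s => ((c2 s, deriv c2 s) : 𝔼 × 𝔼))
        (spray (Gm (n := n) y₀) (c2 t, deriv c2 t)) t := by
    intro t ht' hs
    have hcd := contDiffAt_cc (n := n) (hσ t ht') hs
    obtain ⟨a1, a2⟩ := diff_facts hcd
    have a3 := geoc_change (n := n) (hσ t ht') (mem_chart_source _ _) hs (gσ t ht')
    have a4 : deriv (deriv c2) t = -Gm y₀ (c2 t) (deriv c2 t) (deriv c2 t) :=
      eq_neg_of_add_eq_zero_left a3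
    refine (a1.self_of_nhds.hasDerivAt.prodMk a2.hasDerivAt).congr_deriv ?_
    rw [a4]; rfl
  have hX0 : ((c1 t₀, deriv c1 t₀) : 𝔼 × 𝔼) = (c2 t₀, deriv c2 t₀) := by
    rw [h1]
    have : c1 t₀ = c2 t₀ := congrArg (chartAt 𝔼 y₀) h0
    rw [this]
  have hS1 : ∀ᶠ t in 𝓝 t₀, ((c1 t, deriv c1 t) : 𝔼 × 𝔼) ∈ S :=
    (dγ t₀ ht0 (mem_chart_source _ _)).continuousAt.eventually hS
  have hS2 : ∀ᶠ t in 𝓝 t₀, ((c2 t, deriv c2 t) : 𝔼 × 𝔼) ∈ S := by
    refine (dσ t₀ ht0 (by rw [← h0]; exact mem_chart_source _ _)).continuousAt.eventually ?_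
    show ∀ᶠ p in 𝓝 ((c2 t₀, deriv c2 t₀) : 𝔼 × 𝔼), p ∈ S
    rw [← hX0]; exact hS
  obtain ⟨δ, hδ, hδs⟩ := Metric.eventually_nhds_iff_ball.1 (hsγ.and (hsσ.and (hS1.and hS2)))
  set δ' := min (δ / 2) (t₁ - t₀) with hδ'
  have hδ'0 : 0 < δ' := lt_min (by positivity) (by linarith)
  have hin : ∀ t ∈ Icc t₀ (t₀ + δ'), t ∈ Icc t₀ t₁ ∧ t ∈ Metric.ball t₀ δ := by
    intro t ht'
    have := min_le_left (δ / 2) (t₁ - t₀)
    have := min_le_right (δ / 2) (t₁ - t₀)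
    refine ⟨⟨ht'.1, by linarith [ht'.2]⟩, ?_⟩
    rw [Metric.mem_ball, Real.dist_eq, abs_of_nonneg (by linarith [ht'.1])]
    linarith [ht'.2]
  have huniq := ODE_solution_unique_of_mem_Icc_right
    (v := fun _ z => spray (Gm (n := n) y₀) z) (s := fun _ => S) (K := K)
    (f := fun s => ((c1 s, deriv c1 s) : 𝔼 × 𝔼)) (g := fun s => ((c2 s, deriv c2 s) : 𝔼 × 𝔼))
    (a := t₀) (b := t₀ + δ') (fun t _ => hK)
    (fun t ht' => (dγ t (hin t ht').1 (hδs t (hin t ht').2).1).continuousAt.continuousWithinAt)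
    (fun t ht' => by
      have h2 := hin t ⟨ht'.1, ht'.2.le⟩
      exact (dγ t h2.1 (hδs t h2.2).1).hasDerivWithinAt)
    (fun t ht' => (hδs t (hin t ⟨ht'.1, ht'.2.le⟩).2).2.2.1)
    (fun t ht' => (dσ t (hin t ht').1 (hδs t (hin t ht').2).2.1).continuousAt.continuousWithinAt)
    (fun t ht' => by
      have h2 := hin t ⟨ht'.1, ht'.2.le⟩
      exact (dσ t h2.1 (hδs t h2.2).2.1).hasDerivWithinAt)
    (fun t ht' => (hδs t (hin t ⟨ht'.1, ht'.2.le⟩).2).2.2.2) hX0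
  refine ⟨δ', hδ'0, fun t ht' => ?_⟩
  have h2 := huniq ht'
  have h3 : c1 t = c2 t := congrArg Prod.fst h2
  have h4 := hin t ht'
  exact (chartAt 𝔼 y₀).injOn (hδs t h4.2).1 (hδs t h4.2).2.1 h3

/-- a smooth curve with zero covariant acceleration is radial -/
theorem eq_ray (G : GeoData n M) {γ : ℝ → M}
    (hγ : ∀ t ∈ Icc (0 : ℝ) 1, ContMDiffAt 𝓘(ℝ, ℝ) (𝓡 n) ∞ γ t)
    (gγ : ∀ t ∈ Icc (0 : ℝ) 1, geoc (n := n) γ (γ t) t = 0) :
    ∀ t ∈ Icc (0 : ℝ) 1, γ t = G.ex (γ 0) (t • curveVel n γ 0) := by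
  set x := γ 0 with hx
  set v : TangentSpace (𝓡 n) x := curveVel n γ 0 with hv
  set σ : ℝ → M := fun t => G.ex x (t • v) with hσd
  have hσ : ∀ t, ContMDiffAt 𝓘(ℝ, ℝ) (𝓡 n) ∞ σ t := fun t => contMDiff_ray G x v t
  have gσ : ∀ t, geoc (n := n) σ (σ t) t = 0 := fun t => geoc_ray G x v t _ (mem_chart_source _ _)
  let s : Set ℝ := {t | ∀ r ∈ Icc (0 : ℝ) t, γ r = σ r}
  have h01 : (0 : ℝ) ∈ Icc (0 : ℝ) 1 := ⟨le_rfl, zero_le_one⟩
  have hbase : γ 0 = σ 0 := by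
    show x = G.ex x ((0 : ℝ) • v)
    rw [zero_smul, G.ex_zero]
  have hclosed : IsClosed (s ∩ Icc 0 1) := by
    have hcont : ContinuousOn γ (Icc 0 1) := fun t ht => (hγ t ht).continuousAt.continuousWithinAt
    have hcontσ : Continuous σ := (contMDiff_ray G x v).continuous
    rw [← isSeqClosed_iff_isClosed]
    intro u t hu ht
    have ht1 : t ∈ Icc (0 : ℝ) 1 := isClosed_Icc.mem_of_tendsto ht
      (Eventually.of_forall fun k => (hu k).2)
    refine ⟨fun r hr => ?_, ht1⟩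
    rcases hr.2.lt_or_eq with hlt | heq
    · obtain ⟨k, hk⟩ := (ht.eventually (lt_mem_nhds hlt)).exists
      exact (hu k).1 r ⟨hr.1, hk.le⟩
    · rw [heq]
      have h1 : Tendsto (fun k => γ (u k)) atTop (𝓝 (γ t)) :=
        ((hcont t ht1).tendsto.comp (tendsto_nhdsWithin_iff.2
          ⟨ht, Eventually.of_forall fun k => (hu k).2⟩))
      have h2 : Tendsto (fun k => σ (u k)) atTop (𝓝 (σ t)) := (hcontσ.tendsto t).comp ht
      refine tendsto_nhds_unique h1 (h2.congr fun k => ?_)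
      exact ((hu k).1 (u k) ⟨(hu k).2.1, le_rfl⟩).symm
  have hsub : Icc (0 : ℝ) 1 ⊆ s := by
    refine hclosed.Icc_subset_of_forall_exists_gt ?_ ?_
    · intro r hr
      have : r = 0 := le_antisymm hr.2 hr.1
      rw [this]; exact hbase
    · intro t ht t' ht'
      have htt : t ∈ Icc (0 : ℝ) 1 := ⟨ht.2.1, ht.2.2.le⟩
      have hteq : γ t = σ t := ht.1 t ⟨htt.1, le_rfl⟩
      -- equality of velocities in the chart
      have hvel : deriv (cc (n := n) γ (γ t)) t = deriv (cc σ (γ t)) t := by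
        have hsσ : σ t ∈ (chartAt 𝔼 (γ t)).source := by rw [← hteq]; exact mem_chart_source _ _
        rcases htt.1.lt_or_eq with hpos | hz
        · have d1 : DifferentiableAt ℝ (cc (n := n) γ (γ t)) t :=
            (contDiffAt_cc (n := n) (hγ t htt) (mem_chart_source _ _)).differentiableAt (by simp)
          have d2 : DifferentiableAt ℝ (cc (n := n) σ (γ t)) t :=
            (contDiffAt_cc (n := n) (hσ t) hsσ).differentiableAt (by simp)
          have h1 := d1.hasDerivAt.hasDerivWithinAt (s := Icc 0 t)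
          have h2 := d2.hasDerivAt.hasDerivWithinAt (s := Icc 0 t)
          have h3 : HasDerivWithinAt (cc (n := n) γ (γ t)) (deriv (cc σ (γ t)) t) (Icc 0 t) t := by
            refine h2.congr (fun r hr => ?_) ?_
            · show chartAt 𝔼 (γ t) (γ r) = chartAt 𝔼 (γ t) (σ r)
              rw [ht.1 r hr]
            · show chartAt 𝔼 (γ t) (γ t) = chartAt 𝔼 (γ t) (σ t)
              rw [← hteq]
          exact (uniqueDiffOn_Icc hpos t ⟨hpos.le, le_rfl⟩).eq_deriv _ h1 h3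
        · subst hz
          have e1 := hasDerivAt_chart (n := n) x ((hγ 0 h01).mdifferentiableAt (by simp))
            (by rw [← hx]; exact mem_chart_source _ _)
          have e2 := hasDerivAt_chart (n := n) x (mdifferentiableAt_ray G x v 0)
            (by rw [zero_smul, G.ex_zero]; exact mem_chart_source _ _)
          have e3 : deriv (cc (n := n) γ x) 0 = dC x (γ 0) (curveVel n γ 0) := e1.deriv
          have e4 : deriv (cc (n := n) σ x) 0
              = dC x (G.ex x ((0 : ℝ) • v)) (curveVel n (fun t : ℝ => G.ex x (t • v)) 0) := e2.deriv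
          show deriv (cc (n := n) γ x) 0 = deriv (cc (n := n) σ x) 0
          rw [e3, e4, G.vel_zero x v]
          exact dC_congr x (by rw [zero_smul, G.ex_zero]) _
      obtain ⟨δ, hδ, hδe⟩ := geo_unique_chart (n := n) (γ := γ) (σ := σ) ht.2.2
        (fun r hr => hγ r ⟨htt.1.trans hr.1, hr.2⟩) (fun r _ => hσ r)
        (fun r hr => gγ r ⟨htt.1.trans hr.1, hr.2⟩) (fun r _ => gσ r) hteq hvel
      refine ⟨min t' (t + δ), ?_, lt_min ht' (by linarith), min_le_left _ _⟩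
      intro r hr
      rcases le_total r t with h5 | h5
      · exact ht.1 r ⟨hr.1, h5⟩
      · exact hδe r ⟨h5, hr.2.trans (min_le_right _ _)⟩
  intro t ht
  exact hsub ht t ⟨ht.1, le_rfl⟩

/-- **naturality of the exponential map**: a local isometry along the segment `[0,1] w`, for a
metric whose rays are geodesics, is given by the exponential map. -/
theorem nat_exp (G : GeoData n M) {U : Set 𝔼} {g : 𝔼 → 𝔼 →L[ℝ] 𝔼 →L[ℝ] ℝ}
    {Γ : 𝔼 → 𝔼 →L[ℝ] 𝔼 →L[ℝ] 𝔼} (hLC : IsLC U g Γ) (hU0 : (0 : 𝔼) ∈ U)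
    (hrad : ∀ x ∈ U, Γ x x x = 0) {H : 𝔼 → M} {w : 𝔼} (hw : ∀ t ∈ Icc (0 : ℝ) 1, t • w ∈ U)
    (hH : ∀ t ∈ Icc (0 : ℝ) 1, IsoM g H (t • w)) :
    H w = G.ex (H 0) (mfderiv 𝓘(ℝ, 𝔼) (𝓡 n) H 0 w) := by
  have hl : ∀ t : ℝ, HasDerivAt (fun s : ℝ => s • w) w t := fun t => by
    simpa using (hasDerivAt_id t).smul_const w
  have hlc : ∀ t : ℝ, ContMDiffAt 𝓘(ℝ, ℝ) 𝓘(ℝ, 𝔼) ∞ (fun s : ℝ => s • w) t := fun t =>
    (contDiff_id.smul contDiff_const : ContDiff ℝ ∞ fun s : ℝ => s • w).contMDiff t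
  have h1 : ∀ t ∈ Icc (0 : ℝ) 1, ContMDiffAt 𝓘(ℝ, ℝ) (𝓡 n) ∞ (fun t : ℝ => H (t • w)) t := by
    intro t ht
    exact ((hH t ht).1.self_of_nhds).comp t (hlc t)
  have h2 : ∀ t ∈ Icc (0 : ℝ) 1, geoc (n := n) (fun t : ℝ => H (t • w)) (H (t • w)) t = 0 := by
    intro t ht
    have hL := (hH t ht).locIso hLC (hw t ht) (y₀ := H (t • w)) (mem_chart_source _ _)
    have h3 := hL.geodesic (c := fun s : ℝ => s • w) hLC (isLC_gm _)
      (Eventually.of_forall fun s => (hl s).differentiableAt) (by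
        have : deriv (fun s : ℝ => s • w) = fun _ => w := by funext s; exact (hl s).deriv
        rw [this]; exact differentiableAt_const _)
    have h4 : cov Γ (fun s : ℝ => s • w) (deriv fun s : ℝ => s • w) t = 0 := by
      have : deriv (fun s : ℝ => s • w) = fun _ => w := by funext s; exact (hl s).deriv
      unfold cov
      rw [this, (rad_facts hLC hU0 hrad (hw t ht)).1]
      simp
    rw [h4, map_zero] at h3
    exact h3
  have h5 := eq_ray G h1 h2 1 ⟨zero_le_one, le_rfl⟩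
  have h0 : H ((0 : ℝ) • w) = H 0 := by rw [zero_smul]
  have h6 : H ((1 : ℝ) • w) = H w := by rw [one_smul]
  -- the initial velocity
  have hd : (curveVel n (fun t : ℝ => H (t • w)) 0 : 𝔼)
      = mfderiv 𝓘(ℝ, 𝔼) (𝓡 n) H ((0 : ℝ) • w) w := by
    have ha : HasMFDerivAt 𝓘(ℝ, ℝ) 𝓘(ℝ, 𝔼) (fun s : ℝ => s • w) 0
        (ContinuousLinearMap.toSpanSingleton ℝ w) := (hl 0).hasFDerivAt.hasMFDerivAt
    have hb := (((hH 0 ⟨le_rfl, zero_le_one⟩).1.self_of_nhds).mdifferentiableAt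
      (by simp)).hasMFDerivAt
    have hc := (hb.comp (0 : ℝ) ha).mfderiv
    have hc' : mfderiv 𝓘(ℝ, ℝ) (𝓡 n) (fun t : ℝ => H (t • w)) 0
      = (mfderiv 𝓘(ℝ, 𝔼) (𝓡 n) H ((0 : ℝ) • w)).comp (ContinuousLinearMap.toSpanSingleton ℝ w) :=
      hc
    unfold curveVel
    rw [hc']
    show mfderiv 𝓘(ℝ, 𝔼) (𝓡 n) H ((0 : ℝ) • w) (ContinuousLinearMap.toSpanSingleton ℝ w (1 : ℝ)) = _
    rw [ContinuousLinearMap.toSpanSingleton_apply, one_smul]
  have key : ∀ (z : 𝔼), z = 0 →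
      G.ex (H z) ((1 : ℝ) • (mfderiv 𝓘(ℝ, 𝔼) (𝓡 n) H z w : TangentSpace (𝓡 n) (H z)))
        = G.ex (H 0) (mfderiv 𝓘(ℝ, 𝔼) (𝓡 n) H 0 w) := by
    intro z hz
    subst hz
    rw [one_smul]
  rw [← h6, h5, ← key ((0 : ℝ) • w) (zero_smul _ _)]
  congr 2

end ray

end Crest.Agent.R249.B2Iso_474
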