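/-
Row 249, part B2 (helper474), step (2): the metric of `M` in normal coordinates.

* `FX G p I v = exp_p (I v)`;
* `pbm F`: the pulled back metric;
* `pbm_eq`: for a frame `P` at `p` and parallel curvature, the pull back of the metric of `M` under
  `FX G p P.I` is `m.g0` on `m.D`;
* `isoM_FX`: `FX G p P.I` is a local isometry `(D, g0) → M`;
* `MdlLC`: Levi-Civita data of the model metric (`exists_mdlLC`).
-/
import Crest.Agent.R249.B2Iso_474

set_option autoImplicit false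
set_option maxSynthPendingDepth 3
set_option linter.unusedSectionVars false

open Bundle Set Filter Topology MeasureTheory
open scoped ContDiff Manifold
open Crest.Agent.R244.CF (IsLC curv cov LocIsoAt)
open Crest.Agent.R226 Crest.Agent.R226.ChartMet842 Crest.Agent.R226.LocalNearThm996
open Crest.Agent.R226.GeoLoc577 Crest.Agent.R226.GeoBasic616
open Crest.GeometryTopology.MTW
open Crest.Agent.R249.B2Defs_474 Crest.Agent.R249.B2Jac_474 Crest.Agent.R249.B2Geo_474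
open Crest.Agent.R249.B2Iso_474

noncomputable section

namespace Crest.Agent.R249.B2Pull_474

section gen

variable {E : Type*} [NormedAddCommGroup E] [NormedSpace ℝ E]
variable {U : Set E} {g : E → E →L[ℝ] E →L[ℝ] ℝ} {Γ : E → E →L[ℝ] E →L[ℝ] E}
  {U' : Set E} {g' : E → E →L[ℝ] E →L[ℝ] ℝ}

theorem locIso_ker {φ : E → E} {x : E} (h : LocIsoAt U g U' g' φ x) (hLC : IsLC U g Γ) {u : E}
    (hu : fderiv ℝ φ x u = 0) : u = 0 := by
  by_contra hne
  have h1 := hLC.g_pos x h.mem u hne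
  rw [h.iso.self_of_nhds u u, hu, map_zero] at h1
  exact lt_irrefl _ h1

theorem hasDerivAt_smul (x : E) (t : ℝ) : HasDerivAt (fun s : ℝ => s • x) x t := by
  simpa using (hasDerivAt_id t).smul_const x

theorem deriv_smul_fun (x : E) : deriv (fun s : ℝ => s • x) = fun _ => x := by
  funext s; exact (hasDerivAt_smul x s).deriv

end gen

theorem eventually_pos {n : ℕ} {B : EuclideanSpace ℝ (Fin n) → EuclideanSpace ℝ (Fin n) →L[ℝ]
    EuclideanSpace ℝ (Fin n) →L[ℝ] ℝ} (hB : Continuous B) {x : EuclideanSpace ℝ (Fin n)}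
    (hx : ∀ u, u ≠ 0 → 0 < B x u u) : ∀ᶠ y in 𝓝 x, ∀ u, u ≠ 0 → 0 < B y u u := by
  have hK : IsCompact (Metric.sphere (0 : EuclideanSpace ℝ (Fin n)) 1) := isCompact_sphere _ _
  have h1 : ∀ᶠ y in 𝓝 x, ∀ u ∈ Metric.sphere (0 : EuclideanSpace ℝ (Fin n)) 1, 0 < B y u u := by
    apply hK.eventually_forall_of_forall_eventually
    intro u hu
    have hu0 : u ≠ 0 := by
      rintro rfl
      simp at hu
    have hc : Continuous fun z : EuclideanSpace ℝ (Fin n) × EuclideanSpace ℝ (Fin n) =>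
        B z.1 z.2 z.2 :=
      ((hB.comp continuous_fst).clm_apply continuous_snd).clm_apply continuous_snd
    exact (hc.tendsto (x, u)).eventually (lt_mem_nhds (hx u hu0))
  filter_upwards [h1] with y hy u hu
  have hn : 0 < ‖u‖ := norm_pos_iff.2 hu
  have h2 := hy (‖u‖⁻¹ • u) (by
    rw [mem_sphere_zero_iff_norm, norm_smul, norm_inv, norm_norm, inv_mul_cancel₀ hn.ne'])
  simp only [map_smul, smul_apply, smul_eq_mul] at h2
  have h3 : 0 < ‖u‖⁻¹ := inv_pos.2 hn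
  have h4 : 0 < ‖u‖⁻¹ * B y u u := by
    by_contra hle
    have := mul_nonpos_of_nonneg_of_nonpos h3.le (not_lt.1 hle)
    linarith
  by_contra hle
  have := mul_nonpos_of_nonneg_of_nonpos h3.le (not_lt.1 hle)
  linarith

variable {n : ℕ} {M : Type*} [MetricSpace M] [ChartedSpace (EuclideanSpace ℝ (Fin n)) M]
  [IsManifold (𝓡 n) ∞ M]
  [RiemannianBundle (fun p : M => TangentSpace (𝓡 n) p)]
  [IsContMDiffRiemannianBundle (𝓡 n) ∞ (EuclideanSpace ℝ (Fin n)) (fun p : M => TangentSpace (𝓡 n) p)]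

local notation "𝔼" => EuclideanSpace ℝ (Fin n)

/-- the pulled back metric -/
def pbm (F : 𝔼 → M) (z : 𝔼) : 𝔼 →L[ℝ] 𝔼 →L[ℝ] ℝ :=
  (gm (n := n) (F z) (FC F (F z) z)).bilinearComp (fderiv ℝ (FC (n := n) F (F z)) z)
    (fderiv ℝ (FC (n := n) F (F z)) z)

theorem pbm_apply {F : 𝔼 → M} {z : 𝔼} (hF : MDifferentiableAt 𝓘(ℝ, 𝔼) (𝓡 n) F z) (u v : 𝔼) :
    pbm F z u v =
      inner ℝ (mfderiv 𝓘(ℝ, 𝔼) (𝓡 n) F z u) (mfderiv 𝓘(ℝ, 𝔼) (𝓡 n) F z v) := by
  unfold pbm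
  rw [ContinuousLinearMap.bilinearComp_apply, fderiv_FC hF (mem_chart_source _ _),
    fderiv_FC hF (mem_chart_source _ _)]
  exact (inner_eq_gm _ (mem_chart_source _ _) _ _).symm

theorem pbm_chart {F : 𝔼 → M} {z : 𝔼} (hF : MDifferentiableAt 𝓘(ℝ, 𝔼) (𝓡 n) F z) {y₀ : M}
    (hy : F z ∈ (chartAt 𝔼 y₀).source) (u v : 𝔼) :
    pbm F z u v = gm y₀ (FC F y₀ z) (fderiv ℝ (FC (n := n) F y₀) z u)
      (fderiv ℝ (FC (n := n) F y₀) z v) := by
  rw [pbm_apply hF, fderiv_FC hF hy, fderiv_FC hF hy]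
  exact inner_eq_gm _ hy _ _

theorem contDiff_pbm {F : 𝔼 → M} (hF : ContMDiff 𝓘(ℝ, 𝔼) (𝓡 n) ∞ F) :
    ContDiff ℝ ∞ (pbm (n := n) F) := by
  rw [contDiff_clm_apply_iff]
  intro u
  rw [contDiff_clm_apply_iff]
  intro v
  rw [contDiff_iff_contDiffAt]
  intro z
  have hs : ∀ᶠ y in 𝓝 z, F y ∈ (chartAt 𝔼 (F z)).source :=
    hF.continuous.continuousAt.eventually ((chartAt 𝔼 (F z)).open_source.mem_nhds
      (mem_chart_source _ _))
  have he : (fun y => pbm F y u v) =ᶠ[𝓝 z] fun y => gm (F z) (FC F (F z) y)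
      (fderiv ℝ (FC (n := n) F (F z)) y u) (fderiv ℝ (FC (n := n) F (F z)) y v) := by
    filter_upwards [hs] with y hy
    exact pbm_chart ((hF y).mdifferentiableAt (by simp)) hy u v
  refine ContDiffAt.congr_of_eventuallyEq ?_ he
  have h1 : ContDiffAt ℝ ∞ (FC (n := n) F (F z)) z := contDiffAt_FC (hF z) (mem_chart_source _ _)
  have h2 : ContDiffAt ℝ ∞ (fderiv ℝ (FC (n := n) F (F z))) z :=
    h1.fderiv_right (m := ∞) (by simp)
  have h3 : ContDiffAt ℝ ∞ (fun y => gm (F z) (FC F (F z) y)) z :=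
    ContDiffAt.comp z ((isLC_gm (n := n) (F z)).g_contDiffAt
      ((chartAt 𝔼 (F z)).map_source (mem_chart_source _ _))) h1
  exact (h3.clm_apply (h2.clm_apply contDiffAt_const)).clm_apply (h2.clm_apply contDiffAt_const)

theorem isoM_pbm {F : 𝔼 → M} (hF : ContMDiff 𝓘(ℝ, 𝔼) (𝓡 n) ∞ F) (x : 𝔼) :
    IsoM (pbm F) F x :=
  ⟨Eventually.of_forall fun z => hF z,
    Eventually.of_forall fun z u v => pbm_apply ((hF z).mdifferentiableAt (by simp)) u v⟩

theorem nab_of_isoM (hP : ParCurv n M) {U : Set 𝔼} {g : 𝔼 → 𝔼 →L[ℝ] 𝔼 →L[ℝ] ℝ}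
    {Γ : 𝔼 → 𝔼 →L[ℝ] 𝔼 →L[ℝ] 𝔼} (hLC : IsLC U g Γ) {F : 𝔼 → M} {x : 𝔼} (hx : x ∈ U)
    (h : IsoM g F x) (W X Y Z : 𝔼) : nab Γ x W X Y Z = 0 := by
  have hL := h.locIso hLC hx (y₀ := F x) (mem_chart_source _ _)
  refine locIso_ker hL hLC ?_
  rw [nab_transform hL hLC (isLC_gm _)]
  exact hP (F x) _ _ _ _

section ex

variable [IsRiemannianManifold (𝓡 n) M]

/-- exponential map of `M` in the frame `I` -/
def FX (G : GeoData n M) (p : M) (I : 𝔼 →L[ℝ] 𝔼) (v : 𝔼) : M :=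
  G.ex p (I v : TangentSpace (𝓡 n) p)

theorem contMDiff_FX (G : GeoData n M) (p : M) (I : 𝔼 →L[ℝ] 𝔼) :
    ContMDiff 𝓘(ℝ, 𝔼) (𝓡 n) ∞ (FX (n := n) G p I) :=
  (contMDiff_ex_fibre G p).comp I.contDiff.contMDiff

theorem FX_zero (G : GeoData n M) (p : M) (I : 𝔼 →L[ℝ] 𝔼) : FX (n := n) G p I 0 = p := by
  unfold FX
  rw [map_zero]
  exact G.ex_zero p

theorem ray_zero (G : GeoData n M) (p : M) (v : TangentSpace (𝓡 n) p) :
    G.ex p ((0 : ℝ) • v) = p := by rw [zero_smul, G.ex_zero]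

theorem ray_one (G : GeoData n M) (p : M) (v : TangentSpace (𝓡 n) p) :
    G.ex p ((1 : ℝ) • v) = G.ex p v := by rw [one_smul]

theorem fderiv_FC_FX (G : GeoData n M) (p : M) (I : 𝔼 →L[ℝ] 𝔼) (u : 𝔼) :
    fderiv ℝ (FC (n := n) (FX (n := n) G p I) p) 0 u = I u := by
  have hF0 := FX_zero G p I
  have h1 : ContDiffAt ℝ ∞ (FC (n := n) (FX (n := n) G p I) p) 0 :=
    contDiffAt_FC (contMDiff_FX G p I 0) (by rw [hF0]; exact mem_chart_source _ _)
  have h2 : HasFDerivAt (FC (n := n) (FX (n := n) G p I) p)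
      (fderiv ℝ (FC (n := n) (FX (n := n) G p I) p) 0) ((0 : ℝ) • u) := by
    rw [zero_smul]
    exact (h1.differentiableAt (by simp)).hasFDerivAt
  have h3 := h2.comp_hasDerivAt (0 : ℝ) (hasDerivAt_smul u 0)
  have h4 := hasDerivAt_chart (n := n) p (mdifferentiableAt_ray G p (I u) 0)
    (by rw [ray_zero G p (I u)]; exact mem_chart_source _ _)
  have h5 : (FC (n := n) (FX (n := n) G p I) p) ∘ (fun s : ℝ => s • u)
      = fun s : ℝ => chartAt 𝔼 p (G.ex p (s • (I u : TangentSpace (𝓡 n) p))) := by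
    funext s
    show chartAt 𝔼 p (G.ex p (I (s • u) : TangentSpace (𝓡 n) p)) = _
    rw [map_smul]
  rw [h5] at h3
  rw [h3.unique h4, G.vel_zero p (I u)]
  have h6 := dC_congr (n := n) p (p := G.ex p ((0 : ℝ) • (I u : TangentSpace (𝓡 n) p))) (q := p)
    (ray_zero G p (I u)) (I u)
  exact h6.trans (dC_self p (I u))

/-- rays are geodesics of every metric for which `FX` is a local isometry -/
theorem rad_of_isoM (G : GeoData n M) {p : M} {I : 𝔼 →L[ℝ] 𝔼} {U : Set 𝔼}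
    {g : 𝔼 → 𝔼 →L[ℝ] 𝔼 →L[ℝ] ℝ} {Γ : 𝔼 → 𝔼 →L[ℝ] 𝔼 →L[ℝ] 𝔼} (hLC : IsLC U g Γ) {x : 𝔼}
    (hx : x ∈ U) (h : IsoM g (FX G p I) x) : Γ x x x = 0 := by
  set y₀ := FX (n := n) G p I x with hy₀
  have hL := h.locIso hLC hx (y₀ := y₀) (mem_chart_source _ _)
  have h1x : (fun s : ℝ => s • x) 1 = x := one_smul _ _
  have hL' : LocIsoAt U g (chartAt 𝔼 y₀).target (gm (n := n) y₀) (FC (FX G p I) y₀)
      ((fun s : ℝ => s • x) 1) := by
    rw [h1x]; exact hL
  have h3 := hL'.geodesic (c := fun s : ℝ => s • x) hLC (isLC_gm _)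
    (Eventually.of_forall fun s => (hasDerivAt_smul x s).differentiableAt)
    (by rw [deriv_smul_fun]; exact differentiableAt_const _)
  have h4 := geoc_ray G p (I x) 1 y₀ (by rw [ray_one G p (I x)]; exact mem_chart_source _ _)
  have h5 : (fun s : ℝ => FC (n := n) (FX (n := n) G p I) y₀ (s • x))
      = cc (n := n) (fun t : ℝ => G.ex p (t • (I x : TangentSpace (𝓡 n) p))) y₀ := by
    funext s
    show chartAt 𝔼 y₀ (G.ex p (I (s • x) : TangentSpace (𝓡 n) p)) = _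
    rw [map_smul]
    rfl
  have h6 : cov Γ (fun s : ℝ => s • x) (deriv fun s : ℝ => s • x) 1 = Γ x x x := by
    unfold cov
    rw [deriv_smul_fun]
    simp
  rw [h6] at h3
  simp only [one_smul] at h3
  rw [h5] at h3
  refine locIso_ker hL hLC ?_
  rw [← h3]
  exact h4

theorem frame_inj {R0 : 𝔼 → 𝔼 → 𝔼 → 𝔼} {p : M} (P : Frame n R0 p) {a b : 𝔼}
    (h : P.I a = P.I b) : a = b := by
  have h1 := P.iso (a - b) (a - b)
  rw [map_sub, h, sub_self, map_zero] at h1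
  have h2 : inner ℝ (a - b) (a - b) = (0 : ℝ) := by
    rw [← h1]
  exact sub_eq_zero.1 (inner_self_eq_zero.1 h2)

theorem curv_of_isoM (G : GeoData n M) {R0 : 𝔼 → 𝔼 → 𝔼 → 𝔼} {p : M} (P : Frame n R0 p)
    {U : Set 𝔼} {g : 𝔼 → 𝔼 →L[ℝ] 𝔼 →L[ℝ] ℝ} {Γ : 𝔼 → 𝔼 →L[ℝ] 𝔼 →L[ℝ] 𝔼} (hLC : IsLC U g Γ)
    (h0 : (0 : 𝔼) ∈ U) (h : IsoM g (FX G p P.I) 0) (u v w : 𝔼) :
    curv Γ 0 u v w = R0 u v w := by
  have hF0 := FX_zero G p P.I
  have hL := h.locIso hLC h0 (y₀ := p) (by rw [hF0]; exact mem_chart_source _ _)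
  have hφ0 : FC (n := n) (FX (n := n) G p P.I) p 0 = chartAt 𝔼 p p := congrArg (chartAt 𝔼 p) hF0
  have h1 := hL.curv hLC (isLC_gm p) u v w
  rw [hφ0, fderiv_FC_FX, fderiv_FC_FX, fderiv_FC_FX, fderiv_FC_FX, P.curv_eq] at h1
  exact frame_inj P h1

theorem pbm_zero (G : GeoData n M) {R0 : 𝔼 → 𝔼 → 𝔼 → 𝔼} {p : M} (P : Frame n R0 p) (u v : 𝔼) :
    pbm (FX G p P.I) 0 u v = inner ℝ u v := by
  have hF0 := FX_zero G p P.I
  have hφ0 : FC (n := n) (FX (n := n) G p P.I) p 0 = chartAt 𝔼 p p := congrArg (chartAt 𝔼 p) hF0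
  rw [pbm_chart (y₀ := p) ((contMDiff_FX G p P.I 0).mdifferentiableAt (by simp))
    (by rw [hF0]; exact mem_chart_source _ _), hφ0, fderiv_FC_FX, fderiv_FC_FX, P.iso]

/-- **Step (2)** -/
theorem pbm_eq (m : Mdl n) (hP : ParCurv n M) (G : GeoData n M) {p : M} (P : Frame n m.R0 p) :
    ∀ w ∈ m.D, ∀ u v : 𝔼, pbm (FX G p P.I) w u v = m.g0 w u v := by
  set F := FX (n := n) G p P.I with hF
  have hFs : ContMDiff 𝓘(ℝ, 𝔼) (𝓡 n) ∞ F := contMDiff_FX G p P.I
  have hg : ContDiff ℝ ∞ (pbm (n := n) F) := contDiff_pbm hFs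
  have hiso : ∀ x, IsoM (pbm F) F x := fun x => isoM_pbm hFs x
  let U : Set 𝔼 := {x | ∀ u : 𝔼, u ≠ 0 → 0 < pbm F x u u}
  have hU : IsOpen U := isOpen_iff_mem_nhds.2 fun x hx => eventually_pos hg.continuous hx
  obtain ⟨Γ, hLC⟩ := exists_isLC hU hg.contDiffOn
    (fun x _ u v => by
      rw [pbm_apply ((hFs x).mdifferentiableAt (by simp)),
        pbm_apply ((hFs x).mdifferentiableAt (by simp)), real_inner_comm])
    (fun x hx => hx)
  have hz0 : ∀ u v : 𝔼, pbm F 0 u v = inner ℝ u v := pbm_zero G P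
  have h0 : (0 : 𝔼) ∈ U := fun u hu => by rw [hz0]; exact real_inner_self_pos.2 hu
  have hrad : ∀ x ∈ U, Γ x x x = 0 := fun x hx => rad_of_isoM G hLC hx (hiso x)
  have hnab : ∀ x ∈ U, ∀ W X Y Z, nab Γ x W X Y Z = 0 := fun x hx =>
    nab_of_isoM hP hLC hx (hiso x)
  have hcurv : ∀ u v w, curv Γ 0 u v w = m.R0 u v w := curv_of_isoM G P hLC h0 (hiso 0)
  have key : ∀ w ∈ m.D, (∀ t ∈ Icc (0 : ℝ) 1, t • w ∈ U) → ∀ u v : 𝔼,
      pbm F w u v = m.g0 w u v := by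
    intro w hw hseg u v
    have h1 := normal_metric hLC h0 hrad hnab hseg (J := m.J w) (J' := m.J' w) (m.J_zero w)
      (m.J_one w) (m.J_deriv w) (fun u t => by rw [hcurv]; exact m.J'_deriv w u t) u v (t := 1)
      ⟨zero_le_one, le_rfl⟩
    rw [one_smul, one_smul, one_smul, hz0] at h1
    rw [h1, m.J_g0 w hw]
  intro w hw
  refine key w hw ?_
  let s : Set ℝ := {t | ∀ r ∈ Icc (0 : ℝ) t, r • w ∈ U}
  have hclosed : IsClosed (s ∩ Icc 0 1) := by
    rw [← isSeqClosed_iff_isClosed]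
    intro c t hc ht
    have ht1 : t ∈ Icc (0 : ℝ) 1 := isClosed_Icc.mem_of_tendsto ht
      (Eventually.of_forall fun k => (hc k).2)
    refine ⟨fun r hr => ?_, ht1⟩
    rcases hr.2.lt_or_eq with hlt | heq
    · obtain ⟨k, hk⟩ := (ht.eventually (lt_mem_nhds hlt)).exists
      exact (hc k).1 r ⟨hr.1, hk.le⟩
    · rw [heq]
      intro u hu
      have htD : t • w ∈ m.D := m.D_star w hw t ht1
      have h1 : Tendsto (fun k => c k • w) atTop (𝓝 (t • w)) := ht.smul_const w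
      have h2 : Tendsto (fun k => pbm F (c k • w) u u) atTop (𝓝 (pbm F (t • w) u u)) := by
        have h3 : Continuous fun z => pbm F z u u :=
          (hg.continuous.clm_apply continuous_const).clm_apply continuous_const
        exact (h3.tendsto _).comp h1
      have h4 : Tendsto (fun k => m.g0 (c k • w) u u) atTop (𝓝 (m.g0 (t • w) u u)) := by
        have h5 : ContinuousAt (fun z => m.g0 z u u) (t • w) := by
          have h6 : ContinuousAt m.g0 (t • w) :=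
            (m.g0_smooth.contDiffAt (m.D_open.mem_nhds htD)).continuousAt
          exact (h6.clm_apply continuousAt_const).clm_apply continuousAt_const
        exact h5.tendsto.comp h1
      have h7 : ∀ k, pbm F (c k • w) u u = m.g0 (c k • w) u u := by
        intro k
        refine key (c k • w) (m.D_star w hw _ (hc k).2) (fun τ hτ => ?_) u u
        rw [smul_smul]
        exact (hc k).1 _ ⟨mul_nonneg hτ.1 (hc k).2.1, mul_le_of_le_one_left (hc k).2.1 hτ.2⟩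
      have h8 := tendsto_nhds_unique (h2.congr h7) h4
      rw [h8]
      exact m.g0_pos _ htD u hu
  have hsub : Icc (0 : ℝ) 1 ⊆ s := by
    refine hclosed.Icc_subset_of_forall_exists_gt ?_ ?_
    · intro r hr
      have : r = 0 := le_antisymm hr.2 hr.1
      rw [this, zero_smul]; exact h0
    · intro t ht t' ht'
      have h1 : ∀ᶠ r in 𝓝 t, r • w ∈ U := by
        have h2 : Continuous fun r : ℝ => r • w := continuous_id.smul continuous_const
        exact h2.continuousAt.eventually (hU.mem_nhds (ht.1 t ⟨ht.2.1, le_rfl⟩))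
      obtain ⟨δ, hδ, hδs⟩ := Metric.eventually_nhds_iff_ball.1 h1
      refine ⟨min t' (t + δ / 2), ?_, lt_min ht' (by linarith), min_le_left _ _⟩
      intro r hr
      rcases le_total r t with h5 | h5
      · exact ht.1 r ⟨hr.1, h5⟩
      · refine hδs r ?_
        rw [Metric.mem_ball, Real.dist_eq, abs_of_nonneg (by linarith)]
        have := hr.2.trans (min_le_right _ _)
        linarith
  intro t ht
  exact hsub ht t ⟨ht.1, le_rfl⟩

theorem isoM_FX (m : Mdl n) (hP : ParCurv n M) (G : GeoData n M) {p : M} (P : Frame n m.R0 p)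
    {x : 𝔼} (hx : x ∈ m.D) : IsoM m.g0 (FX G p P.I) x := by
  refine ⟨Eventually.of_forall fun z => contMDiff_FX G p P.I z, ?_⟩
  filter_upwards [m.D_open.mem_nhds hx] with z hz u v
  rw [← pbm_eq m hP G P z hz, pbm_apply ((contMDiff_FX G p P.I z).mdifferentiableAt (by simp))]

end ex

/-- Levi-Civita data of the model metric. -/
structure MdlLC (m : Mdl n) (Γ : 𝔼 → 𝔼 →L[ℝ] 𝔼 →L[ℝ] 𝔼) : Prop where
  lc : IsLC m.D m.g0 Γ
  rad : ∀ x ∈ m.D, Γ x x x = 0
  curv0 : ∀ u v w, curv Γ 0 u v w = m.R0 u v w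
  g0_zero : ∀ u v : 𝔼, m.g0 0 u v = inner ℝ u v

theorem exists_mdlLC [IsRiemannianManifold (𝓡 n) M] (m : Mdl n) (hP : ParCurv n M)
    (G : GeoData n M) {p : M} (P : Frame n m.R0 p) :
    ∃ Γ : 𝔼 → 𝔼 →L[ℝ] 𝔼 →L[ℝ] 𝔼, MdlLC m Γ := by
  obtain ⟨Γ, hLC⟩ := exists_isLC m.D_open m.g0_smooth m.g0_symm m.g0_pos
  refine ⟨Γ, hLC, fun x hx => rad_of_isoM G hLC hx (isoM_FX m hP G P hx),
    curv_of_isoM G P hLC m.D_zero (isoM_FX m hP G P m.D_zero), fun u v => ?_⟩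
  rw [← pbm_eq m hP G P 0 m.D_zero, pbm_zero G P]

end Crest.Agent.R249.B2Pull_474
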