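/-
Row 249, part B2 (helper474), step (4): change of the base point of the exponential chart.

`exists_frame_change`: for a frame `P` at `p` and `h, h' : m.G` with `(h⁻¹ h') • e 0 ∈ Reg` there is
a frame `P'` with `F_P (lg (h⁻¹ • c)) = F_{P'} (lg (h'⁻¹ • c))` whenever `h⁻¹ • c, h'⁻¹ • c ∈ Reg`.
-/
import Crest.Agent.R249.B2Pull_474

set_option autoImplicit false
set_option maxSynthPendingDepth 3
set_option linter.unusedSectionVars false

open Bundle Set Filter Topology MeasureTheory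
open scoped ContDiff Manifold
open Crest.Agent.R244.CF (IsLC curv cov LocIsoAt)
open Crest.Agent.R226 Crest.Agent.R226.ChartMet842 Crest.Agent.R226.LocalNearThm996
open Crest.Agent.R226.GeoLoc577 Crest.Agent.R226.GeoBasic616
open Crest.GeometryTopology.MTW
open Crest.Agent.R249.B2Defs_474 Crest.Agent.R249.B2Jac_474 Crest.Agent.R249.B2Geo_474
open Crest.Agent.R249.B2Iso_474 Crest.Agent.R249.B2Pull_474

noncomputable section

namespace Crest.Agent.R249.B2Key_474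

variable {n : ℕ} {M : Type*} [MetricSpace M] [ChartedSpace (EuclideanSpace ℝ (Fin n)) M]
  [IsManifold (𝓡 n) ∞ M]
  [RiemannianBundle (fun p : M => TangentSpace (𝓡 n) p)]
  [IsContMDiffRiemannianBundle (𝓡 n) ∞ (EuclideanSpace ℝ (Fin n)) (fun p : M => TangentSpace (𝓡 n) p)]

local notation "𝔼" => EuclideanSpace ℝ (Fin n)

/-- a local isometry from the model defines a frame at the image of the base point -/
def frameOf {m : Mdl n} {Γ : 𝔼 → 𝔼 →L[ℝ] 𝔼 →L[ℝ] 𝔼} (hm : MdlLC m Γ) {H : 𝔼 → M}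
    (h : IsoM m.g0 H 0) : Frame n m.R0 (H 0) where
  I := fderiv ℝ (FC (n := n) H (H 0)) 0
  iso u v := by
    have hL := h.locIso hm.lc m.D_zero (y₀ := H 0) (mem_chart_source _ _)
    have h1 := hL.iso.self_of_nhds u v
    rw [hm.g0_zero] at h1
    exact h1.symm
  curv_eq u v w := by
    have hL := h.locIso hm.lc m.D_zero (y₀ := H 0) (mem_chart_source _ _)
    have h1 := hL.curv hm.lc (isLC_gm (H 0)) u v w
    rw [hm.curv0] at h1
    exact h1.symm

variable [IsRiemannianManifold (𝓡 n) M]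

theorem frame_change_seg (m : Mdl n) (hP : ParCurv n M) (G : GeoData n M) {p : M}
    (P : Frame n m.R0 p) (g : m.G) (hg : g • m.e 0 ∈ m.Reg) :
    ∃ p' : M, ∃ P' : Frame n m.R0 p', ∀ w : 𝔼,
      (∀ t ∈ Icc (0 : ℝ) 1, t • w ∈ m.D ∧ g • m.e (t • w) ∈ m.Reg) →
      FX G p P.I (m.lg (g • m.e w)) = FX G p' P'.I w := by
  obtain ⟨Γ, hm⟩ := exists_mdlLC m hP G P
  set H : 𝔼 → M := fun w => FX G p P.I (m.lg (g • m.e w)) with hH
  have hiso : ∀ w ∈ m.D, g • m.e w ∈ m.Reg → IsoM m.g0 H w := by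
    intro w hw hr
    exact (isoM_FX m hP G P (m.lg_mem _ hr)).comp (m.kappa g w hw hr)
  have h0 : IsoM m.g0 H 0 := hiso 0 m.D_zero hg
  refine ⟨H 0, frameOf hm h0, fun w hw => ?_⟩
  have h1 := nat_exp G hm.lc m.D_zero hm.rad (H := H) (w := w) (fun t ht => (hw t ht).1)
    (fun t ht => hiso _ (hw t ht).1 (hw t ht).2)
  have h2 : (mfderiv 𝓘(ℝ, 𝔼) (𝓡 n) H 0 w : 𝔼) = fderiv ℝ (FC (n := n) H (H 0)) 0 w := by
    rw [fderiv_FC (h0.1.self_of_nhds.mdifferentiableAt (by simp)) (mem_chart_source _ _)]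
    exact (dC_self (H 0) _).symm
  have h3 : H w = G.ex (H 0) (fderiv ℝ (FC (n := n) H (H 0)) 0 w : TangentSpace (𝓡 n) (H 0)) := by
    rw [h1]
    exact congrArg (fun z : TangentSpace (𝓡 n) (H 0) => G.ex (H 0) z) h2
  exact h3

theorem frame_change (m : Mdl n) (hP : ParCurv n M) (G : GeoData n M) {p : M}
    (P : Frame n m.R0 p) (g : m.G) (hg : g • m.e 0 ∈ m.Reg) :
    ∃ p' : M, ∃ P' : Frame n m.R0 p', ∀ w ∈ m.D, g • m.e w ∈ m.Reg →
      FX G p P.I (m.lg (g • m.e w)) = FX G p' P'.I w := by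
  obtain ⟨p', P', h⟩ := frame_change_seg m hP G P g hg
  refine ⟨p', P', fun w hw hr => ?_⟩
  by_contra hne
  have hc1 : ContinuousAt (fun w => FX (n := n) G p P.I (m.lg (g • m.e w))) w :=
    (contMDiff_FX G p P.I).continuous.continuousAt.comp (m.kappa g w hw hr).smooth.continuousAt
  have hc2 : ContinuousAt (fun w => FX (n := n) G p' P'.I w) w :=
    (contMDiff_FX G p' P'.I).continuous.continuousAt
  have h3 : ∀ᶠ z in 𝓝 w, FX (n := n) G p P.I (m.lg (g • m.e z)) ≠ FX G p' P'.I z := by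
    have h4 := (hc1.prodMk hc2).eventually (isClosed_diagonal.isOpen_compl.mem_nhds hne)
    exact h4
  obtain ⟨ε, hε, hεs⟩ := Metric.eventually_nhds_iff.1 h3
  obtain ⟨w', hw', hseg⟩ := m.star_dense g hg w hw ε hε
  exact hεs (by rw [dist_eq_norm]; exact hw') (h w' hseg)

theorem exists_frame_change (m : Mdl n) (hP : ParCurv n M) (G : GeoData n M) {p : M}
    (P : Frame n m.R0 p) (h h' : m.G) (hg : (h⁻¹ * h') • m.e 0 ∈ m.Reg) :
    ∃ p' : M, ∃ P' : Frame n m.R0 p', ∀ c : m.X, h⁻¹ • c ∈ m.Reg → h'⁻¹ • c ∈ m.Reg →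
      FX G p P.I (m.lg (h⁻¹ • c)) = FX G p' P'.I (m.lg (h'⁻¹ • c)) := by
  obtain ⟨p', P', hk⟩ := frame_change m hP G P (h⁻¹ * h') hg
  refine ⟨p', P', fun c h1 h2 => ?_⟩
  have h3 : m.d ((h⁻¹ * h') • m.e (m.lg (h'⁻¹ • c))) (h⁻¹ • c) = 0 := by
    have h4 : h⁻¹ • c = (h⁻¹ * h') • (h'⁻¹ • c) := by
      rw [smul_smul, mul_assoc, mul_inv_cancel, mul_one]
    rw [h4, m.d_smul]
    exact m.e_lg _ h2
  have h5 := m.lg_congr _ _ (by rw [m.d_symm]; exact h3) h1
  rw [← hk _ (m.lg_mem _ h2) h5.1, h5.2]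

end Crest.Agent.R249.B2Key_474
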