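/-
Row 249, part B2 (helper474), steps (5), (6): the developing map of the model onto `M`.

`exists_cover`: `M` (with its global exponential map) connected, parallel curvature, frames at all
points. Then there is a surjective map `Φ : m.X → M` and `ρ > 0` with
`dist (Φ x) (Φ y) = m.d x y` whenever `m.d x y < ρ`.
-/
import Crest.Agent.R249.B2Key_474

set_option autoImplicit false
set_option maxSynthPendingDepth 3
set_option linter.unusedSectionVars false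

open Bundle Set Filter Topology MeasureTheory
open scoped ContDiff Manifold
open Crest.Agent.R244.CF (IsLC curv cov LocIsoAt)
open Crest.Agent.R226 Crest.Agent.R226.ChartMet842 Crest.Agent.R226.LocalNearThm996
open Crest.Agent.R226.GeoLoc577 Crest.Agent.R226.GeoBasic616
open Crest.GeometryTopology.MTW
open Crest.Agent.R249.B2Defs_474 Crest.Agent.R249.B2Jac_474 Crest.Agent.R249.B2Geo_474
open Crest.Agent.R249.B2Iso_474 Crest.Agent.R249.B2Pull_474 Crest.Agent.R249.B2Key_474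

noncomputable section

namespace Crest.Agent.R249.B2Glue_474

variable {n : ℕ} {M : Type*} [MetricSpace M] [ChartedSpace (EuclideanSpace ℝ (Fin n)) M]
  [IsManifold (𝓡 n) ∞ M]
  [RiemannianBundle (fun p : M => TangentSpace (𝓡 n) p)]
  [IsContMDiffRiemannianBundle (𝓡 n) ∞ (EuclideanSpace ℝ (Fin n)) (fun p : M => TangentSpace (𝓡 n) p)]

local notation "𝔼" => EuclideanSpace ℝ (Fin n)

/-- the norm of `I v` -/
theorem norm_frame {R0 : 𝔼 → 𝔼 → 𝔼 → 𝔼} {p : M} (P : Frame n R0 p) (v : 𝔼) :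
    @norm (TangentSpace (𝓡 n) p) _ (P.I v) = ‖v‖ := by
  have h1 : @norm (TangentSpace (𝓡 n) p) _ (P.I v) ^ 2 = ‖v‖ ^ 2 := by
    have h2 := norm_sq_eq_gm (n := n) p (mem_chart_source _ p) (P.I v)
    have h3 : (dC p p (P.I v) : 𝔼) = P.I v := dC_self p (P.I v)
    rw [h3, P.iso, real_inner_self_eq_norm_sq] at h2
    exact h2
  exact (pow_left_inj₀ (norm_nonneg _) (norm_nonneg _) two_ne_zero).1 h1

theorem frame_surj {R0 : 𝔼 → 𝔼 → 𝔼 → 𝔼} {p : M} (P : Frame n R0 p) :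
    Function.Surjective P.I := by
  have hinj : Function.Injective (P.I : 𝔼 →ₗ[ℝ] 𝔼) := by
    intro a b hab
    have h1 := norm_frame P (a - b)
    have h2 : P.I (a - b) = 0 := by
      rw [map_sub]; exact sub_eq_zero.2 hab
    rw [h2] at h1
    have h3 : @norm (TangentSpace (𝓡 n) p) _ (0 : 𝔼) = 0 := norm_zero
    rw [h3] at h1
    exact sub_eq_zero.1 (norm_eq_zero.1 h1.symm)
  exact (LinearMap.injective_iff_surjective (f := (P.I : 𝔼 →ₗ[ℝ] 𝔼))).1 hinj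

variable [IsRiemannianManifold (𝓡 n) M]

theorem dist_ray (G : GeoData n M) (p : M) (v : TangentSpace (𝓡 n) p) (hv : ‖v‖ < G.r₀) :
    dist p (G.ex p v) = ‖v‖ := by
  have h4 := G.dist_eq p v 0 1 (by rw [zero_sub, abs_neg, abs_one, one_mul]; exact hv)
  rwa [ray_zero G, ray_one G, zero_sub, abs_neg, abs_one, one_mul] at h4

section dev

variable (m : Mdl n)

theorem cont_dev (G : GeoData n M) {p : M} (P : Frame n m.R0 p) (h : m.G) {c : m.X}
    (hc : h⁻¹ • c ∈ m.Reg) {ε : ℝ} (hε : 0 < ε) :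
    ∃ δ > 0, ∀ z, m.d c z < δ → h⁻¹ • z ∈ m.Reg ∧
      dist (FX G p P.I (m.lg (h⁻¹ • c))) (FX G p P.I (m.lg (h⁻¹ • z))) < ε := by
  have hF : ContinuousAt (FX (n := n) G p P.I) (m.lg (h⁻¹ • c)) :=
    (contMDiff_FX G p P.I).continuous.continuousAt
  obtain ⟨η, hη, hηs⟩ := Metric.continuousAt_iff.1 hF ε hε
  obtain ⟨δ, hδ, hδs⟩ := m.lg_cont _ hc η hη
  refine ⟨δ, hδ, fun z hz => ?_⟩
  obtain ⟨h1, h2⟩ := hδs (h⁻¹ • z) (by rw [m.d_smul]; exact hz)
  refine ⟨h1, ?_⟩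
  rw [dist_comm]
  exact hηs (by rw [dist_eq_norm]; exact h2)

/-- two developments which agree on a dense set agree -/
theorem dev_unique (G : GeoData n M) {p p' : M} (P : Frame n m.R0 p) (P' : Frame n m.R0 p')
    (h h' h'' : m.G) {c : m.X} (hc : h⁻¹ • c ∈ m.Reg) (hc' : h'⁻¹ • c ∈ m.Reg)
    (hag : ∀ z, h⁻¹ • z ∈ m.Reg → h'⁻¹ • z ∈ m.Reg → h''⁻¹ • z ∈ m.Reg →
      FX G p P.I (m.lg (h⁻¹ • z)) = FX G p' P'.I (m.lg (h'⁻¹ • z))) :
    FX G p P.I (m.lg (h⁻¹ • c)) = FX G p' P'.I (m.lg (h'⁻¹ • c)) := by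
  refine eq_of_forall_dist_le fun ε hε => ?_
  obtain ⟨δ, hδ, hδs⟩ := cont_dev m G P h hc (half_pos hε)
  obtain ⟨δ', hδ', hδs'⟩ := cont_dev m G P' h' hc' (half_pos hε)
  obtain ⟨z, hz, hzd⟩ := m.dense (h''⁻¹ • c) (min δ δ') (lt_min hδ hδ')
  have e1 : h''⁻¹ • (h'' • z) = z := inv_smul_smul _ _
  have e2 : m.d c (h'' • z) < min δ δ' := by
    rw [← m.d_smul h''⁻¹, e1]; exact hzd
  obtain ⟨a1, a2⟩ := hδs _ (e2.trans_le (min_le_left _ _))
  obtain ⟨b1, b2⟩ := hδs' _ (e2.trans_le (min_le_right _ _))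
  have e3 := hag _ a1 b1 (by rw [e1]; exact hz)
  rw [e3] at a2
  have := dist_triangle_right (FX G p P.I (m.lg (h⁻¹ • c))) (FX G p' P'.I (m.lg (h'⁻¹ • c)))
    (FX G p' P'.I (m.lg (h'⁻¹ • (h'' • z))))
  linarith

/-- **the developing map** -/
theorem exists_dev (hP : ParCurv n M) (G : GeoData n M) {p : M} (P : Frame n m.R0 p) :
    ∃ Φ : m.X → M, ∀ h : m.G, ∃ p' : M, ∃ P' : Frame n m.R0 p', ∀ c, h⁻¹ • c ∈ m.Reg →
      Φ c = FX G p' P'.I (m.lg (h⁻¹ • c)) := by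
  have hone : ∀ c : m.X, (1 : m.G)⁻¹ • c = c := fun c => by rw [inv_one, one_smul]
  -- frames in the position `h`
  have step1 : ∀ h : m.G, h • m.e 0 ∈ m.Reg → ∃ p' : M, ∃ P' : Frame n m.R0 p', ∀ c : m.X,
      c ∈ m.Reg → h⁻¹ • c ∈ m.Reg → FX G p P.I (m.lg c) = FX G p' P'.I (m.lg (h⁻¹ • c)) := by
    intro h hh
    obtain ⟨p', P', hk⟩ := exists_frame_change m hP G P 1 h (by rw [inv_one, one_mul]; exact hh)
    refine ⟨p', P', fun c h1 h2 => ?_⟩
    have := hk c (by rw [hone]; exact h1) h2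
    rwa [hone] at this
  choose pp PP hPP using step1
  choose hc hc1 hc2 using m.cov
  let Φ : m.X → M := fun c => FX G (pp (hc c) (hc1 c)) (PP (hc c) (hc1 c)).I (m.lg ((hc c)⁻¹ • c))
  -- independence of the position
  have ind : ∀ (h : m.G) (hh : h • m.e 0 ∈ m.Reg) (c : m.X), h⁻¹ • c ∈ m.Reg →
      Φ c = FX G (pp h hh) (PP h hh).I (m.lg (h⁻¹ • c)) := by
    intro h hh c hcr
    refine dev_unique m G (PP (hc c) (hc1 c)) (PP h hh) (hc c) h 1 (hc2 c) hcr ?_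
    intro z h1 h2 h3
    rw [hone] at h3
    rw [← hPP _ _ z h3 h1, ← hPP _ _ z h3 h2]
  refine ⟨Φ, fun h => ?_⟩
  -- an intermediate position
  obtain ⟨k, hk1, hk2⟩ := m.cov (h • m.e 0)
  obtain ⟨p', P', hfr⟩ := exists_frame_change m hP G (PP k hk1) k h (by
    rw [mul_smul]; exact hk2)
  refine ⟨p', P', fun c hcr => ?_⟩
  refine dev_unique m G (PP (hc c) (hc1 c)) P' (hc c) h k (hc2 c) hcr ?_
  intro z h1 h2 h3
  rw [← hfr z h3 h2, ← ind k hk1 z h3, ind (hc c) (hc1 c) z h1]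

end dev

theorem lg_zero (m : Mdl n) : m.lg (m.e 0) = 0 := m.lg_e 0 m.D_zero

/-- a `δ`-ball around the base point is regular -/
theorem exists_reg (m : Mdl n) : ∃ δ > 0, ∀ y, m.d (m.e 0) y < δ → y ∈ m.Reg := by
  obtain ⟨δ, hδ, h⟩ := m.lg_cont (m.e 0) (m.e_mem 0 m.D_zero) 1 one_pos
  exact ⟨δ, hδ, fun y hy => (h y hy).1⟩

theorem norm_lg (m : Mdl n) {y : m.X} (hy : y ∈ m.Reg) : ‖m.lg y‖ = m.d (m.e 0) y := by
  rw [← m.d_e _ (m.lg_mem y hy)]
  have h1 := m.d_tri (m.e 0) (m.e (m.lg y)) y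
  have h2 := m.d_tri (m.e 0) y (m.e (m.lg y))
  have h3 := m.e_lg y hy
  have h4 := m.d_symm y (m.e (m.lg y))
  linarith

/-- **Part B2**: the covering by the model -/
theorem exists_cover [ConnectedSpace M] (m : Mdl n) (hP : ParCurv n M) (G : GeoData n M) {p : M}
    (P : Frame n m.R0 p) :
    ∃ Φ : m.X → M, Function.Surjective Φ ∧ ∃ ρ > 0, ∀ x y, m.d x y < ρ →
      dist (Φ x) (Φ y) = m.d x y := by
  obtain ⟨Φ, hΦ⟩ := exists_dev m hP G P
  obtain ⟨δ, hδ, hreg⟩ := exists_reg m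
  obtain ⟨η, hη, hηs⟩ := Metric.isOpen_iff.1 m.D_open 0 m.D_zero
  -- description of `Φ` near `x`
  have loc : ∀ x : m.X, ∃ h : m.G, h • m.e 0 = x ∧ ∃ P' : Frame n m.R0 (Φ x),
      ∀ c, h⁻¹ • c ∈ m.Reg → Φ c = FX G (Φ x) P'.I (m.lg (h⁻¹ • c)) := by
    intro x
    obtain ⟨h, hx⟩ := m.trans x
    obtain ⟨p', P', hk⟩ := hΦ h
    have h1 : h⁻¹ • x = m.e 0 := by rw [← hx, inv_smul_smul]
    have h2 : Φ x = p' := by
      rw [hk x (by rw [h1]; exact m.e_mem 0 m.D_zero), h1, lg_zero, FX_zero]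
    subst h2
    exact ⟨h, hx, P', hk⟩
  have hdist : ∀ x y, m.d x y < min δ G.r₀ → dist (Φ x) (Φ y) = m.d x y := by
    intro x y hxy
    obtain ⟨h, hx, P', hk⟩ := loc x
    have h1 : m.d (m.e 0) (h⁻¹ • y) = m.d x y := by
      rw [← m.d_smul h, hx, smul_inv_smul]
    have h2 : h⁻¹ • y ∈ m.Reg := hreg _ (by rw [h1]; exact hxy.trans_le (min_le_left _ _))
    rw [hk y h2]
    have h3 : ‖m.lg (h⁻¹ • y)‖ = m.d x y := by rw [norm_lg m h2, h1]
    have h5 := norm_frame P' (m.lg (h⁻¹ • y))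
    have h4 := dist_ray G (Φ x) (P'.I (m.lg (h⁻¹ • y))) (by
      rw [h5, h3]
      exact hxy.trans_le (min_le_right _ _))
    rw [h5, h3] at h4
    exact h4
  have hball : ∀ x q, dist (Φ x) q < η → q ∈ range Φ := by
    intro x q hq
    obtain ⟨h, hx, P', hk⟩ := loc x
    obtain ⟨v, hv, hvn⟩ := G.surj (Φ x) q
    obtain ⟨u, hu⟩ := frame_surj P' v
    have h1 : ‖u‖ = dist (Φ x) q := by
      rw [← norm_frame P' u, ← hvn]
      exact congrArg (fun z : 𝔼 => @norm (TangentSpace (𝓡 n) (Φ x)) _ z) hu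
    have h2 : u ∈ m.D := hηs (by rw [mem_ball_zero_iff, h1]; exact hq)
    refine ⟨h • m.e u, ?_⟩
    have h3 : h⁻¹ • (h • m.e u) = m.e u := inv_smul_smul _ _
    rw [hk _ (by rw [h3]; exact m.e_mem u h2), h3, m.lg_e u h2]
    show G.ex (Φ x) (P'.I u : TangentSpace (𝓡 n) (Φ x)) = q
    rw [← hv]
    exact congrArg (fun z : 𝔼 => G.ex (Φ x) z) hu
  refine ⟨Φ, ?_, min δ G.r₀, lt_min hδ G.r₀_pos, hdist⟩
  have hopen : IsOpen (range Φ) := by
    rw [Metric.isOpen_iff]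
    rintro _ ⟨x, rfl⟩
    exact ⟨η, hη, fun q hq => hball x q (by rw [dist_comm]; exact hq)⟩
  have hclosed : IsClosed (range Φ) := by
    rw [← isOpen_compl_iff, Metric.isOpen_iff]
    intro q hq
    refine ⟨η, hη, fun y hy => ?_⟩
    rintro ⟨x, hx⟩
    exact hq (hball x q (by rw [hx]; exact hy))
  have huniv : range Φ = univ := by
    refine IsClopen.eq_univ ⟨hclosed, hopen⟩ ⟨Φ (m.e 0), ⟨_, rfl⟩⟩
  exact range_eq_univ.1 huniv

end Crest.Agent.R249.B2Glue_474
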