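/-
Row 249, part B2, leaf MC (helper48): the complex projective plane as a model space `Mdl 4`.
-/
import Crest.Agent.R249.B2Defs_474
import Crest.Agent.R249.MCPd_48

set_option autoImplicit false
set_option maxSynthPendingDepth 3

open Real Filter Topology Set
open scoped ContDiff ComplexConjugate
open Crest.Agent.R249.MCPa_48 Crest.Agent.R249.MCPb_48 Crest.Agent.R249.MCPc_48
  Crest.Agent.R249.MCPd_48
open Crest.Agent.R244.CF (LocIsoAt)

noncomputable section

namespace Crest.Agent.R249.MCP_48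

/-- points -/
abbrev X := Metric.sphere (0 : V) 1

/-- isometry group -/
abbrev G := V ≃ₗᵢ[ℂ] V

theorem nX (x : X) : ‖(x : V)‖ = 1 := by
  have := x.2
  rwa [mem_sphere_zero_iff_norm] at this

instance : MulAction G X where
  smul g x := ⟨g x, by rw [mem_sphere_zero_iff_norm, LinearIsometryEquiv.norm_map, nX]⟩
  one_smul x := rfl
  mul_smul g h x := rfl

theorem coe_smul (g : G) (x : X) : ((g • x : X) : V) = g x := rfl

/-- exponential map -/
def e (w : E) : X := ⟨ex w, by rw [mem_sphere_zero_iff_norm, norm_ex]⟩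

theorem coe_e (w : E) : (e w : V) = ex w := rfl

theorem ex_zero : ex 0 = p := by
  unfold ex
  simp [C_zero]

/-- regular set -/
def Reg : Set X := {x | (x : V) 0 ≠ 0}

theorem mem_Reg (x : X) : x ∈ Reg ↔ (x : V) 0 ≠ 0 := Iff.rfl

theorem norm_one_of_inner {z : V} (h : inner ℂ z z = 1) : ‖z‖ = 1 := by
  have h1 : (inner ℂ z z).re = ‖z‖ ^ 2 := by
    rw [inner_self_eq_norm_sq_to_K]
    simp [← Complex.ofReal_pow]
  rw [h, Complex.one_re] at h1
  have h3 := norm_nonneg z
  nlinarith

theorem coord_inner (x : V) : x 0 = inner ℂ p x := (inner_p x).symm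

/-- local isometries -/
theorem kappa_aux (g : G) {w : E} (hw : ‖w‖ < π / 2) (h0 : (g (ex w)) 0 ≠ 0) :
    ContDiffAt ℝ ∞ (fun w => lgV (g (ex w))) w ∧
    ∀ u v, g0 w u v = g0 (lgV (g (ex w))) (fderiv ℝ (fun w => lgV (g (ex w))) w u)
      (fderiv ℝ (fun w => lgV (g (ex w))) w v) := by
  -- the real-linear map `g`
  let gl : V →L[ℝ] V := (g.toContinuousLinearEquiv : V →L[ℂ] V).restrictScalars ℝ
  have hgl : ∀ x, gl x = g x := fun x => rfl
  have hx : ContDiffAt ℝ ∞ (fun w => g (ex w)) w := by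
    have : (fun w => g (ex w)) = fun w => gl (ex w) := rfl
    rw [this]
    exact gl.contDiff.contDiffAt.comp w ex_contDiff.contDiffAt
  have hxd : HasFDerivAt (fun w => g (ex w)) (gl.comp (dex w)) w := by
    have : (fun w => g (ex w)) = fun w => gl (ex w) := rfl
    rw [this]
    exact gl.hasFDerivAt.comp w (hasFDerivAt_ex w)
  have hk : ContDiffAt ℝ ∞ (fun w => lgV (g (ex w))) w := 
    ContDiffAt.comp (g := lgV) (f := fun w => g (ex w)) w (lgV_contDiffAt h0) hx
  refine ⟨hk, ?_⟩
  set κ : E → E := fun w => lgV (g (ex w)) with hκ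
  have hkd : HasFDerivAt κ (fderiv ℝ κ w) w := (hk.differentiableAt (by simp)).hasFDerivAt
  -- the phase
  set ph : E → ℂ := fun y => inner ℂ (g (ex y)) (ex (κ y)) with hph
  have hnear : ∀ᶠ y in 𝓝 w, (g (ex y)) 0 ≠ 0 := by
    have hc : ContinuousAt (fun y => (g (ex y)) 0) w := by
      have : (fun y => (g (ex y)) 0) = fun y => inner ℂ p (g (ex y)) := by
        funext y
        rw [coord_inner]
      rw [this]
      exact continuousAt_const.inner hx.continuousAt
    exact hc.eventually_ne h0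
  have hrel : ∀ y, (g (ex y)) 0 ≠ 0 → ex (κ y) = ph y • g (ex y) := by
    intro y hy
    have h1 := ex_lgV hy
    have h2 : ph y = (cos (arctan ‖zt (g (ex y))‖) : ℂ) * ((g (ex y)) 0)⁻¹ := by
      simp only [hph, hκ]
      rw [h1, inner_smul_right, inner_self_one, mul_one]
      rw [LinearIsometryEquiv.norm_map, norm_ex]
    rw [h2]
    exact h1
  have hek : HasFDerivAt (fun y => ex (κ y)) ((dex (κ w)).comp (fderiv ℝ κ w)) w :=
    (hasFDerivAt_ex (κ w)).comp w hkd
  have hphd : HasFDerivAt ph (fderiv ℝ ph w) w := by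
    have : DifferentiableAt ℝ ph w := hxd.differentiableAt.inner ℂ hek.differentiableAt
    exact this.hasFDerivAt
  have hprod : HasFDerivAt (fun y => ph y • g (ex y))
      (ph w • gl.comp (dex w) + (fderiv ℝ ph w).smulRight (g (ex w))) w := hphd.smul hxd
  have heq : (dex (κ w)).comp (fderiv ℝ κ w) =
      ph w • gl.comp (dex w) + (fderiv ℝ ph w).smulRight (g (ex w)) := by
    have h1 : (fun y => ex (κ y)) =ᶠ[𝓝 w] fun y => ph y • g (ex y) := by
      filter_upwards [hnear] with y hy using hrel y hy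
    exact (hek.congr_of_eventuallyEq h1.symm).unique hprod
  have hphn : ‖ph w‖ = 1 := by
    have h1 := congrArg norm (hrel w h0)
    rw [norm_ex, norm_smul, LinearIsometryEquiv.norm_map, norm_ex, mul_one] at h1
    exact h1.symm
  have hph0 : ph w ≠ 0 := by
    intro h
    rw [h, norm_zero] at hphn
    exact zero_ne_one hphn
  intro u v
  have hd : ∀ u, dex (κ w) (fderiv ℝ κ w u) =
      ph w • g (dex w u) + (fderiv ℝ ph w u * (ph w)⁻¹) • (ph w • g (ex w)) := by
    intro u
    have h1 := congrArg (fun L : E →L[ℝ] V => L u) heq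
    simp only [ContinuousLinearMap.comp_apply, add_apply,
      smul_apply, ContinuousLinearMap.smulRight_apply, hgl] at h1
    rw [h1, smul_smul, mul_assoc, inv_mul_cancel₀ hph0, mul_one]
  change g0 w u v = g0 (κ w) (fderiv ℝ κ w u) (fderiv ℝ κ w v)
  rw [← hor_dex (κ w), hd u, hd v, hrel w h0, hor_add, hor_smul _ _ _ _ hphn, hor_map, hor_dex]
  rw [norm_smul, hphn, LinearIsometryEquiv.norm_map, norm_ex, one_mul]

theorem kappa (g : G) (w : E) (hw : w ∈ Metric.ball (0 : E) (π / 2)) (h : g • e w ∈ Reg) :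
    LocIsoAt (Metric.ball (0 : E) (π / 2)) g0 (Metric.ball (0 : E) (π / 2)) g0
      (fun w => lgV ((g • e w : X) : V)) w := by
  have hball : ∀ x : V, lgV x ∈ Metric.ball (0 : E) (π / 2) := fun x => by
    rw [mem_ball_zero_iff]
    exact norm_lgV_lt x
  have hnear : ∀ᶠ y in 𝓝 w, ‖y‖ < π / 2 ∧ (g (ex y)) 0 ≠ 0 := by
    have hc : Continuous (fun y => (g (ex y)) 0) := by
      have : (fun y => (g (ex y)) 0) = fun y => inner ℂ p (g (ex y)) := by
        funext y
        rw [coord_inner]
      rw [this]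
      exact continuous_const.inner (g.continuous.comp ex_contDiff.continuous)
    have h1 : ∀ᶠ y in 𝓝 w, (g (ex y)) 0 ≠ 0 := hc.continuousAt.eventually_ne h
    have h2 : ∀ᶠ y in 𝓝 w, ‖y‖ < π / 2 := by
      have := Metric.isOpen_ball.mem_nhds hw
      filter_upwards [this] with y hy
      rwa [mem_ball_zero_iff] at hy
    exact h2.and h1
  refine ⟨hw, hball _, ?_, ?_, ?_⟩
  · filter_upwards [hnear] with y hy
    exact (kappa_aux g hy.1 hy.2).1
  · filter_upwards [hnear] with y hy
    have h1 := (kappa_aux g hy.1 hy.2).2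
    have hinj : Function.Injective (fderiv ℝ (fun w => lgV (g (ex w))) y) := by
      rw [injective_iff_map_eq_zero]
      intro u hu
      by_contra hne
      have h2 := h1 u u
      rw [hu] at h2
      simp only [map_zero] at h2
      have h3 := g0_pos hy.1 hne
      rw [h2] at h3
      exact lt_irrefl _ h3
    exact LinearMap.surjective_of_injective
      (f := ((fderiv ℝ (fun w => lgV (g (ex w))) y : E →L[ℝ] E) : E →ₗ[ℝ] E)) hinj
  · filter_upwards [hnear] with y hy
    exact (kappa_aux g hy.1 hy.2).2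

theorem trans (x : X) : ∃ g : G, g • e 0 = x := by
  have hon : Orthonormal ℂ (({0} : Set (Fin 3)).domRestrict (fun _ : Fin 3 => (x : V))) := by
    rw [orthonormal_iff_ite]
    rintro ⟨i, hi⟩ ⟨j, hj⟩
    have hi' : i = 0 := hi
    have hj' : j = 0 := hj
    subst hi'
    subst hj'
    simp only [if_true]
    exact inner_self_one (nX x)
  obtain ⟨b, hb⟩ := hon.exists_orthonormalBasis_extension_of_card_eq (by simp)
  refine ⟨(EuclideanSpace.basisFun (Fin 3) ℂ).equiv b (Equiv.refl _), ?_⟩
  apply Subtype.ext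
  rw [coe_smul, coe_e, ex_zero]
  have h1 : p = (EuclideanSpace.basisFun (Fin 3) ℂ) 0 := by
    rw [EuclideanSpace.basisFun_apply]
    rfl
  rw [h1, OrthonormalBasis.equiv_apply_basis]
  exact hb 0 rfl

/-- distance -/
def d (x y : X) : ℝ := dV (x : V) (y : V)

theorem e_cont (w : E) {ε : ℝ} (hε : 0 < ε) : ∃ δ > 0, ∀ w', ‖w' - w‖ < δ → d (e w) (e w') < ε := by
  have hc : Continuous (fun w' => dV (ex w) (ex w')) := by
    unfold dV
    exact Real.continuous_arccos.comp (continuous_const.inner ex_contDiff.continuous).norm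
  have h0 : dV (ex w) (ex w) < ε := by
    rw [dV_self (norm_ex w)]
    exact hε
  have h1 := hc.continuousAt.eventually_lt continuousAt_const h0
  rw [Metric.eventually_nhds_iff] at h1
  obtain ⟨δ, hδ, h2⟩ := h1
  refine ⟨δ, hδ, fun w' hw' => h2 ?_⟩
  rw [dist_eq_norm]
  exact hw'

theorem lg_cont (x : X) (hx : x ∈ Reg) {ε : ℝ} (hε : 0 < ε) :
    ∃ δ > 0, ∀ y, d x y < δ → y ∈ Reg ∧ ‖lgV (y : V) - lgV (x : V)‖ < ε := by
  have h1 : ∀ᶠ y in 𝓝 (x : V), y 0 ≠ 0 := by
    have hc : Continuous (fun y : V => y 0) := by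
      have : (fun y : V => y 0) = fun y => inner ℂ p y := by
        funext y
        rw [coord_inner]
      rw [this]
      exact continuous_const.inner continuous_id
    exact hc.continuousAt.eventually_ne hx
  have h2 : ∀ᶠ y in 𝓝 (x : V), ‖lgV y - lgV x‖ < ε := by
    have hc := (lgV_contDiffAt hx).continuousAt
    have := Metric.tendsto_nhds.1 hc ε hε
    filter_upwards [this] with y hy
    rwa [dist_eq_norm] at hy
  have h3 := h1.and h2
  rw [Metric.eventually_nhds_iff] at h3
  obtain ⟨δ, hδ, h4⟩ := h3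
  refine ⟨δ, hδ, fun y hy => ?_⟩
  obtain ⟨a, ha, ha2⟩ := exists_close (nX x) (nX y)
  have ha0 : a ≠ 0 := by
    intro h
    rw [h, norm_zero] at ha
    exact zero_ne_one ha
  have h5 := h4 (y := a • (y : V)) (by
    rw [dist_eq_norm]
    exact lt_of_le_of_lt ha2 hy)
  rw [lgV_smul ha0] at h5
  refine ⟨?_, h5.2⟩
  have h6 := h5.1
  rw [mem_Reg]
  intro h
  apply h6
  simp only [PiLp.smul_apply, smul_eq_mul, h, mul_zero]

theorem lg_congr (x y : X) (h : d x y = 0) (hx : x ∈ Reg) : y ∈ Reg ∧ lgV (y : V) = lgV (x : V) := by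
  obtain ⟨a, ha, hy⟩ := dV_eq_zero (nX x) (nX y) h
  have ha0 : a ≠ 0 := by
    intro h
    rw [h, norm_zero] at ha
    exact zero_ne_one ha
  refine ⟨?_, by rw [hy, lgV_smul ha0]⟩
  rw [mem_Reg, hy]
  simp only [PiLp.smul_apply, smul_eq_mul]
  exact mul_ne_zero ha0 hx

theorem e_lg (x : X) (hx : x ∈ Reg) : d (e (lgV (x : V))) x = 0 := by
  unfold d
  rw [coe_e]
  have h1 := ex_lgV hx
  have hph : ‖(cos (arctan ‖zt (x : V)‖) : ℂ) * ((x : V) 0)⁻¹‖ = 1 := by
    have h2 := congrArg norm h1
    rw [norm_ex, norm_smul, nX, mul_one] at h2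
    exact h2.symm
  rw [h1, dV_smul hph]
  exact dV_self (nX x)

theorem dense (x : X) {ε : ℝ} (hε : 0 < ε) : ∃ z ∈ Reg, d x z < ε := by
  by_cases hx : x ∈ Reg
  · exact ⟨x, hx, by
      unfold d
      rw [dV_self (nX x)]
      exact hε⟩
  · have hx0 : inner ℂ p (x : V) = 0 := by
      rw [inner_p]
      by_contra h
      exact hx h
    have hx1 : inner ℂ (x : V) p = 0 := by
      rw [← inner_conj_symm, hx0, map_zero]
    set t : ℝ := min (ε / 2) 1 with ht
    have ht0 : 0 < t := by positivity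
    have ht1 : t ≤ 1 := min_le_right _ _
    have htε : t < ε := lt_of_le_of_lt (min_le_left _ _) (by linarith)
    have hsin : 0 < sin t := Real.sin_pos_of_pos_of_lt_pi ht0 (by linarith [Real.pi_gt_three])
    have hcos : 0 < cos t := Real.cos_pos_of_mem_Ioo ⟨by linarith [Real.pi_gt_three],
      by linarith [Real.pi_gt_three]⟩
    set z : V := (cos t : ℂ) • (x : V) + (sin t : ℂ) • p with hz
    have hxx : inner ℂ (x : V) (x : V) = 1 := inner_self_one (nX x)
    have hpp : inner ℂ p p = 1 := inner_self_one norm_p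
    have hzn : ‖z‖ = 1 := by
      have h1 : (inner ℂ z z : ℂ) = 1 := by
        rw [hz]
        simp only [inner_add_left, inner_add_right, inner_smul_left, inner_smul_right, hx0, hx1, hxx,
          hpp, ← Complex.ofReal_cos, ← Complex.ofReal_sin, Complex.conj_ofReal]
        have := Real.cos_sq_add_sin_sq t
        have h2 : ((cos t : ℝ) : ℂ) ^ 2 + ((sin t : ℝ) : ℂ) ^ 2 = 1 := by exact_mod_cast this
        linear_combination h2
      exact norm_one_of_inner h1
    refine ⟨⟨z, by rw [mem_sphere_zero_iff_norm, hzn]⟩, ?_, ?_⟩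
    · rw [mem_Reg, ← inner_p]
      change inner ℂ p z ≠ 0
      rw [hz, inner_add_right, inner_smul_right, inner_smul_right, hx0, hpp]
      simp only [mul_zero, zero_add, mul_one, ← Complex.ofReal_sin]
      exact_mod_cast hsin.ne'
    · change dV (x : V) z < ε
      unfold dV
      rw [hz, inner_add_right, inner_smul_right, inner_smul_right, hx1, hxx]
      simp only [mul_zero, add_zero, mul_one, ← Complex.ofReal_cos, Complex.norm_real]
      rw [Real.norm_of_nonneg hcos.le, Real.arccos_cos ht0.le (by linarith [Real.pi_gt_three])]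
      exact htε

theorem cov (x : X) : ∃ g : G, g • e 0 ∈ Reg ∧ g⁻¹ • x ∈ Reg := by
  -- find `y` with `⟨p, y⟩ ≠ 0` and `⟨y, x⟩ ≠ 0`
  have key : ∃ y : X, inner ℂ p (y : V) ≠ 0 ∧ inner ℂ (y : V) (x : V) ≠ 0 := by
    by_cases hx : x ∈ Reg
    · refine ⟨x, ?_, ?_⟩
      · rw [inner_p]
        exact hx
      · rw [inner_self_one (nX x)]
        exact one_ne_zero
    · have hx0 : inner ℂ p (x : V) = 0 := by
        rw [inner_p]
        by_contra h
        exact hx h
      have hx1 : inner ℂ (x : V) p = 0 := by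
        rw [← inner_conj_symm, hx0, map_zero]
      have hxx : inner ℂ (x : V) (x : V) = 1 := inner_self_one (nX x)
      have hpp : inner ℂ p p = 1 := inner_self_one norm_p
      set z : V := ((3 / 5 : ℝ) : ℂ) • (x : V) + ((4 / 5 : ℝ) : ℂ) • p with hz
      have hzn : ‖z‖ = 1 := by
        have h1 : (inner ℂ z z : ℂ) = 1 := by
          rw [hz]
          simp only [inner_add_left, inner_add_right, inner_smul_left, inner_smul_right, hx0, hx1, hxx,
            hpp, Complex.conj_ofReal]
          push_cast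
          norm_num
        exact norm_one_of_inner h1
      refine ⟨⟨z, by rw [mem_sphere_zero_iff_norm, hzn]⟩, ?_, ?_⟩
      · change inner ℂ p z ≠ 0
        rw [hz, inner_add_right, inner_smul_right, inner_smul_right, hx0, hpp]
        norm_num
      · change inner ℂ z (x : V) ≠ 0
        rw [hz, inner_add_left, inner_smul_left, inner_smul_left, hx0, hxx, Complex.conj_ofReal]
        norm_num
  obtain ⟨y, hy1, hy2⟩ := key
  obtain ⟨g, hg⟩ := trans y
  have hgp : g p = (y : V) := by
    have := congrArg (fun x : X => (x : V)) hg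
    rw [← this]
    simp only [coe_smul, coe_e, ex_zero]
  refine ⟨g, ?_, ?_⟩
  · rw [hg, mem_Reg, ← inner_p]
    exact hy1
  · rw [mem_Reg, ← inner_p, coe_smul]
    have h1 : inner ℂ p (g⁻¹ (x : V)) = inner ℂ (y : V) (x : V) := by
      rw [← hgp, ← g.inner_map_map p (g⁻¹ (x : V))]
      congr 1
      exact g.apply_symm_apply (x : V)
    rw [h1]
    exact hy2

theorem star_dense (g : G) (hg : g • e 0 ∈ Reg) (w : E) (hw : w ∈ Metric.ball (0 : E) (π / 2))
    {ε : ℝ} (hε : 0 < ε) : ∃ w', ‖w' - w‖ < ε ∧ ∀ t ∈ Icc (0 : ℝ) 1,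
      t • w' ∈ Metric.ball (0 : E) (π / 2) ∧ g • e (t • w') ∈ Reg := by
  set a : ℂ := inner ℂ p (g p) with ha
  have ha0 : a ≠ 0 := by
    rw [mem_Reg, ← inner_p, coe_smul, coe_e, ex_zero] at hg
    exact hg
  -- the good vectors
  have good : ∀ w' : E, ‖w'‖ < π / 2 → (inner ℂ p (g (iota w')) = 0 ∨
      (inner ℂ p (g (iota w')) / a).im ≠ 0) → ∀ t ∈ Icc (0 : ℝ) 1,
      t • w' ∈ Metric.ball (0 : E) (π / 2) ∧ g • e (t • w') ∈ Reg := by
    intro w' hw' hgood t ht
    have htw : ‖t • w'‖ < π / 2 := by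
      rw [norm_smul, Real.norm_of_nonneg ht.1]
      exact lt_of_le_of_lt (mul_le_of_le_one_left (norm_nonneg _) ht.2) hw'
    refine ⟨by rwa [mem_ball_zero_iff], ?_⟩
    rw [mem_Reg, ← inner_p, coe_smul, coe_e]
    have hC := C_pos htw
    have h1 : inner ℂ p (g (ex (t • w'))) = (C (‖t • w'‖ ^ 2) : ℂ) * a +
        ((S (‖t • w'‖ ^ 2) * t : ℝ) : ℂ) * inner ℂ p (g (iota w')) := by
      unfold ex
      rw [map_smul iota, rs, smul_smul, rs, map_add, map_smul, map_smul, inner_add_right,
        inner_smul_right, inner_smul_right]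
    rw [h1]
    intro h0
    rcases hgood with h | h
    · rw [h, mul_zero, add_zero] at h0
      rcases mul_eq_zero.1 h0 with h | h
      · have : C (‖t • w'‖ ^ 2) = 0 := Complex.ofReal_eq_zero.1 h
        linarith
      · exact ha0 h
    · have h2 : (C (‖t • w'‖ ^ 2) : ℂ) + ((S (‖t • w'‖ ^ 2) * t : ℝ) : ℂ) *
          (inner ℂ p (g (iota w')) / a) = 0 := by
        have h3 : ((C (‖t • w'‖ ^ 2) : ℂ) + ((S (‖t • w'‖ ^ 2) * t : ℝ) : ℂ) *
          (inner ℂ p (g (iota w')) / a)) * a = 0 := by
          rw [← h0]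
          field_simp
        exact (mul_eq_zero.1 h3).resolve_right ha0
      have h3 := congrArg Complex.im h2
      rw [Complex.add_im, Complex.ofReal_im, zero_add, Complex.im_ofReal_mul, Complex.zero_im] at h3
      rcases mul_eq_zero.1 h3 with h4 | h4
      · have h5 := congrArg Complex.re h2
        rw [h4] at h5
        simp at h5
        linarith
      · exact h h4
  by_cases hall : ∀ u : E, inner ℂ p (g (iota u)) = 0
  · exact ⟨w, by simpa using hε, good w (by rwa [mem_ball_zero_iff] at hw) (Or.inl (hall w))⟩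
  · push Not at hall
    obtain ⟨u0, hu0⟩ := hall
    -- a direction with nonzero imaginary part
    have hu : ∃ u : E, (inner ℂ p (g (iota u)) / a).im ≠ 0 := by
      by_contra hcon
      push Not at hcon
      have h1 := hcon u0
      have h2 := hcon (J u0)
      rw [iota_J, map_smul, inner_smul_right, mul_div_assoc, Complex.I_mul_im] at h2
      have h3 : inner ℂ p (g (iota u0)) / a = 0 := Complex.ext h2 h1
      rcases div_eq_zero_iff.1 h3 with h | h
      · exact hu0 h
      · exact ha0 h
    obtain ⟨u, hu⟩ := hu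
    by_cases hw1 : (inner ℂ p (g (iota w)) / a).im ≠ 0
    · exact ⟨w, by simpa using hε, good w (by rwa [mem_ball_zero_iff] at hw) (Or.inr hw1)⟩
    · push Not at hw1
      have hu1 : u ≠ 0 := by
        rintro rfl
        simp at hu
      have hun : 0 < ‖u‖ := by positivity
      rw [mem_ball_zero_iff] at hw
      set s : ℝ := min (ε / 2) ((π / 2 - ‖w‖) / 2) / ‖u‖ with hs
      have hs0 : 0 < s := by
        have : 0 < (π / 2 - ‖w‖) / 2 := by linarith
        positivity
      have hsu : s * ‖u‖ = min (ε / 2) ((π / 2 - ‖w‖) / 2) := by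
        rw [hs]
        field_simp
      refine ⟨w + s • u, ?_, good _ ?_ (Or.inr ?_)⟩
      · rw [add_sub_cancel_left, norm_smul, Real.norm_of_nonneg hs0.le, hsu]
        exact lt_of_le_of_lt (min_le_left _ _) (by linarith)
      · refine lt_of_le_of_lt (norm_add_le _ _) ?_
        rw [norm_smul, Real.norm_of_nonneg hs0.le, hsu]
        have := min_le_right (ε / 2) ((π / 2 - ‖w‖) / 2)
        linarith
      · rw [map_add, map_smul, rs, map_add, map_smul, inner_add_right, inner_smul_right, add_div,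
          Complex.add_im, hw1, zero_add, mul_div_assoc, Complex.im_ofReal_mul]
        exact mul_ne_zero hs0.ne' hu

/-- The complex projective plane (holomorphic curvature 4) as a model space. -/
def mCP : B2Defs_474.Mdl 4 where
  X := X
  G := G
  d := d
  e := e
  lg x := lgV (x : V)
  D := Metric.ball 0 (π / 2)
  Reg := Reg
  R0 := R0
  g0 := g0
  J := Jac
  J' := Jac'
  D_open := Metric.isOpen_ball
  D_zero := Metric.mem_ball_self (by positivity)
  D_star w hw t ht := by
    rw [mem_ball_zero_iff] at hw ⊢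
    rw [norm_smul, Real.norm_of_nonneg ht.1]
    exact lt_of_le_of_lt (mul_le_of_le_one_left (norm_nonneg _) ht.2) hw
  g0_smooth := g0_contDiff.contDiffOn
  g0_symm w _ u v := g0_symm w u v
  g0_pos w hw u hu := g0_pos (by rwa [mem_ball_zero_iff] at hw) hu
  J_zero := Jac_zero
  J_one := Jac'_zero
  J_deriv := Jac_deriv
  J'_deriv := Jac'_deriv
  J_g0 v _ u u' := Jac_g0 v u u'
  d_symm x y := dV_symm _ _
  d_self x := dV_self (nX x)
  d_tri x y z := dV_tri (nX x) (nX y) (nX z)
  d_smul g x y := dV_map g _ _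
  d_e w hw := by
    rw [mem_ball_zero_iff] at hw
    have hC := C_pos hw
    unfold d dV
    rw [coe_e, coe_e, ex_zero, inner_p, ex_zero_coord, Complex.norm_real, Real.norm_of_nonneg hC.le,
      C_sq]
    exact Real.arccos_cos (norm_nonneg _) (by linarith [Real.pi_pos])
  e_cont w _ ε hε := e_cont w hε
  e_mem w hw := by
    rw [mem_ball_zero_iff] at hw
    have hC := C_pos hw
    rw [mem_Reg, coe_e, ex_zero_coord]
    exact Complex.ofReal_ne_zero.2 hC.ne'
  lg_mem x _ := by
    rw [mem_ball_zero_iff]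
    exact norm_lgV_lt _
  lg_e w hw := lgV_ex (by rwa [mem_ball_zero_iff] at hw)
  e_lg := e_lg
  lg_congr := lg_congr
  lg_cont x hx ε hε := lg_cont x hx hε
  trans := trans
  kappa := kappa
  star_dense g hg w hw ε hε := star_dense g hg w hw hε
  dense x ε hε := dense x hε
  cov := cov

end Crest.Agent.R249.MCP_48
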