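/-
Row 249, part B2 (helper662): the round sphere `S^n`, `n ≥ 2`, as a model space `Mdl n`.
-/
import Crest.Agent.R249.B2Defs_474
import Crest.Agent.R249.TrigS_662

set_option autoImplicit false
set_option maxSynthPendingDepth 3
set_option linter.unusedSectionVars false

open Real Set Filter Topology
open scoped ContDiff InnerProductSpace
open Crest.Agent.R244.CF (LocIsoAt)
open Crest.Agent.R249.B2Defs_474 (Mdl)
open Crest.Agent.R249.TrigS_662

noncomputable section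

namespace Crest.Agent.R249.MS_662

section smooth

variable {E V F : Type*} [NormedAddCommGroup E] [NormedSpace ℝ E] [FiniteDimensional ℝ E]
  [NormedAddCommGroup V] [NormedSpace ℝ V] [FiniteDimensional ℝ V]
  [NormedAddCommGroup F] [NormedSpace ℝ F]

/-- If `e` is an immersion at `κ w0`, `κ` is continuous at `w0` and `e ∘ κ` is smooth, then `κ` is
smooth. -/
theorem smooth_of_comp {e : E → V} {κ : F → E} {f : F → V} {w0 : F}
    (he : ContDiffAt ℝ ∞ e (κ w0)) (hinj : Function.Injective (fderiv ℝ e (κ w0)))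
    (hκ : ContinuousAt κ w0) (hf : ContDiffAt ℝ ∞ f w0)
    (hef : ∀ᶠ w in 𝓝 w0, e (κ w) = f w) : ContDiffAt ℝ ∞ κ w0 := by
  have : CompleteSpace E := FiniteDimensional.complete ℝ E
  obtain ⟨A, hA⟩ := LinearMap.exists_leftInverse_of_injective
    (fderiv ℝ e (κ w0)).toLinearMap (LinearMap.ker_eq_bot.2 hinj)
  let A' : V →L[ℝ] E := LinearMap.toContinuousLinearMap A
  have hA' : ∀ x, A' (fderiv ℝ e (κ w0) x) = x := fun x => by
    have h0 := congrArg (fun L => L x) hA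
    simp only [LinearMap.comp_apply, LinearMap.id_apply] at h0
    exact h0
  let h : E → E := fun x => A' (e x)
  have hh : ContDiffAt ℝ ∞ h (κ w0) := A'.contDiff.contDiffAt.comp _ he
  have hd : HasFDerivAt h ((ContinuousLinearEquiv.refl ℝ E : E ≃L[ℝ] E) : E →L[ℝ] E) (κ w0) := by
    have h1 : HasFDerivAt e (fderiv ℝ e (κ w0)) (κ w0) :=
      (he.differentiableAt (by simp)).hasFDerivAt
    have h2 : HasFDerivAt h (A'.comp (fderiv ℝ e (κ w0))) (κ w0) := A'.hasFDerivAt.comp _ h1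
    have h3 : A'.comp (fderiv ℝ e (κ w0)) =
        ((ContinuousLinearEquiv.refl ℝ E : E ≃L[ℝ] E) : E →L[ℝ] E) := by
      ext x
      simp [hA']
    rwa [h3] at h2
  have hn : (∞ : WithTop ℕ∞) ≠ 0 := by simp
  have hg := hh.to_localInverse hd hn
  have hgl : ∀ᶠ x in 𝓝 (κ w0), hh.localInverse hd hn (h x) = x :=
    (hh.hasStrictFDerivAt' hd hn).eventually_left_inverse
  have hgl2 := hκ.eventually hgl
  have e1 : κ =ᶠ[𝓝 w0] fun w => hh.localInverse hd hn (A' (f w)) := by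
    filter_upwards [hgl2, hef] with w hw1 hw2
    rw [← hw2]
    exact hw1.symm
  have e2 : h (κ w0) = A' (f w0) := by
    show A' (e (κ w0)) = _
    rw [hef.self_of_nhds]
  rw [e2] at hg
  have h4 : ContDiffAt ℝ ∞ (fun w => A' (f w)) w0 := A'.contDiff.contDiffAt.comp _ hf
  exact (ContDiffAt.comp w0 hg h4).congr_of_eventuallyEq e1

end smooth

section locIso

variable {E V : Type*} [NormedAddCommGroup E] [NormedSpace ℝ E] [FiniteDimensional ℝ E]
  [NormedAddCommGroup V] [InnerProductSpace ℝ V] [FiniteDimensional ℝ V]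

theorem locIso {D : Set E} (hD : IsOpen D) {g0 : E → E →L[ℝ] E →L[ℝ] ℝ} {e : E → V}
    (he : ContDiff ℝ ∞ e) (hinj : ∀ x ∈ D, Function.Injective (fderiv ℝ e x))
    (hg : ∀ x ∈ D, ∀ u v, g0 x u v = ⟪fderiv ℝ e x u, fderiv ℝ e x v⟫_ℝ)
    (L : V →ₗᵢ[ℝ] V) {κ : E → E} {w0 : E} (hw0 : w0 ∈ D) (hκ0 : κ w0 ∈ D)
    (hκc : ∀ᶠ y in 𝓝 w0, ContinuousAt κ y) (hek : ∀ᶠ y in 𝓝 w0, e (κ y) = L (e y)) :
    LocIsoAt D g0 D g0 κ w0 := by
  have ev1 : ∀ᶠ y in 𝓝 w0, y ∈ D := hD.mem_nhds hw0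
  have ev2 : ∀ᶠ y in 𝓝 w0, κ y ∈ D := hκc.self_of_nhds.eventually (hD.mem_nhds hκ0)
  have hLe : ContDiff ℝ ∞ (fun y => L (e y)) := L.toContinuousLinearMap.contDiff.comp he
  have hLd : ∀ y, fderiv ℝ (fun y => L (e y)) y = L.toContinuousLinearMap.comp (fderiv ℝ e y) := by
    intro y
    exact (L.toContinuousLinearMap.hasFDerivAt.comp y
      ((he.differentiable (by simp)) y).hasFDerivAt).fderiv
  have ev : ∀ᶠ y in 𝓝 w0, y ∈ D ∧ κ y ∈ D ∧ ContDiffAt ℝ ∞ κ y ∧
      (fderiv ℝ e (κ y)).comp (fderiv ℝ κ y) = L.toContinuousLinearMap.comp (fderiv ℝ e y) := by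
    filter_upwards [ev1, ev2, hκc, hek.eventually_nhds] with y h1 h2 h3 h4
    have h5 : ContDiffAt ℝ ∞ κ y :=
      smooth_of_comp he.contDiffAt (hinj _ h2) h3 hLe.contDiffAt h4
    refine ⟨h1, h2, h5, ?_⟩
    have h6 : HasFDerivAt (fun z => e (κ z)) ((fderiv ℝ e (κ y)).comp (fderiv ℝ κ y)) y :=
      ((he.differentiable (by simp)) (κ y)).hasFDerivAt.comp y
        (h5.differentiableAt (by simp)).hasFDerivAt
    have h7 : fderiv ℝ (fun z => e (κ z)) y = fderiv ℝ (fun y => L (e y)) y :=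
      Filter.EventuallyEq.fderiv_eq h4
    rw [← h6.fderiv, h7, hLd]
  refine ⟨hw0, hκ0, ev.mono fun y h => h.2.2.1, ev.mono fun y h => ?_, ev.mono fun y h => ?_⟩
  · obtain ⟨h1, h2, h3, h4⟩ := h
    have hi : Function.Injective (fderiv ℝ κ y) := by
      rw [injective_iff_map_eq_zero]
      intro u hu
      have h5 := congrArg (fun T => T u) h4
      simp only [ContinuousLinearMap.comp_apply, hu, map_zero] at h5
      have h6 : L (fderiv ℝ e y u) = 0 := h5.symm
      have h7 : fderiv ℝ e y u = 0 := by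
        rw [← norm_eq_zero, ← L.norm_map, h6, norm_zero]
      exact (injective_iff_map_eq_zero _).1 (hinj y h1) u h7
    exact LinearMap.injective_iff_surjective.1 hi
  · obtain ⟨h1, h2, h3, h4⟩ := h
    intro u v
    rw [hg y h1, hg _ h2]
    have h5 : ∀ u, fderiv ℝ e (κ y) (fderiv ℝ κ y u) = L (fderiv ℝ e y u) := fun u =>
      congrArg (fun T => T u) h4
    rw [h5, h5, L.inner_map_map]

end locIso

section sphere

variable {E V : Type*} [NormedAddCommGroup E] [InnerProductSpace ℝ E] [FiniteDimensional ℝ E]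
  [NormedAddCommGroup V] [InnerProductSpace ℝ V] [FiniteDimensional ℝ V]

/-- the tangential projection -/
def pr (ι : E →ₗᵢ[ℝ] V) : V →L[ℝ] E :=
  haveI : CompleteSpace E := FiniteDimensional.complete ℝ E
  haveI : CompleteSpace V := FiniteDimensional.complete ℝ V
  ContinuousLinearMap.adjoint ι.toContinuousLinearMap

theorem inner_pr (ι : E →ₗᵢ[ℝ] V) (w : E) (x : V) : ⟪w, pr ι x⟫_ℝ = ⟪ι w, x⟫_ℝ := by
  have : CompleteSpace E := FiniteDimensional.complete ℝ E
  have : CompleteSpace V := FiniteDimensional.complete ℝ V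
  exact ContinuousLinearMap.adjoint_inner_right ι.toContinuousLinearMap w x

/-- logarithm of the sphere -/
def lgV (p : V) (ι : E →ₗᵢ[ℝ] V) (x : V) : E :=
  (arccos ⟪p, x⟫_ℝ / sin (arccos ⟪p, x⟫_ℝ)) • pr ι x

variable {p : V} {ι : E →ₗᵢ[ℝ] V}

theorem pr_ι (w : E) : pr ι (ι w) = w := by
  refine ext_inner_left ℝ fun v => ?_
  rw [inner_pr, LinearIsometry.inner_map_map]

theorem pr_p (hι : ∀ w, ⟪p, ι w⟫_ℝ = 0) : pr ι p = 0 := by
  refine ext_inner_left ℝ fun v => ?_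
  rw [inner_pr, real_inner_comm, hι, inner_zero_right]

variable (hp : ‖p‖ = 1) (hι : ∀ w, ⟪p, ι w⟫_ℝ = 0)
  (hdec : ∀ x : V, x = ⟪p, x⟫_ℝ • p + ι (pr ι x))

include hp hι hdec in
theorem norm_pr_sq (x : V) : ‖pr ι x‖ ^ 2 = ‖x‖ ^ 2 - ⟪p, x⟫_ℝ ^ 2 := by
  have h2 : ∀ w, ⟪ι w, p⟫_ℝ = 0 := fun w => by rw [real_inner_comm]; exact hι w
  have h : ⟪x, x⟫_ℝ = ⟪⟪p, x⟫_ℝ • p + ι (pr ι x), ⟪p, x⟫_ℝ • p + ι (pr ι x)⟫_ℝ := by
    rw [← hdec x]
  simp only [inner_add_left, inner_add_right, inner_smul_left, inner_smul_right, hι, h2,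
    RCLike.conj_to_real, LinearIsometry.inner_map_map, real_inner_self_eq_norm_sq, hp] at h
  linarith

omit [FiniteDimensional ℝ V] in
include hp in
theorem abs_inner_le {x : V} (hx : ‖x‖ = 1) : -1 ≤ ⟪p, x⟫_ℝ ∧ ⟪p, x⟫_ℝ ≤ 1 := by
  have h := abs_real_inner_le_norm p x
  rw [hp, hx, mul_one] at h
  exact abs_le.1 h

include hp hι hdec in
theorem norm_pr {x : V} (hx : ‖x‖ = 1) : ‖pr ι x‖ = sin (arccos ⟪p, x⟫_ℝ) := by
  rw [Real.sin_arccos]
  have h := norm_pr_sq hp hι hdec x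
  rw [hx, one_pow] at h
  rw [← h, Real.sqrt_sq (norm_nonneg _)]

include hp in
theorem eq_p_of_inner {x : V} (hx : ‖x‖ = 1) (h : ⟪p, x⟫_ℝ = 1) : x = p :=
  ((inner_eq_one_iff_of_norm_eq_one hp hx).1 h).symm

include hp in
theorem eq_neg_p_of_inner {x : V} (hx : ‖x‖ = 1) (h : ⟪p, x⟫_ℝ = -1) : x = -p := by
  have := (inner_eq_neg_one_iff_of_norm_eq_one hp hx).1 h
  rw [this, neg_neg]

include hp in
theorem arccos_lt_pi {x : V} (hx : ‖x‖ = 1) (h : x ≠ -p) : arccos ⟪p, x⟫_ℝ < π := by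
  refine lt_of_le_of_ne (Real.arccos_le_pi _) fun h2 => h ?_
  rw [Real.arccos_eq_pi] at h2
  exact eq_neg_p_of_inner hp hx (le_antisymm h2 (abs_inner_le hp hx).1)

include hp in
theorem arccos_eq_zero_iff' {x : V} (hx : ‖x‖ = 1) : arccos ⟪p, x⟫_ℝ = 0 ↔ x = p := by
  rw [Real.arccos_eq_zero]
  constructor
  · intro h
    exact eq_p_of_inner hp hx (le_antisymm (abs_inner_le hp hx).2 h)
  · rintro rfl
    rw [real_inner_self_eq_norm_sq, hp]; norm_num

include hp hι hdec in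
theorem norm_lgV {x : V} (hx : ‖x‖ = 1) (h : x ≠ -p) : ‖lgV p ι x‖ = arccos ⟪p, x⟫_ℝ := by
  unfold lgV
  rw [norm_smul, norm_pr hp hι hdec hx]
  set θ := arccos ⟪p, x⟫_ℝ with hθ
  have h0 : 0 ≤ θ := Real.arccos_nonneg _
  have h1 : θ < π := arccos_lt_pi hp hx h
  rcases h0.eq_or_lt with h2 | h2
  · rw [← h2]; simp
  · have h3 : 0 < sin θ := Real.sin_pos_of_pos_of_lt_pi h2 h1
    rw [Real.norm_of_nonneg (by positivity)]
    field_simp

include hp hι hdec in
theorem ee_lgV {x : V} (hx : ‖x‖ = 1) (h : x ≠ -p) : ee p ι (lgV p ι x) = x := by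
  by_cases hxp : x = p
  · subst hxp
    have : lgV x ι x = 0 := by
      unfold lgV; rw [pr_p hι, smul_zero]
    rw [this, ee_zero]
  rw [ee_eq, norm_lgV hp hι hdec hx h]
  set θ := arccos ⟪p, x⟫_ℝ with hθ
  have h0 : 0 ≤ θ := Real.arccos_nonneg _
  have h1 : θ < π := arccos_lt_pi hp hx h
  have h4 : θ ≠ 0 := fun h => hxp ((arccos_eq_zero_iff' hp hx).1 h)
  have h2 : 0 < θ := lt_of_le_of_ne h0 (Ne.symm h4)
  have h3 : 0 < sin θ := Real.sin_pos_of_pos_of_lt_pi h2 h1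
  have h5 : cos θ = ⟪p, x⟫_ℝ :=
    Real.cos_arccos (abs_inner_le hp hx).1 (abs_inner_le hp hx).2
  have h6 : lgV p ι x = (θ / sin θ) • pr ι x := rfl
  rw [h5, Real.sinc_of_ne_zero h4, h6, map_smul, smul_smul]
  have h7 : sin θ / θ * (θ / sin θ) = 1 := by field_simp
  rw [h7, one_smul]
  exact (hdec x).symm

include hp hι in
theorem lgV_ee {w : E} (hw : ‖w‖ < π) : lgV p ι (ee p ι w) = w := by
  unfold lgV
  rw [inner_p_ee hp hι, Real.arccos_cos (norm_nonneg _) hw.le]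
  by_cases h : w = 0
  · subst h; simp [ee_zero, pr_p hι]
  have h2 : 0 < ‖w‖ := norm_pos_iff.2 h
  have h3 : 0 < sin ‖w‖ := Real.sin_pos_of_pos_of_lt_pi h2 hw
  rw [ee_eq, map_add, map_smul, map_smul, pr_p hι, pr_ι, smul_zero, zero_add, smul_smul,
    Real.sinc_of_ne_zero h2.ne']
  have h7 : ‖w‖ / sin ‖w‖ * (sin ‖w‖ / ‖w‖) = 1 := by field_simp
  rw [h7, one_smul]

include hp hι in
theorem ee_ne_neg {w : E} (hw : ‖w‖ < π) : ee p ι w ≠ -p := by
  intro h
  have h1 := inner_p_ee hp hι w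
  rw [h, inner_neg_right, real_inner_self_eq_norm_sq, hp] at h1
  have h2 : cos π < cos ‖w‖ := Real.cos_lt_cos_of_nonneg_of_le_pi (norm_nonneg _) le_rfl hw
  rw [Real.cos_pi] at h2
  linarith

include hp hι hdec in
theorem lgV_cont {x : V} (hx : ‖x‖ = 1) (h : x ≠ -p) {ε : ℝ} (hε : 0 < ε) :
    ∃ δ > 0, ∀ y : V, ‖y‖ = 1 → ‖y - x‖ < δ → y ≠ -p ∧ ‖lgV p ι y - lgV p ι x‖ < ε := by
  have hne : ∀ᶠ y in 𝓝 x, y ≠ -p := isOpen_ne.mem_nhds h
  have key : ∀ᶠ y in 𝓝 x, ‖y‖ = 1 → ‖lgV p ι y - lgV p ι x‖ < ε := by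
    by_cases hxp : x = p
    · subst hxp
      have hc : ContinuousAt (fun y : V => arccos ⟪x, y⟫_ℝ) x := by fun_prop
      have h0 : arccos ⟪x, x⟫_ℝ = 0 := by
        rw [real_inner_self_eq_norm_sq, hx]; simp
      have h1 : lgV x ι x = 0 := by
        unfold lgV; rw [pr_p hι, smul_zero]
      have h2 : ∀ᶠ y in 𝓝 x, arccos ⟪x, y⟫_ℝ < ε :=
        hc.eventually_lt continuousAt_const (by rw [h0]; exact hε)
      filter_upwards [h2, hne] with y hy hy2 hy3
      rw [h1, sub_zero, norm_lgV hp hι hdec hy3 hy2]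
      exact hy
    · have h0 : 0 < arccos ⟪p, x⟫_ℝ :=
        lt_of_le_of_ne (Real.arccos_nonneg _) fun h => hxp ((arccos_eq_zero_iff' hp hx).1 h.symm)
      have h1 := arccos_lt_pi hp hx h
      have h3 : 0 < sin (arccos ⟪p, x⟫_ℝ) := Real.sin_pos_of_pos_of_lt_pi h0 h1
      have hc : ContinuousAt (lgV p ι) x := by
        unfold lgV
        have hc1 : ContinuousAt (fun y : V => arccos ⟪p, y⟫_ℝ) x := by fun_prop
        exact (hc1.div (Real.continuous_sin.continuousAt.comp hc1) h3.ne').smul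
          (pr ι).continuous.continuousAt
      have := (Metric.tendsto_nhds.1 hc.tendsto) ε hε
      filter_upwards [this] with y hy hy2
      rwa [dist_eq_norm] at hy
  obtain ⟨δ, hδ, hδ2⟩ := Metric.eventually_nhds_iff.1 (hne.and key)
  refine ⟨δ, hδ, fun y hy hy2 => ?_⟩
  have := hδ2 (y := y) (by rwa [dist_eq_norm])
  exact ⟨this.1, this.2 hy⟩

end sphere

section metric

variable {E V : Type*} [NormedAddCommGroup E] [InnerProductSpace ℝ E]
  [NormedAddCommGroup V] [InnerProductSpace ℝ V]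

/-- the pull back of the inner product by the differential of `e` -/
def pull (e : E → V) (w : E) : E →L[ℝ] E →L[ℝ] ℝ :=
  ((ContinuousLinearMap.compL ℝ E V ℝ).flip (fderiv ℝ e w)).comp
    ((innerSL ℝ : V →L[ℝ] V →L[ℝ] ℝ).comp (fderiv ℝ e w))

theorem pull_apply (e : E → V) (w u v : E) :
    pull e w u v = ⟪fderiv ℝ e w u, fderiv ℝ e w v⟫_ℝ := rfl

theorem contDiff_pull {e : E → V} (he : ContDiff ℝ ∞ e) : ContDiff ℝ ∞ (pull e) := by
  have h1 : ContDiff ℝ ∞ (fderiv ℝ e) := he.fderiv_right (by simp)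
  unfold pull
  have h2 : ContDiff ℝ ∞ (fun w => (ContinuousLinearMap.compL ℝ E V ℝ).flip (fderiv ℝ e w)) :=
    ((ContinuousLinearMap.compL ℝ E V ℝ).flip).contDiff.comp h1
  have h3 : ContDiff ℝ ∞ (fun w => (innerSL ℝ : V →L[ℝ] V →L[ℝ] ℝ).comp (fderiv ℝ e w)) :=
    contDiff_const.clm_comp h1
  exact h2.clm_comp h3

variable {p : V} {ι : E →ₗᵢ[ℝ] V}
variable (hp : ‖p‖ = 1) (hι : ∀ w, ⟪p, ι w⟫_ℝ = 0)

include hp hι in
theorem pull_ee_pos {w : E} (hw : ‖w‖ < π) (u : E) (hu : u ≠ 0) : 0 < pull (ee p ι) w u u := by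
  rw [pull_apply, inner_fderiv_ee hp hι, gg, SS_sq]
  have hu2 : 0 < ‖u‖ := norm_pos_iff.2 hu
  have h1 : 0 < sinc ‖w‖ := by
    by_cases h : ‖w‖ = 0
    · rw [h]; simp
    · rw [Real.sinc_of_ne_zero h]
      exact div_pos (Real.sin_pos_of_pos_of_lt_pi
        (lt_of_le_of_ne (norm_nonneg _) (Ne.symm h)) hw) (lt_of_le_of_ne (norm_nonneg _) (Ne.symm h))
  have h2 : sinc ‖w‖ ≤ 1 := Real.sinc_le_one _
  have h3 : 0 ≤ (1 - sinc ‖w‖ ^ 2) * (⟪w, u⟫_ℝ * ⟪w, u⟫_ℝ) / ‖w‖ ^ 2 := by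
    apply div_nonneg _ (by positivity)
    exact mul_nonneg (by nlinarith) (mul_self_nonneg _)
  have h4 : 0 < sinc ‖w‖ ^ 2 * ⟪u, u⟫_ℝ := by
    rw [real_inner_self_eq_norm_sq]; positivity
  linarith

include hp hι in
theorem inj_ee {w : E} (hw : ‖w‖ < π) : Function.Injective (fderiv ℝ (ee p ι) w) := by
  rw [injective_iff_map_eq_zero]
  intro u hu
  by_contra h
  have := pull_ee_pos hp hι hw u h
  rw [pull_apply, hu, inner_zero_left] at this
  exact lt_irrefl _ this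

end metric

section model

/-- the base point -/
def pt (n : ℕ) : EuclideanSpace ℝ (Fin (n + 1)) := EuclideanSpace.single 0 1

theorem norm_pt (n : ℕ) : ‖pt n‖ = 1 := by simp [pt]

theorem pt_ne (n : ℕ) : pt n ≠ 0 := by
  intro h
  have := norm_pt n
  rw [h, norm_zero] at this
  exact zero_ne_one this

instance factFin (n : ℕ) : Fact (Module.finrank ℝ (EuclideanSpace ℝ (Fin (n + 1))) = n + 1) :=
  ⟨by simp⟩

/-- `R^n → p^⊥` -/
def iot (n : ℕ) : EuclideanSpace ℝ (Fin n) →ₗᵢ[ℝ] EuclideanSpace ℝ (Fin (n + 1)) :=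
  (ℝ ∙ pt n)ᗮ.subtypeₗᵢ.comp
    (OrthonormalBasis.fromOrthogonalSpanSingleton (𝕜 := ℝ) n (pt_ne n)).repr.symm.toLinearIsometry

theorem inner_pt_iot (n : ℕ) (w : EuclideanSpace ℝ (Fin n)) : ⟪pt n, iot n w⟫_ℝ = 0 := by
  have h : iot n w ∈ (ℝ ∙ pt n)ᗮ := by
    show ((OrthonormalBasis.fromOrthogonalSpanSingleton (𝕜 := ℝ) n (pt_ne n)).repr.symm w :
      (ℝ ∙ pt n)ᗮ).1 ∈ (ℝ ∙ pt n)ᗮ
    exact ((OrthonormalBasis.fromOrthogonalSpanSingleton (𝕜 := ℝ) n (pt_ne n)).repr.symm w).2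
  exact (Submodule.mem_orthogonal_singleton_iff_inner_right).1 h

theorem dec_pt (n : ℕ) (x : EuclideanSpace ℝ (Fin (n + 1))) :
    x = ⟪pt n, x⟫_ℝ • pt n + iot n (pr (iot n) x) := by
  have hy : x - ⟪pt n, x⟫_ℝ • pt n ∈ (ℝ ∙ pt n)ᗮ := by
    rw [Submodule.mem_orthogonal_singleton_iff_inner_right, inner_sub_right, inner_smul_right,
      real_inner_self_eq_norm_sq, norm_pt]
    ring
  obtain ⟨u, hu⟩ : ∃ u, iot n u = x - ⟪pt n, x⟫_ℝ • pt n := by
    refine ⟨(OrthonormalBasis.fromOrthogonalSpanSingleton (𝕜 := ℝ) n (pt_ne n)).repr ⟨_, hy⟩, ?_⟩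
    show ((OrthonormalBasis.fromOrthogonalSpanSingleton (𝕜 := ℝ) n (pt_ne n)).repr.symm
      ((OrthonormalBasis.fromOrthogonalSpanSingleton (𝕜 := ℝ) n (pt_ne n)).repr ⟨_, hy⟩) :
      (ℝ ∙ pt n)ᗮ).1 = _
    rw [LinearIsometryEquiv.symm_apply_apply]
  have h1 : pr (iot n) x = u := by
    have h2 : x = ⟪pt n, x⟫_ℝ • pt n + iot n u := by rw [hu]; abel
    rw [h2, map_add, map_smul, pr_p (inner_pt_iot n), pr_ι, smul_zero, zero_add]
  rw [h1, hu]; abel

/-- isometries act on the unit sphere -/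
@[reducible] def actS (V : Type) [NormedAddCommGroup V] [InnerProductSpace ℝ V] :
    MulAction (V ≃ₗᵢ[ℝ] V) (Metric.sphere (0 : V) 1) where
  smul g x := ⟨g x.1, by simp⟩
  one_smul x := rfl
  mul_smul g h x := rfl

/-- angular distance -/
def dS {V : Type} [NormedAddCommGroup V] [InnerProductSpace ℝ V]
    (x y : Metric.sphere (0 : V) 1) : ℝ := arccos ⟪x.1, y.1⟫_ℝ

section dS

variable {V : Type} [NormedAddCommGroup V] [InnerProductSpace ℝ V]

theorem norm_coe (x : Metric.sphere (0 : V) 1) : ‖x.1‖ = 1 := by simp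

theorem dS_eq_angle (x y : Metric.sphere (0 : V) 1) :
    dS x y = InnerProductGeometry.angle x.1 y.1 := by
  rw [dS, InnerProductGeometry.angle, norm_coe, norm_coe, mul_one, div_one]

theorem dS_symm (x y : Metric.sphere (0 : V) 1) : dS x y = dS y x := by
  rw [dS_eq_angle, dS_eq_angle, InnerProductGeometry.angle_comm]

theorem dS_self (x : Metric.sphere (0 : V) 1) : dS x x = 0 := by
  rw [dS, real_inner_self_eq_norm_sq, norm_coe]; simp

theorem dS_tri (x y z : Metric.sphere (0 : V) 1) : dS x z ≤ dS x y + dS y z := by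
  rw [dS_eq_angle, dS_eq_angle, dS_eq_angle]
  exact InnerProductGeometry.angle_le_angle_add_angle _ _ _

theorem cos_dS (x y : Metric.sphere (0 : V) 1) : cos (dS x y) = ⟪x.1, y.1⟫_ℝ :=
  Real.cos_arccos (abs_inner_le (norm_coe x) (norm_coe y)).1
    (abs_inner_le (norm_coe x) (norm_coe y)).2

theorem dS_nonneg (x y : Metric.sphere (0 : V) 1) : 0 ≤ dS x y := Real.arccos_nonneg _

theorem norm_sub_le_dS (x y : Metric.sphere (0 : V) 1) : ‖y.1 - x.1‖ ≤ dS x y := by
  have h1 : ‖y.1 - x.1‖ ^ 2 = 2 - 2 * ⟪x.1, y.1⟫_ℝ := by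
    rw [norm_sub_sq_real, norm_coe, norm_coe, real_inner_comm]; ring
  have h2 := Real.one_sub_sq_div_two_le_cos (x := dS x y)
  rw [cos_dS] at h2
  have h3 : ‖y.1 - x.1‖ ^ 2 ≤ dS x y ^ 2 := by rw [h1]; linarith
  exact (sq_le_sq₀ (norm_nonneg _) (dS_nonneg x y)).1 h3

theorem eq_of_dS {x y : Metric.sphere (0 : V) 1} (h : dS x y = 0) : x = y := by
  have h1 := norm_sub_le_dS x y
  rw [h] at h1
  have h2 : y.1 - x.1 = 0 := norm_le_zero_iff.1 h1
  exact (Subtype.ext (sub_eq_zero.1 h2)).symm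

end dS

variable {n : ℕ}

/-- exponential map -/
def eS (n : ℕ) (w : EuclideanSpace ℝ (Fin n)) :
    Metric.sphere (0 : EuclideanSpace ℝ (Fin (n + 1))) 1 :=
  ⟨ee (pt n) (iot n) w, by simpa using norm_ee (norm_pt n) (inner_pt_iot n) w⟩

theorem eS_zero (n : ℕ) : (eS n 0).1 = pt n := ee_zero _ _

/-- logarithm -/
def lgS (n : ℕ) (x : Metric.sphere (0 : EuclideanSpace ℝ (Fin (n + 1))) 1) :
    EuclideanSpace ℝ (Fin n) := lgV (pt n) (iot n) x.1

theorem exists_unit (hn : 1 ≤ n) : ∃ u : EuclideanSpace ℝ (Fin n), ‖u‖ = 1 :=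
  ⟨EuclideanSpace.single ⟨0, hn⟩ 1, by simp⟩

theorem exists_notMem (hn : 2 ≤ n) (z : EuclideanSpace ℝ (Fin n)) :
    ∃ u : EuclideanSpace ℝ (Fin n), u ∉ (ℝ ∙ z) := by
  by_contra h
  push Not at h
  have h1 : (ℝ ∙ z) = (⊤ : Submodule ℝ (EuclideanSpace ℝ (Fin n))) := by
    rw [eq_top_iff]; intro u _; exact h u
  have h2 : Module.finrank ℝ (ℝ ∙ z) ≤ 1 := by
    have := finrank_span_le_card (R := ℝ) ({z} : Set (EuclideanSpace ℝ (Fin n)))
    simpa using this
  rw [h1, finrank_top] at h2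
  simp at h2
  omega

theorem kappaS (g : EuclideanSpace ℝ (Fin (n + 1)) ≃ₗᵢ[ℝ] EuclideanSpace ℝ (Fin (n + 1)))
    {w : EuclideanSpace ℝ (Fin n)} (hw : ‖w‖ < π) (hg : g (ee (pt n) (iot n) w) ≠ -pt n) :
    LocIsoAt (Metric.ball 0 π) (pull (ee (pt n) (iot n))) (Metric.ball 0 π)
      (pull (ee (pt n) (iot n))) (fun w => lgV (pt n) (iot n) (g (ee (pt n) (iot n) w))) w := by
  have hp := norm_pt n
  have hι := inner_pt_iot n
  have hdec := dec_pt n
  have hne : ∀ y, ‖g (ee (pt n) (iot n) y)‖ = 1 := fun y => by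
    rw [g.norm_map, norm_ee hp hι]
  have hcont : Continuous fun y => g (ee (pt n) (iot n) y) :=
    g.continuous.comp (contDiff_ee _ _).continuous
  have hev : ∀ᶠ y in 𝓝 w, g (ee (pt n) (iot n) y) ≠ -pt n :=
    hcont.continuousAt.eventually (isOpen_ne.mem_nhds hg)
  refine locIso Metric.isOpen_ball (contDiff_ee _ _) (fun x hx => inj_ee hp hι (by simpa using hx))
    (fun x _ u v => pull_apply _ _ _ _) g.toLinearIsometry (by simpa using hw) ?_ ?_ ?_
  · rw [mem_ball_zero_iff, norm_lgV hp hι hdec (hne w) hg]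
    exact arccos_lt_pi hp (hne w) hg
  · filter_upwards [hev] with y hy
    rw [Metric.continuousAt_iff]
    intro ε hε
    obtain ⟨δ, hδ, h1⟩ := lgV_cont hp hι hdec (hne y) hy hε
    obtain ⟨r, hr, h2⟩ := Metric.continuousAt_iff.1 (hcont.continuousAt (x := y)) δ hδ
    refine ⟨r, hr, fun z hz => ?_⟩
    have h3 := h2 hz
    rw [dist_eq_norm] at h3 ⊢
    exact (h1 _ (hne z) h3).2
  · filter_upwards [hev] with y hy
    exact ee_lgV hp hι hdec (hne y) hy

/-- The round unit sphere of dimension `n ≥ 2` as a model space. -/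
def mS (n : ℕ) (hn : 2 ≤ n) : Mdl n where
  X := Metric.sphere (0 : EuclideanSpace ℝ (Fin (n + 1))) 1
  G := EuclideanSpace ℝ (Fin (n + 1)) ≃ₗᵢ[ℝ] EuclideanSpace ℝ (Fin (n + 1))
  act := actS _
  d := dS
  e := eS n
  lg := lgS n
  D := Metric.ball 0 π
  Reg := {x | x.1 ≠ -pt n}
  R0 := R0
  g0 := pull (ee (pt n) (iot n))
  J := J
  J' := J'
  D_open := Metric.isOpen_ball
  D_zero := by simp [Real.pi_pos]
  D_star := fun w hw t ht => by
    rw [mem_ball_zero_iff] at hw ⊢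
    rw [norm_smul, Real.norm_of_nonneg ht.1]
    nlinarith [norm_nonneg w, ht.2]
  g0_smooth := (contDiff_pull (contDiff_ee _ _)).contDiffOn
  g0_symm := fun w _ u v => by rw [pull_apply, pull_apply, real_inner_comm]
  g0_pos := fun w hw u hu =>
    pull_ee_pos (norm_pt n) (inner_pt_iot n) (by simpa using hw) u hu
  J_zero := J_zero
  J_one := J'_zero
  J_deriv := J_deriv
  J'_deriv := J'_deriv
  J_g0 := fun v _ u u' => by
    rw [pull_apply, inner_fderiv_ee (norm_pt n) (inner_pt_iot n), inner_J]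
  d_symm := dS_symm
  d_self := dS_self
  d_tri := dS_tri
  d_smul := fun g x y => by
    show arccos ⟪g x.1, g y.1⟫_ℝ = arccos ⟪x.1, y.1⟫_ℝ
    rw [g.inner_map_map]
  d_e := fun w hw => by
    show arccos ⟪ee (pt n) (iot n) 0, ee (pt n) (iot n) w⟫_ℝ = ‖w‖
    rw [ee_zero, inner_p_ee (norm_pt n) (inner_pt_iot n)]
    exact Real.arccos_cos (norm_nonneg _) (by simpa using hw : ‖w‖ < π).le
  e_cont := fun w hw ε hε => by
    have hc : Continuous fun w' => arccos ⟪ee (pt n) (iot n) w, ee (pt n) (iot n) w'⟫_ℝ :=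
      Real.continuous_arccos.comp (continuous_const.inner (contDiff_ee _ _).continuous)
    obtain ⟨δ, hδ, h⟩ := Metric.continuousAt_iff.1 (hc.continuousAt (x := w)) ε hε
    refine ⟨δ, hδ, fun w' hw' => ?_⟩
    have h1 := h (x := w') (by rwa [dist_eq_norm])
    have h2 : arccos ⟪ee (pt n) (iot n) w, ee (pt n) (iot n) w⟫_ℝ = 0 := dS_self (eS n w)
    rw [h2, Real.dist_eq, sub_zero] at h1
    exact lt_of_abs_lt h1
  e_mem := fun w hw => ee_ne_neg (norm_pt n) (inner_pt_iot n) (by simpa using hw)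
  lg_mem := fun x hx => by
    rw [mem_ball_zero_iff]
    show ‖lgV (pt n) (iot n) x.1‖ < π
    rw [norm_lgV (norm_pt n) (inner_pt_iot n) (dec_pt n) (norm_coe x) hx]
    exact arccos_lt_pi (norm_pt n) (norm_coe x) hx
  lg_e := fun w hw => lgV_ee (norm_pt n) (inner_pt_iot n) (by simpa using hw)
  e_lg := fun x hx => by
    have h : eS n (lgS n x) = x := Subtype.ext
      (ee_lgV (norm_pt n) (inner_pt_iot n) (dec_pt n) (norm_coe x) hx)
    rw [h, dS_self]
  lg_congr := fun x y h hx => by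
    rw [← eq_of_dS h]
    exact ⟨hx, rfl⟩
  lg_cont := fun x hx ε hε => by
    obtain ⟨δ, hδ, h⟩ := lgV_cont (norm_pt n) (inner_pt_iot n) (dec_pt n) (norm_coe x) hx hε
    exact ⟨δ, hδ, fun y hy => h y.1 (norm_coe y) ((norm_sub_le_dS x y).trans_lt hy)⟩
  trans := fun x => by
    refine ⟨(ℝ ∙ (pt n - x.1))ᗮ.reflection, ?_⟩
    apply Subtype.ext
    show (ℝ ∙ (pt n - x.1))ᗮ.reflection (eS n 0).1 = x.1
    rw [eS_zero]
    exact Submodule.reflection_sub (by rw [norm_pt, norm_coe])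
  kappa := fun g w hw hg => kappaS g (by simpa using hw) hg
  star_dense := fun g hg w hw ε hε => by
    have hw' : ‖w‖ < π := by simpa using hw
    -- the bad point
    set q : EuclideanSpace ℝ (Fin (n + 1)) := g.symm (-pt n) with hq
    have hqn : ‖q‖ = 1 := by rw [hq, g.symm.norm_map, norm_neg, norm_pt]
    have hgq : ∀ w', g (ee (pt n) (iot n) w') = -pt n ↔ ee (pt n) (iot n) w' = q := by
      intro w'
      rw [hq, LinearIsometryEquiv.eq_symm_apply]
    have hqp : q ≠ pt n := by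
      intro h
      apply hg
      show g (ee (pt n) (iot n) 0) = -pt n
      rw [hgq, ee_zero, h]
    have hball : ∀ w' : EuclideanSpace ℝ (Fin n), ‖w'‖ < π → ∀ t ∈ Icc (0 : ℝ) 1,
        t • w' ∈ Metric.ball (0 : EuclideanSpace ℝ (Fin n)) π := by
      intro w' hw' t ht
      rw [mem_ball_zero_iff, norm_smul, Real.norm_of_nonneg ht.1]
      nlinarith [norm_nonneg w', ht.2]
    by_cases hqn' : q = -pt n
    · refine ⟨w, by simpa using hε, fun t ht => ⟨hball w hw' t ht, ?_⟩⟩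
      show g (ee (pt n) (iot n) (t • w)) ≠ -pt n
      intro h
      rw [hgq, hqn'] at h
      have h2 : ‖t • w‖ < π := by simpa using hball w hw' t ht
      exact ee_ne_neg (norm_pt n) (inner_pt_iot n) h2 h
    · set z := lgV (pt n) (iot n) q with hz
      have hez : ee (pt n) (iot n) z = q :=
        ee_lgV (norm_pt n) (inner_pt_iot n) (dec_pt n) hqn hqn'
      have hz0 : z ≠ 0 := by
        intro h
        rw [h, ee_zero] at hez
        exact hqp hez.symm
      -- choose w' outside the line of z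
      obtain ⟨w', h1, h2, h3⟩ : ∃ w' : EuclideanSpace ℝ (Fin n), ‖w' - w‖ < ε ∧ ‖w'‖ < π ∧
          w' ∉ (ℝ ∙ z) := by
        by_cases hwz : w ∈ (ℝ ∙ z)
        · obtain ⟨u, hu⟩ := exists_notMem hn z
          have hc : Continuous fun s : ℝ => w + s • u := by fun_prop
          have e1 : ∀ᶠ s in 𝓝 (0 : ℝ), ‖(w + s • u) - w‖ < ε := by
            have : ContinuousAt (fun s : ℝ => ‖(w + s • u) - w‖) 0 := by fun_prop
            exact this.eventually_lt continuousAt_const (by simpa using hε)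
          have e2 : ∀ᶠ s in 𝓝 (0 : ℝ), ‖w + s • u‖ < π := by
            have : ContinuousAt (fun s : ℝ => ‖w + s • u‖) 0 := by fun_prop
            exact this.eventually_lt continuousAt_const (by simpa using hw')
          have e3 : ∀ᶠ s in 𝓝[≠] (0 : ℝ), s ≠ 0 := eventually_mem_nhdsWithin
          obtain ⟨s, ⟨h1, h2⟩, h3⟩ :=
            ((((e1.and e2).filter_mono nhdsWithin_le_nhds).and e3).exists)
          refine ⟨w + s • u, h1, h2, fun hmem => hu ?_⟩
          have h4 : s • u ∈ (ℝ ∙ z) := by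
            have := (ℝ ∙ z).sub_mem hmem hwz
            simpa using this
          have h5 := (ℝ ∙ z).smul_mem s⁻¹ h4
          rwa [smul_smul, inv_mul_cancel₀ h3, one_smul] at h5
        · exact ⟨w, by simpa using hε, hw', hwz⟩
      refine ⟨w', h1, fun t ht => ⟨hball w' h2 t ht, ?_⟩⟩
      show g (ee (pt n) (iot n) (t • w')) ≠ -pt n
      intro h
      rw [hgq] at h
      have h4 : ‖t • w'‖ < π := by simpa using hball w' h2 t ht
      have h5 : t • w' = z := by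
        have := lgV_ee (norm_pt n) (inner_pt_iot n) h4
        rw [h] at this
        rw [← this]
      have ht0 : t ≠ 0 := by
        rintro rfl
        rw [zero_smul] at h5
        exact hz0 h5.symm
      apply h3
      rw [Submodule.mem_span_singleton]
      exact ⟨t⁻¹, by rw [← h5, smul_smul, inv_mul_cancel₀ ht0, one_smul]⟩
  dense := fun x ε hε => by
    by_cases hx : x.1 = -pt n
    · obtain ⟨u, hu⟩ := exists_unit (n := n) (by omega)
      set δ := min (ε / 2) 1 with hδ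
      have hδ0 : 0 < δ := by positivity
      have hδ1 : δ ≤ 1 := min_le_right _ _
      have hδ2 : δ < ε := (min_le_left _ _).trans_lt (by linarith)
      have hδn : ‖δ • u‖ = δ := by rw [norm_smul, hu, Real.norm_of_nonneg hδ0.le, mul_one]
      have hcos : ⟪pt n, ee (pt n) (iot n) (δ • u)⟫_ℝ = cos δ := by
        rw [inner_p_ee (norm_pt n) (inner_pt_iot n), hδn]
      have hδπ : δ ≤ π := by linarith [Real.pi_gt_three]
      refine ⟨⟨-ee (pt n) (iot n) (δ • u), ?_⟩, ?_, ?_⟩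
      · simpa using norm_ee (norm_pt n) (inner_pt_iot n) (δ • u)
      · show -ee (pt n) (iot n) (δ • u) ≠ -pt n
        intro h
        rw [neg_inj] at h
        rw [h, real_inner_self_eq_norm_sq, norm_pt, one_pow] at hcos
        have : cos δ < cos 0 := Real.cos_lt_cos_of_nonneg_of_le_pi le_rfl hδπ hδ0
        rw [Real.cos_zero, ← hcos] at this
        exact lt_irrefl _ this
      · show arccos ⟪x.1, -ee (pt n) (iot n) (δ • u)⟫_ℝ < ε
        rw [hx, inner_neg_neg, hcos, Real.arccos_cos hδ0.le hδπ]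
        exact hδ2
    · exact ⟨x, hx, by rw [dS_self]; exact hε⟩
  cov := fun x => by
    by_cases hx : x.1 = -pt n
    · obtain ⟨u, hu⟩ := exists_unit (n := n) (by omega)
      have hn2 : ‖(π / 2) • u‖ = π / 2 := by
        rw [norm_smul, hu, mul_one, Real.norm_of_nonneg (by positivity)]
      set y := ee (pt n) (iot n) ((π / 2) • u) with hy
      have hyn : ‖y‖ = 1 := norm_ee (norm_pt n) (inner_pt_iot n) _
      have hyp : ⟪pt n, y⟫_ℝ = 0 := by
        rw [hy, inner_p_ee (norm_pt n) (inner_pt_iot n), hn2, Real.cos_pi_div_two]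
      have hgp : (ℝ ∙ (pt n - y))ᗮ.reflection (pt n) = y :=
        Submodule.reflection_sub (by rw [norm_pt, hyn])
      refine ⟨(ℝ ∙ (pt n - y))ᗮ.reflection, ?_, ?_⟩
      · show (ℝ ∙ (pt n - y))ᗮ.reflection (eS n 0).1 ≠ -pt n
        rw [eS_zero, hgp]
        intro h
        rw [h, inner_neg_right, real_inner_self_eq_norm_sq, norm_pt] at hyp
        norm_num at hyp
      · show (ℝ ∙ (pt n - y))ᗮ.reflection.symm x.1 ≠ -pt n
        rw [hx]
        intro h
        rw [map_neg, neg_inj, LinearIsometryEquiv.symm_apply_eq, hgp] at h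
        rw [← h, real_inner_self_eq_norm_sq, norm_pt] at hyp
        norm_num at hyp
    · refine ⟨1, ?_, ?_⟩
      · show (eS n 0).1 ≠ -pt n
        rw [eS_zero]
        intro h
        have h2 : ⟪pt n, pt n⟫_ℝ = ⟪pt n, -pt n⟫_ℝ := by rw [← h]
        rw [inner_neg_right, real_inner_self_eq_norm_sq, norm_pt] at h2
        norm_num at h2
      · exact hx

end model

end Crest.Agent.R249.MS_662
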