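/-
Row 249, part B2, leaf (SC) (helper654): scaling of a model space `Mdl n`
(`B2Defs_474`): all distances are divided by `s > 0`, i.e. the curvature is multiplied by `s ^ 2`.

* `scale m s hs : Mdl n`;
* `scale_R0_of_hom`: if the algebraic curvature tensor `m.R0` is homogeneous, then
  `(scale m s hs).R0 u v w = s ^ 2 • m.R0 u v w`;
* `scaleSqrt m a ha := scale m (√a) _` : distance `m.d x y / √a`, curvature `a • m.R0 u v w`.
-/
import Crest.Agent.R249.B2Defs_474

set_option autoImplicit false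
set_option maxSynthPendingDepth 3

open Set Filter Topology
open scoped ContDiff
open Crest.Agent.R244.CF (LocIsoAt)
open Crest.Agent.R249.B2Defs_474

noncomputable section

namespace Crest.Agent.R249.MdlScale_654

section aux

variable {E : Type*} [NormedAddCommGroup E] [NormedSpace ℝ E]

theorem smul_inv_cancel' {s : ℝ} (hs : 0 < s) (w : E) : s • s⁻¹ • w = w :=
  smul_inv_smul₀ hs.ne' w

theorem inv_smul_cancel' {s : ℝ} (hs : 0 < s) (w : E) : s⁻¹ • s • w = w :=
  inv_smul_smul₀ hs.ne' w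

theorem tendsto_smul_nhds (s : ℝ) (w : E) : Tendsto (fun y : E => s • y) (𝓝 w) (𝓝 (s • w)) :=
  (continuous_const_smul s).continuousAt

theorem hasFDerivAt_scaled {s : ℝ} (hs : 0 < s) {φ : E → E} {y : E}
    (h : DifferentiableAt ℝ φ (s • y)) :
    HasFDerivAt (fun w => s⁻¹ • φ (s • w)) (fderiv ℝ φ (s • y)) y := by
  have h1 : HasFDerivAt (fun w : E => s • w) (s • ContinuousLinearMap.id ℝ E) y :=
    (hasFDerivAt_id y).const_smul s
  have h2 : HasFDerivAt (fun w => φ (s • w)) ((fderiv ℝ φ (s • y)).comp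
      (s • ContinuousLinearMap.id ℝ E)) y :=
    HasFDerivAt.comp y h.hasFDerivAt h1
  have h3 := h2.const_smul s⁻¹
  have h4 : s⁻¹ • ((fderiv ℝ φ (s • y)).comp (s • ContinuousLinearMap.id ℝ E))
      = fderiv ℝ φ (s • y) := by
    ext v
    simp [hs.ne']
  rw [h4] at h3
  exact h3

theorem fderiv_scaled {s : ℝ} (hs : 0 < s) {φ : E → E} {y : E}
    (h : DifferentiableAt ℝ φ (s • y)) :
    fderiv ℝ (fun w => s⁻¹ • φ (s • w)) y = fderiv ℝ φ (s • y) :=
  (hasFDerivAt_scaled hs h).fderiv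

/-- scaling of a local isometry -/
theorem locIsoAt_scaled {s : ℝ} (hs : 0 < s) {U U' : Set E}
    {g g' : E → E →L[ℝ] E →L[ℝ] ℝ} {φ : E → E} {w : E} (h : LocIsoAt U g U' g' φ (s • w)) :
    LocIsoAt {y | s • y ∈ U} (fun y => g (s • y)) {y | s • y ∈ U'} (fun y => g' (s • y))
      (fun y => s⁻¹ • φ (s • y)) w := by
  have hd : ∀ᶠ y in 𝓝 w, DifferentiableAt ℝ φ (s • y) :=
    (tendsto_smul_nhds s w).eventually
      (h.smooth'.mono fun y hy => hy.differentiableAt (by simp))
  refine ⟨h.mem, ?_, ?_, ?_, ?_⟩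
  · show s • s⁻¹ • φ (s • w) ∈ U'
    rw [smul_inv_cancel' hs]
    exact h.mem'
  · refine ((tendsto_smul_nhds s w).eventually h.smooth').mono fun y hy => ?_
    have h1 : ContDiffAt ℝ ∞ (fun y : E => s • y) y := (contDiff_const_smul s).contDiffAt
    exact (ContDiffAt.comp y hy h1).const_smul s⁻¹
  · filter_upwards [hd, (tendsto_smul_nhds s w).eventually h.surj] with y hy1 hy2
    rw [fderiv_scaled hs hy1]
    exact hy2
  · filter_upwards [hd, (tendsto_smul_nhds s w).eventually h.iso] with y hy1 hy2 u v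
    rw [fderiv_scaled hs hy1]
    show g (s • y) u v = g' (s • s⁻¹ • φ (s • y)) _ _
    rw [smul_inv_cancel' hs]
    exact hy2 u v

end aux

variable {n : ℕ}

local notation "𝔼" => EuclideanSpace ℝ (Fin n)

/-- Scaling of a model: all distances are divided by `s`. -/
def scale (m : Mdl n) (s : ℝ) (hs : 0 < s) : Mdl n where
  X := m.X
  G := m.G
  grp := m.grp
  act := m.act
  d x y := m.d x y / s
  e w := m.e (s • w)
  lg x := s⁻¹ • m.lg x
  D := {w | s • w ∈ m.D}
  Reg := m.Reg
  R0 u v w := s⁻¹ • m.R0 (s • u) (s • v) (s • w)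
  g0 w := m.g0 (s • w)
  J v u t := s⁻¹ • m.J (s • v) (s • u) t
  J' v u t := s⁻¹ • m.J' (s • v) (s • u) t
  D_open := m.D_open.preimage (continuous_const_smul s)
  D_zero := by
    show s • (0 : 𝔼) ∈ m.D
    rw [smul_zero]
    exact m.D_zero
  D_star w hw t ht := by
    show s • t • w ∈ m.D
    rw [smul_comm]
    exact m.D_star _ hw t ht
  g0_smooth := m.g0_smooth.comp (contDiff_const_smul s).contDiffOn (fun _ hw => hw)
  g0_symm w hw u v := m.g0_symm _ hw u v
  g0_pos w hw u hu := m.g0_pos _ hw u hu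
  J_zero v u := by rw [m.J_zero, smul_zero]
  J_one v u := by rw [m.J_one, inv_smul_cancel' hs]
  J_deriv v u t := (m.J_deriv (s • v) (s • u) t).const_smul s⁻¹
  J'_deriv v u t := by
    have h := (m.J'_deriv (s • v) (s • u) t).const_smul s⁻¹
    rw [smul_neg] at h
    rw [smul_inv_cancel' hs]
    exact h
  J_g0 v hv u u' := by
    have h := m.J_g0 (s • v) hv (s • u) (s • u')
    rw [map_smul, map_smul, FunLike.coe_smul, Pi.smul_apply, smul_eq_mul, smul_eq_mul] at h
    rw [inner_smul_left, inner_smul_right, ← h]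
    simp only [conj_trivial]
    field_simp
  d_symm x y := by rw [m.d_symm]
  d_self x := by rw [m.d_self, zero_div]
  d_tri x y z := by
    rw [← add_div]
    exact div_le_div_of_nonneg_right (m.d_tri x y z) hs.le
  d_smul g x y := by rw [m.d_smul]
  d_e w hw := by
    rw [smul_zero, m.d_e _ hw, norm_smul, Real.norm_of_nonneg hs.le]
    field_simp
  e_cont w hw ε hε := by
    obtain ⟨δ, hδ, h⟩ := m.e_cont (s • w) hw (s * ε) (by positivity)
    refine ⟨δ / s, by positivity, fun w' hw' => ?_⟩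
    rw [div_lt_iff₀ hs, mul_comm]
    refine h _ ?_
    rw [← smul_sub, norm_smul, Real.norm_of_nonneg hs.le]
    rw [lt_div_iff₀ hs] at hw'
    linarith
  e_mem w hw := m.e_mem _ hw
  lg_mem x hx := by
    show s • s⁻¹ • m.lg x ∈ m.D
    rw [smul_inv_cancel' hs]
    exact m.lg_mem x hx
  lg_e w hw := by
    rw [m.lg_e _ hw, inv_smul_cancel' hs]
  e_lg x hx := by
    rw [smul_inv_cancel' hs, m.e_lg x hx, zero_div]
  lg_congr x y hxy hx := by
    have h : m.d x y = 0 := by
      rcases div_eq_zero_iff.1 hxy with h | h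
      · exact h
      · exact absurd h hs.ne'
    obtain ⟨h1, h2⟩ := m.lg_congr x y h hx
    exact ⟨h1, by rw [h2]⟩
  lg_cont x hx ε hε := by
    obtain ⟨δ, hδ, h⟩ := m.lg_cont x hx (s * ε) (by positivity)
    refine ⟨δ / s, by positivity, fun y hy => ?_⟩
    have hy' : m.d x y < δ := by
      rw [div_lt_div_iff_of_pos_right hs] at hy
      exact hy
    obtain ⟨h1, h2⟩ := h y hy'
    refine ⟨h1, ?_⟩
    rw [← smul_sub, norm_smul, norm_inv, Real.norm_of_nonneg hs.le, inv_mul_lt_iff₀ hs]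
    exact h2
  trans x := by
    obtain ⟨g, hg⟩ := m.trans x
    exact ⟨g, by rw [smul_zero]; exact hg⟩
  kappa g w hw hg := locIsoAt_scaled hs (m.kappa g (s • w) hw hg)
  star_dense g hg w hw ε hε := by
    have hg' : g • m.e 0 ∈ m.Reg := by
      have h := hg
      rw [smul_zero] at h
      exact h
    obtain ⟨w', h1, h2⟩ := m.star_dense g hg' (s • w) hw (s * ε) (by positivity)
    refine ⟨s⁻¹ • w', ?_, fun t ht => ?_⟩
    · have h3 : s⁻¹ • w' - w = s⁻¹ • (w' - s • w) := by
        rw [smul_sub, inv_smul_cancel' hs]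
      rw [h3, norm_smul, norm_inv, Real.norm_of_nonneg hs.le, inv_mul_lt_iff₀ hs]
      exact h1
    · have h4 : s • t • s⁻¹ • w' = t • w' := by
        rw [smul_comm s t, smul_inv_cancel' hs]
      obtain ⟨h5, h6⟩ := h2 t ht
      refine ⟨?_, ?_⟩
      · show s • t • s⁻¹ • w' ∈ m.D
        rw [h4]
        exact h5
      · rw [h4]
        exact h6
  dense x ε hε := by
    obtain ⟨z, hz, h⟩ := m.dense x (s * ε) (by positivity)
    refine ⟨z, hz, ?_⟩
    rw [div_lt_iff₀ hs, mul_comm]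
    exact h
  cov x := by
    obtain ⟨g, h1, h2⟩ := m.cov x
    exact ⟨g, by rw [smul_zero]; exact h1, h2⟩

section api

variable (m : Mdl n) (s : ℝ) (hs : 0 < s)

theorem scale_X : (scale m s hs).X = m.X := rfl

theorem scale_d (x y : m.X) : (scale m s hs).d x y = m.d x y / s := rfl

theorem scale_e (w : 𝔼) : (scale m s hs).e w = m.e (s • w) := rfl

theorem scale_R0 (u v w : 𝔼) :
    (scale m s hs).R0 u v w = s⁻¹ • m.R0 (s • u) (s • v) (s • w) := rfl

/-- for a homogeneous `R0` the curvature is multiplied by `s ^ 2` -/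
theorem scale_R0_of_hom (hR : ∀ (c : ℝ) (u v w : 𝔼), m.R0 (c • u) (c • v) (c • w) = c ^ 3 • m.R0 u v w)
    (u v w : 𝔼) : (scale m s hs).R0 u v w = s ^ 2 • m.R0 u v w := by
  rw [scale_R0, hR, smul_smul]
  congr 1
  field_simp

/-- Scaling with curvature factor `a`: distances are divided by `√a`. -/
def scaleSqrt (m : Mdl n) (a : ℝ) (ha : 0 < a) : Mdl n := scale m (Real.sqrt a) (Real.sqrt_pos.2 ha)

theorem scaleSqrt_X (a : ℝ) (ha : 0 < a) : (scaleSqrt m a ha).X = m.X := rfl

theorem scaleSqrt_d (a : ℝ) (ha : 0 < a) (x y : m.X) :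
    (scaleSqrt m a ha).d x y = m.d x y / Real.sqrt a := rfl

theorem scaleSqrt_R0 (a : ℝ) (ha : 0 < a)
    (hR : ∀ (c : ℝ) (u v w : 𝔼), m.R0 (c • u) (c • v) (c • w) = c ^ 3 • m.R0 u v w)
    (u v w : 𝔼) : (scaleSqrt m a ha).R0 u v w = a • m.R0 u v w := by
  have h := scale_R0_of_hom m (Real.sqrt a) (Real.sqrt_pos.2 ha) hR u v w
  rw [Real.sq_sqrt ha.le] at h
  exact h

end api

end Crest.Agent.R249.MdlScale_654
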