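/-
Row 249, part B2 (helper474): final theorems.

`cover_of`: compact connected `M`, parallel curvature, frames for `a • m.R0`: `M` is covered by the
model with distances divided by `√a`.
`cover_roundSphere`, `cover_complexProjective`, `cover_sphereProduct`: the template predicates;
`RS, RC, RP` and `covS, covC, covP`: the interface of `Asm1_49`.
-/
import Crest.Agent.R249.B2Glue_474
import Crest.Agent.R249.MdlScale_654
import Crest.Agent.R249.MS_662
import Crest.Agent.R249.MP_662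
import Crest.Agent.R249.MCP_48
import Crest.Agent.R249.Ptw_850
import Crest.Agent.R249.Asm1_49
import Crest.Agent.R226.GeoThm_542

set_option autoImplicit false
set_option maxSynthPendingDepth 3
set_option linter.unusedSectionVars false

open Bundle Set Filter Topology
open scoped ContDiff Manifold
open Crest.Agent.R244.CF (curv)
open Crest.Agent.R226 Crest.Agent.R226.ChartMet842
open Crest.GeometryTopology.ChartCurvature
open Crest.Agent.R249.B2Defs_474 Crest.Agent.R249.B2Glue_474 Crest.Agent.R249.MdlScale_654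

noncomputable section

namespace Crest.Agent.R249.B2Fin_474

section gen

variable {n : ℕ} {M : Type*} [MetricSpace M] [ChartedSpace (EuclideanSpace ℝ (Fin n)) M]
  [IsManifold (𝓡 n) ∞ M]
  [RiemannianBundle (fun p : M => TangentSpace (𝓡 n) p)]
  [IsContMDiffRiemannianBundle (𝓡 n) ∞ (EuclideanSpace ℝ (Fin n)) (fun p : M => TangentSpace (𝓡 n) p)]
  [IsRiemannianManifold (𝓡 n) M] [CompactSpace M] [ConnectedSpace M]

local notation "𝔼" => EuclideanSpace ℝ (Fin n)

theorem cover_of (m : Mdl n)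
    (hR : ∀ (c : ℝ) (u v w : 𝔼), m.R0 (c • u) (c • v) (c • w) = c ^ 3 • m.R0 u v w)
    {a : ℝ} (ha : 0 < a) (hP : ParCurv n M) {p : M}
    (P : Frame n (fun u v w => a • m.R0 u v w) p) :
    ∃ Φ : m.X → M, Function.Surjective Φ ∧ ∃ ρ > 0, ∀ x y, m.d x y < ρ →
      dist (Φ x) (Φ y) = m.d x y / Real.sqrt a := by
  obtain ⟨N⟩ := NearDiagFinal996.nonempty_nearDiag (n := n) (M := M)
  obtain ⟨G⟩ := GeoThm542.nonempty_geoData N
  let P' : Frame n (scaleSqrt m a ha).R0 p :=
    ⟨P.I, P.iso, fun u v w => by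
      rw [scaleSqrt_R0 m a ha hR]
      exact P.curv_eq u v w⟩
  obtain ⟨Φ, hΦ, ρ, hρ, h⟩ := exists_cover (scaleSqrt m a ha) hP G P'
  have hs : 0 < Real.sqrt a := Real.sqrt_pos.2 ha
  refine ⟨Φ, hΦ, ρ * Real.sqrt a, mul_pos hρ hs, fun x y hxy => ?_⟩
  have h1 := h x y (by
    rw [scaleSqrt_d]
    rw [div_lt_iff₀ hs]
    exact hxy)
  exact h1

end gen

section fin

theorem arccos_small {V : Type*} [NormedAddCommGroup V] [InnerProductSpace ℝ V]
    (p : Metric.sphere (0 : V) 1) {ρ : ℝ} (hρ : 0 < ρ) :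
    ∃ ε > 0, ∀ q q' : Metric.sphere (0 : V) 1, dist p q < ε → dist p q' < ε →
      Real.arccos (inner ℝ (q : V) q') < ρ := by
  have hc : Continuous fun z : Metric.sphere (0 : V) 1 × Metric.sphere (0 : V) 1 =>
      Real.arccos (inner ℝ (z.1 : V) (z.2 : V)) :=
    Real.continuous_arccos.comp ((continuous_subtype_val.comp continuous_fst).inner
      (continuous_subtype_val.comp continuous_snd))
  have h0 : Real.arccos (inner ℝ (p : V) (p : V)) = 0 := by
    rw [real_inner_self_eq_norm_sq, norm_eq_of_mem_sphere, one_pow, Real.arccos_one]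
  obtain ⟨ε, hε, h⟩ := Metric.continuousAt_iff.1 (hc.continuousAt (x := (p, p))) ρ hρ
  refine ⟨ε, hε, fun q q' hq hq' => ?_⟩
  have h1 := h (x := (q, q')) (by
    rw [Prod.dist_eq]
    exact max_lt (by rw [dist_comm]; exact hq) (by rw [dist_comm]; exact hq'))
  simp only [h0, Real.dist_eq, sub_zero] at h1
  exact (le_abs_self _).trans_lt h1

theorem arccos_small_c {V : Type*} [NormedAddCommGroup V] [InnerProductSpace ℂ V]
    (p : Metric.sphere (0 : V) 1) {ρ : ℝ} (hρ : 0 < ρ) :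
    ∃ ε > 0, ∀ q q' : Metric.sphere (0 : V) 1, dist p q < ε → dist p q' < ε →
      Real.arccos ‖(inner ℂ (q : V) q' : ℂ)‖ < ρ := by
  have hc : Continuous fun z : Metric.sphere (0 : V) 1 × Metric.sphere (0 : V) 1 =>
      Real.arccos ‖(inner ℂ (z.1 : V) (z.2 : V) : ℂ)‖ :=
    Real.continuous_arccos.comp ((continuous_subtype_val.comp continuous_fst).inner
      (continuous_subtype_val.comp continuous_snd)).norm
  have h0 : Real.arccos ‖(inner ℂ (p : V) (p : V) : ℂ)‖ = 0 := by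
    rw [inner_self_eq_norm_sq_to_K, norm_eq_of_mem_sphere]
    simp
  obtain ⟨ε, hε, h⟩ := Metric.continuousAt_iff.1 (hc.continuousAt (x := (p, p))) ρ hρ
  refine ⟨ε, hε, fun q q' hq hq' => ?_⟩
  have h1 := h (x := (q, q')) (by
    rw [Prod.dist_eq]
    exact max_lt (by rw [dist_comm]; exact hq) (by rw [dist_comm]; exact hq'))
  simp only [h0, Real.dist_eq, sub_zero] at h1
  exact (le_abs_self _).trans_lt h1

section sphere

variable {n : ℕ} {M : Type*} [MetricSpace M] [ChartedSpace (EuclideanSpace ℝ (Fin n)) M]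
  [IsManifold (𝓡 n) ∞ M]
  [RiemannianBundle (fun p : M => TangentSpace (𝓡 n) p)]
  [IsContMDiffRiemannianBundle (𝓡 n) ∞ (EuclideanSpace ℝ (Fin n)) (fun p : M => TangentSpace (𝓡 n) p)]
  [IsRiemannianManifold (𝓡 n) M] [CompactSpace M] [ConnectedSpace M]

/-- constant curvature `a > 0` -/
theorem cover_roundSphere (hn : 2 ≤ n) {a : ℝ} (ha : 0 < a) (hP : ParCurv n M) {p : M}
    (P : Frame n (fun u v w => a • TrigS_662.R0 u v w) p) :
    IsLocallyCoveredByRoundSphere M n a := by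
  obtain ⟨Φ, hΦ, ρ, hρ, h⟩ := cover_of (MS_662.mS n hn) (fun c u v w => by
    show TrigS_662.R0 _ _ _ = _ • TrigS_662.R0 _ _ _
    simp only [TrigS_662.R0, inner_smul_left, inner_smul_right, conj_trivial, smul_sub, smul_smul]
    congr 1 <;> congr 1 <;> ring) ha hP P
  refine ⟨ha, Φ, hΦ, fun q => ?_⟩
  obtain ⟨ε, hε, hs⟩ := arccos_small q hρ
  exact ⟨ε, hε, fun x y hx hy => h x y (hs x y hx hy)⟩

end sphere

section four

variable {M : Type*} [MetricSpace M] [ChartedSpace (EuclideanSpace ℝ (Fin 4)) M]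
  [IsManifold (𝓡 4) ∞ M]
  [RiemannianBundle (fun p : M => TangentSpace (𝓡 4) p)]
  [IsContMDiffRiemannianBundle (𝓡 4) ∞ (EuclideanSpace ℝ (Fin 4)) (fun p : M => TangentSpace (𝓡 4) p)]
  [IsRiemannianManifold (𝓡 4) M] [CompactSpace M] [ConnectedSpace M]

theorem cover_complexProjective {a : ℝ} (ha : 0 < a) (hP : ParCurv 4 M) {p : M}
    (P : Frame 4 (fun u v w => a • MCPc_48.R0 u v w) p) :
    IsLocallyCoveredByComplexProjective M 2 a := by
  obtain ⟨Φ, hΦ, ρ, hρ, h⟩ := cover_of MCP_48.mCP (fun c u v w => by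
    show MCPc_48.R0 _ _ _ = _ • MCPc_48.R0 _ _ _
    simp only [MCPc_48.R0, map_smul, inner_smul_left, inner_smul_right, conj_trivial, smul_sub,
      smul_add, smul_smul]
    congr 1
    · congr 1
      · congr 1
        · congr 1 <;> congr 1 <;> ring
        · congr 1; ring
      · congr 1; ring
    · congr 1; ring) ha hP P
  refine ⟨ha, Φ, hΦ, fun q => ?_⟩
  obtain ⟨ε, hε, hs⟩ := arccos_small_c q hρ
  exact ⟨ε, hε, fun x y hx hy => h x y (hs x y hx hy)⟩

theorem cover_sphereProduct {a : ℝ} (ha : 0 < a) (hP : ParCurv 4 M) {p : M}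
    (P : Frame 4 (fun u v w => a • MP_662.mSS.R0 u v w) p) :
    IsLocallyCoveredBySphereProduct M a := by
  obtain ⟨Φ, hΦ, ρ, hρ, h⟩ := cover_of MP_662.mSS (fun c u v w => by
    rw [MP_662.mSS_R0, MP_662.mSS_R0]
    ext i
    fin_cases i <;> simp <;> ring) ha hP P
  refine ⟨ha, Φ, hΦ, fun q => ?_⟩
  obtain ⟨ε₁, hε₁, hs₁⟩ := arccos_small q.1 (show 0 < ρ / 2 by positivity)
  obtain ⟨ε₂, hε₂, hs₂⟩ := arccos_small q.2 (show 0 < ρ / 2 by positivity)
  refine ⟨min ε₁ ε₂, lt_min hε₁ hε₂, fun x y hx hy => ?_⟩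
  have hx1 := (le_max_left _ _).trans_lt (hx.trans_le (min_le_left _ _))
  have hx2 := (le_max_right _ _).trans_lt (hx.trans_le (min_le_right _ _))
  have hy1 := (le_max_left _ _).trans_lt (hy.trans_le (min_le_left _ _))
  have hy2 := (le_max_right _ _).trans_lt (hy.trans_le (min_le_right _ _))
  have h1 := hs₁ x.1 y.1 hx1 hy1
  have h2 := hs₂ x.2 y.2 hx2 hy2
  refine h x y ?_
  rw [MP_662.mSS_d]
  rw [Real.sqrt_lt' hρ]
  have e1 := Real.arccos_nonneg (inner ℝ (x.1 : EuclideanSpace ℝ (Fin 3)) y.1)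
  have e2 := Real.arccos_nonneg (inner ℝ (x.2 : EuclideanSpace ℝ (Fin 3)) y.2)
  nlinarith

end four

/-! ### the interface of `Asm1_49` -/

local notation "E4" => EuclideanSpace ℝ (Fin 4)

def RS (c : ℝ) (u v w : E4) : E4 := (c / 3) • Ptw_850.T1 u v w
def RC (c : ℝ) (u v w : E4) : E4 := (c / 6) • Ptw_850.TC Ptw_850.J0 u v w
def RP (c : ℝ) (u v w : E4) : E4 := c • Ptw_850.TS u v w

theorem covS : Asm49.CovS RS := by
  intro N _ _ _ _ _ _ _ _ c hc h
  obtain ⟨hP, hF⟩ := h
  obtain ⟨p⟩ : Nonempty N := inferInstance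
  obtain ⟨P⟩ := hF p
  exact ⟨c / 3, by positivity, cover_roundSphere (by norm_num) (by positivity) hP (p := p) P⟩

theorem covC : Asm49.CovC RC := by
  intro N _ _ _ _ _ _ _ _ c hc h
  obtain ⟨hP, hF⟩ := h
  obtain ⟨p⟩ : Nonempty N := inferInstance
  obtain ⟨P⟩ := hF p
  have hJ : ∀ u : E4, Ptw_850.J0 u = MCPb_48.J u := by
    intro u
    rw [Ptw_850.J0_apply]
    rfl
  have hR : ∀ u v w : E4, RC c u v w = (c / 6) • MCPc_48.R0 u v w := by
    intro u v w
    simp only [RC, Ptw_850.TC, MCPc_48.R0, hJ]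
  exact ⟨c / 6, by positivity, cover_complexProjective (by positivity) hP (p := p)
    ⟨P.I, P.iso, fun u v w => by rw [P.curv_eq, hR]⟩⟩

theorem covP : Asm49.CovP RP := by
  intro N _ _ _ _ _ _ _ _ c hc h
  obtain ⟨hP, hF⟩ := h
  obtain ⟨p⟩ : Nonempty N := inferInstance
  obtain ⟨P⟩ := hF p
  have hR : ∀ u v w : E4, RP c u v w = c • MP_662.mSS.R0 u v w := by
    intro u v w
    rw [RP, Ptw_850.TS_eq, MP_662.mSS_R0]
    rfl
  exact ⟨c, hc, cover_sphereProduct hc hP (p := p)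
    ⟨P.I, P.iso, fun u v w => by rw [P.curv_eq, hR]⟩⟩

end fin

end Crest.Agent.R249.B2Fin_474
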