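/-
Row 249, part B2 (helper474): the geodesic equation in charts.

* `locIso_chart`: chart transitions are local isometries for `gm`;
* `geoc γ y₀ t`: the covariant acceleration of `γ` in the chart at `y₀`;
* `geoc_ray`: radial curves of the exponential map have zero covariant acceleration;
* `eq_ray`: a smooth curve with zero covariant acceleration is radial.
-/
import Crest.Agent.R249.B2Defs_474
import Crest.Agent.R226.NearDiagFinal_996
import Crest.Agent.R226.GeoBasic_616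
import Crest.Agent.R226.TangentTools_415

set_option autoImplicit false
set_option maxSynthPendingDepth 3
set_option linter.unusedSectionVars false

open Bundle Set Filter Topology MeasureTheory
open scoped ContDiff Manifold
open Crest.Agent.R244 (spray)
open Crest.Agent.R244.CF (IsLC curv cov LocIsoAt)
open Crest.Agent.R226 Crest.Agent.R226.ChartMet842 Crest.Agent.R226.LocalNearThm996
open Crest.Agent.R226.GeoLoc577 Crest.Agent.R226.GeoBasic616
open Crest.GeometryTopology.MTW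

noncomputable section

namespace Crest.Agent.R249.B2Geo_474

variable {n : ℕ} {M : Type*} [MetricSpace M] [ChartedSpace (EuclideanSpace ℝ (Fin n)) M]
  [IsManifold (𝓡 n) ∞ M]
  [RiemannianBundle (fun p : M => TangentSpace (𝓡 n) p)]
  [IsContMDiffRiemannianBundle (𝓡 n) ∞ (EuclideanSpace ℝ (Fin n)) (fun p : M => TangentSpace (𝓡 n) p)]

local notation "𝔼" => EuclideanSpace ℝ (Fin n)

theorem locIso_chart (x₀ x₁ : M) {y : 𝔼} (hy : y ∈ (chartAt 𝔼 x₀).target)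
    (hy1 : (chartAt 𝔼 x₀).symm y ∈ (chartAt 𝔼 x₁).source) :
    LocIsoAt (chartAt 𝔼 x₀).target (gm (n := n) x₀) (chartAt 𝔼 x₁).target (gm x₁)
      ((chartAt 𝔼 x₁) ∘ (chartAt 𝔼 x₀).symm) y := by
  have h := Crest.Agent.R244.locIsoAt_transition (gR n M) x₀ x₁ hy hy1
  have e : ∀ x : M, Crest.Agent.R244.CF.gB
      (Crest.GeometryTopology.Geodesic.metricInChart (gR n M) x) = gm x := fun x => by
    funext a; exact Crest.Agent.R244.gB_eq_gC _ _ _
  rw [e, e] at h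
  exact h

/-- the curve `γ` in the chart at `y₀` -/
def cc (γ : ℝ → M) (y₀ : M) (t : ℝ) : 𝔼 := chartAt 𝔼 y₀ (γ t)

/-- covariant acceleration of `γ` in the chart at `y₀` -/
def geoc (γ : ℝ → M) (y₀ : M) (t : ℝ) : 𝔼 := cov (Gm (n := n) y₀) (cc γ y₀) (deriv (cc γ y₀)) t

theorem contDiffAt_cc {γ : ℝ → M} {y₀ : M} {t : ℝ} (hγ : ContMDiffAt 𝓘(ℝ, ℝ) (𝓡 n) ∞ γ t)
    (ht : γ t ∈ (chartAt 𝔼 y₀).source) : ContDiffAt ℝ ∞ (cc (n := n) γ y₀) t := by
  rw [← contMDiffAt_iff_contDiffAt]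
  have h1 : ContMDiffAt (𝓡 n) 𝓘(ℝ, 𝔼) ∞ (chartAt 𝔼 y₀) (γ t) :=
    contMDiffOn_chart.contMDiffAt ((chartAt 𝔼 y₀).open_source.mem_nhds ht)
  exact h1.comp t hγ

theorem cc_congr {γ γ' : ℝ → M} {y₀ : M} {t : ℝ} (h : γ =ᶠ[𝓝 t] γ') :
    cc (n := n) γ y₀ =ᶠ[𝓝 t] cc γ' y₀ := by
  filter_upwards [h] with s hs
  unfold cc; rw [hs]

theorem geoc_congr {γ γ' : ℝ → M} {y₀ : M} {t : ℝ} (h : γ =ᶠ[𝓝 t] γ') :
    geoc (n := n) γ y₀ t = geoc γ' y₀ t := by
  have h1 := cc_congr (n := n) (y₀ := y₀) h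
  unfold geoc cov
  rw [h1.self_of_nhds, h1.deriv_eq, h1.deriv.deriv_eq]

theorem diff_facts {c : ℝ → 𝔼} {t : ℝ} (h : ContDiffAt ℝ ∞ c t) :
    (∀ᶠ s in 𝓝 t, DifferentiableAt ℝ c s) ∧ DifferentiableAt ℝ (deriv c) t := by
  have h2 : ContDiffAt ℝ 2 c t := h.of_le Crest.Agent.R244.CF.two_le_infty
  constructor
  · have h3 := h2.eventually (by simp)
    filter_upwards [h3] with s hs using hs.differentiableAt (by norm_num)
  · have h4 : ContDiffAt ℝ 1 (deriv c) t := by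
      have h5 : ContDiffAt ℝ 1 (fun s => fderiv ℝ c s 1) t :=
        (h2.fderiv_right (m := 1) (by norm_num)).clm_apply contDiffAt_const
      exact h5
    exact h4.differentiableAt (by norm_num)

/-- change of chart for the covariant acceleration -/
theorem geoc_change {γ : ℝ → M} {y₀ y₁ : M} {t : ℝ} (hγ : ContMDiffAt 𝓘(ℝ, ℝ) (𝓡 n) ∞ γ t)
    (h0 : γ t ∈ (chartAt 𝔼 y₀).source) (h1 : γ t ∈ (chartAt 𝔼 y₁).source)
    (h : geoc (n := n) γ y₀ t = 0) : geoc (n := n) γ y₁ t = 0 := by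
  have hmem : cc γ y₀ t ∈ (chartAt 𝔼 y₀).target := (chartAt 𝔼 y₀).map_source h0
  have hL : LocIsoAt (chartAt 𝔼 y₀).target (gm (n := n) y₀) (chartAt 𝔼 y₁).target (gm y₁)
      ((chartAt 𝔼 y₁) ∘ (chartAt 𝔼 y₀).symm) (cc γ y₀ t) :=
    locIso_chart y₀ y₁ hmem (by
      show (chartAt 𝔼 y₀).symm (chartAt 𝔼 y₀ (γ t)) ∈ _
      rw [(chartAt 𝔼 y₀).left_inv h0]; exact h1)
  obtain ⟨d1, d2⟩ := diff_facts (contDiffAt_cc (n := n) hγ h0)
  have h2 := hL.geodesic (isLC_gm y₀) (isLC_gm y₁) d1 d2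
  have h3 : cov (Gm (n := n) y₀) (cc γ y₀) (deriv (cc γ y₀)) t = 0 := h
  rw [h3, map_zero] at h2
  have h4 : (fun s => ((chartAt 𝔼 y₁) ∘ (chartAt 𝔼 y₀).symm) (cc γ y₀ s)) =ᶠ[𝓝 t] cc γ y₁ := by
    have h5 : ∀ᶠ s in 𝓝 t, γ s ∈ (chartAt 𝔼 y₀).source :=
      hγ.continuousAt.eventually ((chartAt 𝔼 y₀).open_source.mem_nhds h0)
    filter_upwards [h5] with s hs
    show chartAt 𝔼 y₁ ((chartAt 𝔼 y₀).symm (chartAt 𝔼 y₀ (γ s))) = chartAt 𝔼 y₁ (γ s)
    rw [(chartAt 𝔼 y₀).left_inv hs]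
  rw [← h2]
  exact (Crest.Agent.R244.CF.cov_congr h4 h4.deriv).symm

/-- translation of the parameter -/
theorem cc_shift (γ : ℝ → M) (y₀ : M) (t₀ : ℝ) :
    cc (n := n) (fun s => γ (t₀ + s)) y₀ = fun s => cc γ y₀ (t₀ + s) := rfl

theorem geoc_shift (γ : ℝ → M) (y₀ : M) (t₀ s : ℝ) :
    geoc (n := n) (fun s => γ (t₀ + s)) y₀ s = geoc γ y₀ (t₀ + s) := by
  unfold geoc cov
  have h1 : deriv (cc (n := n) (fun s => γ (t₀ + s)) y₀) = fun s => deriv (cc γ y₀) (t₀ + s) := by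
    funext s
    exact deriv_comp_const_add (f := cc γ y₀) t₀ s
  rw [h1]
  have h2 : deriv (fun s => deriv (cc (n := n) γ y₀) (t₀ + s)) s
      = deriv (deriv (cc γ y₀)) (t₀ + s) := deriv_comp_const_add (f := deriv (cc γ y₀)) t₀ s
  rw [h2]
  rfl

section ray

variable [IsRiemannianManifold (𝓡 n) M]

/-- the global exponential map is the local one near the base point -/
theorem ex_eq_eloc (G : GeoData n M) (x₀ : M) (L : LG (n := n) x₀) {x : M} (hx : x ∈ Wd x₀ L)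
    {v : TangentSpace (𝓡 n) x} (hv : ‖v‖ < L.r') (hv' : ‖v‖ < G.r₀) :
    G.ex x v = eloc x₀ L x v := by
  have D : DistFacts x₀ L := Crest.Agent.R226.NearDiagFinal996.distFacts x₀ L
  set a := chartAt 𝔼 x₀ x with ha
  have haW : a ∈ L.W := L.W'_sub hx.2
  have hsx : (chartAt 𝔼 x₀).symm a = x := (chartAt 𝔼 x₀).left_inv hx.1
  have hdist : dist x (G.ex x v) = ‖v‖ := by
    have := G.dist_eq x v 0 1 (by simpa using hv')
    simpa [G.ex_zero] using this
  obtain ⟨w, hw, -, hyw⟩ := D.surj a haW (G.ex x v) (by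
    rw [hsx, hdist]; exact hv.trans_le (r'_le_ρ x₀ L))
  -- first variation
  have key : ∀ ξ : TangentSpace (𝓡 n) x, ‖ξ‖ < G.r₀ →
      gm x₀ a w (dC x₀ x ξ) = gm x₀ a (dC x₀ x v) (dC x₀ x ξ) := by
    intro ξ hξ
    have h1 := G.hasDerivAt_cost x v ξ hv'
    have hray := contMDiff_ray G x ξ
    have hmd : MDifferentiableAt 𝓘(ℝ, ℝ) (𝓡 n) (fun t : ℝ => G.ex x (t • ξ)) 0 :=
      (hray 0).mdifferentiableAt (by simp)
    have h0 : G.ex x ((0 : ℝ) • ξ) = x := by rw [zero_smul, G.ex_zero]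
    have hsrc : G.ex x ((0 : ℝ) • ξ) ∈ (chartAt 𝔼 x₀).source := by rw [h0]; exact hx.1
    have h2 := hasDerivAt_chart (n := n) x₀ hmd hsrc
    have h3 : (dC x₀ (G.ex x ((0 : ℝ) • ξ)) (curveVel n (fun t : ℝ => G.ex x (t • ξ)) 0) : 𝔼)
        = dC x₀ x ξ := by
      rw [G.vel_zero x ξ]
      exact dC_congr x₀ h0 _
    rw [h3] at h2
    have h4 := D.cost a haW w hw (dC x₀ x ξ) (fun s => chartAt 𝔼 x₀ (G.ex x (s • ξ))) 0
      (by rw [h0]) h2
    have h5 : (fun s : ℝ => halfDistSq ((chartAt 𝔼 x₀).symm (chartAt 𝔼 x₀ (G.ex x (s • ξ))))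
        ((chartAt 𝔼 x₀).symm (L.Ex (a, w)))) =ᶠ[𝓝 0]
        fun s : ℝ => halfDistSq (G.ex x (s • ξ)) (G.ex x v) := by
      have : ∀ᶠ s : ℝ in 𝓝 0, G.ex x (s • ξ) ∈ (chartAt 𝔼 x₀).source :=
        (hray 0).continuousAt.eventually ((chartAt 𝔼 x₀).open_source.mem_nhds hsrc)
      filter_upwards [this] with s hs
      rw [(chartAt 𝔼 x₀).left_inv hs, ← hyw]
    have h6 := (h4.congr_of_eventuallyEq h5.symm).unique h1
    have h7 : (inner ℝ v ξ : ℝ) = gm x₀ a (dC x₀ x v) (dC x₀ x ξ) := inner_eq_gm x₀ hx.1 v ξ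
    rw [h7] at h6
    linarith
  have hLC := isLC_gm (n := n) x₀
  have haU : a ∈ (chartAt 𝔼 x₀).target := (chartAt 𝔼 x₀).map_source hx.1
  have hwv : w = dC x₀ x v := by
    apply hLC.eq_of_forall haU
    intro u
    -- choose `ξ` small with `dC ξ` proportional to `u`
    obtain ⟨ξ₀, hd⟩ : ∃ ξ₀ : TangentSpace (𝓡 n) x, (dC x₀ x ξ₀ : 𝔼) = u :=
      ⟨(dS x₀ a u : 𝔼), dC_dS' x₀ hx.1 u⟩
    obtain ⟨c, hc, hcs⟩ : ∃ c : ℝ, 0 < c ∧ ‖c • ξ₀‖ < G.r₀ := by
      have hN0 : 0 ≤ ‖ξ₀‖ := norm_nonneg _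
      have hr := G.r₀_pos
      refine ⟨G.r₀ / (‖ξ₀‖ + 1) / 2, by positivity, ?_⟩
      rw [norm_smul, Real.norm_eq_abs, abs_of_pos (by positivity)]
      have h2 : G.r₀ / (‖ξ₀‖ + 1) / 2 * ‖ξ₀‖ = G.r₀ * (‖ξ₀‖ / (‖ξ₀‖ + 1)) / 2 := by field_simp
      rw [h2]
      have h3 : ‖ξ₀‖ / (‖ξ₀‖ + 1) ≤ 1 := by rw [div_le_one (by positivity)]; linarith
      nlinarith
    have h2 := key (c • ξ₀) hcs
    have h3 : (dC x₀ x (c • ξ₀) : 𝔼) = c • u := by
      rw [dC_smul, hd]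
    rw [h3, map_smul, map_smul, smul_eq_mul, smul_eq_mul] at h2
    exact mul_left_cancel₀ hc.ne' h2
  rw [hyw, hwv]
  rfl

/-- zero covariant acceleration at `0` -/
theorem geoc_ray_zero (G : GeoData n M) (x : M) (v : TangentSpace (𝓡 n) x) :
    geoc (n := n) (fun t : ℝ => G.ex x (t • v)) x 0 = 0 := by
  obtain ⟨L⟩ : Nonempty (LG (n := n) x) :=
    exists_locGeo (isLC_gm (n := n) x) (mem_chart_target 𝔼 x)
  have hx : x ∈ Wd x L := ⟨mem_chart_source _ _, L.mem_W'⟩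
  -- a small multiple of `v`
  obtain ⟨c, hc, hcs⟩ : ∃ c : ℝ, 0 < c ∧ ‖c • v‖ < min L.r' G.r₀ := by
    have hr : 0 < min L.r' G.r₀ := lt_min L.r'_pos G.r₀_pos
    refine ⟨min L.r' G.r₀ / (‖v‖ + 1) / 2, by positivity, ?_⟩
    rw [norm_smul, Real.norm_eq_abs, abs_of_pos (by positivity)]
    have h2 : min L.r' G.r₀ / (‖v‖ + 1) / 2 * ‖v‖ = min L.r' G.r₀ * (‖v‖ / (‖v‖ + 1)) / 2 := by
      field_simp
    rw [h2]
    have h3 : ‖v‖ / (‖v‖ + 1) ≤ 1 := by rw [div_le_one (by positivity)]; linarith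
    nlinarith
  set w : TangentSpace (𝓡 n) x := c • v with hw
  set a := chartAt 𝔼 x x with ha
  set b : 𝔼 := dC x x w with hb
  have haW : a ∈ L.W := L.W'_sub hx.2
  have hg : gm x a b b < L.ρ ^ 2 :=
    gm_lt x hx.1 ((hcs.trans_le (min_le_left _ _)).trans_le (r'_le_ρ x L))
  -- in the chart the ray of `w` is `Ex (a, s • b)`
  have e1 : cc (n := n) (fun t : ℝ => G.ex x (t • w)) x =ᶠ[𝓝 0] fun s => L.Ex (a, s • b) := by
    have h1 : ∀ᶠ s : ℝ in 𝓝 0, |s| < 1 := by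
      have : Tendsto (fun s : ℝ => |s|) (𝓝 0) (𝓝 |(0 : ℝ)|) := continuous_abs.tendsto 0
      rw [abs_zero] at this
      exact this.eventually (gt_mem_nhds one_pos)
    filter_upwards [h1] with s hs
    have hsw : ‖s • w‖ < min L.r' G.r₀ := by
      rw [norm_smul, Real.norm_eq_abs]
      have := norm_nonneg w
      nlinarith [abs_nonneg s]
    have h2 := ex_eq_eloc G x L hx (hsw.trans_le (min_le_left _ _))
      (hsw.trans_le (min_le_right _ _))
    show chartAt 𝔼 x (G.ex x (s • w)) = _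
    rw [h2]
    unfold eloc
    have hmem : L.Ex (chartAt 𝔼 x x, dC x x (s • w)) ∈ (chartAt 𝔼 x).target :=
      L.Ex_mem _ haW _ (gm_lt x hx.1 ((hsw.trans_le (min_le_left _ _)).trans_le (r'_le_ρ x L)))
    rw [(chartAt 𝔼 x).right_inv hmem, dC_smul]
  have h1' : ∀ᶠ s : ℝ in 𝓝 0, |s| < 1 := by
    have : Tendsto (fun s : ℝ => |s|) (𝓝 0) (𝓝 |(0 : ℝ)|) := continuous_abs.tendsto 0
    rw [abs_zero] at this
    exact this.eventually (gt_mem_nhds one_pos)
  have e2 : deriv (cc (n := n) (fun t : ℝ => G.ex x (t • w)) x) =ᶠ[𝓝 0] fun s => L.vel s (a, b) := by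
    refine e1.deriv.trans ?_
    filter_upwards [h1'] with s hs
    exact (L.hasDerivAt_Ex a haW b hg s hs.le).deriv
  have hzero : geoc (n := n) (fun t : ℝ => G.ex x (t • w)) x 0 = 0 := by
    unfold geoc cov
    rw [e2.deriv_eq, (L.hasDerivAt_vel a haW b hg 0 (by simp)).deriv, e2.self_of_nhds,
      e1.self_of_nhds]
    exact neg_add_cancel _
  -- reparametrise
  have hsc : (fun t : ℝ => G.ex x (t • v)) = fun t : ℝ => G.ex x ((c⁻¹ * t) • w) := by
    funext t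
    rw [hw, smul_smul]
    congr 2
    field_simp
  have hcc : cc (n := n) (fun t : ℝ => G.ex x (t • v)) x
      = fun t => cc (fun t : ℝ => G.ex x (t • w)) x (c⁻¹ * t) := by
    rw [hsc]; rfl
  have hdd : deriv (cc (n := n) (fun t : ℝ => G.ex x (t • v)) x)
      = fun t => c⁻¹ • deriv (cc (fun t : ℝ => G.ex x (t • w)) x) (c⁻¹ * t) := by
    rw [hcc]
    funext t
    exact deriv_comp_mul_left c⁻¹ (cc (fun t : ℝ => G.ex x (t • w)) x) t
  have hd2 : deriv (deriv (cc (n := n) (fun t : ℝ => G.ex x (t • v)) x)) 0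
      = (c⁻¹ * c⁻¹) • deriv (deriv (cc (fun t : ℝ => G.ex x (t • w)) x)) 0 := by
    rw [hdd]
    have hdiff : DifferentiableAt ℝ
        (fun t => deriv (cc (n := n) (fun t : ℝ => G.ex x (t • w)) x) (c⁻¹ * t)) 0 := by
      have h1 : DifferentiableAt ℝ (deriv (cc (n := n) (fun t : ℝ => G.ex x (t • w)) x))
          (c⁻¹ * 0) := by
        rw [mul_zero]
        exact (diff_facts (contDiffAt_cc (n := n) (contMDiff_ray G x w 0)
          (by rw [zero_smul, G.ex_zero]; exact mem_chart_source _ _))).2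
      exact h1.comp (0 : ℝ) ((differentiableAt_id).const_mul _)
    rw [deriv_fun_const_smul _ hdiff]
    rw [deriv_comp_mul_left c⁻¹ (deriv (cc (fun t : ℝ => G.ex x (t • w)) x)) 0, mul_zero,
      smul_smul]
  unfold geoc cov at hzero ⊢
  rw [hd2, hdd, hcc]
  simp only [mul_zero, map_smul, smul_apply, smul_smul]
  rw [← smul_add, hzero, smul_zero]

/-- **radial curves satisfy the geodesic equation in every chart** -/
theorem geoc_ray (G : GeoData n M) (x : M) (v : TangentSpace (𝓡 n) x) (t : ℝ) (y₀ : M)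
    (hy : G.ex x (t • v) ∈ (chartAt 𝔼 y₀).source) :
    geoc (n := n) (fun t : ℝ => G.ex x (t • v)) y₀ t = 0 := by
  set x' := G.ex x (t • v) with hx'
  set v' : TangentSpace (𝓡 n) x' := curveVel n (fun t : ℝ => G.ex x (t • v)) t with hv'
  have h1 : (fun s : ℝ => G.ex x ((t + s) • v)) = fun s : ℝ => G.ex x' (s • v') := by
    funext s
    exact (G.flow x v t s).symm
  have h2 := geoc_ray_zero G x' v'
  rw [← h1] at h2
  have h3 := geoc_shift (n := n) (fun s : ℝ => G.ex x (s • v)) x' t 0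
  simp only [add_zero] at h3
  have h4 : geoc (n := n) (fun t : ℝ => G.ex x (t • v)) x' t = 0 := by
    rw [← h3]; exact h2
  exact geoc_change (n := n) (contMDiff_ray G x v t) (mem_chart_source _ _) hy h4

end ray

end Crest.Agent.R249.B2Geo_474
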