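import Crest.Agent.R249.BD1_281
import Crest.Agent.R249.St1_174
import Crest.Agent.R249.Lim8_41

/-!
Row 249 (helper281), D3-LIM/BD part 2: the one-manifold package behind `Lim8_41.LData`:
integrability, `L²` bounds, Green identities, pointwise identities, almost Einstein term and the
Morrey bound, on the ball `ball x r₀`, `r₀ ≤ 8ρ`.
-/

set_option autoImplicit false
set_option maxSynthPendingDepth 3
set_option linter.unusedSectionVars false

open scoped ContDiff Topology Manifold ENNReal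
open Filter Set Bundle MeasureTheory Metric
open Crest.GeometryTopology.CoordMetric Crest.GeometryTopology.ChartCurvature
  Crest.GeometryTopology.PointedLimit
open Crest.Agent.R202.Tens
open Crest.Agent.R247.Bo84
open Crest.Agent.R247
open Crest.Agent.R249.Vf281
open Crest.Agent.R249.D1Def104
open Crest.Agent.R249.LPt_191 (N1 sS kos)

noncomputable section

namespace Crest.Agent.R249.BD281

section Alg

variable {k : ℕ}

lemma sFun_eq (G : Matrix (Fin k) (Fin k) ℝ) (P : Fin k → Fin k → Fin k → ℝ) (a b : Fin k) :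
    sFun G P a b = sS G P a b := by
  unfold sFun sS
  refine Finset.sum_congr rfl fun c _ => ?_
  rw [Finset.sum_comm]
  refine (Finset.sum_comm.trans ?_)
  rw [Finset.sum_comm]
  refine Finset.sum_congr rfl fun d _ => ?_
  refine Finset.sum_congr rfl fun c' _ => ?_
  refine Finset.sum_congr rfl fun d' _ => ?_
  simp only [kosz, kos]
  ring

lemma eFun_eq (G : Matrix (Fin k) (Fin k) ℝ) (P : Fin k → Fin k → Fin k → ℝ) (a b : Fin k) :
    eFun G P a b = ∑ c, ∑ d, G⁻¹ c d * P a b c * P a b d := by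
  unfold eFun
  exact Finset.sum_congr rfl fun c _ => Finset.sum_congr rfl fun d _ => by ring

end Alg

/-- the good data on one manifold. -/
structure GD {M : Type} [MetricSpace M] [ChartedSpace (EuclideanSpace ℝ (Fin 4)) M]
    [IsManifold 𝓘(ℝ, EuclideanSpace ℝ (Fin 4)) ∞ M]
    [RiemannianBundle (fun x : M => TangentSpace 𝓘(ℝ, EuclideanSpace ℝ (Fin 4)) x)]
    [IsContMDiffRiemannianBundle 𝓘(ℝ, EuclideanSpace ℝ (Fin 4)) ∞ (EuclideanSpace ℝ (Fin 4))
      (fun x : M => TangentSpace 𝓘(ℝ, EuclideanSpace ℝ (Fin 4)) x)]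
    [MeasurableSpace M] [BorelSpace M]
    (x : M) (ρ c L A : ℝ) (u : M → EuclideanSpace ℝ (Fin 4)) : Prop where
  ric : HasRicciLowerBound 4 M 0
  smooth : ∀ z ∈ ball x (16 * ρ), ∀ a, ContMDiffAt (𝓡 4) 𝓘(ℝ, ℝ) ∞ (fun q => u q a) z
  harm : ∀ z ∈ ball x (16 * ρ), ∀ a, mLap 4 (fun q => u q a) z = 0
  bd : ∀ z ∈ ball x (16 * ρ), ∀ a, FF 4 u a a z ≤ 4
  hess : ∫ z in ball x (8 * ρ), hs 4 u z ∂(μHE[4] : Measure M) ≤ A
  l4 : ∫ z in ball x (8 * ρ), hs2 4 u z ∂(μHE[4] : Measure M) ≤ A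
  dev : ∫⁻ z in ball x (16 * ρ), ENNReal.ofReal (mRicDev 4 M c z) ∂(μHE[4] : Measure M) ≤ 1
  c_le : |c| ≤ L

section one

variable {M : Type} [MetricSpace M] [CompleteSpace M] [ConnectedSpace M]
  [ChartedSpace (EuclideanSpace ℝ (Fin 4)) M]
  [IsManifold 𝓘(ℝ, EuclideanSpace ℝ (Fin 4)) ∞ M]
  [RiemannianBundle (fun x : M => TangentSpace 𝓘(ℝ, EuclideanSpace ℝ (Fin 4)) x)]
  [IsContMDiffRiemannianBundle 𝓘(ℝ, EuclideanSpace ℝ (Fin 4)) ∞ (EuclideanSpace ℝ (Fin 4))
    (fun x : M => TangentSpace 𝓘(ℝ, EuclideanSpace ℝ (Fin 4)) x)]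
  [IsRiemannianManifold 𝓘(ℝ, EuclideanSpace ℝ (Fin 4)) M]
  [MeasurableSpace M] [BorelSpace M]

lemma measure_closedBall_lt (x : M) (r : ℝ) : (μHE[4] : Measure M) (closedBall x r) < ⊤ := by
  have := Crest.Agent.R247.HR216.properSpace_of_riemannian 4 M
  have := Crest.Agent.R247.GluM923.isLocallyFinite 4 M
  exact (isCompact_closedBall x r).measure_lt_top

lemma isFinite_ball (x : M) (r : ℝ) : IsFiniteMeasure ((μHE[4] : Measure M).restrict (ball x r)) :=
  ⟨by
    rw [Measure.restrict_apply_univ]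
    exact (measure_mono ball_subset_closedBall).trans_lt (measure_closedBall_lt x r)⟩

/-- a function continuous on a larger ball is in every `L^p` of the ball. -/
lemma memLp_ball {x : M} {R r : ℝ} (hr : r < R) {f : M → ℝ} (hf : ContinuousOn f (ball x R))
    (p : ℝ≥0∞) {z : M} {s : ℝ} (hz : closedBall z s ⊆ closedBall x r) :
    MemLp f p ((μHE[4] : Measure M).restrict (ball z s)) := by
  have := Crest.Agent.R247.HR216.properSpace_of_riemannian 4 M
  have := isFinite_ball z s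
  have h1 : ContinuousOn f (closedBall z s) :=
    hf.mono (hz.trans (closedBall_subset_ball hr))
  obtain ⟨C, hC⟩ := (isCompact_closedBall z s).exists_bound_of_continuousOn h1
  refine MemLp.of_bound ((h1.mono ball_subset_closedBall).aestronglyMeasurable
    measurableSet_ball) C ?_
  exact (ae_restrict_iff' measurableSet_ball).2 (Eventually.of_forall fun y hy =>
    hC y (ball_subset_closedBall hy))

lemma int_ball {x : M} {R r : ℝ} (hr : r < R) {f : M → ℝ} (hf : ContinuousOn f (ball x R))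
    {z : M} {s : ℝ} (hz : closedBall z s ⊆ closedBall x r) :
    IntegrableOn f (ball z s) (μHE[4] : Measure M) :=
  memLp_one_iff_integrable.1 (memLp_ball hr hf 1 hz)

namespace GD

variable {x : M} {ρ c L A : ℝ} {u : M → EuclideanSpace ℝ (Fin 4)}

lemma s2 (G : GD x ρ c L A u) {z : M} (hz : z ∈ ball x (16 * ρ)) (a : Fin 4) :
    ContMDiffAt (𝓡 4) 𝓘(ℝ, ℝ) 2 (fun q => u q a) z := (G.smooth z hz a).of_le two_le_infty

/-- second countability and a point. -/
lemma sc (x : M) : SecondCountableTopology M ∧ Nonempty M := by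
  have := Crest.Agent.R247.HR216.properSpace_of_riemannian 4 M
  exact ⟨inferInstance, ⟨x⟩⟩

lemma mass_le (G : GD x ρ c L A u) {r : ℝ} (hr : 0 < r) :
    ((μHE[4] : Measure M).restrict (ball x r)).real univ ≤ St174.om4 * r ^ 4 := by
  rw [Measure.real, Measure.restrict_apply_univ]
  refine ENNReal.toReal_le_of_le_ofReal ?_ (St174.vol_le G.ric x hr)
  have := St174.om4_pos
  positivity

lemma hρ16 {r : ℝ} (hρ : 0 < ρ) (hr : r ≤ 8 * ρ) : r < 16 * ρ := by linarith

/-- comparison of integrals: `|f| ≤ K g` on the ball with `g ≥ 0` continuous on the big ball. -/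
lemma int_le {R r : ℝ} (hR : R < 16 * ρ) {g f : M → ℝ} (hg : ContinuousOn g (ball x (16 * ρ)))
    (hf : ContinuousOn f (ball x (16 * ρ)))
    {z : M} (hz : closedBall z r ⊆ closedBall x R)
    {B K : ℝ} (hK : 0 ≤ K) (hfg : ∀ y ∈ ball x (16 * ρ), f y ≤ K * g y) (hB : ∫ y in ball z r, g y
      ∂(μHE[4] : Measure M) ≤ B) :
    ∫ y in ball z r, f y ∂(μHE[4] : Measure M) ≤ K * B := by
  have hsub : ball z r ⊆ ball x (16 * ρ) :=
    (ball_subset_closedBall.trans hz).trans (closedBall_subset_ball hR)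
  calc ∫ y in ball z r, f y ∂(μHE[4] : Measure M)
      ≤ ∫ y in ball z r, K * g y ∂(μHE[4] : Measure M) :=
        setIntegral_mono_on (int_ball hR hf hz) ((int_ball hR hg hz).const_mul K)
          measurableSet_ball fun y hy => hfg y (hsub hy)
    _ = K * ∫ y in ball z r, g y ∂(μHE[4] : Measure M) := integral_const_mul _ _
    _ ≤ K * B := mul_le_mul_of_nonneg_left hB hK

/-- monotonicity in the ball. -/
lemma int_mono_ball (hρ : 0 < ρ) {r : ℝ} (hr : r ≤ 8 * ρ) {g : M → ℝ}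
    (hg : ContinuousOn g (ball x (16 * ρ))) (hg0 : ∀ z ∈ ball x (16 * ρ), 0 ≤ g z) {B : ℝ}
    (hB : ∫ y in ball x (8 * ρ), g y ∂(μHE[4] : Measure M) ≤ B) :
    ∫ y in ball x r, g y ∂(μHE[4] : Measure M) ≤ B := by
  refine le_trans (setIntegral_mono_set (int_ball (r := 8 * ρ) (by linarith) hg le_rfl) ?_
    (ball_subset_ball hr).eventuallyLE) hB
  exact (ae_restrict_iff' measurableSet_ball).2 (Eventually.of_forall fun y hy =>
    hg0 y (ball_subset_ball (by linarith) hy))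

lemma cont_hs' (G : GD x ρ c L A u) : ContinuousOn (hs 4 u) (ball x (16 * ρ)) := cont_hs G.smooth

lemma cont_hs2' (G : GD x ρ c L A u) : ContinuousOn (hs2 4 u) (ball x (16 * ρ)) :=
  cont_hs2 G.smooth

lemma hs0 (G : GD x ρ c L A u) : ∀ z ∈ ball x (16 * ρ), 0 ≤ hs 4 u z := fun _ hz =>
  hs_nonneg (G.s2 hz)

lemma P_int (G : GD x ρ c L A u) (hρ : 0 < ρ) {r : ℝ} (hr : r ≤ 8 * ρ) (a b d : Fin 4) :
    ∫ y in ball x r, PP 4 u a b d y ^ 2 ∂(μHE[4] : Measure M) ≤ 64 * A :=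
  int_le (R := 8 * ρ) (by linarith) G.cont_hs' ((cont_PP G.smooth a b d).pow 2)
    (closedBall_subset_closedBall hr) (by norm_num) (fun y hy => PP_sq_le (G.s2 hy) (G.bd y hy) a b d)
    (int_mono_ball hρ hr G.cont_hs' G.hs0 G.hess)

lemma P_morrey (G : GD x ρ c L A u) (hρ : 0 < ρ) {z : M} {s B : ℝ}
    (hz : closedBall z s ⊆ closedBall x (15 * ρ))
    (hB : ∫ y in ball z s, hs 4 u y ∂(μHE[4] : Measure M) ≤ B) (a b d : Fin 4) :
    ∫ y in ball z s, PP 4 u a b d y ^ 2 ∂(μHE[4] : Measure M) ≤ 64 * B :=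
  int_le (R := 15 * ρ) (by linarith) G.cont_hs' ((cont_PP G.smooth a b d).pow 2) hz
    (by norm_num) (fun y hy => PP_sq_le (G.s2 hy) (G.bd y hy) a b d) hB

lemma D_int (G : GD x ρ c L A u) (hρ : 0 < ρ) {r : ℝ} (hr : r ≤ 8 * ρ) (a b : Fin 4) :
    ∫ y in ball x r, |mGam 4 (FF 4 u a b) (FF 4 u a b) y| ∂(μHE[4] : Measure M) ≤ 16 * A :=
  int_le (R := 8 * ρ) (by linarith) G.cont_hs' (cont_DD G.smooth a b).abs
    (closedBall_subset_closedBall hr) (by norm_num)
    (fun y hy => by rw [abs_of_nonneg (mGam_self_nonneg _ _)]; exact DD_le (G.s2 hy) (G.bd y hy) a b)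
    (int_mono_ball hρ hr G.cont_hs' G.hs0 G.hess)

/-- the function `ΔF^{ab} = 2 S^{ab} + 2 R^{ab}`. -/
def Gf (u : M → EuclideanSpace ℝ (Fin 4)) (a b : Fin 4) (z : M) : ℝ :=
  2 * SS 4 u a b z + 2 * RR 4 u a b z

lemma cont_R (G : GD x ρ c L A u) (a b : Fin 4) : ContinuousOn (RR 4 u a b) (ball x (16 * ρ)) :=
  cont_RR isOpen_ball G.smooth G.harm a b

lemma cont_G (G : GD x ρ c L A u) (a b : Fin 4) : ContinuousOn (Gf u a b) (ball x (16 * ρ)) :=
  ((cont_SS G.smooth a b).const_smul (2:ℝ)).add ((G.cont_R a b).const_smul (2:ℝ))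

lemma cont_dev (x : M) (c : ℝ) : Continuous (mRicDev 4 M c) := by
  obtain ⟨_, _⟩ := sc x
  exact Sch1_104.continuous_mRicDev c

lemma dev_nonneg (x : M) (c : ℝ) (z : M) : 0 ≤ mRicDev 4 M c z := by
  obtain ⟨_, _⟩ := sc x
  exact Sch1_104.mRicDev_nonneg c z

lemma dev_int (G : GD x ρ c L A u) {r : ℝ} (hr : r ≤ 16 * ρ) :
    ∫ y in ball x r, mRicDev 4 M c y ∂(μHE[4] : Measure M) ≤
      (∫⁻ z in ball x (16 * ρ), ENNReal.ofReal (mRicDev 4 M c z) ∂(μHE[4] : Measure M)).toReal := by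
  rw [integral_eq_lintegral_of_nonneg_ae (Eventually.of_forall fun z => dev_nonneg x c z)
    (cont_dev x c).aestronglyMeasurable]
  refine ENNReal.toReal_mono (ne_top_of_le_ne_top ENNReal.one_ne_top G.dev) ?_
  exact lintegral_mono_set (ball_subset_ball hr)

lemma dev_int_one (G : GD x ρ c L A u) {r : ℝ} (hr : r ≤ 16 * ρ) :
    ∫ y in ball x r, mRicDev 4 M c y ∂(μHE[4] : Measure M) ≤ 1 := by
  refine (G.dev_int hr).trans ?_
  have := ENNReal.toReal_mono ENNReal.one_ne_top G.dev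
  simpa using this

lemma G_sq_le (G : GD x ρ c L A u) {z : M} (hz : z ∈ ball x (16 * ρ)) (a b : Fin 4) :
    Gf u a b z ^ 2 ≤ 8 * hs2 4 u z + (256 * mRicDev 4 M c z + 256 * c ^ 2) := by
  obtain ⟨_, _⟩ := sc x
  have h1 := SS_sq_le (G.s2 hz) a b
  have h2 := RR_sq_le (G.bd z hz) c a b
  unfold Gf
  nlinarith [sq_nonneg (SS 4 u a b z - RR 4 u a b z)]

lemma G_int (G : GD x ρ c L A u) (hρ : 0 < ρ) {r : ℝ} (hr0 : 0 < r) (hr : r ≤ 8 * ρ) (a b : Fin 4) :
    ∫ y in ball x r, Gf u a b y ^ 2 ∂(μHE[4] : Measure M) ≤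
      8 * A + (256 + 256 * L ^ 2 * (St174.om4 * r ^ 4)) := by
  have := isFinite_ball x r
  have h16 : r < 16 * ρ := by linarith
  have hsub : ball x r ⊆ ball x (16 * ρ) := ball_subset_ball h16.le
  have i1 : IntegrableOn (hs2 4 u) (ball x r) (μHE[4] : Measure M) :=
    int_ball h16 G.cont_hs2' le_rfl
  have i2 : IntegrableOn (mRicDev 4 M c) (ball x r) (μHE[4] : Measure M) :=
    int_ball h16 (cont_dev x c).continuousOn le_rfl
  have i3 : IntegrableOn (fun _ : M => 256 * c ^ 2) (ball x r) (μHE[4] : Measure M) :=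
    integrable_const _
  have h1 : ∫ y in ball x r, Gf u a b y ^ 2 ∂(μHE[4] : Measure M) ≤
      ∫ y in ball x r, (8 * hs2 4 u y + (256 * mRicDev 4 M c y + 256 * c ^ 2))
        ∂(μHE[4] : Measure M) :=
    setIntegral_mono_on (int_ball h16 ((G.cont_G a b).pow 2) le_rfl)
      ((i1.const_mul 8).add ((i2.const_mul 256).add i3)) measurableSet_ball
      fun y hy => G.G_sq_le (hsub hy) a b
  have h2 : ∫ y in ball x r, (8 * hs2 4 u y + (256 * mRicDev 4 M c y + 256 * c ^ 2))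
        ∂(μHE[4] : Measure M) = 8 * ∫ y in ball x r, hs2 4 u y ∂(μHE[4] : Measure M) +
        (256 * ∫ y in ball x r, mRicDev 4 M c y ∂(μHE[4] : Measure M) +
          ((μHE[4] : Measure M).restrict (ball x r)).real univ * (256 * c ^ 2)) := by
    have i4 : IntegrableOn (fun y => 256 * mRicDev 4 M c y + 256 * c ^ 2) (ball x r)
      (μHE[4] : Measure M) := (i2.const_mul 256).add i3
    rw [integral_add (i1.const_mul 8) i4, integral_add (i2.const_mul 256) i3,
      integral_const_mul, integral_const_mul, integral_const, smul_eq_mul]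
  have h3 : ∫ y in ball x r, hs2 4 u y ∂(μHE[4] : Measure M) ≤ A :=
    int_mono_ball hρ hr G.cont_hs2' (fun z _ => hs2_nonneg u z) G.l4
  have h4 := G.dev_int_one (r := r) h16.le
  have h5 := G.mass_le hr0
  have h6 : c ^ 2 ≤ L ^ 2 := by
    have := sq_le_sq' (by linarith [(abs_le.1 G.c_le).1]) (abs_le.1 G.c_le).2
    exact this
  have h7 : ((μHE[4] : Measure M).restrict (ball x r)).real univ * (256 * c ^ 2) ≤
      (St174.om4 * r ^ 4) * (256 * L ^ 2) := by
    have := St174.om4_pos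
    exact mul_le_mul h5 (by linarith) (by positivity) (by positivity)
  rw [h2] at h1
  linarith

/-- almost Einstein. -/
lemma ric_int (G : GD x ρ c L A u) (hρ : 0 < ρ) {r : ℝ} (hr0 : 0 < r) (hr : r ≤ 8 * ρ) (lam : ℝ)
    (a b : Fin 4) :
    ∫ y in ball x r, |RR 4 u a b y - lam * FF 4 u a b y| ∂(μHE[4] : Measure M) ≤
      4 * (√(St174.om4 * r ^ 4) * √((∫⁻ z in ball x (16 * ρ), ENNReal.ofReal (mRicDev 4 M c z)
        ∂(μHE[4] : Measure M)).toReal)) + 4 * |c - lam| * (St174.om4 * r ^ 4) := by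
  obtain ⟨_, _⟩ := sc x
  have := isFinite_ball x r
  have h16 : r < 16 * ρ := by linarith
  have hsub : ball x r ⊆ ball x (16 * ρ) := ball_subset_ball h16.le
  set μ : Measure M := (μHE[4] : Measure M).restrict (ball x r) with hμ
  have c1 : ContinuousOn (fun y => √(mRicDev 4 M c y)) (ball x (16 * ρ)) :=
    (cont_dev x c).sqrt.continuousOn
  have i1 : Integrable (fun y => √(mRicDev 4 M c y)) μ := int_ball h16 c1 le_rfl
  have m1 : MemLp (fun y => √(mRicDev 4 M c y)) 2 μ := memLp_ball h16 c1 2 le_rfl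
  have m2 : MemLp (fun _ : M => (1:ℝ)) 2 μ := memLp_const 1
  have cF := cont_FF G.smooth a b
  have i0 : Integrable (fun y => |RR 4 u a b y - lam * FF 4 u a b y|) μ :=
    int_ball h16 (((G.cont_R a b).sub (cF.const_smul lam)).abs) le_rfl
  have i2 : Integrable (fun _ : M => 4 * |c - lam|) μ := integrable_const _
  have h1 : ∫ y, |RR 4 u a b y - lam * FF 4 u a b y| ∂μ ≤
      ∫ y, (4 * √(mRicDev 4 M c y) + 4 * |c - lam|) ∂μ := by
    refine integral_mono_ae i0 ((i1.const_mul 4).add i2) ?_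
    refine (ae_restrict_iff' measurableSet_ball).2 (Eventually.of_forall fun y hy => ?_)
    have h2 := abs_RR_sub_le (G.bd y (hsub hy)) c a b
    have h3 := abs_FF_le (G.bd y (hsub hy)) a b
    have e : RR 4 u a b y - lam * FF 4 u a b y =
      (RR 4 u a b y - c * FF 4 u a b y) + (c - lam) * FF 4 u a b y := by ring
    simp only
    rw [e]
    refine (abs_add_le _ _).trans (add_le_add h2 ?_)
    rw [abs_mul, mul_comm]
    exact mul_le_mul_of_nonneg_right h3 (abs_nonneg _)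
  have h2 : ∫ y, (4 * √(mRicDev 4 M c y) + 4 * |c - lam|) ∂μ =
      4 * ∫ y, √(mRicDev 4 M c y) ∂μ + μ.real univ * (4 * |c - lam|) := by
    rw [integral_add (i1.const_mul 4) i2, integral_const_mul, integral_const, smul_eq_mul]
  have h3 : ∫ y, √(mRicDev 4 M c y) ∂μ ≤ √(St174.om4 * r ^ 4) *
      √((∫⁻ z in ball x (16 * ρ), ENNReal.ofReal (mRicDev 4 M c z)
        ∂(μHE[4] : Measure M)).toReal) := by
    have h4 := Lim41.cs m2 m1
    simp only [one_mul, one_pow] at h4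
    refine (le_abs_self _).trans (h4.trans ?_)
    refine mul_le_mul (Real.sqrt_le_sqrt ?_) (Real.sqrt_le_sqrt ?_) (Real.sqrt_nonneg _)
      (Real.sqrt_nonneg _)
    · rw [integral_const, smul_eq_mul, mul_one]
      exact G.mass_le hr0
    · have h5 : ∀ y, √(mRicDev 4 M c y) ^ 2 = mRicDev 4 M c y := fun y =>
        Real.sq_sqrt (dev_nonneg x c y)
      simp only [h5]
      exact G.dev_int h16.le
  have h5 := G.mass_le hr0
  rw [h2] at h1
  have h6 : μ.real univ * (4 * |c - lam|) ≤ (St174.om4 * r ^ 4) * (4 * |c - lam|) :=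
    mul_le_mul_of_nonneg_right h5 (by positivity)
  linarith

/-- test data. -/
lemma tstOf (G : GD x ρ c L A u) (hρ : 0 < ρ) {r r₁ : ℝ} (hr : r ≤ 8 * ρ) (hr1 : r₁ < r)
    {φ : EuclideanSpace ℝ (Fin 4) → ℝ} (hφ : ContDiff ℝ ∞ φ)
    (hK : ∀ y ∈ closedBall x r, u y ∈ tsupport φ → y ∈ closedBall x r₁) :
    Tst 4 (ball x r) (closedBall x r₁) u φ where
  isOpen := isOpen_ball
  isCompact := by
    have := Crest.Agent.R247.HR216.properSpace_of_riemannian 4 M
    exact isCompact_closedBall x r₁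
  sub := closedBall_subset_ball hr1
  smooth_u := fun z hz c => G.smooth z (ball_subset_ball (by linarith) hz) c
  smooth_φ := hφ
  mem := fun z hz h => hK z (ball_subset_closedBall hz) h

section green

variable {r r₁ : ℝ} {φ : EuclideanSpace ℝ (Fin 4) → ℝ}

lemma harm' (G : GD x ρ c L A u) (hρ : 0 < ρ) (hr : r ≤ 8 * ρ) :
    ∀ z ∈ ball x r, ∀ c, mLap 4 (fun q => u q c) z = 0 := fun z hz =>
  G.harm z (ball_subset_ball (by linarith) hz)

lemma H4 (G : GD x ρ c L A u) (hρ : 0 < ρ) (hr : r ≤ 8 * ρ)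
    (T : Tst 4 (ball x r) (closedBall x r₁) u φ) (e : Fin 4) :
    ∫ z in ball x r, ∑ d, pderiv d φ (u z) * FF 4 u d e z ∂(μHE[4] : Measure M) = 0 := by
  obtain ⟨_, _⟩ := sc x
  exact (T.c1' (G.harm' hρ hr) e).2

lemma H5 (G : GD x ρ c L A u) (hρ : 0 < ρ) (hr : r ≤ 8 * ρ)
    (T : Tst 4 (ball x r) (closedBall x r₁) u φ) (a b e : Fin 4) :
    ∫ z in ball x r, φ (u z) * PP 4 u a b e z ∂(μHE[4] : Measure M) =
      - ∫ z in ball x r, FF 4 u a b z * ∑ d, pderiv d φ (u z) * FF 4 u d e z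
        ∂(μHE[4] : Measure M) := by
  obtain ⟨_, _⟩ := sc x
  exact (T.c2 (G.harm' hρ hr) a b e).2.2

lemma H6 (G : GD x ρ c L A u) (hρ : 0 < ρ) (hr : r ≤ 8 * ρ)
    (T : Tst 4 (ball x r) (closedBall x r₁) u φ) (a b : Fin 4) :
    ∫ z in ball x r, ∑ c, pderiv c φ (u z) * PP 4 u a b c z ∂(μHE[4] : Measure M) =
      - ∫ z in ball x r, φ (u z) * Gf u a b z ∂(μHE[4] : Measure M) := by
  obtain ⟨_, _⟩ := sc x
  exact (T.c3 (G.harm' hρ hr) a b).2.2

lemma H7 (G : GD x ρ c L A u) (hρ : 0 < ρ) (hr : r ≤ 8 * ρ)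
    (T : Tst 4 (ball x r) (closedBall x r₁) u φ) (a b : Fin 4) :
    ∫ z in ball x r, φ (u z) * mGam 4 (FF 4 u a b) (FF 4 u a b) z ∂(μHE[4] : Measure M) =
      - (∫ z in ball x r, φ (u z) * (FF 4 u a b z * Gf u a b z) ∂(μHE[4] : Measure M)) -
        ∫ z in ball x r, FF 4 u a b z * ∑ c, pderiv c φ (u z) * PP 4 u a b c z
          ∂(μHE[4] : Measure M) := by
  obtain ⟨_, _⟩ := sc x
  obtain ⟨j1, j2, -, -⟩ := T.c4 (G.harm' hρ hr) a b
  obtain ⟨-, -, g3⟩ := T.integral_green (f := FF 4 u a b) (h := FF 4 u a b)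
    (fun z hz => (T.smooth_FF a b hz).of_le one_le_infty)
    (fun z hz => (T.smooth_FF a b hz).of_le two_le_infty)
  have e1 : ∀ z ∈ ball x r, FF 4 u a b z * ∑ c, pderiv c φ (u z) *
      mGam 4 (fun q => u q c) (FF 4 u a b) z =
      FF 4 u a b z * ∑ c, pderiv c φ (u z) * PP 4 u a b c z := fun z _ => by
    congr 1
    exact Finset.sum_congr rfl fun c _ => by rw [mGam_comm]; rfl
  have e2 : ∀ z ∈ ball x r, φ (u z) * (FF 4 u a b z * mLap 4 (FF 4 u a b) z +
      mGam 4 (FF 4 u a b) (FF 4 u a b) z) =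
      φ (u z) * (FF 4 u a b z * (2 * SS 4 u a b z + 2 * RR 4 u a b z)) +
        φ (u z) * mGam 4 (FF 4 u a b) (FF 4 u a b) z := fun z hz => by
    rw [mLap_FF T.isOpen (fun w hw c => (T.smooth_u w hw c).of_le three_le_infty)
      (G.harm' hρ hr) hz]
    ring
  rw [setIntegral_congr_fun measurableSet_ball e1, setIntegral_congr_fun measurableSet_ball e2,
    integral_add j2 j1] at g3
  have e3 : ∫ z in ball x r, φ (u z) * (FF 4 u a b z * Gf u a b z) ∂(μHE[4] : Measure M) =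
    ∫ z in ball x r, φ (u z) * (FF 4 u a b z * (2 * SS 4 u a b z + 2 * RR 4 u a b z))
      ∂(μHE[4] : Measure M) := rfl
  rw [e3]
  linarith

end green

lemma H9D (u : M → EuclideanSpace ℝ (Fin 4)) {z : M}
    (h : N1 (Fm u z - 1) ≤ 1 / 4) (a b : Fin 4) :
    mGam 4 (FF 4 u a b) (FF 4 u a b) z =
      ∑ c, ∑ d, (Fm u z)⁻¹ c d * PP 4 u a b c z * PP 4 u a b d z := by
  have h1 : (Fm u z).det ≠ 0 := LPt_191.det_ne_zero (by linarith)
  rw [mGam_FF_eq_eFun h1, eFun_eq]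

lemma H9G (G : GD x ρ c L A u) {z : M} (hz : z ∈ ball x (16 * ρ))
    (h : N1 (Fm u z - 1) ≤ 1 / 4) (a b : Fin 4) :
    Gf u a b z = 2 * sS (Fm u z) (fun a b c => PP 4 u a b c z) a b + 2 * RR 4 u a b z := by
  have h1 : (Fm u z).det ≠ 0 := LPt_191.det_ne_zero (by linarith)
  rw [Gf, SS_eq_sFun (G.s2 hz) h1, sFun_eq]

end GD

end one

end Crest.Agent.R249.BD281
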