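import Crest.Agent.R249.BD2_281

/-!
Row 249 (helper281), D3-LIM/BD part 3: `HData`, `AvOut`, `ChOut`, `SpOut`, `MsOut`, `StOut`
give the data `Lim8_41.LData` of the abstract limit lemma.
-/

set_option autoImplicit false
set_option maxSynthPendingDepth 3
set_option linter.unusedSectionVars false

noncomputable section
open Set Filter Topology Bundle MeasureTheory Metric
open scoped ContDiff Manifold ENNReal NNReal Matrix
open Crest.GeometryTopology.CoordMetric Crest.GeometryTopology.ChartCurvature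
  Crest.GeometryTopology.RicciEnergy Crest.GeometryTopology.PointedLimit
open Crest.Agent.R247.Bo84
open Crest.Agent.R249.D1Def104 Crest.Agent.R249.Ul174 Crest.Agent.R249.Len47
open Crest.Agent.R249.AsmD832 Crest.Agent.R249.LimDef41 Crest.Agent.R249.Vf281
open Crest.Agent.R249.LPt_191 (N1 sS kos)

namespace Crest.Agent.R249.BD281

local notation "𝔼" => EuclideanSpace ℝ (Fin 4)

/-- the map with components `u a`. -/
def vec {X : Type} (u : Fin 4 → X → ℝ) (y : X) : EuclideanSpace ℝ (Fin 4) :=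
  WithLp.toLp 2 fun a => u a y

/-- the measure: `μ` on the ball for good data. -/
def mm {X : Type} [MetricSpace X] [MeasurableSpace X] [BorelSpace X] (g : Prop) (x : X) (r : ℝ) :
    Measure X := by
  classical
  exact if g then (μHE[4] : Measure X).restrict (ball x r) else 0

/-- the map, zero off the ball and for bad data. -/
def vv {X : Type} [MetricSpace X] (g : Prop) (x : X) (r : ℝ) (u : Fin 4 → X → ℝ) (y : X) :
    EuclideanSpace ℝ (Fin 4) := by
  classical
  exact if g ∧ y ∈ ball x r then vec u y else 0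

section basic

variable {X : Type} [MetricSpace X] [MeasurableSpace X] [BorelSpace X] {g : Prop} {x : X} {r : ℝ}
  {u : Fin 4 → X → ℝ}

lemma mm_good (hg : g) : mm g x r = (μHE[4] : Measure X).restrict (ball x r) := by
  unfold mm; exact if_pos hg

lemma mm_bad (hg : ¬ g) : mm g x r = 0 := by
  unfold mm; exact if_neg hg

lemma vv_good (hg : g) {y : X} (hy : y ∈ ball x r) : vv g x r u y = vec u y := by
  unfold vv; exact if_pos ⟨hg, hy⟩

lemma vv_bad (hg : ¬ g) : vv g x r u = fun _ => 0 := by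
  funext y; unfold vv; exact if_neg fun h => hg h.1

/-- integrals of functions of `vv`. -/
lemma int_good (hg : g) (Φ : 𝔼 → X → ℝ) :
    ∫ y, Φ (vv g x r u y) y ∂(mm g x r) =
      ∫ y in ball x r, Φ (vec u y) y ∂(μHE[4] : Measure X) := by
  rw [mm_good hg]
  exact setIntegral_congr_fun measurableSet_ball fun y hy => by simp only [vv_good hg hy]

lemma ae_mm {p : X → Prop} (h : g → ∀ y ∈ ball x r, p y) : ∀ᵐ y ∂(mm g x r), p y := by
  by_cases hg : g
  · rw [mm_good hg]
    exact (ae_restrict_iff' measurableSet_ball).2 (Eventually.of_forall (h hg))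
  · rw [mm_bad hg]
    simp

lemma measurable_vv (h : g → ContinuousOn (vec u) (ball x r)) : Measurable (vv g x r u) := by
  classical
  by_cases hg : g
  · have e : vv g x r u = (ball x r).piecewise (vec u) (fun _ => 0) := by
      funext y
      by_cases hy : y ∈ ball x r
      · rw [vv_good hg hy, piecewise_eq_of_mem _ _ _ hy]
      · rw [piecewise_eq_of_notMem _ _ _ hy]
        unfold vv
        exact if_neg fun h => hy h.2
    rw [e]
    exact (h hg).measurable_piecewise continuousOn_const measurableSet_ball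
  · rw [vv_bad hg]
    exact measurable_const

end basic

section final

variable {M : ℕ → Type} [∀ k, MetricSpace (M k)] [∀ k, CompleteSpace (M k)]
  [∀ k, ConnectedSpace (M k)] [∀ k, ChartedSpace (EuclideanSpace ℝ (Fin 4)) (M k)]
  [∀ k, IsManifold 𝓘(ℝ, EuclideanSpace ℝ (Fin 4)) ∞ (M k)]
  [∀ k, RiemannianBundle (fun x : M k => TangentSpace 𝓘(ℝ, EuclideanSpace ℝ (Fin 4)) x)]
  [∀ k, IsContMDiffRiemannianBundle 𝓘(ℝ, EuclideanSpace ℝ (Fin 4)) ∞ (EuclideanSpace ℝ (Fin 4))
    (fun x : M k => TangentSpace 𝓘(ℝ, EuclideanSpace ℝ (Fin 4)) x)]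
  [∀ k, IsRiemannianManifold 𝓘(ℝ, EuclideanSpace ℝ (Fin 4)) (M k)]
  [∀ k, MeasurableSpace (M k)] [∀ k, BorelSpace (M k)] {q : ∀ k, M k}

variable {x : ∀ k, M k} {hx : Bd q x} {ρ α C C' ε ε₁ δ lam : ℝ} {lamk : ℕ → ℝ}
    {u : ∀ k, Fin 4 → M k → ℝ} {h : UL q → Matrix (Fin 4) (Fin 4) ℝ} {r₀ : ℝ}
    {U : UL q → EuclideanSpace ℝ (Fin 4)}
    {e : OpenPartialHomeomorph (UL q) (EuclideanSpace ℝ (Fin 4))}

/-- the good indices. -/
def Good (x : ∀ k, M k) (ρ α C lam : ℝ) (lamk : ℕ → ℝ) (u : ∀ k, Fin 4 → M k → ℝ) (k : ℕ) : Prop :=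
  GD (x k) ρ (lamk k) (|lam| + 1) (C * (8 * ρ) ^ (2 + 2 * α) + C) (vec (u k))

theorem ev_good (hD : HData x ρ α C ε δ lam lamk u) :
    ∀ᶠ k in om, Good x ρ α C lam lamk u k := by
  have hρ := hD.ρ_pos
  have hC := hD.C_pos
  have h1 := hD.hess (8 * ρ) (by positivity)
  have h2 : ∀ᶠ k in om, ∫⁻ z in ball (x k) (16 * ρ), ENNReal.ofReal (mRicDev 4 (M k) (lamk k) z)
      ∂(μHE[4] : Measure (M k)) < 1 := hD.ricdev.eventually (gt_mem_nhds one_pos)
  have h3 : ∀ᶠ k in om, |lamk k - lam| < 1 := by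
    have := (Metric.tendsto_nhds.1 hD.lamk_lim) 1 one_pos
    exact this.mono fun k hk => by rwa [Real.dist_eq] at hk
  filter_upwards [hD.ric, hD.smooth, hD.harm, h1, hD.l4, h2, h3] with k k1 k2 k3 k4 k5 k6 k7
  have p1 : 0 < (8 * ρ) ^ (2 + 2 * α) := Real.rpow_pos_of_pos (by positivity) _
  refine ⟨k1, fun z hz a => (k2 a).contMDiffAt (isOpen_ball.mem_nhds hz),
    fun z hz a => (k3 a z hz).1, fun z hz a => (k3 a z hz).2, ?_, ?_, k6.le, ?_⟩
  · have h4 := k4 (x k) (mem_ball_self (by positivity)) (8 * ρ) le_rfl le_rfl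
    have h5 : ∫ z in ball (x k) (8 * ρ), hs 4 (vec (u k)) z ∂(μHE[4] : Measure (M k)) ≤
      C * (8 * ρ) ^ (2 + 2 * α) := h4
    linarith
  · have h5 : ∫ z in ball (x k) (8 * ρ), hs2 4 (vec (u k)) z ∂(μHE[4] : Measure (M k)) ≤ C := k5
    have : 0 < C * (8 * ρ) ^ (2 + 2 * α) := by positivity
    linarith
  · have h6 : |lamk k| ≤ |lamk k - lam| + |lam| := by
      have := abs_add_le (lamk k - lam) lam
      rwa [sub_add_cancel] at this
    linarith

/-- the near isometry for the inverse chart. -/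
lemma dist_symm_le (hC : ChOut x hx ρ u h r₀ U e) {y y' : UL q}
    (hy : y ∈ ball (UL.mk x hx) (4 * r₀)) (hy' : y' ∈ ball (UL.mk x hx) (4 * r₀)) :
    dist y y' ≤ 10 / 9 * dist (U y) (U y') := by
  have h1 := (abs_le.1 (hC.ni y hy y' hy')).1
  linarith

/-- the points of `ball (x k) r₀` mapped into `ball z r` are near a fixed sequence. -/
theorem ev_near (hD : HData x ρ α C ε δ lam lamk u) (hC : ChOut x hx ρ u h r₀ U e) {z : 𝔼}
    (hz : z ∈ e.target) {r : ℝ} (hr : 0 < r) :
    ∀ᶠ k in om, ∀ y ∈ ball (x k) r₀, vec (u k) y ∈ ball z r →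
      dist y ((e.symm z).rep k) < 2 * r := by
  have hne : ∀ k, Nonempty (M k) := fun k => ⟨x k⟩
  have hr0 := hC.r_pos
  have hr4 := hC.r_le
  have hρ := hD.ρ_pos
  refine St174.ev_forall fun y hy => ?_
  have hy' : ∀ᶠ k in om, y k ∈ closedBall (x k) r₀ := hy.mono fun k hk => ball_subset_closedBall hk
  have hyb := St174.bd_of_closedBall hx hy'
  have hY := St174.mem_closedBall_mk hx hyb hy'
  have hY4 : UL.mk y hyb ∈ ball (UL.mk x hx) (4 * r₀) :=
    closedBall_subset_ball (by linarith) hY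
  have hY8 : UL.mk y hyb ∈ ball (UL.mk x hx) (8 * ρ) :=
    closedBall_subset_ball (by linarith) hY
  have hz1 : e.symm z ∈ ball (UL.mk x hx) r₀ := by
    rw [← hC.source]; exact e.map_target hz
  have hz4 : e.symm z ∈ ball (UL.mk x hx) (4 * r₀) := ball_subset_ball (by linarith) hz1
  have hUz : U (e.symm z) = z := by rw [← hC.eq, e.right_inv hz]
  rcases ev_or_not (fun k => vec (u k) (y k) ∈ ball z r → dist (y k) ((e.symm z).rep k) < 2 * r)
    with h1 | h1
  · exact h1
  exfalso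
  have h2 : ∀ᶠ k in om, vec (u k) (y k) ∈ closedBall z r := h1.mono fun k hk => by
    by_contra hcon
    exact hk fun h => absurd (ball_subset_closedBall h) hcon
  have h3 : ∀ᶠ k in om, 2 * r ≤ dist (y k) ((e.symm z).rep k) := h1.mono fun k hk => by
    by_contra hcon
    exact hk fun _ => not_le.1 hcon
  have t1 : Tendsto (fun k => vec (u k) (y k)) om (𝓝 (U (UL.mk y hyb))) := by
    have h4 : Tendsto (fun k => (fun a => u k a (y k) : Fin 4 → ℝ)) om
        (𝓝 fun a => U (UL.mk y hyb) a) := by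
      rw [tendsto_pi_nhds]
      exact fun a => hC.lim a y hyb hY8
    exact ((PiLp.continuous_toLp 2 _).tendsto _).comp h4
  have h5 : U (UL.mk y hyb) ∈ closedBall z r := isClosed_closedBall.mem_of_tendsto t1 h2
  have t2 := UL.tendsto_dist hyb (e.symm z).bd_rep
  rw [UL.mk_rep] at t2
  have h6 : 2 * r ≤ dist (UL.mk y hyb) (e.symm z) := ge_of_tendsto t2 h3
  have h7 := dist_symm_le hC hY4 hz4
  rw [hUz] at h7
  have h8 := mem_closedBall.1 h5
  linarith

end final

end Crest.Agent.R249.BD281
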