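import Crest.Agent.R249.UH3_544
import Crest.Agent.R249.St1_174

/-!
# R249 (helper174), D3-LIM/CH, pieces: scale invariant volume bounds of the ultralimit, supports

* `chart_R` : near isometric charts from volume pinching, `Ric ≥ 0`, all scales `R` (constants
  independent of `R`);
* `ul_chart_R` : the same for the ultralimit, at a point `UL.mk x hx`, with `VolLow`;
* `spOut` : `SpOut` from the convergence of the maps and the injectivity of the limit.
-/

set_option autoImplicit false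
noncomputable section
open Set Filter Topology MeasureTheory Metric
open scoped ContDiff Manifold ENNReal NNReal
open Bundle Crest.GeometryTopology.CoordMetric Crest.GeometryTopology.ChartCurvature
  Crest.GeometryTopology.PointedLimit

namespace Crest.Agent.R249.Ch174

universe u

open Crest.Agent.R247 Crest.Agent.R249.UH1_544 Crest.Agent.R249.UH3_544 Crest.Agent.R249.Ul174
open Crest.Agent.R247.Scal386 Crest.Agent.R249.LimDef41 Crest.Agent.R249.AsmD832

/-- **one manifold**, scale invariant form for `Ric ≥ 0` -/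
theorem chart_R (n : ℕ) (η : ℝ) (hη : 0 < η) :
    ∃ c : ℝ, 0 < c ∧ ∃ δ : ℝ, 0 < δ ∧
    ∀ (M : Type u) [MetricSpace M] [CompleteSpace M] [ConnectedSpace M]
      [ChartedSpace (EuclideanSpace ℝ (Fin n)) M]
      [IsManifold 𝓘(ℝ, EuclideanSpace ℝ (Fin n)) ∞ M]
      [RiemannianBundle (fun x : M => TangentSpace 𝓘(ℝ, EuclideanSpace ℝ (Fin n)) x)]
      [IsContMDiffRiemannianBundle 𝓘(ℝ, EuclideanSpace ℝ (Fin n)) ∞ (EuclideanSpace ℝ (Fin n))
        (fun x : M => TangentSpace 𝓘(ℝ, EuclideanSpace ℝ (Fin n)) x)]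
      [IsRiemannianManifold 𝓘(ℝ, EuclideanSpace ℝ (Fin n)) M]
      [MeasurableSpace M] [BorelSpace M] (q : M) (R : ℝ), 0 < R →
      HasRicciLowerBound n M 0 →
      (∀ x ∈ ball q R, ∀ r : ℝ, 0 < r → r ≤ R →
        ENNReal.ofReal (1 - δ) * volume (ball (0 : EuclideanSpace ℝ (Fin n)) r) ≤
          Measure.euclideanHausdorffMeasure n (ball x r)) →
      ∃ G : M → EuclideanSpace ℝ (Fin n), G q = 0 ∧ NI G q (c * R) η ∧ Full G q (c * R) η := by
  obtain ⟨ε₀, hε₀, hε₀1, hε₀η, hnum⟩ := num n η hη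
  obtain ⟨ρ₀, hρ₀, R₀, hR₀, δ₀, hδ₀, H⟩ :=
    UH2_544.chart_unit.{u} n ε₀ hε₀ hε₀1 (hnum ε₀ hε₀.le le_rfl).1
  have hR₀0 : 0 < R₀ := by linarith
  refine ⟨min (1 / R₀) (1 / 40) * ρ₀, by positivity, δ₀, hδ₀, ?_⟩
  intro M _ _ _ _ _ _ _ _ _ _ q R hR hRic hvol
  set r₀ : ℝ := min (1 / R₀) (1 / 40) * R with hr₀
  have hr₀0 : 0 < r₀ := by positivity
  have hr₀a : r₀ * R₀ ≤ R := by
    have h1 : min (1 / R₀) (1 / 40) ≤ 1 / R₀ := min_le_left _ _
    have h2 : r₀ ≤ 1 / R₀ * R := mul_le_mul_of_nonneg_right h1 hR.le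
    calc r₀ * R₀ ≤ 1 / R₀ * R * R₀ := mul_le_mul_of_nonneg_right h2 hR₀0.le
      _ = R := by field_simp
  have hr₀b : r₀ * 40 ≤ R := by
    have h1 : min (1 / R₀) (1 / 40) ≤ 1 / 40 := min_le_right _ _
    have h2 : r₀ ≤ 1 / 40 * R := mul_le_mul_of_nonneg_right h1 hR.le
    linarith
  have hρe : min (1 / R₀) (1 / 40) * ρ₀ * R = r₀ * ρ₀ := by rw [hr₀]; ring
  rw [hρe]
  set r : {r : ℝ // 0 < r} := ⟨r₀, hr₀0⟩ with hr
  have hRic' : HasRicciLowerBound n (Sc r M) (-δ₀) := by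
    have h1 := ricciLB_sc r hRic
    refine Asm951.ricci_mono ?_ h1
    rw [zero_mul]
    linarith
  have hpin' := Asm951.pinch_sc (n := n) (q := q) (R₀ := R₀) (δ := δ₀) (s₁ := R) (A := 40) r
    hr₀b (fun x hx s hs hs1 => hvol x (ball_subset_ball hr₀a hx) s hs hs1)
  obtain ⟨F, hF1, hF2⟩ := H (Sc r M) (toSc r q) hRic' hpin'
  set G : M → EuclideanSpace ℝ (Fin n) := fun x => r₀ • F (toSc r x) - r₀ • F (toSc r q) with hG
  have hd : ∀ x y : M, dist x y = r₀ * dist (toSc r x) (toSc r y) := by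
    intro x y
    rw [dist_toSc, ← mul_assoc]
    change _ = r₀ * r₀⁻¹ * _
    rw [mul_inv_cancel₀ hr₀0.ne', one_mul]
  have hdG : ∀ x y : M, dist (G x) (G y) = r₀ * dist (F (toSc r x)) (F (toSc r y)) := by
    intro x y
    simp only [hG, dist_sub_right, dist_smul₀, Real.norm_eq_abs, abs_of_pos hr₀0]
  have hmem : ∀ {x y : M} {s : ℝ}, dist x y < r₀ * s → dist (toSc r x) (toSc r y) < s := by
    intro x y s h
    rw [hd] at h
    exact lt_of_mul_lt_mul_left h hr₀0.le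
  have hmem' : ∀ {x y : M} {s : ℝ}, dist (toSc r x) (toSc r y) < s → dist x y < r₀ * s := by
    intro x y s h
    rw [hd]
    exact mul_lt_mul_of_pos_left h hr₀0
  have hNI : NI G q (r₀ * ρ₀) ε₀ := by
    intro x z hx hz
    have h1 := hF1 (toSc r x) (toSc r z) (hmem hx) (hmem hz)
    rw [hdG, hd x z]
    have h2 : r₀ * dist (F (toSc r x)) (F (toSc r z)) - r₀ * dist (toSc r x) (toSc r z) =
        r₀ * (dist (F (toSc r x)) (F (toSc r z)) - dist (toSc r x) (toSc r z)) := by ring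
    rw [h2, abs_mul, abs_of_pos hr₀0]
    calc _ ≤ r₀ * (ε₀ * dist (toSc r x) (toSc r z)) := mul_le_mul_of_nonneg_left h1 hr₀0.le
      _ = _ := by ring
  have hFull : Full G q (r₀ * ρ₀) ε₀ := by
    intro x s hs hb y hy
    have e1 : s = r₀ * (s / r₀) := by field_simp
    set y' : EuclideanSpace ℝ (Fin n) := r₀⁻¹ • y + F (toSc r q) with hy'
    have e2 : y = r₀ • y' - r₀ • F (toSc r q) := by
      rw [hy', smul_add, smul_inv_smul₀ hr₀0.ne']
      abel
    have e3 : dist (G x) y = r₀ * dist (F (toSc r x)) y' := by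
      rw [e2]
      simp only [hG, dist_sub_right, dist_smul₀, Real.norm_eq_abs, abs_of_pos hr₀0]
    have h1 : dist (F (toSc r x)) y' < (1 - ε₀) * (s / r₀) := by
      rw [e3] at hy
      refine lt_of_mul_lt_mul_left ?_ hr₀0.le
      calc _ < (1 - ε₀) * s := hy
        _ = _ := by field_simp
    obtain ⟨z, hz1, hz2⟩ := hF2 (toSc r x) (s / r₀) (by positivity) (fun w hw => by
      have h2 : dist x (ofSc r w) < s := by
        rw [e1]
        exact hmem' (y := ofSc r w) hw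
      exact hmem (hb _ h2)) y' h1
    refine ⟨ofSc r z, ?_, ?_⟩
    · rw [e1]
      exact hmem' (y := ofSc r z) hz1
    · rw [e2, ← hz2]
      rfl
  exact ⟨G, by simp [hG], hNI.mono le_rfl hε₀η, hFull.mono le_rfl hε₀η⟩

/-- **the ultralimit**, scale invariant form: charts at a point and volumes of the balls -/
theorem ul_chart_R (n : ℕ) (η : ℝ) (hη : 0 < η) :
    ∃ c : ℝ, 0 < c ∧ ∃ δ : ℝ, 0 < δ ∧
    ∀ (M : ℕ → Type u) [∀ k, MetricSpace (M k)] [∀ k, CompleteSpace (M k)]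
      [∀ k, ConnectedSpace (M k)] [∀ k, ChartedSpace (EuclideanSpace ℝ (Fin n)) (M k)]
      [∀ k, IsManifold 𝓘(ℝ, EuclideanSpace ℝ (Fin n)) ∞ (M k)]
      [∀ k, RiemannianBundle (fun x : M k => TangentSpace 𝓘(ℝ, EuclideanSpace ℝ (Fin n)) x)]
      [∀ k, IsContMDiffRiemannianBundle 𝓘(ℝ, EuclideanSpace ℝ (Fin n)) ∞
        (EuclideanSpace ℝ (Fin n))
        (fun x : M k => TangentSpace 𝓘(ℝ, EuclideanSpace ℝ (Fin n)) x)]
      [∀ k, IsRiemannianManifold 𝓘(ℝ, EuclideanSpace ℝ (Fin n)) (M k)]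
      [∀ k, MeasurableSpace (M k)] [∀ k, BorelSpace (M k)] (q x : ∀ k, M k) (hx : Bd q x)
      (R : ℝ), 0 < R → (∀ᶠ k in om, HasRicciLowerBound n (M k) 0) →
      (∀ᶠ k in om, ∀ y ∈ ball (x k) R, ∀ r : ℝ, 0 < r → r ≤ R →
        ENNReal.ofReal (1 - δ) * volume (ball (0 : EuclideanSpace ℝ (Fin n)) r) ≤
          Measure.euclideanHausdorffMeasure n (ball y r)) →
      ∃ G : UL q → EuclideanSpace ℝ (Fin n), G (UL.mk x hx) = 0 ∧
        NI G (UL.mk x hx) (c * R) η ∧ Full G (UL.mk x hx) (c * R) η ∧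
        ∀ [MeasurableSpace (UL q)] [BorelSpace (UL q)],
          VolLow (UL.mk x hx) (c * R) n η ∧ VolUp (UL.mk x hx) (c * R) n η := by
  classical
  obtain ⟨ε₀, hε₀, hε₀1, hε₀η, hnum⟩ := num n η hη
  obtain ⟨c, hc, δ, hδ, H⟩ := chart_R.{u} n ε₀ hε₀
  refine ⟨c, hc, δ, hδ, ?_⟩
  intro M _ _ _ _ _ _ _ _ _ _ q x hx R hR hRic hvol
  have h1 : ∀ k, ∃ G : M k → EuclideanSpace ℝ (Fin n), (HasRicciLowerBound n (M k) 0 ∧
      (∀ y ∈ ball (x k) R, ∀ r : ℝ, 0 < r → r ≤ R →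
        ENNReal.ofReal (1 - δ) * volume (ball (0 : EuclideanSpace ℝ (Fin n)) r) ≤
          Measure.euclideanHausdorffMeasure n (ball y r))) → G (x k) = 0 ∧
          NI G (x k) (c * R) ε₀ ∧ Full G (x k) (c * R) ε₀ := by
    intro k
    by_cases hk : HasRicciLowerBound n (M k) 0 ∧
      (∀ y ∈ ball (x k) R, ∀ r : ℝ, 0 < r → r ≤ R →
        ENNReal.ofReal (1 - δ) * volume (ball (0 : EuclideanSpace ℝ (Fin n)) r) ≤
          Measure.euclideanHausdorffMeasure n (ball y r))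
    · obtain ⟨G, hG⟩ := H (M k) (x k) R hR hk.1 hk.2
      exact ⟨G, fun _ => hG⟩
    · exact ⟨fun _ => 0, fun h2 => absurd h2 hk⟩
  choose G hG using h1
  have h2 : ∀ᶠ k in om, G k (x k) = 0 ∧ NI (G k) (x k) (c * R) ε₀ ∧
      Full (G k) (x k) (c * R) ε₀ := by
    filter_upwards [hRic, hvol] with k hk1 hk2
    exact hG k ⟨hk1, hk2⟩
  have e0 : ∀ᶠ k in om, G k (x k) = 0 := h2.mono fun k hk => hk.1
  have e1 : ∀ᶠ k in om, NI (G k) (x k) (c * R) ε₀ := h2.mono fun k hk => hk.2.1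
  have e2 : ∀ᶠ k in om, Full (G k) (x k) (c * R) ε₀ := h2.mono fun k hk => hk.2.2
  have hcR : 0 < c * R := by positivity
  have h3 : NI (UL.flim G) (UL.base x) (c * R) ε₀ := ni_flim e0 e1
  have h4 : Full (UL.flim G) (UL.base x) (c * R) ε₀ := full_flim (by linarith) e0 e1 e2
  have h5 : UL.flim G (UL.base x) = 0 := flim_base hcR e0 e1
  -- transport to `UL q`
  set T : UL q ≃ᵢ UL x := UL.rebase hx with hT
  have hTx : T (UL.mk x hx) = UL.base x := UL.rebase_base hx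
  have h3' : NI (fun y => UL.flim G (T y)) (UL.mk x hx) (c * R) ε₀ := by
    intro y z hy hz
    have h6 := h3 (T y) (T z) (by rw [← hTx, T.dist_eq]; exact hy)
      (by rw [← hTx, T.dist_eq]; exact hz)
    rwa [T.dist_eq] at h6
  have h4' : Full (fun y => UL.flim G (T y)) (UL.mk x hx) (c * R) ε₀ := by
    intro y s hs hb w hw
    obtain ⟨z, hz1, hz2⟩ := h4 (T y) s hs (fun z hz => by
      have h6 : dist y (T.symm z) < s := by
        rw [← T.dist_eq, T.apply_symm_apply]; exact hz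
      have h7 := hb _ h6
      rw [← T.dist_eq, T.apply_symm_apply, hTx] at h7
      exact h7) w hw
    refine ⟨T.symm z, ?_, ?_⟩
    · rw [← T.dist_eq, T.apply_symm_apply]; exact hz1
    · simp only [T.apply_symm_apply]; exact hz2
  refine ⟨fun y => UL.flim G (T y), ?_, h3'.mono le_rfl hε₀η, h4'.mono le_rfl hε₀η, ?_⟩
  · simp only [hTx]; exact h5
  · intro _ _
    constructor
    · intro z s hs hb
      refine le_trans ?_ (h3'.vol_ge hε₀.le (by linarith) h4' hs hb)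
      gcongr
      exact (hnum ε₀ hε₀.le le_rfl).2.1
    · intro z s hs hb
      refine (h3'.vol_le hε₀.le (by linarith) hs hb).trans ?_
      gcongr
      exact (hnum ε₀ hε₀.le le_rfl).2.2


section sp

open Crest.Agent.R249.St174

local notation "𝔼" => EuclideanSpace ℝ (Fin 4)

variable {M : ℕ → Type} [∀ k, MetricSpace (M k)] {q : ∀ k, M k}

/-- **SpOut** from the convergence of the maps and the injectivity of the limit. -/
theorem spOut {x : ∀ k, M k} {hx : Bd q x} {R r₀ : ℝ} {u : ∀ k, Fin 4 → M k → ℝ}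
    {U : UL q → EuclideanSpace ℝ (Fin 4)}
    {e : OpenPartialHomeomorph (UL q) (EuclideanSpace ℝ (Fin 4))} (hr : 0 < r₀) (hR : r₀ < R)
    (hlim : ∀ a, LimOn (ball (UL.mk x hx) R) (fun k => u k a) fun y => U y a)
    (he : ∀ y, e y = U y) (hsrc : e.source = ball (UL.mk x hx) r₀)
    (hni : ∀ y ∈ ball (UL.mk x hx) (4 * r₀), ∀ y' ∈ ball (UL.mk x hx) (4 * r₀),
      |dist (U y) (U y') - dist y y'| ≤ 1 / 10 * dist y y') : SpOut x u r₀ e := by
  have hne : ∀ k, Nonempty (M k) := fun k => ⟨x k⟩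
  intro K hK hKt
  have hK' : IsCompact (e.symm '' K) := hK.image_of_continuousOn (e.continuousOn_symm.mono hKt)
  have hKs : ∀ w ∈ K, dist (e.symm w) (UL.mk x hx) < r₀ := by
    intro w hw
    have h1 := e.map_target (hKt hw)
    rwa [hsrc] at h1
  -- the radius
  obtain ⟨r₂, hr2, hr2'⟩ : ∃ r₂ < r₀, ∀ w ∈ K, dist (e.symm w) (UL.mk x hx) ≤ r₂ := by
    rcases K.eq_empty_or_nonempty with h0 | h0
    · exact ⟨r₀ / 2, by linarith, by simp [h0]⟩
    · obtain ⟨y, hy, hmax⟩ := hK'.exists_isMaxOn (h0.image _)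
        (continuous_id.dist (continuous_const (y := UL.mk x hx))).continuousOn
      obtain ⟨w, hw, rfl⟩ := hy
      exact ⟨dist (e.symm w) (UL.mk x hx), hKs w hw, fun w' hw' => hmax ⟨w', hw', rfl⟩⟩
  refine ⟨max ((r₂ + r₀) / 2) (r₀ / 2), lt_max_of_lt_right (by linarith),
    max_lt (by linarith) (by linarith), ?_⟩
  set r₁ : ℝ := max ((r₂ + r₀) / 2) (r₀ / 2) with hr₁
  have hr21 : r₂ < r₁ := lt_of_lt_of_le (by linarith) (le_max_left _ _)
  have key := ev_forall (M := M) (S := fun k => {y | y ∈ closedBall (x k) r₀ ∧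
    (WithLp.toLp 2 fun a => u k a y : 𝔼) ∈ K}) (P := fun k y => y ∈ closedBall (x k) r₁) (by
    intro y hy
    have hy1 : ∀ᶠ k in om, y k ∈ closedBall (x k) r₀ := hy.mono fun k hk => hk.1
    have hy2 : ∀ᶠ k in om, (WithLp.toLp 2 fun a => u k a (y k) : 𝔼) ∈ K := hy.mono fun k hk => hk.2
    have hyb := bd_of_closedBall hx hy1
    have hY := mem_closedBall_mk hx hyb hy1
    have hYR : UL.mk y hyb ∈ ball (UL.mk x hx) R := by
      rw [mem_ball]; exact (mem_closedBall.1 hY).trans_lt hR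
    have h1 : Tendsto (fun k => (WithLp.toLp 2 fun a => u k a (y k) : 𝔼)) om
        (𝓝 (U (UL.mk y hyb))) := by
      have h2 : Tendsto (fun k => (fun a => u k a (y k) : Fin 4 → ℝ)) om
          (𝓝 fun a => U (UL.mk y hyb) a) := by
        rw [tendsto_pi_nhds]
        exact fun a => hlim a y hyb hYR
      exact ((PiLp.continuous_toLp 2 _).tendsto _).comp h2
    have h2 : U (UL.mk y hyb) ∈ K := hK.isClosed.mem_of_tendsto h1 hy2
    set Y' := e.symm (U (UL.mk y hyb)) with hY'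
    have h3 : U Y' = U (UL.mk y hyb) := by rw [← he, hY', e.right_inv (hKt h2)]
    have h4 := hni (UL.mk y hyb) (by
      rw [mem_ball]; exact (mem_closedBall.1 hY).trans_lt (by linarith)) Y' (by
      rw [mem_ball]; exact (hKs _ h2).trans (by linarith))
    rw [h3, dist_self, zero_sub, abs_neg, abs_of_nonneg dist_nonneg] at h4
    have h5 : dist (UL.mk y hyb) Y' ≤ 0 := by
      have := dist_nonneg (x := UL.mk y hyb) (y := Y')
      linarith
    have h6 : UL.mk y hyb = Y' := dist_le_zero.1 h5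
    have h7 : dist (UL.mk y hyb) (UL.mk x hx) < r₁ := by
      rw [h6]
      exact (hr2' _ h2).trans_lt hr21
    have h8 : ∀ᶠ k in om, dist (y k) (x k) < r₁ := UL.ev_lt hyb hx h7
    exact h8.mono fun k hk => hk.le)
  exact key.mono fun k hk y hy hyK => hk y ⟨hy, hyK⟩

end sp

end Crest.Agent.R249.Ch174
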