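import Crest.Agent.R249.Fin5_832
import Crest.Agent.R249.Ch1_174
import Crest.Agent.R249.Vf6_281

/-!
R249 / D3-LIM / BD (helper41).  Geometric lemmas for the fields of `Lim41.LData`: the Euclidean balls in
the target come from small balls of `M k`; the measures; the Hölder continuity of `h ∘ e.symm`.
-/

set_option autoImplicit false
set_option maxSynthPendingDepth 3
noncomputable section
open Set Filter Topology Bundle MeasureTheory Metric
open scoped ContDiff Manifold ENNReal NNReal Matrix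
open Crest.GeometryTopology.CoordMetric Crest.GeometryTopology.ChartCurvature
  Crest.GeometryTopology.RicciEnergy Crest.GeometryTopology.PointedLimit
open Crest.Agent.R247.Bo84
open Crest.Agent.R249.D1Def104 Crest.Agent.R249.Ul174 Crest.Agent.R249.Len47
open Crest.Agent.R249.AsmD832 Crest.Agent.R249.LimDef41
open Crest.Agent.R249.St174 (ev_forall bd_of_closedBall mem_closedBall_mk)

namespace Crest.Agent.R249.BD41

local notation "𝔼" => EuclideanSpace ℝ (Fin 4)

section seq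

variable {M : ℕ → Type} [∀ k, MetricSpace (M k)] {q : ∀ k, M k}

/-- the map into `ℝ⁴` -/
def uu (u : ∀ k, Fin 4 → M k → ℝ) (k : ℕ) (y : M k) : 𝔼 := WithLp.toLp 2 fun a => u k a y

theorem lim_uu {S : Set (UL q)} {u : ∀ k, Fin 4 → M k → ℝ} {U : UL q → 𝔼}
    (hlim : ∀ a, LimOn S (fun k => u k a) fun y => U y a) {y : ∀ k, M k} (hy : Bd q y)
    (hS : UL.mk y hy ∈ S) : Tendsto (fun k => uu u k (y k)) om (𝓝 (U (UL.mk y hy))) := by
  have h2 : Tendsto (fun k => (fun a => u k a (y k) : Fin 4 → ℝ)) om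
      (𝓝 fun a => U (UL.mk y hy) a) := by
    rw [tendsto_pi_nhds]
    exact fun a => hlim a y hy hS
  exact ((PiLp.continuous_toLp 2 _).tendsto _).comp h2

end seq

section seq

variable {M : ℕ → Type} [∀ k, MetricSpace (M k)]
  [∀ k, ChartedSpace (EuclideanSpace ℝ (Fin 4)) (M k)]
  [∀ k, IsManifold 𝓘(ℝ, EuclideanSpace ℝ (Fin 4)) ∞ (M k)]
  [∀ k, RiemannianBundle (fun x : M k => TangentSpace 𝓘(ℝ, EuclideanSpace ℝ (Fin 4)) x)]
  [∀ k, IsContMDiffRiemannianBundle 𝓘(ℝ, EuclideanSpace ℝ (Fin 4)) ∞ (EuclideanSpace ℝ (Fin 4))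
    (fun x : M k => TangentSpace 𝓘(ℝ, EuclideanSpace ℝ (Fin 4)) x)]
  [∀ k, MeasurableSpace (M k)] [∀ k, BorelSpace (M k)] {q : ∀ k, M k}

variable {x : ∀ k, M k} {hx : Bd q x} {ρ : ℝ} {u : ∀ k, Fin 4 → M k → ℝ}
  {h : UL q → Matrix (Fin 4) (Fin 4) ℝ} {r₀ : ℝ} {U : UL q → EuclideanSpace ℝ (Fin 4)}
  {e : OpenPartialHomeomorph (UL q) (EuclideanSpace ℝ (Fin 4))}

theorem symm_mem (hC : ChOut x hx ρ u h r₀ U e) {z : 𝔼} (hz : z ∈ e.target) :
    e.symm z ∈ ball (UL.mk x hx) r₀ := by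
  rw [← hC.source]; exact e.map_target hz

theorem U_symm (hC : ChOut x hx ρ u h r₀ U e) {z : 𝔼} (hz : z ∈ e.target) :
    U (e.symm z) = z := by
  rw [← hC.eq, e.right_inv hz]

theorem dist_symm_le (hC : ChOut x hx ρ u h r₀ U e) {z w : 𝔼} (hz : z ∈ e.target)
    (hw : w ∈ e.target) : dist (e.symm z) (e.symm w) ≤ 10 / 9 * dist z w := by
  have hr := hC.r_pos
  have h1 := hC.ni (e.symm z) (ball_subset_ball (by linarith) (symm_mem hC hz)) (e.symm w)
    (ball_subset_ball (by linarith) (symm_mem hC hw))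
  rw [U_symm hC hz, U_symm hC hw] at h1
  have := (abs_le.1 h1).1
  linarith

theorem le_dist_symm (hC : ChOut x hx ρ u h r₀ U e) {z w : 𝔼} (hz : z ∈ e.target)
    (hw : w ∈ e.target) : dist z w ≤ 11 / 10 * dist (e.symm z) (e.symm w) := by
  have hr := hC.r_pos
  have h1 := hC.ni (e.symm z) (ball_subset_ball (by linarith) (symm_mem hC hz)) (e.symm w)
    (ball_subset_ball (by linarith) (symm_mem hC hw))
  rw [U_symm hC hz, U_symm hC hw] at h1
  have := (abs_le.1 h1).2
  linarith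

/-- balls in the target are small -/
theorem rad_le (hC : ChOut x hx ρ u h r₀ U e) {z : 𝔼} {r : ℝ} (hr : 0 < r)
    (hz : closedBall z r ⊆ e.target) : r ≤ 11 / 10 * r₀ := by
  set v : 𝔼 := EuclideanSpace.single 0 r with hv
  have hvn : ‖v‖ = r := by rw [hv, EuclideanSpace.norm_single, Real.norm_eq_abs, abs_of_pos hr]
  have h1 : z + v ∈ closedBall z r := by
    rw [mem_closedBall, dist_eq_norm, add_sub_cancel_left, hvn]
  have h2 : z - v ∈ closedBall z r := by
    rw [mem_closedBall, dist_eq_norm, sub_sub_cancel_left, norm_neg, hvn]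
  have h3 := le_dist_symm hC (hz h1) (hz h2)
  have h4 : dist (z + v) (z - v) = 2 * r := by
    rw [dist_eq_norm, add_sub_sub_cancel, ← two_smul ℝ v, norm_smul, hvn]; norm_num
  have h5 := mem_ball.1 (symm_mem hC (hz h1))
  have h6 := mem_ball.1 (symm_mem hC (hz h2))
  have h7 := dist_triangle_right (e.symm (z + v)) (e.symm (z - v)) (UL.mk x hx)
  rw [h4] at h3
  linarith

/-- Euclidean balls in the target pull back into small balls -/
theorem pull_ball (hC : ChOut x hx ρ u h r₀ U e) {z : 𝔼} {r : ℝ} (hr : 0 < r)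
    (hz : closedBall z r ⊆ e.target) :
    ∀ᶠ k in om, ∀ y ∈ closedBall (x k) r₀, uu u k y ∈ closedBall z r →
      y ∈ ball ((e.symm z).rep k) (2 * r) := by
  have hne : ∀ k, Nonempty (M k) := fun k => ⟨x k⟩
  have hr₀ := hC.r_pos
  have hzt : z ∈ e.target := hz (mem_closedBall_self hr.le)
  have key := ev_forall (M := M) (S := fun k => {y | y ∈ closedBall (x k) r₀ ∧
    uu u k y ∈ closedBall z r}) (P := fun k y => y ∈ ball ((e.symm z).rep k) (2 * r)) (by
    intro y hy
    have hy1 : ∀ᶠ k in om, y k ∈ closedBall (x k) r₀ := hy.mono fun k hk => hk.1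
    have hy2 : ∀ᶠ k in om, uu u k (y k) ∈ closedBall z r := hy.mono fun k hk => hk.2
    have hyb := bd_of_closedBall hx hy1
    have hY := mem_closedBall_mk hx hyb hy1
    have hρ := hC.r_le
    have hYR : UL.mk y hyb ∈ ball (UL.mk x hx) (8 * ρ) := by
      rw [mem_ball]; exact (mem_closedBall.1 hY).trans_lt (by linarith)
    have h1 := lim_uu hC.lim hyb hYR
    have h2 : U (UL.mk y hyb) ∈ closedBall z r := isClosed_closedBall.mem_of_tendsto h1 hy2
    have h3 := hC.ni (UL.mk y hyb) (by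
      rw [mem_ball]; exact (mem_closedBall.1 hY).trans_lt (by linarith)) (e.symm z)
      (ball_subset_ball (by linarith) (symm_mem hC hzt))
    rw [U_symm hC hzt] at h3
    have h4 := (abs_le.1 h3).1
    have h5 := mem_closedBall.1 h2
    have h6 : dist (UL.mk y hyb) (e.symm z) < 2 * r := by linarith
    have h7 : dist (UL.mk y hyb) (UL.mk (e.symm z).rep (e.symm z).bd_rep) < 2 * r := by
      rwa [UL.mk_rep]
    exact UL.ev_lt hyb (e.symm z).bd_rep h7)
  exact key.mono fun k hk y hy hyK => hk y ⟨hy, hyK⟩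

/-- representatives of points of the chart domain -/
theorem rep_mem (hC : ChOut x hx ρ u h r₀ U e) {z : 𝔼} (hz : z ∈ e.target) :
    ∀ᶠ k in om, (e.symm z).rep k ∈ ball (x k) r₀ := by
  have h1 := mem_ball.1 (symm_mem hC hz)
  have h2 : dist (UL.mk (e.symm z).rep (e.symm z).bd_rep) (UL.mk x hx) < r₀ := by
    rwa [UL.mk_rep]
  exact UL.ev_lt (e.symm z).bd_rep hx h2

/-- Hölder continuity of `h` in the chart -/
theorem hold_symm {α C' ε₁ : ℝ} (hα : 0 ≤ α) (hC0 : 0 ≤ C') (hA : AvOut x hx ρ α C' ε₁ u h)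
    (hC : ChOut x hx ρ u h r₀ U e) {z w : 𝔼} (hz : z ∈ e.target) (hw : w ∈ e.target)
    (a b : Fin 4) :
    |h (e.symm z) a b - h (e.symm w) a b| ≤ C' * (10 / 9) ^ α * dist z w ^ α := by
  have hr := hC.r_pos
  have hρ := hC.r_le
  refine (hA.hold _ (ball_subset_ball (by linarith) (symm_mem hC hz)) _
    (ball_subset_ball (by linarith) (symm_mem hC hw)) a b).trans ?_
  rw [mul_assoc, ← Real.mul_rpow (by norm_num) dist_nonneg]
  refine mul_le_mul_of_nonneg_left ?_ hC0
  exact Real.rpow_le_rpow dist_nonneg (dist_symm_le hC hz hw) hα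

theorem near_symm {α C' ε₁ : ℝ} (hA : AvOut x hx ρ α C' ε₁ u h) (hε : ε₁ ≤ 1 / 8)
    (hC : ChOut x hx ρ u h r₀ U e) {z : 𝔼} (hz : z ∈ e.target) :
    Crest.Agent.R249.LPt_191.N1 (h (e.symm z) - 1) ≤ 1 / 8 := by
  have hr := hC.r_pos
  have hρ := hC.r_le
  refine le_trans (le_of_eq ?_) ((hA.near _ (ball_subset_ball (by linarith)
    (symm_mem hC hz))).trans hε)
  unfold Crest.Agent.R249.LPt_191.N1
  refine Finset.sum_congr rfl fun a _ => Finset.sum_congr rfl fun b _ => ?_
  rw [Matrix.sub_apply, Matrix.one_apply]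

end seq

end Crest.Agent.R249.BD41
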