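import Crest.Agent.R249.BDa_41
import Crest.Agent.R249.Sta6_397

/-!
R249 / D3-LIM / BD (helper41).  The good indices, the measures, the maps; fields `base`, `wc_one`,
`sc_F`, `F_meas`, `F_bdd`, `P_mem`, `P_bdd`, `D_*`, `H11` of `Lim41.LData`.
-/

set_option autoImplicit false
set_option maxSynthPendingDepth 3
noncomputable section
open Set Filter Topology Bundle MeasureTheory Metric
open scoped ContDiff Manifold ENNReal NNReal Matrix
open Crest.GeometryTopology.CoordMetric Crest.GeometryTopology.ChartCurvature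
  Crest.GeometryTopology.RicciEnergy Crest.GeometryTopology.PointedLimit
open Crest.Agent.R247.Bo84
open Crest.Agent.R249.D1Def104 Crest.Agent.R249.Ul174 Crest.Agent.R249.Len47
open Crest.Agent.R249.AsmD832 Crest.Agent.R249.LimDef41
open Crest.Agent.R249.St174 (ev_forall bd_of_closedBall mem_closedBall_mk om4 om4_pos)

namespace Crest.Agent.R249.BD41

local notation "𝔼" => EuclideanSpace ℝ (Fin 4)

section one

variable {M : Type} [MetricSpace M] [CompleteSpace M] [ConnectedSpace M]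
  [ChartedSpace (EuclideanSpace ℝ (Fin 4)) M]
  [IsManifold 𝓘(ℝ, EuclideanSpace ℝ (Fin 4)) ∞ M]
  [RiemannianBundle (fun x : M => TangentSpace 𝓘(ℝ, EuclideanSpace ℝ (Fin 4)) x)]
  [IsContMDiffRiemannianBundle 𝓘(ℝ, EuclideanSpace ℝ (Fin 4)) ∞ (EuclideanSpace ℝ (Fin 4))
    (fun x : M => TangentSpace 𝓘(ℝ, EuclideanSpace ℝ (Fin 4)) x)]
  [IsRiemannianManifold 𝓘(ℝ, EuclideanSpace ℝ (Fin 4)) M]
  [MeasurableSpace M] [BorelSpace M]

/-- a good manifold -/
structure Gd (x : M) (ρ α C lam lamk : ℝ) (u : Fin 4 → M → ℝ) : Prop where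
  ric : HasRicciLowerBound 4 M 0
  smooth : ∀ a, ContMDiffOn 𝓘(ℝ, 𝔼) 𝓘(ℝ, ℝ) ∞ (u a) (ball x (16 * ρ))
  harm : ∀ a, ∀ p ∈ ball x (16 * ρ), mLap 4 (u a) p = 0 ∧ mGam 4 (u a) (u a) p ≤ 4
  hess : ∫ z in ball x (8 * ρ), ∑ a, mHessSq 4 (u a) z ∂(μHE[4] : Measure M) ≤
    C * (8 * ρ) ^ (2 + 2 * α)
  l4 : ∫ z in ball x (8 * ρ), ∑ a, mHessSq 4 (u a) z ^ 2 ∂(μHE[4] : Measure M) ≤ C
  ricdev : ∫⁻ z in ball x (16 * ρ), ENNReal.ofReal (mRicDev 4 M lamk z)
    ∂(μHE[4] : Measure M) ≤ 1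
  lam_bd : |lamk| ≤ lam + 1

variable {x : M} {ρ α C lam lamk : ℝ} {u : Fin 4 → M → ℝ}

/-- the sum of the Hessians -/
def HH (u : Fin 4 → M → ℝ) (p : M) : ℝ := ∑ a, mHessSq 4 (u a) p

namespace Gd

variable (g : Gd x ρ α C lam lamk u)
include g

theorem smAt {p : M} (hp : p ∈ ball x (16 * ρ)) (a : Fin 4) :
    ContMDiffAt 𝓘(ℝ, 𝔼) 𝓘(ℝ, ℝ) ∞ (u a) p := (g.smooth a).contMDiffAt (isOpen_ball.mem_nhds hp)

theorem smAt2 {p : M} (hp : p ∈ ball x (16 * ρ)) (a : Fin 4) :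
    ContMDiffAt 𝓘(ℝ, 𝔼) 𝓘(ℝ, ℝ) 2 (u a) p := (g.smAt hp a).of_le two_le_infty

theorem smF {p : M} (hp : p ∈ ball x (16 * ρ)) (a b : Fin 4) :
    ContMDiffAt 𝓘(ℝ, 𝔼) 𝓘(ℝ, ℝ) ∞ (mGam 4 (u a) (u b)) p :=
  contMDiffAt_mGam (m := ∞) (g.smAt hp a) (g.smAt hp b) (by simp) le_rfl

theorem hs_nonneg {p : M} (hp : p ∈ ball x (16 * ρ)) (a : Fin 4) : 0 ≤ mHessSq 4 (u a) p :=
  mHessSq_nonneg (g.smAt2 hp a)

theorem HH_nonneg {p : M} (hp : p ∈ ball x (16 * ρ)) : 0 ≤ HH u p :=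
  Finset.sum_nonneg fun a _ => g.hs_nonneg hp a

theorem hs_le {p : M} (hp : p ∈ ball x (16 * ρ)) (a : Fin 4) : mHessSq 4 (u a) p ≤ HH u p :=
  Finset.single_le_sum (f := fun a => mHessSq 4 (u a) p) (fun a _ => g.hs_nonneg hp a)
    (Finset.mem_univ a)

theorem F_le {p : M} (hp : p ∈ ball x (16 * ρ)) (a b : Fin 4) :
    |mGam 4 (u a) (u b) p| ≤ 4 := by
  have h1 := mGam_sq_le (n := 4) (u a) (u b) p
  have h2 := (g.harm a p hp).2
  have h3 := (g.harm b p hp).2
  have h4 := mGam_self_nonneg (n := 4) (u a) p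
  have h5 := mGam_self_nonneg (n := 4) (u b) p
  refine abs_le_of_sq_le_sq ?_ (by norm_num)
  nlinarith

theorem D_le {p : M} (hp : p ∈ ball x (16 * ρ)) (a b : Fin 4) :
    mGam 4 (mGam 4 (u a) (u b)) (mGam 4 (u a) (u b)) p ≤ 16 * HH u p := by
  have h1 := Crest.Agent.R249.Vf281.mGam_mGam_self_le (g.smAt2 hp a) (g.smAt2 hp b)
  have h2 := (g.harm a p hp).2
  have h3 := (g.harm b p hp).2
  have h4 := g.hs_nonneg hp a
  have h5 := g.hs_nonneg hp b
  have h6 := g.hs_le hp a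
  have h7 := g.hs_le hp b
  nlinarith

theorem P_sq_le {p : M} (hp : p ∈ ball x (16 * ρ)) (a b c : Fin 4) :
    mGam 4 (mGam 4 (u a) (u b)) (u c) p ^ 2 ≤ 64 * HH u p := by
  have h1 := mGam_sq_le (n := 4) (mGam 4 (u a) (u b)) (u c) p
  have h2 := g.D_le hp a b
  have h3 := (g.harm c p hp).2
  have h4 := mGam_self_nonneg (n := 4) (u c) p
  have h5 := mGam_self_nonneg (n := 4) (mGam 4 (u a) (u b)) p
  nlinarith

theorem cont_F (a b : Fin 4) : ContinuousOn (mGam 4 (u a) (u b)) (ball x (16 * ρ)) :=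
  fun _ hp => (g.smF hp a b).continuousAt.continuousWithinAt

theorem cont_P (a b c : Fin 4) :
    ContinuousOn (mGam 4 (mGam 4 (u a) (u b)) (u c)) (ball x (16 * ρ)) := fun _ hp =>
  (contMDiffAt_mGam (m := ∞) (g.smF hp a b) (g.smAt hp c) (by simp)
    le_rfl).continuousAt.continuousWithinAt

theorem cont_D (a b : Fin 4) :
    ContinuousOn (mGam 4 (mGam 4 (u a) (u b)) (mGam 4 (u a) (u b))) (ball x (16 * ρ)) :=
  fun _ hp => (contMDiffAt_mGam (m := ∞) (g.smF hp a b) (g.smF hp a b) (by simp)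
    le_rfl).continuousAt.continuousWithinAt

theorem cont_G (a b : Fin 4) :
    ContinuousOn (mLap 4 (mGam 4 (u a) (u b))) (ball x (16 * ρ)) :=
  fun _ hp => (contMDiffAt_mLap (m := ∞) (g.smF hp a b) (by simp)
    le_rfl).continuousAt.continuousWithinAt

theorem cont_HH : ContinuousOn (HH u) (ball x (16 * ρ)) := by
  unfold HH
  refine continuousOn_finsetSum _ fun a _ => fun z hz => ?_
  exact (Crest.Agent.R247.Bs84.continuousAt_mHessSq (g.smAt2 hz a)).continuousWithinAt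

end Gd

omit [CompleteSpace M] [ConnectedSpace M]
  [IsRiemannianManifold 𝓘(ℝ, EuclideanSpace ℝ (Fin 4)) M] in
/-- measurability on subballs -/
theorem aesm_of_cont {f : M → ℝ} {S O : Set M} (hf : ContinuousOn f O) (hS : MeasurableSet S)
    (hSO : S ⊆ O) : AEStronglyMeasurable f ((μHE[4] : Measure M).restrict S) :=
  (hf.mono hSO).aestronglyMeasurable hS

/-- bounded functions, continuous on the closed ball, are integrable -/
theorem integrableOn_of_cont {f : M → ℝ} {O : Set M} (hf : ContinuousOn f O) {y : M} {r : ℝ}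
    (hr : closedBall y r ⊆ O) : IntegrableOn f (ball y r) (μHE[4] : Measure M) := by
  have hpr : ProperSpace M := Crest.Agent.R247.HR216.properSpace_of_riemannian 4 M
  have hlf : IsLocallyFiniteMeasure (μHE[4] : Measure M) :=
    Crest.Agent.R247.GluM923.isLocallyFinite 4 M
  exact ((hf.mono hr).integrableOn_compact (isCompact_closedBall y r)).mono_set
    ball_subset_closedBall

end one

section seq

variable {M : ℕ → Type} [∀ k, MetricSpace (M k)] [∀ k, CompleteSpace (M k)]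
  [∀ k, ConnectedSpace (M k)]
  [∀ k, ChartedSpace (EuclideanSpace ℝ (Fin 4)) (M k)]
  [∀ k, IsManifold 𝓘(ℝ, EuclideanSpace ℝ (Fin 4)) ∞ (M k)]
  [∀ k, RiemannianBundle (fun x : M k => TangentSpace 𝓘(ℝ, EuclideanSpace ℝ (Fin 4)) x)]
  [∀ k, IsContMDiffRiemannianBundle 𝓘(ℝ, EuclideanSpace ℝ (Fin 4)) ∞ (EuclideanSpace ℝ (Fin 4))
    (fun x : M k => TangentSpace 𝓘(ℝ, EuclideanSpace ℝ (Fin 4)) x)]
  [∀ k, IsRiemannianManifold 𝓘(ℝ, EuclideanSpace ℝ (Fin 4)) (M k)]
  [∀ k, MeasurableSpace (M k)] [∀ k, BorelSpace (M k)] {q : ∀ k, M k}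

variable {x : ∀ k, M k} {hx : Bd q x} {ρ α C C' ε ε₁ δ lam : ℝ} {lamk : ℕ → ℝ}
  {u : ∀ k, Fin 4 → M k → ℝ}
  {h : UL q → Matrix (Fin 4) (Fin 4) ℝ} {r₀ : ℝ} {U : UL q → EuclideanSpace ℝ (Fin 4)}
  {e : OpenPartialHomeomorph (UL q) (EuclideanSpace ℝ (Fin 4))}

/-- the good indices -/
def Gk (x : ∀ k, M k) (ρ α C lam : ℝ) (lamk : ℕ → ℝ) (u : ∀ k, Fin 4 → M k → ℝ) (k : ℕ) : Prop :=
  Gd (x k) ρ α C lam (lamk k) (u k)

theorem ev_Gk (H : HData x ρ α C ε δ lam lamk u) : ∀ᶠ k in om, Gk x ρ α C lam lamk u k := by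
  have hρ := H.ρ_pos
  have h1 : ∀ᶠ k in om, |lamk k| ≤ lam + 1 := by
    have h2 : ∀ᶠ k in om, |lamk k - lam| < 1 := by
      have := (Metric.tendsto_nhds.1 H.lamk_lim) 1 one_pos
      simpa [Real.dist_eq] using this
    filter_upwards [h2] with k hk
    have h3 := abs_lt.1 hk
    have h4 := H.lam_nonneg
    rw [abs_le]
    constructor <;> linarith
  have h2 : ∀ᶠ k in om, ∫⁻ z in ball (x k) (16 * ρ), ENNReal.ofReal (mRicDev 4 (M k) (lamk k) z)
      ∂(μHE[4] : Measure (M k)) ≤ 1 := by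
    have := H.ricdev.eventually (gt_mem_nhds (show (0 : ℝ≥0∞) < 1 by simp))
    exact this.mono fun k hk => hk.le
  filter_upwards [H.ric, H.smooth, H.harm, H.hess (8 * ρ) (by positivity), H.l4, h1, h2]
    with k a1 a2 a3 a4 a5 a6 a7
  exact ⟨a1, a2, a3, a4 (x k) (mem_ball_self (by positivity)) (8 * ρ) le_rfl le_rfl, a5, a7, a6⟩

open Classical in
/-- the measures -/
def mm (x : ∀ k, M k) (ρ α C lam : ℝ) (lamk : ℕ → ℝ) (u : ∀ k, Fin 4 → M k → ℝ) (r₀ : ℝ)
    (k : ℕ) : Measure (M k) :=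
  if Gk x ρ α C lam lamk u k then (μHE[4] : Measure (M k)).restrict (ball (x k) r₀) else 0

open Classical in
/-- the maps -/
def vv (x : ∀ k, M k) (ρ α C lam : ℝ) (lamk : ℕ → ℝ) (u : ∀ k, Fin 4 → M k → ℝ)
    (k : ℕ) : M k → 𝔼 :=
  if Gk x ρ α C lam lamk u k then (ball (x k) (16 * ρ)).piecewise (uu u k) (fun _ => 0)
  else fun _ => 0

theorem mm_of {k : ℕ} (hk : Gk x ρ α C lam lamk u k) :
    mm x ρ α C lam lamk u r₀ k = (μHE[4] : Measure (M k)).restrict (ball (x k) r₀) := if_pos hk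

theorem mm_of_not {k : ℕ} (hk : ¬ Gk x ρ α C lam lamk u k) :
    mm x ρ α C lam lamk u r₀ k = 0 := if_neg hk

theorem vv_of {k : ℕ} (hk : Gk x ρ α C lam lamk u k) {y : M k} (hy : y ∈ ball (x k) (16 * ρ)) :
    vv x ρ α C lam lamk u k y = uu u k y := by
  classical
  unfold vv
  rw [if_pos hk, Set.piecewise_eq_of_mem _ _ _ hy]

theorem vv_meas (k : ℕ) : Measurable (vv x ρ α C lam lamk u k) := by
  classical
  unfold vv
  split_ifs with hk
  · refine ContinuousOn.measurable_piecewise ?_ continuousOn_const measurableSet_ball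
    intro y hy
    have h1 : ContinuousAt (fun y => (fun a => u k a y : Fin 4 → ℝ)) y := by
      rw [continuousAt_pi]
      exact fun a => (hk.smAt hy a).continuousAt
    exact ((PiLp.continuous_toLp 2 _).continuousAt.comp h1).continuousWithinAt
  · exact measurable_const

theorem sub16 (H : HData x ρ α C ε δ lam lamk u) (hC : ChOut x hx ρ u h r₀ U e) (k : ℕ) :
    ball (x k) r₀ ⊆ ball (x k) (16 * ρ) := by
  have := H.ρ_pos
  have := hC.r_le
  exact ball_subset_ball (by linarith)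

theorem csub16 (H : HData x ρ α C ε δ lam lamk u) (hC : ChOut x hx ρ u h r₀ U e) (k : ℕ) :
    closedBall (x k) r₀ ⊆ ball (x k) (16 * ρ) := by
  have := H.ρ_pos
  have := hC.r_le
  exact closedBall_subset_ball (by linarith)

/-- integrals against `mm` -/
theorem int_mm (H : HData x ρ α C ε δ lam lamk u) (hC : ChOut x hx ρ u h r₀ U e) {k : ℕ}
    (hk : Gk x ρ α C lam lamk u k) (Φ : 𝔼 → M k → ℝ) :
    ∫ y, Φ (vv x ρ α C lam lamk u k y) y ∂(mm x ρ α C lam lamk u r₀ k) =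
      ∫ y in ball (x k) r₀, Φ (uu u k y) y ∂(μHE[4] : Measure (M k)) := by
  rw [mm_of hk]
  refine setIntegral_congr_fun measurableSet_ball fun y hy => ?_
  simp only [vv_of hk (sub16 H hC k hy)]

theorem base (H : HData x ρ α C ε δ lam lamk u) (hC : ChOut x hx ρ u h r₀ U e) :
    Lim41.Base e.target (mm x ρ α C lam lamk u r₀) (vv x ρ α C lam lamk u) (om4 * r₀ ^ 4) := by
  have hr := hC.r_pos
  refine ⟨e.open_target, vv_meas, fun k => ?_, fun k => ?_⟩
  · by_cases hk : Gk x ρ α C lam lamk u k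
    · rw [mm_of hk]
      refine ⟨?_⟩
      rw [Measure.restrict_apply_univ]
      exact (Crest.Agent.R249.St174.vol_le hk.ric (x k) hr).trans_lt ENNReal.ofReal_lt_top
    · rw [mm_of_not hk]; infer_instance
  · by_cases hk : Gk x ρ α C lam lamk u k
    · rw [mm_of hk, Measure.real, Measure.restrict_apply_univ]
      exact ENNReal.toReal_le_of_le_ofReal (by have := om4_pos; positivity)
        (Crest.Agent.R249.St174.vol_le hk.ric (x k) hr)
    · rw [mm_of_not hk]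
      have := om4_pos
      simp only [Measure.real, Measure.coe_zero, Pi.zero_apply, ENNReal.toReal_zero]
      positivity

theorem wc_one (H : HData x ρ α C ε δ lam lamk u) (hC : ChOut x hx ρ u h r₀ U e)
    (hM : MsOut x u h r₀ e) :
    Lim41.WC om e.target (mm x ρ α C lam lamk u r₀) (vv x ρ α C lam lamk u) (fun _ _ => 1)
      (fun y => (√(h (e.symm y)).det)⁻¹) := by
  intro φ hφ
  refine (hM φ hφ).congr' ?_
  filter_upwards [ev_Gk H] with k hk
  have := int_mm (r₀ := r₀) H hC hk (fun v _ => φ v * 1)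
  simp only [mul_one] at this ⊢
  rw [this]
  rfl

theorem sc_F (H : HData x ρ α C ε δ lam lamk u) (hC : ChOut x hx ρ u h r₀ U e)
    (hS : StOut x u h r₀ e) (a b : Fin 4) :
    Lim41.SC om e.target (mm x ρ α C lam lamk u r₀) (vv x ρ α C lam lamk u)
      (fun k y => mGam 4 (u k a) (u k b) y) (fun y => h (e.symm y) a b) := by
  intro φ hφ
  refine (hS φ hφ a b).congr' ?_
  filter_upwards [ev_Gk H] with k hk
  have := int_mm (r₀ := r₀) H hC hk (fun v y => ‖φ v • (mGam 4 (u k a) (u k b) y -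
    h (e.symm v) a b)‖)
  rw [this]
  rfl

/-- almost everywhere statements -/
theorem ae_mm (H : HData x ρ α C ε δ lam lamk u) (hC : ChOut x hx ρ u h r₀ U e) (k : ℕ)
    {p : M k → Prop} (hp : Gk x ρ α C lam lamk u k → ∀ y ∈ ball (x k) r₀, p y) :
    ∀ᵐ y ∂(mm x ρ α C lam lamk u r₀ k), p y := by
  by_cases hk : Gk x ρ α C lam lamk u k
  · rw [mm_of hk, ae_restrict_iff' measurableSet_ball]
    exact Eventually.of_forall fun y hy => hp hk y hy
  · rw [mm_of_not hk]; simp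

theorem aesm_mm (H : HData x ρ α C ε δ lam lamk u) (hC : ChOut x hx ρ u h r₀ U e) (k : ℕ)
    {f : M k → ℝ} (hf : Gk x ρ α C lam lamk u k → ContinuousOn f (ball (x k) (16 * ρ))) :
    AEStronglyMeasurable f (mm x ρ α C lam lamk u r₀ k) := by
  by_cases hk : Gk x ρ α C lam lamk u k
  · rw [mm_of hk]
    exact aesm_of_cont (hf hk) measurableSet_ball (sub16 H hC k)
  · rw [mm_of_not hk]; exact aestronglyMeasurable_zero_measure _

theorem int_mm' (H : HData x ρ α C ε δ lam lamk u) (hC : ChOut x hx ρ u h r₀ U e) (k : ℕ)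
    {f : M k → ℝ} (hf : Gk x ρ α C lam lamk u k → ContinuousOn f (ball (x k) (16 * ρ))) :
    Integrable f (mm x ρ α C lam lamk u r₀ k) := by
  by_cases hk : Gk x ρ α C lam lamk u k
  · rw [mm_of hk]
    exact integrableOn_of_cont (hf hk) (csub16 H hC k)
  · rw [mm_of_not hk]; exact integrable_zero_measure

theorem memLp_mm (H : HData x ρ α C ε δ lam lamk u) (hC : ChOut x hx ρ u h r₀ U e) (k : ℕ)
    {f : M k → ℝ} (hf : Gk x ρ α C lam lamk u k → ContinuousOn f (ball (x k) (16 * ρ))) :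
    MemLp f 2 (mm x ρ α C lam lamk u r₀ k) := by
  rw [memLp_two_iff_integrable_sq (aesm_mm H hC k hf)]
  exact int_mm' H hC k fun hk => (hf hk).pow 2

theorem F_bdd (H : HData x ρ α C ε δ lam lamk u) (hC : ChOut x hx ρ u h r₀ U e) (k : ℕ) :
    ∀ᵐ y ∂(mm x ρ α C lam lamk u r₀ k), ∀ a b, |mGam 4 (u k a) (u k b) y| ≤ 4 :=
  ae_mm H hC k fun hk _ hy a b => hk.F_le (sub16 H hC k hy) a b

/-- the bound of integrals by the Hessians -/
theorem int_le_HH (H : HData x ρ α C ε δ lam lamk u) (hC : ChOut x hx ρ u h r₀ U e) (k : ℕ)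
    {f : M k → ℝ} {c : ℝ} (hc : 0 ≤ c)
    (hf : Gk x ρ α C lam lamk u k → ContinuousOn f (ball (x k) (16 * ρ)))
    (hfc : Gk x ρ α C lam lamk u k → ∀ y ∈ ball (x k) (16 * ρ), f y ≤ c * HH (u k) y) :
    ∫ y, f y ∂(mm x ρ α C lam lamk u r₀ k) ≤ c * (C * (8 * ρ) ^ (2 + 2 * α)) := by
  have hρ := H.ρ_pos
  have hC0 := H.C_pos
  by_cases hk : Gk x ρ α C lam lamk u k
  · rw [mm_of hk]
    have h8 : closedBall (x k) (8 * ρ) ⊆ ball (x k) (16 * ρ) :=
      closedBall_subset_ball (by linarith)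
    have h08 : ball (x k) r₀ ⊆ ball (x k) (8 * ρ) := by
      have := hC.r_le
      exact ball_subset_ball (by linarith)
    have i1 : IntegrableOn (fun y => c * HH (u k) y) (ball (x k) (8 * ρ))
        (μHE[4] : Measure (M k)) := (integrableOn_of_cont hk.cont_HH h8).const_mul c
    calc ∫ y in ball (x k) r₀, f y ∂(μHE[4] : Measure (M k))
        ≤ ∫ y in ball (x k) r₀, c * HH (u k) y ∂(μHE[4] : Measure (M k)) := by
          apply setIntegral_mono_on (integrableOn_of_cont (hf hk) (csub16 H hC k))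
            (i1.mono_set h08) measurableSet_ball
          exact fun y hy => hfc hk y (sub16 H hC k hy)
      _ ≤ ∫ y in ball (x k) (8 * ρ), c * HH (u k) y ∂(μHE[4] : Measure (M k)) := by
          refine setIntegral_mono_set i1 ?_ h08.eventuallyLE
          rw [EventuallyLE, ae_restrict_iff' measurableSet_ball]
          exact Eventually.of_forall fun y hy =>
            mul_nonneg hc (hk.HH_nonneg (h8 (ball_subset_closedBall hy)))
      _ = c * ∫ y in ball (x k) (8 * ρ), HH (u k) y ∂(μHE[4] : Measure (M k)) :=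
          integral_const_mul _ _
      _ ≤ _ := mul_le_mul_of_nonneg_left hk.hess hc
  · rw [mm_of_not hk, integral_zero_measure]
    positivity

theorem P_bdd (H : HData x ρ α C ε δ lam lamk u) (hC : ChOut x hx ρ u h r₀ U e) (k : ℕ)
    (a b c : Fin 4) :
    ∫ y, mGam 4 (mGam 4 (u k a) (u k b)) (u k c) y ^ 2 ∂(mm x ρ α C lam lamk u r₀ k) ≤
      64 * (C * (8 * ρ) ^ (2 + 2 * α)) :=
  int_le_HH H hC k (by norm_num) (fun hk => (hk.cont_P a b c).pow 2)
    fun hk y hy => hk.P_sq_le hy a b c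

theorem D_bdd (H : HData x ρ α C ε δ lam lamk u) (hC : ChOut x hx ρ u h r₀ U e) (k : ℕ)
    (a b : Fin 4) :
    ∫ y, |mGam 4 (mGam 4 (u k a) (u k b)) (mGam 4 (u k a) (u k b)) y|
      ∂(mm x ρ α C lam lamk u r₀ k) ≤ 16 * (C * (8 * ρ) ^ (2 + 2 * α)) :=
  int_le_HH H hC k (by norm_num) (fun hk => (hk.cont_D a b).abs)
    fun hk y hy => by
      rw [abs_of_nonneg (mGam_self_nonneg _ _)]
      exact hk.D_le hy a b

/-- the Morrey bound -/
theorem morrey (H : HData x ρ α C ε δ lam lamk u) (hC : ChOut x hx ρ u h r₀ U e) {z : 𝔼}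
    {r : ℝ} (hr : 0 < r) (hz : closedBall z r ⊆ e.target) (a b c : Fin 4) :
    ∀ᶠ k in om, ∫ y in (vv x ρ α C lam lamk u k) ⁻¹' ball z r,
      mGam 4 (mGam 4 (u k a) (u k b)) (u k c) y ^ 2 ∂(mm x ρ α C lam lamk u r₀ k) ≤
      64 * C * 2 ^ (2 + 2 * α) * r ^ (((4 : ℕ) : ℝ) - 2 + 2 * α) := by
  have hρ := H.ρ_pos
  have hr₀ := hC.r_pos
  have hrρ := hC.r_le
  have hzt : z ∈ e.target := hz (mem_closedBall_self hr.le)
  have hrr := rad_le hC hr hz
  filter_upwards [ev_Gk H, pull_ball hC hr hz, rep_mem hC hzt,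
    H.hess (2 * r) (by positivity)] with k hk hpull hrep hhess
  set w := (e.symm z).rep k with hw
  have hw8 : w ∈ ball (x k) (8 * ρ) := ball_subset_ball (by linarith) hrep
  have h1 := hhess w hw8 (2 * r) le_rfl (by linarith)
  have hbs : closedBall w (2 * r) ⊆ ball (x k) (16 * ρ) := by
    intro y hy
    rw [mem_closedBall] at hy
    rw [mem_ball] at hrep ⊢
    have := dist_triangle y w (x k)
    linarith
  have i1 : IntegrableOn (fun y => 64 * HH (u k) y) (ball w (2 * r))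
      (μHE[4] : Measure (M k)) := (integrableOn_of_cont hk.cont_HH hbs).const_mul _
  have i2 : IntegrableOn (fun y => mGam 4 (mGam 4 (u k a) (u k b)) (u k c) y ^ 2)
      (ball (x k) r₀) (μHE[4] : Measure (M k)) :=
    integrableOn_of_cont ((hk.cont_P a b c).pow 2) (csub16 H hC k)
  have hSm : MeasurableSet ((vv x ρ α C lam lamk u k) ⁻¹' ball z r) :=
    vv_meas k measurableSet_ball
  rw [mm_of hk, Measure.restrict_restrict hSm]
  have hsub : (vv x ρ α C lam lamk u k) ⁻¹' ball z r ∩ ball (x k) r₀ ⊆ ball w (2 * r) := by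
    rintro y ⟨hy1, hy2⟩
    refine hpull y (ball_subset_closedBall hy2) ?_
    have : vv x ρ α C lam lamk u k y ∈ ball z r := hy1
    rw [vv_of hk (sub16 H hC k hy2)] at this
    exact ball_subset_closedBall this
  calc ∫ y in (vv x ρ α C lam lamk u k) ⁻¹' ball z r ∩ ball (x k) r₀,
        mGam 4 (mGam 4 (u k a) (u k b)) (u k c) y ^ 2 ∂(μHE[4] : Measure (M k))
      ≤ ∫ y in (vv x ρ α C lam lamk u k) ⁻¹' ball z r ∩ ball (x k) r₀,
        64 * HH (u k) y ∂(μHE[4] : Measure (M k)) := by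
        apply setIntegral_mono_on (i2.mono_set inter_subset_right) (i1.mono_set hsub)
          (hSm.inter measurableSet_ball)
        exact fun y hy => hk.P_sq_le (sub16 H hC k hy.2) a b c
    _ ≤ ∫ y in ball w (2 * r), 64 * HH (u k) y ∂(μHE[4] : Measure (M k)) := by
        refine setIntegral_mono_set i1 ?_ hsub.eventuallyLE
        rw [EventuallyLE, ae_restrict_iff' measurableSet_ball]
        exact Eventually.of_forall fun y hy =>
          mul_nonneg (by norm_num) (hk.HH_nonneg (hbs (ball_subset_closedBall hy)))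
    _ = 64 * ∫ y in ball w (2 * r), HH (u k) y ∂(μHE[4] : Measure (M k)) :=
        integral_const_mul _ _
    _ ≤ 64 * (C * (2 * r) ^ (2 + 2 * α)) := mul_le_mul_of_nonneg_left h1 (by norm_num)
    _ = _ := by
        rw [Real.mul_rpow (by norm_num) hr.le]
        have : ((4 : ℕ) : ℝ) - 2 + 2 * α = 2 + 2 * α := by push_cast; ring
        rw [this]
        ring

end seq

end Crest.Agent.R249.BD41
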