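import Crest.Agent.R249.BDb_41

/-!
R249 / D3-LIM / BD (helper41).  Green identities `H4`-`H7` and the pointwise identities `H9D`, `H9G`
of `Lim41.LData`.
-/

set_option autoImplicit false
set_option maxSynthPendingDepth 3
noncomputable section
open Set Filter Topology Bundle MeasureTheory Metric
open scoped ContDiff Manifold ENNReal NNReal Matrix
open Crest.GeometryTopology.CoordMetric Crest.GeometryTopology.ChartCurvature
  Crest.GeometryTopology.RicciEnergy Crest.GeometryTopology.PointedLimit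
open Crest.Agent.R247.Bo84
open Crest.Agent.R249.D1Def104 Crest.Agent.R249.Ul174 Crest.Agent.R249.Len47
open Crest.Agent.R249.AsmD832 Crest.Agent.R249.LimDef41
open Crest.Agent.R249.Vf281 (Tst FF PP SS RR Fm kosz sFun eFun)
open Crest.Agent.R249.LPt_191 (N1 sS kos)

namespace Crest.Agent.R249.BD41

local notation "𝔼" => EuclideanSpace ℝ (Fin 4)

section seq

variable {M : ℕ → Type} [∀ k, MetricSpace (M k)] [∀ k, CompleteSpace (M k)]
  [∀ k, ConnectedSpace (M k)]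
  [∀ k, ChartedSpace (EuclideanSpace ℝ (Fin 4)) (M k)]
  [∀ k, IsManifold 𝓘(ℝ, EuclideanSpace ℝ (Fin 4)) ∞ (M k)]
  [∀ k, RiemannianBundle (fun x : M k => TangentSpace 𝓘(ℝ, EuclideanSpace ℝ (Fin 4)) x)]
  [∀ k, IsContMDiffRiemannianBundle 𝓘(ℝ, EuclideanSpace ℝ (Fin 4)) ∞ (EuclideanSpace ℝ (Fin 4))
    (fun x : M k => TangentSpace 𝓘(ℝ, EuclideanSpace ℝ (Fin 4)) x)]
  [∀ k, IsRiemannianManifold 𝓘(ℝ, EuclideanSpace ℝ (Fin 4)) (M k)]
  [∀ k, MeasurableSpace (M k)] [∀ k, BorelSpace (M k)] {q : ∀ k, M k}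

variable {x : ∀ k, M k} {hx : Bd q x} {ρ α C C' ε ε₁ δ lam : ℝ} {lamk : ℕ → ℝ}
  {u : ∀ k, Fin 4 → M k → ℝ}
  {h : UL q → Matrix (Fin 4) (Fin 4) ℝ} {r₀ : ℝ} {U : UL q → EuclideanSpace ℝ (Fin 4)}
  {e : OpenPartialHomeomorph (UL q) (EuclideanSpace ℝ (Fin 4))}

/-- the test data -/
theorem ev_tst (H : HData x ρ α C ε δ lam lamk u) (hC : ChOut x hx ρ u h r₀ U e)
    (hS : SpOut x u r₀ e) {φ : 𝔼 → ℝ} (hφ : Lim41.CS e.target φ) :
    ∀ᶠ k in om, ∃ K : Set (M k), Tst 4 (ball (x k) r₀) K (uu u k) φ := by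
  obtain ⟨r₁, -, hr1, hK⟩ := hS (tsupport φ) hφ.comp hφ.supp
  filter_upwards [hK, ev_Gk H] with k hk hg
  have hpr : ProperSpace (M k) := Crest.Agent.R247.HR216.properSpace_of_riemannian 4 (M k)
  exact ⟨closedBall (x k) r₁,
    { isOpen := isOpen_ball
      isCompact := isCompact_closedBall _ _
      sub := closedBall_subset_ball hr1
      smooth_u := fun z hz c => hg.smAt (sub16 H hC k hz) c
      smooth_φ := hφ.smooth
      mem := fun z hz hzφ => hk z (ball_subset_closedBall hz) hzφ }⟩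

/-- `φ(u)` is continuous on the ball -/
theorem cont_φ {k : ℕ} (hk : Gk x ρ α C lam lamk u k) {φ : 𝔼 → ℝ} (hφ : Continuous φ) :
    ContinuousOn (fun y => φ (uu u k y)) (ball (x k) (16 * ρ)) := by
  intro y hy
  have h1 : ContinuousAt (fun y => (fun a => u k a y : Fin 4 → ℝ)) y := by
    rw [continuousAt_pi]
    exact fun a => (hk.smAt hy a).continuousAt
  have h2 : ContinuousAt (uu u k) y := (PiLp.continuous_toLp 2 _).continuousAt.comp h1
  exact (hφ.continuousAt.comp h2).continuousWithinAt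

theorem H4 (H : HData x ρ α C ε δ lam lamk u) (hC : ChOut x hx ρ u h r₀ U e)
    (hS : SpOut x u r₀ e) (c : Fin 4) {φ : 𝔼 → ℝ} (hφ : Lim41.CS e.target φ) :
    ∀ᶠ k in om, ∫ y, ∑ d, pderiv d φ (vv x ρ α C lam lamk u k y) * mGam 4 (u k d) (u k c) y
      ∂(mm x ρ α C lam lamk u r₀ k) = 0 := by
  filter_upwards [ev_Gk H, ev_tst H hC hS hφ] with k hk ⟨K, T⟩
  have hne : Nonempty (M k) := ⟨x k⟩
  have hsc : SecondCountableTopology (M k) :=
    Crest.Agent.R247.HR216.secondCountable_of_riemannian 4 (M k)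
  have e1 := int_mm (r₀ := r₀) H hC hk (fun v y => ∑ d, pderiv d φ v * mGam 4 (u k d) (u k c) y)
  rw [e1]
  have h1 := (T.integral_ibp (h := u k c) (fun z hz => hk.smAt2 (sub16 H hC k hz) c)).2.2
  have h2 : ∫ z in ball (x k) r₀, φ (uu u k z) * mLap 4 (u k c) z ∂(μHE[4] : Measure (M k)) =
      0 := by
    rw [setIntegral_congr_fun (g := fun _ => (0 : ℝ)) measurableSet_ball fun z hz => by
      simp only [(hk.harm c z (sub16 H hC k hz)).1, mul_zero]]
    simp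
  rw [h2, neg_zero] at h1
  exact h1

theorem H5 (H : HData x ρ α C ε δ lam lamk u) (hC : ChOut x hx ρ u h r₀ U e)
    (hS : SpOut x u r₀ e) (a b c : Fin 4) {φ : 𝔼 → ℝ} (hφ : Lim41.CS e.target φ) :
    ∀ᶠ k in om, ∫ y, φ (vv x ρ α C lam lamk u k y) * mGam 4 (mGam 4 (u k a) (u k b)) (u k c) y
      ∂(mm x ρ α C lam lamk u r₀ k) =
      - ∫ y, mGam 4 (u k a) (u k b) y * ∑ d, pderiv d φ (vv x ρ α C lam lamk u k y) *
        mGam 4 (u k d) (u k c) y ∂(mm x ρ α C lam lamk u r₀ k) := by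
  filter_upwards [ev_Gk H, ev_tst H hC hS hφ] with k hk ⟨K, T⟩
  have hne : Nonempty (M k) := ⟨x k⟩
  have hsc : SecondCountableTopology (M k) :=
    Crest.Agent.R247.HR216.secondCountable_of_riemannian 4 (M k)
  have e1 := int_mm (r₀ := r₀) H hC hk
    (fun v y => φ v * mGam 4 (mGam 4 (u k a) (u k b)) (u k c) y)
  have e2 := int_mm (r₀ := r₀) H hC hk (fun v y => mGam 4 (u k a) (u k b) y *
    ∑ d, pderiv d φ v * mGam 4 (u k d) (u k c) y)
  rw [e1, e2]
  exact (T.c2 (fun z hz c => (hk.harm c z (sub16 H hC k hz)).1) a b c).2.2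

theorem H6 (H : HData x ρ α C ε δ lam lamk u) (hC : ChOut x hx ρ u h r₀ U e)
    (hS : SpOut x u r₀ e) (a b : Fin 4) {φ : 𝔼 → ℝ} (hφ : Lim41.CS e.target φ) :
    ∀ᶠ k in om, ∫ y, ∑ c, pderiv c φ (vv x ρ α C lam lamk u k y) *
      mGam 4 (mGam 4 (u k a) (u k b)) (u k c) y ∂(mm x ρ α C lam lamk u r₀ k) =
      - ∫ y, φ (vv x ρ α C lam lamk u k y) * mLap 4 (mGam 4 (u k a) (u k b)) y
        ∂(mm x ρ α C lam lamk u r₀ k) := by
  filter_upwards [ev_Gk H, ev_tst H hC hS hφ] with k hk ⟨K, T⟩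
  have hne : Nonempty (M k) := ⟨x k⟩
  have hsc : SecondCountableTopology (M k) :=
    Crest.Agent.R247.HR216.secondCountable_of_riemannian 4 (M k)
  have e1 := int_mm (r₀ := r₀) H hC hk
    (fun v y => ∑ c, pderiv c φ v * mGam 4 (mGam 4 (u k a) (u k b)) (u k c) y)
  have e2 := int_mm (r₀ := r₀) H hC hk (fun v y => φ v * mLap 4 (mGam 4 (u k a) (u k b)) y)
  rw [e1, e2]
  have h1 := (T.integral_ibp (h := mGam 4 (u k a) (u k b))
    (fun z hz => (hk.smF (sub16 H hC k hz) a b).of_le two_le_infty)).2.2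
  rw [← h1]
  refine setIntegral_congr_fun measurableSet_ball fun z _ => ?_
  refine Finset.sum_congr rfl fun c _ => ?_
  rw [mGam_comm]
  rfl

theorem H7 (H : HData x ρ α C ε δ lam lamk u) (hC : ChOut x hx ρ u h r₀ U e)
    (hS : SpOut x u r₀ e) (a b : Fin 4) {φ : 𝔼 → ℝ} (hφ : Lim41.CS e.target φ) :
    ∀ᶠ k in om, ∫ y, φ (vv x ρ α C lam lamk u k y) *
      mGam 4 (mGam 4 (u k a) (u k b)) (mGam 4 (u k a) (u k b)) y
        ∂(mm x ρ α C lam lamk u r₀ k) =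
      - (∫ y, φ (vv x ρ α C lam lamk u k y) * (mGam 4 (u k a) (u k b) y *
        mLap 4 (mGam 4 (u k a) (u k b)) y) ∂(mm x ρ α C lam lamk u r₀ k)) -
      ∫ y, mGam 4 (u k a) (u k b) y * ∑ c, pderiv c φ (vv x ρ α C lam lamk u k y) *
        mGam 4 (mGam 4 (u k a) (u k b)) (u k c) y ∂(mm x ρ α C lam lamk u r₀ k) := by
  filter_upwards [ev_Gk H, ev_tst H hC hS hφ] with k hk ⟨K, T⟩
  have hne : Nonempty (M k) := ⟨x k⟩
  have hsc : SecondCountableTopology (M k) :=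
    Crest.Agent.R247.HR216.secondCountable_of_riemannian 4 (M k)
  have e1 := int_mm (r₀ := r₀) H hC hk
    (fun v y => φ v * mGam 4 (mGam 4 (u k a) (u k b)) (mGam 4 (u k a) (u k b)) y)
  have e2 := int_mm (r₀ := r₀) H hC hk (fun v y => φ v * (mGam 4 (u k a) (u k b) y *
        mLap 4 (mGam 4 (u k a) (u k b)) y))
  have e3 := int_mm (r₀ := r₀) H hC hk (fun v y => mGam 4 (u k a) (u k b) y *
    ∑ c, pderiv c φ v * mGam 4 (mGam 4 (u k a) (u k b)) (u k c) y)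
  rw [e1, e2, e3]
  have hF2 : ∀ z ∈ ball (x k) r₀, ContMDiffAt 𝓘(ℝ, 𝔼) 𝓘(ℝ, ℝ) 2 (mGam 4 (u k a) (u k b)) z :=
    fun z hz => (hk.smF (sub16 H hC k hz) a b).of_le two_le_infty
  have h1 := (T.integral_green (f := mGam 4 (u k a) (u k b)) (h := mGam 4 (u k a) (u k b))
    (fun z hz => (hF2 z hz).of_le (by norm_num)) hF2).2.2
  have i1 : IntegrableOn (fun z => φ (uu u k z) * (mGam 4 (u k a) (u k b) z *
        mLap 4 (mGam 4 (u k a) (u k b)) z)) (ball (x k) r₀) (μHE[4] : Measure (M k)) :=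
    integrableOn_of_cont ((cont_φ hk hφ.cc.cont).mul ((hk.cont_F a b).mul (hk.cont_G a b)))
      (csub16 H hC k)
  have i2 : IntegrableOn (fun z => φ (uu u k z) *
      mGam 4 (mGam 4 (u k a) (u k b)) (mGam 4 (u k a) (u k b)) z) (ball (x k) r₀)
      (μHE[4] : Measure (M k)) :=
    integrableOn_of_cont ((cont_φ hk hφ.cc.cont).mul (hk.cont_D a b)) (csub16 H hC k)
  have h2 : ∫ z in ball (x k) r₀, φ (uu u k z) * (mGam 4 (u k a) (u k b) z *
        mLap 4 (mGam 4 (u k a) (u k b)) z +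
        mGam 4 (mGam 4 (u k a) (u k b)) (mGam 4 (u k a) (u k b)) z)
        ∂(μHE[4] : Measure (M k)) =
      (∫ z in ball (x k) r₀, φ (uu u k z) * (mGam 4 (u k a) (u k b) z *
        mLap 4 (mGam 4 (u k a) (u k b)) z) ∂(μHE[4] : Measure (M k))) +
      ∫ z in ball (x k) r₀, φ (uu u k z) *
        mGam 4 (mGam 4 (u k a) (u k b)) (mGam 4 (u k a) (u k b)) z
        ∂(μHE[4] : Measure (M k)) := by
    rw [← integral_add i1 i2]
    congr 1
    ext z
    ring
  rw [h2] at h1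
  have h3 : ∫ z in ball (x k) r₀, mGam 4 (u k a) (u k b) z * ∑ c, pderiv c φ (uu u k z) *
        mGam 4 (fun q => uu u k q c) (mGam 4 (u k a) (u k b)) z ∂(μHE[4] : Measure (M k)) =
      ∫ z in ball (x k) r₀, mGam 4 (u k a) (u k b) z * ∑ c, pderiv c φ (uu u k z) *
        mGam 4 (mGam 4 (u k a) (u k b)) (u k c) z ∂(μHE[4] : Measure (M k)) := by
    refine setIntegral_congr_fun measurableSet_ball fun z _ => ?_
    simp only
    congr 1
    refine Finset.sum_congr rfl fun c _ => ?_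
    rw [mGam_comm]
    rfl
  rw [h3] at h1
  linarith

/-! ### pointwise identities -/

theorem eFun_eq {n : ℕ} (G : Matrix (Fin n) (Fin n) ℝ) (P : Fin n → Fin n → Fin n → ℝ)
    (a b : Fin n) : eFun G P a b = ∑ c, ∑ d, G⁻¹ c d * P a b c * P a b d := by
  unfold eFun
  refine Finset.sum_congr rfl fun c _ => Finset.sum_congr rfl fun d _ => ?_
  ring

theorem sFun_eq {n : ℕ} (G : Matrix (Fin n) (Fin n) ℝ) (P : Fin n → Fin n → Fin n → ℝ)
    (a b : Fin n) : sFun G P a b = sS G P a b := by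
  unfold sFun sS
  refine Finset.sum_congr rfl fun c _ => ?_
  rw [Finset.sum_comm]
  refine Finset.sum_congr rfl fun d _ => Finset.sum_congr rfl fun c' _ =>
    Finset.sum_congr rfl fun d' _ => ?_
  have h1 : ∀ a b c, kosz P a b c = kos P a b c := fun _ _ _ => rfl
  rw [h1, h1]
  ring

/-- the Gram matrix -/
def Fk (u : ∀ k, Fin 4 → M k → ℝ) (k : ℕ) (y : M k) : Matrix (Fin 4) (Fin 4) ℝ :=
  Matrix.of fun a b => mGam 4 (u k a) (u k b) y

theorem H9D (H : HData x ρ α C ε δ lam lamk u) (hC : ChOut x hx ρ u h r₀ U e) (k : ℕ) :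
    ∀ᵐ y ∂(mm x ρ α C lam lamk u r₀ k), N1 (Fk u k y - 1) ≤ 1 / 4 → ∀ a b,
      mGam 4 (mGam 4 (u k a) (u k b)) (mGam 4 (u k a) (u k b)) y =
        ∑ c, ∑ d, (Fk u k y)⁻¹ c d * mGam 4 (mGam 4 (u k a) (u k b)) (u k c) y *
          mGam 4 (mGam 4 (u k a) (u k b)) (u k d) y := by
  refine ae_mm H hC k fun hk y hy hN a b => ?_
  have hdet : (Fk u k y).det ≠ 0 :=
    Crest.Agent.R249.LPt_191.det_ne_zero (lt_of_le_of_lt hN (by norm_num))
  have h1 := Crest.Agent.R249.Vf281.mGam_FF_eq_eFun (u := uu u k) (z := y) hdet a b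
  rw [eFun_eq] at h1
  exact h1

theorem H9G (H : HData x ρ α C ε δ lam lamk u) (hC : ChOut x hx ρ u h r₀ U e) (k : ℕ) :
    ∀ᵐ y ∂(mm x ρ α C lam lamk u r₀ k), N1 (Fk u k y - 1) ≤ 1 / 4 → ∀ a b,
      mLap 4 (mGam 4 (u k a) (u k b)) y =
        2 * sS (Fk u k y) (fun a b c => mGam 4 (mGam 4 (u k a) (u k b)) (u k c) y) a b +
        2 * RR 4 (uu u k) a b y := by
  refine ae_mm H hC k fun hk y hy hN a b => ?_
  have hdet : (Fk u k y).det ≠ 0 :=
    Crest.Agent.R249.LPt_191.det_ne_zero (lt_of_le_of_lt hN (by norm_num))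
  have h1 := Crest.Agent.R249.Vf281.mLap_FF (u := uu u k) (O := ball (x k) (16 * ρ)) (z := y)
    isOpen_ball (fun z hz c => (hk.smAt hz c).of_le three_le_infty)
    (fun z hz c => (hk.harm c z hz).1) (sub16 H hC k hy) a b
  have h2 := Crest.Agent.R249.Vf281.SS_eq_sFun (u := uu u k) (z := y)
    (fun c => hk.smAt2 (sub16 H hC k hy) c) hdet a b
  rw [sFun_eq] at h2
  rw [h2] at h1
  exact h1

end seq

end Crest.Agent.R249.BD41
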