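import Crest.Agent.R249.Qr_285
import Crest.Agent.R249.Par6_493
import Crest.Agent.R249.B2Fin_474

/-!
# R249 (helper285): T-III and the assembly of S0383 from ST and T-I

`tIII : TIII Qp RP`; `germ_data` : the hypotheses of `Par6_493` from the functions on `M`;
`s0383Oriented_of_TI`.
-/

set_option autoImplicit false
set_option maxSynthPendingDepth 3

open Filter Topology Set Bundle
open scoped ContDiff Manifold
open Crest.GeometryTopology.CoordMetric Crest.GeometryTopology.ChartCurvature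
open Crest.Agent.R202.Tens Crest.Agent.R247.Bo84 Crest.Agent.R249.FrmB_285
open Crest.Agent.R249.FrmC_285 Crest.Agent.R249.FrmD_285 Crest.Agent.R249.OriD_285
open Crest.Agent.R249.Fr129 Crest.Agent.R249.Sg129
open Crest.Agent.R249.Trw_285 Crest.Agent.R249.Trx_285 Crest.Agent.R249.Qr_285

noncomputable section

namespace Crest.Agent.R249.Bc_285

local notation "E4" => EuclideanSpace ℝ (Fin 4)

section

variable {M : Type*} [TopologicalSpace M] [ChartedSpace (EuclideanSpace ℝ (Fin 4)) M]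
  [IsManifold 𝓘(ℝ, EuclideanSpace ℝ (Fin 4)) ∞ M]
  [RiemannianBundle (fun x : M => TangentSpace 𝓘(ℝ, EuclideanSpace ℝ (Fin 4)) x)]
  [IsContMDiffRiemannianBundle 𝓘(ℝ, EuclideanSpace ℝ (Fin 4)) ∞ (EuclideanSpace ℝ (Fin 4))
      (fun x : M => TangentSpace 𝓘(ℝ, EuclideanSpace ℝ (Fin 4)) x)]

theorem mLap_const {f : M → ℝ} {a : ℝ} (h : ∀ x, f x = a) (p : M) : mLap 4 f p = 0 := by
  have h1 : inCh 4 p f = fun _ => a := by
    funext y
    exact h _
  rw [mLap, h1, lap_const]

/-- the ring data of one positive orthonormal frame germ at every point. -/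
theorem germ_data (hO : Oriented 4 M) (c : ℝ) (p : M) :
    ∃ e : Fin 4 → E4 → E4,
      ∃ h : ONF (chartMetric 4 M p) (chartAt E4 p).target (chartAt E4 p p) e,
        ev (h.frameOf.qq (algebraMap ℝ _ c)) = mInv (Qp c) p ∧
        ev (h.frameOf.lap0 (h.frameOf.qq (algebraMap ℝ _ c))) = mLap 4 (mInv (Qp c)) p ∧
        ev (h.frameOf.flip.qq (algebraMap ℝ _ c)) = mInv (Qm Qp c) p ∧
        ev (h.frameOf.lap0 (h.frameOf.flip.qq (algebraMap ℝ _ c))) =
          mLap 4 (mInv (Qm Qp c)) p := by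
  obtain ⟨e, h, hpos⟩ := exists_onf (n := 4) p (centre_mem (n := 4) p)
  obtain ⟨h1, h2, -⟩ := dict hO (qfp c) p h hpos
  obtain ⟨h3, h4, -⟩ := dict hO (qfm c) p h hpos
  rw [cond_lap0] at h2 h4
  exact ⟨e, h, h1, h2, h3, h4⟩

end

/-- **T-III.** -/
theorem tIII : TIII Qp B2Fin_474.RP := by
  intro N _ _ _ _ _ _ _ _ hO c hc hE hK hq
  refine Par6_493.caseIII hc hE fun p => ?_
  obtain ⟨e, h, h1, h2, h3, h4⟩ := germ_data hO c p
  refine ⟨e, h, ?_, ?_, ?_, ?_⟩
  · rw [h1]; exact (hq p).1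
  · rw [h2]; exact mLap_const (fun x => (hq x).1) p
  · rw [h3]; exact (hq p).2
  · rw [h4]; exact mLap_const (fun x => (hq x).2) p

/-- **S0383 (oriented) from part A and T-I.** -/
theorem s0383Oriented_of_TI (hST : Top49.ST.{0}) (hTI : TI Qp B2Fin_474.RS B2Fin_474.RC) :
    OriE_285.S0383Oriented :=
  Asm49.s0383Oriented_of hST (bc_of' tIII hTI) B2Fin_474.covS B2Fin_474.covC B2Fin_474.covP

end Crest.Agent.R249.Bc_285
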