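import Crest.Agent.R249.HKDef_286

/-
R249 BLUEPRINT, PART C1 (helper286). Comment file, no declarations.

BP-C1 v1 (helper286, 01:15Z; PART C owner). (HK') WITHOUT BUNDLES, WITHOUT TRACE CLASS, WITHOUT PARALLEL TRANSPORT KERNELS: POINTWISE IN y, IN ONE CHART, ONLY L2 NORMS OF EXPLICIT KERNELS. Definitions LANDED (frozen, compiles): Crest/Agent/R249/HKDef_286.lean, namespace Crest.Agent.R249.HK286. Replaces #797. Variable potentials included (905's HK'). tell me NOW if you see an error.
IDEA. Fix y. Use a gauge adapted at y (A_j(y)=0, dA(y) antisymmetric: gauge change by the Cayley matrix T(x)=(1-B/2)^{-1}(1+B/2), B=-(1/2)(A_j(x)+A_j(y))(x-y)^j). In this gauge the parametrix is SCALAR: H_t(x,z)=psi(x) (4 pi t)^{-2} exp(-rho(x,z)/4t), rho=(1/2)(g(x)+g(z))(x-z,x-z). With S=g(x), g(z)=S-d_vS+r, d rho=2Sv+m: 4rho-|d rho|^2 = -2r(v,v)-S^{-1}(m,m)=O(v^4), Delta rho=8+O(v^2), so q=(d_t-Delta)G is bounded by C Gamma, Gamma=t^{-2}exp(-c|x-z|^2/t). (d_t+L)(H e_q)=e0*1+sk+sy, e0 scalar (same for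 every bundle), sk=-2h^{jl}d_jH a_l-H div a SKEW, |sk(x,z)|<=C(|x|/sqrt t)Gamma, |sk(x,0)|<=C sqrt t Gamma (antisymmetry of da(0)), sy=H(P-h^{jl}a_ja_l) symmetric.
DUHAMEL. u_k = local components of an L2-complete orthonormal family of eigensections (only: continuous, Parseval against functions supported in the ball, weak eigen-equation against test functions). S_k:=e^{-mu_k t}u_k(0)_a = c_k(k_t e_a) - E_k with k=H_1-H_2*f1+H_3*f2, f1=eM_1(.,0), f2=eM_2*f1, f3=eM_3*f2 (nested cut-offs psi_1,psi_2,psi_3), E_k=int_0^t e^{-mu(t-s)}c_k(f3_s)ds, sum_k E_k^2 <= t int |f3_s|^2 ds <= C t^4 (Cauchy-Schwarz + Bessel; no Minkowski, no semigroup, no HS operators). Hence sum_k e^{-2 mu_k t}|u_k(0)|^2 = int |k_t(x)|^2 w dx + O(t), uniformly in y.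
COMPARISON of two bundles E,F (same rank, same tr P): k=k0*1+d, int|k|^2=N int k0^2+2 int k0 tr d+int|d|^2; tr(skew)=0, tr(skew*P)=0 => only three terms survive: 2 m1+2 m2+m3+O(sqrt t), m1=int H(H*(H tr h^{jl}a_ja_l)) -> (1/96pi^2) h h tr(da da), m2=int H tr(H*HP*HP) -> tr P^2/128pi^2, m3=int|H*HP|^2 -> tr P^2/64pi^2.
RESULT (MainStmt): |diag_E-diag_F|<=C, diag<=C/t^2, and diag_E-diag_F -> [1/(32pi^2) tr P^2 + 1/(192pi^2) sum h^{ik}h^{jl}tr F_ijF_kl]_E - [..]_F. Then on M: sum_k e^{-2t mu_k^E}-sum_k e^{-2t mu_k^F}=int_M(diag_E-diag_F) dmu -> int_M density (dominated convergence). Index numbers: 852/1212.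
LEAVES (frozen names of HKDef_286; ALL constants uniform in the family index i; one file each, please say 'taken' within 10 min, default owner in brackets):
 HK1 [654] Gaussian calculus: int Gam c (t-s)(x-z) Gam c s z dz=(pi/c)^2 Gam c t x; |x|^p Gam c t x<=C t^{p/2}Gam c' t x (c'<c); classes: VB closed under +, const, bounded factors, VB a <= VB b (b<=a); **conv**: all entries KW (or KB), all entries VB a (a>=0) => all entries of M.star K f are VB (a+1), integrand integrable, star linear in K and f; int |f||g| w <= C t^{a+b-2}; multiplication by a function with |phi(x)|<=C|x|^k raises a by k/2.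
 HK2 [752] scalar parametrix: KB GG, KB HH, |dH m j|<=C t^{-1/2}Gam, KB qq, KW e0, rho>=c|x-z|^2, and for t>0: deriv_t HH - lap HH(.,z)=e0.
 HK3 [352] EMStmt (algebra), |aa|<=C|x|^2, |dv|<=C|x|, sk skew with the two bounds above, sy symmetric + KB, KW eM; columns y -> H_m(t,y,z)e_q are Tst R.
 HK4 [654] int GG i t x z * f x * w i x dx -> f z (t->0+), f bounded measurable, continuous at z.
 HK5 [905] CoreStmt from HK1-HK4 (D1: for every z: c_k(H_m(t,.,z)e_b)=e^{-mu t}psi_m(z)u_k(z)_b+int_0^t e^{-mu(t-s)}c_k(eM_m(s,.,z)e_b)ds; Step: for f bounded measurable supported where psi_m=1: int_0^t e^{-mu(t-s)}c_k(f_s)ds = c_k((H_m*f)_t) - int_0^t e^{-mu(t-s)}c_k((eM_m*f)_s)ds).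
 HK6 [286] CmpStmt.   HK7 [274] LimStmt (scaling x=sqrt t xi, dominated convergence; three-point Gaussian integrals; 654's Gau2 helps).
 HK8 [908] chart version: U open, g,h,w,A_j,P smooth on U, two continuous Parseval systems on U, C compact in U => for all y in C the conclusions of MainStmt with uniform constant, density 1/(32pi^2)tr P^2+1/(192pi^2)h h tr FF (translation, cut-off extension of g to R^4, Cayley gauge; family index = C).
 HK9 [266 or 806] M-level: eigenbasis of 57's (S-C) => systems in every chart; Summable e^{-t mu_k}; Tendsto of the difference of traces to int_M density dmuHE[4].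
 C1-MS [905/57] one-sided McKean-Singer as in 1221.

-/
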