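import Mathlib.Init

/-!
R249 BLUEPRINT, PART B v1 (helper49).  W -> (phi, psi) reduction, case list, assembly of S0383.
Comment file, no declarations.

CONVENTIONS.  M closed connected oriented Riemannian 4-manifold, Ric = lam*g, lam > 0.
Local oriented orthonormal frame e_0..e_3, nabla e_b = sum_a w_ab e_a (w_ab 1-forms, antisymmetric),
[e_a,e_b] = nabla_a e_b - nabla_b e_a, Omega_ab = d w_ab + sum_c w_ac /\ w_cb, R(X,Y)e_b = sum_a Omega_ab(X,Y) e_a.
J_1,J_2,J_3 (self-dual) and K_1,K_2,K_3 (anti-self-dual): constant antisymmetric 4x4 matrices,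
J_i J_j = -delta_ij + eps_ijk J_k, K_i K_j = -delta_ij + eps_ijk K_k, J_i K_j = K_j J_i; J_1 e_0 = e_1, J_2 e_0 = e_2, J_3 e_0 = e_3.
w = sum (1/2) th_i J_i + sum (1/2) et_i K_i; nabla J_j = sum_{i,k} th_i eps_ijk J_k.
Omega = sum (1/2) Th_i J_i + (1/2) Et_i K_i, Th_i = d th_i + (1/2) eps_ijk th_j /\ th_k.
al_j(X,Y) = <J_j X, Y>, be_j(X,Y) = <K_j X, Y>.

B1 (curvature blocks).  Write Th_i = - sum_j A_ij al_j - sum_j B_ij be_j, Et_i = - sum_j C_ij be_j - sum_j B'_ij al_j.
 (a) A, C symmetric, B' = B^T, tr A = tr C = s/4 (first Bianchi);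
 (b) Ric = lam g  <=>  B = 0 and s = 4 lam; so tr A = tr C = lam;
 (c) for an orthonormal pair (u,v): alpha_i = al_i(u,v), beta_i = be_i(u,v) are unit vectors in R^3 and
     K(u,v) = <R(u,v)v,u> = (1/2) (sum A_ij alpha_i alpha_j + sum C_ij beta_i beta_j);
     every pair of unit vectors (alpha,beta) in R^3 x R^3 occurs (given alpha, beta, J=sum alpha_i J_i, K=sum beta_i K_i:
     J K is a symmetric involution of trace 0; take u with J K u = +-u (right sign), v = J u up to sign).
     Consequence: sec >= 0  <=>  a_1 + c_1 >= 0 (lowest eigenvalues).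
 All three are polynomial identities in the frame components (129: B1-ALG).

B2 (second Bianchi).  DA_ij = dA_ij + (so(3)-connection th acting on both indices):
   (D_X A)_kl = X A_kl + sum_{i,j} th_i(X) (eps_ijk A_jl + eps_ijl A_kj).
   sum_j J_j (DA_ij) = 0 for i = 1,2,3, where J_j acts on the 4-vector (D_a A_ij)_a.       (*)
   Proof: D Th_i = 0 (Bianchi), D al_j = 0 (torsion free), xi /\ al_j = +- *(J_j xi).

B3 (Weitzenboeck).  Laplacian (DD trace) of A:  DelA = 2 lam A - 2 A^2 - 4 adj(A), adj(A) = A^2 - lam A + e_2(A) I.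
   Proof: differentiate (*), contract with (J_k)_ac: J_k J_j = -delta_kj + eps_kjl J_l;
     (DelA)_ik = sum_{j,l} eps_kjl sum_{a,b} (J_l)_ab (D_a D_b A)_ij and the antisymmetric part is the curvature action
     with sum_ab (J_l)_ab Th_i(e_a,e_b) = 4 A_il.   Diagonal check: Del a_1 = 2 lam a_1 - 2 a_1^2 - 4 a_2 a_3.
   W := A - lam/3 (trace 0): DelW = 2 lam W - 6 W^2 + 2 |W|^2 I.

B4 (scalar identity).  f := |W|^2 = sum_ij W_ij^2 is a smooth function on M independent of the frame, and
     (1/2) Del f = |DW|^2 + 2 lam f - 18 det W,      grad f = 2 sum W_ij DW_ij.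
B5 (refined Kato).  T_ij in R^4, symmetric trace-free in (i,j), sum_j J_j T_ij = 0 for all i; w symmetric trace-free real 3x3:
     | sum w_ij T_ij |^2 <= (3/5) |w|^2 sum |T_ij|^2.
   Proof: for e in R^4 put y_i = sum_j w_ij J_j e, Z_ij = w_ij e - (2/5) Pi_ij, Pi_ij = -(1/2)(J_j y_i + J_i y_j) + (1/3) delta_ij sum_k J_k y_k.
   <sum w T, e> = <T, Z> because <T, Pi> = sum <J_j T_ij, y_i> = 0, and the polynomial identity
   |Pi|^2 = (5/2)|w|^2|e|^2, <w (x) e, Pi> = |w|^2|e|^2 gives |Z|^2 = (1 - 4/5 + 2/5)|w|^2|e|^2 = (3/5)|w|^2|e|^2. Cauchy-Schwarz.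
   Hence |grad f|^2 <= (12/5) f |DW|^2.
B6 (determinant).  W symmetric trace-free 3x3: 54 det(W)^2 <= |W|^6; if equality and det W >= 0 then the eigenvalues are (-w,-w,2w), w >= 0.
   (18 det W <= sqrt6 |W|^3.)
B7 (constraint).  sec >= 0: with k0 := lam sqrt(2/3):  |W+| + |W-| <= 2 k0.
   Proof: lowest eigenvalue w_1 of W trace-free: |W|^2 <= 6 w_1^2, i.e. |W| <= -sqrt6 w_1; a_1 + c_1 >= 0 <=> -w_1^+ - w_1^- <= 2 lam/3; sqrt6 * 2/3 = 2 sqrt(2/3).
B8 (regularised subsolution; every function smooth).  For d > 0: v := (f + d^2)^(1/2), phi := (v/k0)^(1/3):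
     Del phi >= (2 lam/3) phi (1 - phi^3) - eta(d), eta(d) -> 0 as d -> 0 (uniformly on M; v <= 4 k0).
   Proof: v Del v + |grad v|^2 = (1/2) Del f, |grad v|^2 = |grad f|^2/(4 v^2) <= (f/v^2)(3/5)|DW|^2, so
     v Del v >= (5/3)(v^2/f)|grad v|^2 - |grad v|^2 + 2 lam f - sqrt6 f^(3/2)   (at f = 0 read grad v = 0)
             >= (2/3)|grad v|^2 + 2 lam f - sqrt6 f^(3/2),
     k0 phi^3 = v:  Del phi = (phi/3)( Del v / v - (2/3)|grad v|^2/v^2 ) >= (phi/3)(2 lam f - sqrt6 f^(3/2))/v^2
              >= (phi/3)(2 lam (1 - d^2/v^2) - sqrt6 v) and phi*d^2/v^2 <= (k0^(-1/3)) d^2 v^(-5/3) <= C d^(1/3); sqrt6 v = 2 lam phi^3.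
   So eta(d) = C d^(1/3). Constraint: phi^3 + psi^3 <= 2 + 2 d/k0.
   (lam = 1: f(u) = (2/3)u(1-u^3) of the (ST) posts; lam = 3: 2u(1-u^3).)

B9 (use of (ST)).  (ST) [part A] applied to these gives: |W+| = 0 everywhere, or |W-| = 0 everywhere, or |W+| = |W-| = k0 everywhere.
B10 (case II).  |W| = k0 constant: B4: 0 = |DW|^2 + 2 lam k0^2 - 18 det W and 18 det W <= sqrt6 k0^3 = 2 lam k0^2 => DW = 0, equality in B6,
     eigenvalues (-lam/3,-lam/3,2lam/3): A ~ (0,0,lam), C ~ (0,0,lam), DA = DC = 0.                            =: MODEL M3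
B11 (case I).  W- = 0 (C = lam/3): part C (ATT-I #549) gives f = |W+|^2 and det W+ constant, then DW+ = 0. From DW = 0 and B3:
     2 lam w - 6 w^2 + 2|W|^2 = 0 for every eigenvalue w: W = 0 (MODEL M1) or eigenvalues (-lam/3,-lam/3,2lam/3) (MODEL M2).
     If W+ = 0 and W- not: reverse the orientation.
B12 (strong form of S0383; target of B2/B3 parts).  For M closed connected, Ric = lam g, sec >= 0 (no orientation): 
     there are an oriented closed connected Mt (template instances) and a surjective smooth local isometry Mt -> M such that on Mt one of M1, M2, M3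
     holds at every point:
       M1: A = C = lam/3;  M2: A ~ (0,0,lam), DA = 0, C = lam/3 (or with A,C exchanged);  M3: A ~ C ~ (0,0,lam), DA = DC = 0.
     In M1, M2 all sectional curvatures are > 0 (a_1 + c_1 = 2 lam/3 resp. lam/3); in M3 there is a zero plane at every point. So
       S0384 (zero plane) => M3, covering with a = lam (factors of curvature lam: radius 1/sqrt lam; Prelude: dist = sqrt(arccos^2+arccos^2)/sqrt a);
       S0385 (K>0) => M1 or M2.
     Curvature constants: M1: K = lam/3 = a.  M2: 1 <= K/a <= 4 with a = lam/6 (Ric = 6a for Fubini-Study diameter pi/2).  M3: a = lam.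
B13 (models => covering): owner helper474 (BP-B2). Suggested scheme (elementary, model X = explicit metric space, only M has an exp map):
     X = S^4, S^5/S^1 (presented by S^5), S^2 x S^2.  Frame F = (q, p, I), q in X, p in M, I : T_qX -> T_pM linear isometry respecting the structure
     (nothing; J; the two planes). Phi_F := exp_p o I o exp_q^{-1} on X minus cut(q), extended by continuity (Jacobi fields along radial geodesics are the
     explicit sin functions because R is parallel; they vanish exactly where the model's do).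
     (i) exp_p^* g = exp_q^* g_X on R^4 (same Jacobi equation).  (ii) Phi_F preserves distances on a ball of uniform radius about q.
     (iii) for q' in X there is F' = (q', Phi_F(q'), .) with Phi_F = Phi_F' on X: both are local isometries on the connected set X minus (cut q u cut q'),
           and two distance preserving maps on a small ball of X that agree on an open subset agree (Gram matrices / projectors determine the point).
     (ii)+(iii) => Phi_F is locally distance preserving at every point; image open and compact => surjective.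
B14 (quotients): owner helper40 (BP-B3).

COST (Lean): B1-B6 (129) 3-4k, bridge to the Prelude (285) 4-5k, orientation cover (285) 3k, B7-B8 600, B9-B12 600, B13 8-10k, B14 4k.
-/
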