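/-
R249 BLUEPRINT, PART A2 v1 (helper806): penalisation, limit passage, final deduction for lemma (ST).
Comment file, no declarations.  Variables of helper215 (#1027).  Everything is done with SMOOTH functions, LINEAR solvability
of (Delta - L)u = g (L > 0 constant), max principle, divergence theorem, Bochner. No W^{2,p}, no gradient sup bound, no Hoelder theory,
no Perron solution, no nonlinear regularity.

0. SETTING.  M closed connected Riemannian 4-manifold, Ric >= 1. f(u) = (2/3)(u - u^4). For smooth phi,psi > 0: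
   x=phi^3, y=psi^3, s=x+y, kappa=2-s, z=(x-y)/2, tau=log(phi/psi), t=tanh(3tau/2)=(x-y)/s, T=|dtau|^2, mu=phi psi,
   J = (Lap tau) dtau - (1/2) dT.   E = 4z^2-(2/3)(|dx|^2/x+|dy|^2/y) = s^2t^2-(3/2)s(1-t^2)T-(2/3)|dkappa|^2/s.
   If  Lap phi = f(phi)+p, Lap psi = f(psi)+q  (p,q arbitrary functions; put P=3phi^2 p, Q=3psi^2 q) then EXACTLY
   (E1) Lap x = 2x(1-x) + (2/3)|dx|^2/x + P ;   (E2) Lap kappa = -s kappa + E - P - Q ;
   (E3) Lap tau + <dlog mu,dtau> = -(2/3) s t + P/(3x) - Q/(3y),  dlog mu = -(2/3)dkappa/s - t dtau.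
   [(E2): 2x+2y-2x^2-2y^2 = 2s-s^2-4z^2 = s kappa - 4z^2.]

1. DATA (from B8 of part B).  d>0: phi_d=(v/k0)^(1/3), v=(|W+|^2+d^2)^(1/2), psi_d same. B8: Lap phi_d >= f(phi_d)-C d^(1/3),
   phi_d^3+psi_d^3 <= 2+2d/k0. Put th^3=(2-4d)/(2+2d/k0), phi0=th phi_d, psi0=th psi_d. Since th f(u)-f(th u) = -(2/3)th(1-th^3)u^4:
   (D1) Lap phi0 >= f(phi0)-eta, Lap psi0 >= f(psi0)-eta, eta=eta(d)->0 ; (D2) phi0^3+psi0^3 <= 2-4d ; (D3) phi0,psi0 >= b(d) > 0.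
   All constants C are universal, C_d depend on d (and M). L0:=21 >= sup |f'| on [0,2].

2. FIXED FUNCTIONS. th(.) : R->[0,1] smooth nonincreasing, =1 on s<=0, =0 on s>=1 (write Th).  j : R->R smooth, j=0 on s<=0, 0<=j'<=1,
   j(2)>=1; j_e(s)=e j(s/e).  pos_eta : smooth, a^+ + eta <= pos_eta(a) <= a^+ + 2eta.

3. STEP 1 (phi).  e = epsilon small (e < e0(d)). l1=2-40e, h=(l1-psi0^3)^(1/3) (smooth, h^3 >= phi0^3+3d, h<1.27), G1=pos_eta(Lap h-f(h)),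
      F1(p,u)= f(u)-eta+G1(p)Th((h(p)-u)/e)+2 L0 j_e(u-h(p)).
   (a) phi0 is a subsolution: h-phi0 >= 3d/(3h^2) > e so F1(.,phi0)=f(phi0)-eta <= Lap phi0.
   (b) h+2e is a supersolution: F1(.,h+2e) >= f(h)-2L0 e-eta+(Lap h-f(h))+eta+2L0 e = Lap h.
   (c) FINITE MONOTONE ITERATION. L1 >= sup_{M x [0,2]}|d_u F1|; u_0=h+2e, (Lap-L1)u_{k+1}=F1(.,u_k)-L1 u_k (RHS smooth, nonincreasing in u_k).
       Max principle: (Lap-L1)w >= 0 => w<=0. Induction: phi0 <= u_{k+1} <= u_k <= h+2e. All u_k smooth.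
       phi:=u_{k+1} satisfies Lap phi = F1(.,phi)+r1, -2L1(u_k-u_{k+1}) <= r1 <= 0, so (bounded decreasing sequence) int|r1|^q -> 0 (k->oo), every q.
   RESULT: phi0<=phi<=h+2e,  Lap phi=f(phi)-eta+m_phi+e_phi,  m_phi=G1 Th((h-phi)/e)>=0,  e_phi=2L0 j_e(phi-h)+r1, |e_phi|<=4L0 e+|r1|.
4. STEP 2 (psi), phi (i.e. k=k1) fixed.  h2=(2-phi^3)^(1/3): phi^3<=(h+2e)^3<=h^3+11e => h2^3-psi0^3 = 2-phi^3-psi0^3 >= 40e-11e=29e
   => h2 smooth > 0, h2-psi0>=29e/(3h2^2)>e.  G2=pos_eta(Lap h2-f(h2)), F2, iteration exactly as before: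
   psi0<=psi<=h2+2e, Lap psi=f(psi)-eta+m_psi+e_psi, m_psi=G2 Th((h2-psi)/e)>=0, |e_psi|<=4L0 e+|r2|, int|r2|^q->0 (k2->oo).
   kappa=2-x-y=h2^3-psi^3 >= -11e.  On supp m_psi: kappa<=3h2^2 e<=5e. On supp m_phi: x>=h^3-5e = l1-psi0^3-5e >= l1-y-5e => kappa<=45e.
   (P1) phi0<=phi, psi0<=psi, phi,psi<=1.3, kappa>=-11e ;   (P2) m_phi=m_psi=0 on {kappa>45e}.
   ORDER OF LIMITS: k2->oo, then k1->oo, then e->0, then d->0.   "o(1)" below = quantity -> 0 in the first three limits, d fixed.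

5. INTEGRAL BOUNDS (d fixed).  (I1) int(Lap phi)^2 + int(Lap psi)^2 <= C_d+o(1) [m_phi<=sup G1; m_psi<=sup over p of G2 and by (7) below
   G2<=C_d(1+|r1|)].  (I2) int|Hess phi|^2 = int(Lap phi)^2-int Ric(dphi,dphi) <= same.  (I3) int|dphi|^4 = -int phi(|dphi|^2 Lap phi+<d|dphi|^2,dphi>)
   <= C(int|dphi|^4)^(1/2)(int|Lap phi|^2+|Hess phi|^2)^(1/2).  So Hess phi,Hess psi,Hess tau in L^2, dphi,dpsi,dtau,dkappa in L^4, T in L^2: norms <= C_d.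
   (I4) if v>=-a smooth then int_{v<=b}|dv|^2 <= (a+b) int|Lap v|  [test with min(v+a,a+b)].  Hence, with v=kappa, v1=h^3-x, v2=y-psi0^3>=0:
        int_{kappa<=45e}|dkappa|^2 + int_{v1<=5e}|dv1|^2 + int_{v2<=56e}|dv2|^2 <= C_d e (1+o(1)).
   (I5) UNIFORM IN d: int|dphi|^2 = -int phi Lap phi <= -int phi(f(phi)-eta+e_phi) <= C+o(1) (m_phi>=0!). Same psi.

6. SIMPLEX PROPERTY.  m_x:=3phi^2 m_phi, m_y:=3psi^2 m_psi.  CLAIM (P3): m_x,m_y>=0 and  m_x+m_y <= E^+ + C eta + err,  with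
   m_x<=5, m_y<=C(1+|r1|), 0<=err bounded by C(1+|r1|)+C_d.., int err = o(1) (hence int err^q=o(1), all q).
   PROOF. (i) On supp m_phi:  D_h:=3h^2(Lap h-f(h)) = -Lap y0-(2/3)|dy0|^2/h^3-2h^3(1-h^3), y0=psi0^3, and (D1) gives Lap y0>=2y0(1-y0)+(2/3)|dy0|^2/y0-C eta,
   so D_h <= 4z0^2-(2/3)|dy0|^2(1/h^3+1/y0)+l1(l1-2)+C eta, z0=(h^3-y0)/2;  m_x<=3phi^2((Lap h-f(h))^+ +2eta)<= D_h^+ + C eta+C_d e.
   There 0<=y-y0<=56e, |x-h^3|<=11e, dx=-dy0-dv1, dy=dy0+dv2, so |E-(4z0^2-(2/3)|dy0|^2(1/h^3+1/y0))|<=C_d(e+(|dv1|+|dv2|)(|dx|+|dy|+|dy0|)), int over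
   supp m_phi = o(1) by (I4),(I3). So m_x<=E^+ + C eta+err.
   (ii) On supp m_psi: D_{h2}=-Lap x-(2/3)|dx|^2/h2^3-2h2^3(1-h2^3) = E2-m_x-3phi^2(e_phi-eta), E2=4z2^2-(2/3)|dx|^2(1/x+1/h2^3), z2=(x-h2^3)/2 (by (E1)),
   |E-E2|<=C_d(e+|dkappa|(|dx|+|dy|)) there; m_y<=D_{h2}^+ + C eta+C_d e(1+|r1|) <= (E2-m_x)^+ + C eta+C|e_phi|+..;  add m_x and use (i).   (7): D_{h2}<=4z2^2+C eta+C|e_phi|.

8. CERTIFICATE (part A1, shape of #1027).  V=mu[A dtau+B dkappa+W J], A,B,W functions of (t,T,kappa), C^1 (see 11 for the singular point), W>=0,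
   on  D={-1<t<1, T>=0, kappa_- <= kappa <2}.  Put X:=Lap tau, K:=Lap kappa as independent symbols.  Pointwise
   -div V/mu = I := -{ A(X+<dlogmu,dtau>)+A_t t'T+A_T dT(dtau)+A_k<dk,dtau> + B(K+<dlogmu,dk>)+B_t t'<dtau,dk>+B_T dT(dk)+B_k|dk|^2
                 + (W_t t' dtau+W_T dT+W_k dk+W dlogmu)(X dtau-dT/2) + W(X^2-|H|^2-Ric(dtau,dtau)) },  t'=(3/2)(1-t^2), H=Hess tau, dT=2H(dtau,.), tr H=X.
   HYPOTHESES (delta>0, Om>=0 continuous function of the 1-jet):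
   (C1) kappa>=0, X=X_0:=-(2/3)st+tT+(2/3)<dk,dtau>/s, K=K_0:=-s kappa+E, all H with tr H=X, all dk:  I >= delta(Om + W|H|^2).
   (C2) kappa=0, dk=0, m_x,m_y>=0, m_x+m_y<=E0^+, E0=4t^2-3(1-t^2)T, X=-(4/3)t+tT+m_x/(3(1+t))-m_y/(3(1-t)), K=E0-m_x-m_y: I>=delta(Om+W|H|^2).
        I is concave in (m_x,m_y) (W>=0): only the three vertices (0,0),(E0^+,0),(0,E0^+) have to be checked.  D^2kappa is NOT constrained.
   (C3) (uniformity as phi,psi->0; controls the error eta):  |A|+|B| <= C, |W| <= C mu^3.. [what is used: with X_eta := X - eta(1/phi-1/psi), K_eta:=K+3eta(phi^2+psi^2),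
        mu I(X_eta,K_eta) >= mu I(X,K) - (delta/2)mu W|H|^2 - C eta (1+|dphi|^2+|dpsi|^2)];  sufficient: |A|,|B|,|W|/min(phi,psi)^3, |W_t t'|T.., |W_k dk dtau|.. <= C(1+|dphi|^2+|dpsi|^2) and
        T|W_T| <= C W.    (A1 people: please keep W=O((1-t^2)) and T W_T=O(W).)
   (C4) growth for fixed b<=phi,psi<=1.3: |A|,|B|<=C_b(1+T)^(p/2), |W|<=C_b(1+T)^(p/2-1)..., same for d/dt, d/dkappa, T d/dT of them, p<2. (kappa-derivatives bounded the same way.)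

9. LIMIT PASSAGE (d fixed).  0=int -div V = int mu I(actual jets).  Actual X = X_0+m_x/(3x)-m_y/(3y)-eta(1/phi-1/psi)+(e_phi/phi-e_psi/psi), K similarly.
   - e-terms: I is quadratic in X, linear in K; coefficients <= C_b(1+T)^(p/2)(1+|H|)(..): |I(with e)-I(without)| <= C_b(|e|+|e|^2)(1+|H|+T)^(..), H in L^2, T in L^2, e->0 in every L^q: o(1).
   - on {kappa>45e}: m=0: (C1)+(C3).   - on {-11e<=kappa<=45e}: replace (m_x,m_y) by the nearest point (m_x',m_y') of the simplex m'>=0, m_x'+m_y'<=E0^+(t,T)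
     (distance <= C eta+err+C|E-E0|, |E-E0|<=C_b(e(1+T)+|dkappa|^2)): change of I <= C_b(C eta' +err..)(1+|H|+T)..; then replace kappa by 0 and dk by 0: change of I
     <= C_b e(1+T)(1+|H|^2) + C_b|dkappa|(1+|dkappa|)(1+T)^(..)(1+|H|): integrals over {kappa<=45e} are o(1) by (I4), (I2), (I3) and interpolation L^2-L^4 for dkappa.
     [m enters only at |m|<=C(1+|r1|), no singularity since phi,psi>=b.]   Then (C2).
     The term C eta from (P3) meets coefficients with weight: mu*(1/x)*(|A|+W|X|+|W_T|T|H|+...): covered by (C3) exactly as the eta in X_eta.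
   RESULT (A2):  delta' int mu Om(phi,psi) <= C eta(d) int(1+|dphi|^2+|dpsi|^2)+o(1) <= C' eta(d)+o(1).   So for every d we can choose smooth
     phi_j>=phi0^(d), psi_j>=psi0^(d) (P1) with  int mu Om <= C'' eta(d_j) -> 0.

10. FINAL DEDUCTION (F).  Needed from Om: with F:=(phi psi)^a (some a>=1): |dF|^2 <= C(mu Om+(mu Om)^(2/q)), F(1-F)^2 <= C(mu Om+(mu Om)^(1/q)), q=p+2.
   (a) LICHNEROWICZ: Ric>=1, n=4: int(Lap h)^2 >= (4/3)int|dh|^2 (Bochner + |Hess|^2>=(Lap)^2/4); for F of mean zero F=Lap h: int F^2=-int<dF,dh> => int F^2<=(3/4)int|dF|^2.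
   (b) so int(F_j-mean F_j)^2 -> 0 and int F_j(1-F_j)^2 -> 0: subsequence F_j -> c a.e., c in {0,1}.
   (c) c=1: F_j->1 and (Om=0, mu=1 only at (1,1)) phi_j,psi_j->1 a.e.; |W+|^(1/3)k0^(-1/3)=lim phi0^(d_j)<=1 a.e., hence everywhere: |W+|,|W-|<=k0. B4 of part B:
       (1/2)Lap|W|^2 >= |DW|^2+|W|^2(2lam-sqrt6|W|) >= |DW|^2; integrate: DW=0 and |W| in {0,k0} constant.                         [= case II of S0383]
   (d) c=0: phi_j psi_j->0 a.e. => |W+||W-|=0 everywhere. If both are not identically 0: take a_d phi_d - b_d psi_d with mean 0 (a_d int phi_d=b_d int psi_d, normalised);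
       <dphi_d,dpsi_d>=0 pointwise (one of them is locally constant or critical), int|dphi_d|^2 = -int phi_d Lap phi_d <= (2/3)int phi_d^2(phi_d^3-1)+C eta <= (2/3)int phi_d^2+C eta'
       (phi_d^3<=2+..), int phi_d psi_d ->0, and (a): (4/3)(a^2 int phi^2+b^2 int psi^2) <= (2/3)(a^2 int phi^2+b^2 int psi^2)+o(1): contradiction.  (No unique continuation needed.)
   CONCLUSION: W+=0 or W-=0 or |W+|=|W-|=k0 and DW+=DW-=0.

11. SINGULAR POINT.  If A,B,W are only homogeneous near (t,T,kappa)=(0,0,0) (degree p in (t,sqrt T), p<2): replace R=t^2+cT.. by R+sig^2 in the certificate. Needed from A1: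
   (C1),(C2) with I >= delta(Om+W|H|^2)-C sig^p(1+T) ; sig->0 after e->0 (before d->0), contributes C sig^p int mu(1+T) <= C_d sig^p.

COST in Lean: sections 3,4 (255): 600 lines; 5: 400; 6: 500; 9: 800 (with explicit polynomial certificate); 10: 400.
-/
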