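import Crest.Agent.R249.C2b_198

/-!
Dimension four: the matrices `K a` (= minus right multiplication by `i,j,k` on quaternions,
anti-self-dual), the bundle `Λ⁻`, the bundle `ℝ ⊕ Λ⁻`, Clifford multiplication
`T ⊗ (ℝ ⊕ Λ⁻) → T` and its properties.  (row 249, part C2 of the blueprint, helper198)
-/

set_option autoImplicit false
set_option linter.unusedSectionVars false
set_option linter.unusedSimpArgs false

namespace Crest.Agent.R249.C2_198

open Finset Matrix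
open scoped Kronecker
open Crest.Agent.R249.Fr129

section const

variable (S : Type*) [CommRing S]

/-- `K_a` = minus right multiplication by the `a`-th imaginary unit. -/
def K : Fin 3 → Matrix (Fin 4) (Fin 4) S :=
  ![!![0, 1, 0, 0; -1, 0, 0, 0; 0, 0, 0, -1; 0, 0, 1, 0],
    !![0, 0, 1, 0; 0, 0, 0, 1; -1, 0, 0, 0; 0, -1, 0, 0],
    !![0, 0, 0, 1; 0, 0, -1, 0; 0, 1, 0, 0; -1, 0, 0, 0]]

/-- `J_a` = left multiplication by the `a`-th imaginary unit. -/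
def J : Fin 3 → Matrix (Fin 4) (Fin 4) S :=
  ![!![0, -1, 0, 0; 1, 0, 0, 0; 0, 0, 0, -1; 0, 0, 1, 0],
    !![0, 0, -1, 0; 0, 0, 0, 1; 1, 0, 0, 0; 0, -1, 0, 0],
    !![0, 0, 0, -1; 0, 0, -1, 0; 0, 1, 0, 0; 1, 0, 0, 0]]

/-- `KK 0 = 1`, `KK (a+1) = K a`. -/
def KK : Fin 4 → Matrix (Fin 4) (Fin 4) S := ![1, K S 0, K S 1, K S 2]

/-- the Clifford symbol: `(c_i (f,s))_k = f δ_ik + ∑ (K_a)_ki s_a` -/
def cK (i : Fin 4) : Matrix (Fin 4) (Fin 4) S := fun k a => KK S a k i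

/-- `cK` as explicit matrices -/
lemma cK_eq : cK S = ![!![1, 0, 0, 0; 0, -1, 0, 0; 0, 0, -1, 0; 0, 0, 0, -1],
    !![0, 1, 0, 0; 1, 0, 0, 0; 0, 0, 0, 1; 0, 0, -1, 0],
    !![0, 0, 1, 0; 0, 0, 0, -1; 1, 0, 0, 0; 0, 1, 0, 0],
    !![0, 0, 0, 1; 0, 0, 1, 0; 0, -1, 0, 0; 1, 0, 0, 0]] := by
  funext i
  ext k a
  fin_cases i <;> fin_cases k <;> fin_cases a <;> simp [cK, KK, K, Matrix.one_apply]

lemma cK_zero : cK S 0 = !![1, 0, 0, 0; 0, -1, 0, 0; 0, 0, -1, 0; 0, 0, 0, -1] := by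
  rw [cK_eq]; rfl
lemma cK_one : cK S 1 = !![0, 1, 0, 0; 1, 0, 0, 0; 0, 0, 0, 1; 0, 0, -1, 0] := by
  rw [cK_eq]; rfl
lemma cK_two : cK S 2 = !![0, 0, 1, 0; 0, 0, 0, -1; 1, 0, 0, 0; 0, 1, 0, 0] := by
  rw [cK_eq]; rfl
lemma cK_three : cK S 3 = !![0, 0, 0, 1; 0, 0, 1, 0; 0, -1, 0, 0; 1, 0, 0, 0] := by
  rw [cK_eq]; rfl

lemma two_mat : (2 : Matrix (Fin 4) (Fin 4) S)
    = !![2, 0, 0, 0; 0, 2, 0, 0; 0, 0, 2, 0; 0, 0, 0, 2] := by
  ext i j
  fin_cases i <;> fin_cases j <;> simp [Matrix.ofNat_apply]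

/-- integer version of the symbol -/
def cZ : Fin 4 → Matrix (Fin 4) (Fin 4) ℤ :=
  ![!![1, 0, 0, 0; 0, -1, 0, 0; 0, 0, -1, 0; 0, 0, 0, -1],
    !![0, 1, 0, 0; 1, 0, 0, 0; 0, 0, 0, 1; 0, 0, -1, 0],
    !![0, 0, 1, 0; 0, 0, 0, -1; 1, 0, 0, 0; 0, 1, 0, 0],
    !![0, 0, 0, 1; 0, 0, 1, 0; 0, -1, 0, 0; 1, 0, 0, 0]]

lemma cK_cast (i : Fin 4) : cK S i = (cZ i).map (Int.castRingHom S) := by
  rw [cK_eq]
  ext k a
  fin_cases i <;> fin_cases k <;> fin_cases a <;> simp [cZ]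

lemma clifZ0 (i j : Fin 4) :
    (cZ i)ᵀ * cZ j + (cZ j)ᵀ * cZ i = if i = j then 2 else 0 := by
  revert i j; decide +kernel

lemma clifZ1 (i j : Fin 4) :
    cZ i * (cZ j)ᵀ + cZ j * (cZ i)ᵀ = if i = j then 2 else 0 := by
  revert i j; decide +kernel

lemma cK_mapMatrix (i : Fin 4) : cK S i = (Int.castRingHom S).mapMatrix (cZ i) := cK_cast S i

lemma cK_mapMatrix_t (i : Fin 4) : (cK S i)ᵀ = (Int.castRingHom S).mapMatrix (cZ i)ᵀ := by
  rw [cK_mapMatrix]; rfl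

/-- Clifford relations on `ℝ ⊕ Λ⁻`. -/
lemma clif0 (i j : Fin 4) :
    (cK S i)ᵀ * cK S j + (cK S j)ᵀ * cK S i = if i = j then 2 else 0 := by
  rw [cK_mapMatrix_t, cK_mapMatrix_t, cK_mapMatrix, cK_mapMatrix, ← map_mul, ← map_mul, ← map_add,
    clifZ0]
  split_ifs
  · exact map_ofNat _ 2
  · exact map_zero _

/-- Clifford relations on `T`. -/
lemma clif1 (i j : Fin 4) :
    cK S i * (cK S j)ᵀ + cK S j * (cK S i)ᵀ = if i = j then 2 else 0 := by
  rw [cK_mapMatrix_t, cK_mapMatrix_t, cK_mapMatrix, cK_mapMatrix, ← map_mul, ← map_mul, ← map_add,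
    clifZ1]
  split_ifs
  · exact map_ofNat _ 2
  · exact map_zero _

end const

variable {S : Type*} [CommRing S] [Algebra ℝ S] (F : Frame 4 S)

/-- components of the connection of `Λ⁻` -/
def eta (k : Fin 4) : Fin 3 → S :=
  ![-F.w k 0 1 + F.w k 2 3, -F.w k 0 2 - F.w k 1 3, -F.w k 0 3 + F.w k 1 2]

/-- the connection of `Λ⁻` (in the basis `K 0, K 1, K 2`) -/
def asc (k : Fin 4) : Matrix (Fin 3) (Fin 3) S := cr (eta F k)

/-- the connection of `ℝ ⊕ Λ⁻` -/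
def e0 (k : Fin 4) : Matrix (Fin 4) (Fin 4) S :=
  !![0, 0, 0, 0; 0, 0, -eta F k 2, eta F k 1; 0, eta F k 2, 0, -eta F k 0;
    0, -eta F k 1, eta F k 0, 0]

lemma asc_skew : Frame.Skew (asc F) := fun _ i j => cr_skew _ i j

lemma e0_skew : Frame.Skew (e0 F) := by
  intro k i j
  fin_cases i <;> fin_cases j <;> simp [e0]

lemma tan_skew {n : ℕ} (F : Frame n S) : Frame.Skew F.tan := fun k i j => F.anti k j i

set_option maxHeartbeats 2000000 in
/-- The Clifford symbol is constant and parallel. -/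
theorem par_cK : Par F (e0 F) F.tan (cK S) where
  const := by
    intro m i x y
    fin_cases i <;> fin_cases x <;> fin_cases y <;>
      simp [cK_zero, cK_one, cK_two, cK_three]
  par := by
    intro m i
    fin_cases i <;>
      simp only [cK_zero, cK_one, cK_two, cK_three, Fin.zero_eta, Fin.mk_one, Fin.reduceFinMk,
        Fin.sum_univ_four] <;>
      ext x y <;> fin_cases x <;> fin_cases y <;>
      simp [Matrix.mul_apply, Fin.sum_univ_four, Frame.tan, e0, eta, Frame.w_self, Frame.w10,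
        Frame.w20, Frame.w30, Frame.w21, Frame.w31, Frame.w32] <;> ring

/-- components of the curvature of `Λ⁻` -/
def EE (k l : Fin 4) : Fin 3 → S :=
  ![-F.Rm k l 0 1 + F.Rm k l 2 3, -F.Rm k l 0 2 - F.Rm k l 1 3, -F.Rm k l 0 3 + F.Rm k l 1 2]

lemma curv_asc (k l : Fin 4) : F.curv (asc F) k l = cr (EE F k l) := by
  ext i j
  fin_cases i <;> fin_cases j <;>
    simp [Frame.curv, asc, cr, eta, EE, Frame.Rm, Fin.sum_univ_four, Fin.sum_univ_three,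
      Frame.w_self, Frame.w10, Frame.w20, Frame.w21, Frame.w31, Frame.w32, map_add, map_sub,
      map_neg] <;> ring

/-- block diagonal matrix `0 ⊕ cr p` -/
def cr4 (p : Fin 3 → S) : Matrix (Fin 4) (Fin 4) S :=
  !![0, 0, 0, 0; 0, 0, -p 2, p 1; 0, p 2, 0, -p 0; 0, -p 1, p 0, 0]

lemma e0_eq (k : Fin 4) : e0 F k = cr4 (eta F k) := rfl

set_option maxHeartbeats 2000000 in
lemma curv_e0 (k l : Fin 4) : F.curv (e0 F) k l = cr4 (EE F k l) := by
  ext i j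
  fin_cases i <;> fin_cases j <;>
    simp [Frame.curv, e0, cr4, eta, EE, Frame.Rm, Fin.sum_univ_four, Fin.sum_univ_three,
      Frame.w_self, Frame.w10, Frame.w20, Frame.w21, Frame.w31, Frame.w32, map_add, map_sub,
      map_neg] <;> ring

lemma EE_anti (k l : Fin 4) (c : Fin 3) : EE F k l c = - EE F l k c := by
  fin_cases c <;> simp [EE, F.Rm_anti12 k l] <;> ring

end Crest.Agent.R249.C2_198
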