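import Crest.Agent.R249.Cd1_133

/-!
# Row 249, part A (helper133): the chart records
-/

set_option autoImplicit false

namespace Crest.Agent.R249.Cd133

open Ker254 Brg133 Ex

local infixl:65 " +ₓ " => Ex.add
local infixl:65 " -ₓ " => Ex.sub
local infixl:70 " *ₓ " => Ex.mul

/-- automatic parameters -/
def idcA (E F : Ex) : Bool :=
  frc (Nat.succ (Nat.log2 (Nat.succ (Nat.add E.nb F.nb)))) fun w =>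
  frc (Nat.max (E.dg 1 0 0) (F.dg 1 0 0)) fun n1 =>
  frc (Nat.max (E.dg 0 1 0) (F.dg 0 1 0)) fun n2 =>
  frc (Nat.max (E.dg 0 0 1) (F.dg 0 0 1)) fun n3 => idc w n1 n2 n3 E F

theorem idcA_sound {E F : Ex} (h : idcA E F = true) (x y z : ℝ) : E.ev x y z = F.ev x y z := by
  unfold idcA at h
  simp only [frc_eq] at h
  exact idc_sound h x y z

/-- chart I -/
def chI : Chart where
  ya := (((cst 25) *ₓ vx) *ₓ vy)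
  ma := ((cst 1) -ₓ vx)
  Ga := ((((cst 20) *ₓ vx) *ₓ (pw ((cst 1) -ₓ vx) 2)) *ₓ vz)
  f := (cst 4)
  f2 := (cst 4)
  nu := (pw ((cst 1) +ₓ vz) 2)
  l := ((cst 2000) *ₓ ((pw vx 3) *ₓ (pw ((cst 1) -ₓ vx) 9)))
  r1 := (vx *ₓ ((cst 1) +ₓ vz))
  r2 := (cst 1)
  r3 := ((cst 1) +ₓ vz)
  dr := cst 0
  e1 := 8
  e3 := 8
  P00 := PI00
  P01 := PI01
  P02 := PI02
  P11 := PI11
  P12 := PI12
  P22 := PI22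

/-- chart Ia -/
def chIa : Chart where
  ya := (((cst 25) *ₓ vx) *ₓ (vz *ₓ vy))
  ma := ((cst 1) -ₓ vx)
  Ga := ((((cst 20) *ₓ vx) *ₓ (pw ((cst 1) -ₓ vx) 2)) *ₓ vz)
  f := (cst 4)
  f2 := (cst 4)
  nu := (cst 1)
  l := ((cst 2000) *ₓ ((pw vx 3) *ₓ (pw ((cst 1) -ₓ vx) 9)))
  r1 := vx
  r2 := (cst 1)
  r3 := vz
  dr := ((cst 4) *ₓ ((((cst 1) *ₓ ((((cst 20) *ₓ vx) *ₓ (pw ((cst 1) -ₓ vx) 2)) *ₓ vz)) *ₓ (pw vx 3)) *ₓ (pw ((cst 1) -ₓ vx) 12)) *ₓ (Chart.v HIa))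
  e1 := 8
  e3 := 8
  P00 := PIa00
  P01 := PIa01
  P02 := PIa02
  P11 := PIa11
  P12 := PIa12
  P22 := PIa22

/-- chart Ib -/
def chIb : Chart where
  ya := (((cst 25) *ₓ vx) *ₓ vy)
  ma := ((cst 1) -ₓ vx)
  Ga := ((((cst 20) *ₓ vx) *ₓ (pw ((cst 1) -ₓ vx) 2)) *ₓ (vy *ₓ vz))
  f := (cst 4)
  f2 := (cst 4)
  nu := (cst 1)
  l := ((cst 2000) *ₓ ((pw vx 3) *ₓ (pw ((cst 1) -ₓ vx) 9)))
  r1 := vx
  r2 := (cst 1)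
  r3 := vy
  dr := ((cst 4) *ₓ ((((cst 1) *ₓ ((((cst 20) *ₓ vx) *ₓ (pw ((cst 1) -ₓ vx) 2)) *ₓ (vy *ₓ vz))) *ₓ (pw vx 3)) *ₓ (pw ((cst 1) -ₓ vx) 12)) *ₓ (Chart.v HIb))
  e1 := 8
  e3 := 8
  P00 := PIb00
  P01 := PIb01
  P02 := PIb02
  P11 := PIb11
  P12 := PIb12
  P22 := PIb22

/-- chart VI -/
def chVI : Chart where
  ya := (((cst 25) *ₓ (vx *ₓ vz)) *ₓ vy)
  ma := ((cst 1) -ₓ (vx *ₓ vz))
  Ga := (((cst 20) *ₓ (pw ((cst 1) -ₓ (vx *ₓ vz)) 2)) *ₓ vx)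
  f := (cst 4)
  f2 := (cst 4)
  nu := (cst 1)
  l := ((cst 2000) *ₓ ((pw vx 3) *ₓ (pw ((cst 1) -ₓ (vx *ₓ vz)) 9)))
  r1 := vx
  r2 := (cst 1)
  r3 := (cst 1)
  dr := cst 0
  e1 := 8
  e3 := 8
  P00 := PVI00
  P01 := PVI01
  P02 := PVI02
  P11 := PVI11
  P12 := PVI12
  P22 := PVI22

/-- chart VII -/
def chVII : Chart where
  ya := (((cst 25) *ₓ vx) *ₓ vy)
  ma := ((cst 1) -ₓ vx)
  Ga := (((cst 20) *ₓ (pw ((cst 1) -ₓ vx) 2)) *ₓ vz)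
  f := (cst 4)
  f2 := (cst 4)
  nu := (pw (vx +ₓ vz) 2)
  l := ((cst 2000) *ₓ (pw ((cst 1) -ₓ vx) 9))
  r1 := (vx +ₓ vz)
  r2 := (cst 1)
  r3 := (vx +ₓ vz)
  dr := cst 0
  e1 := 8
  e3 := 8
  P00 := PVII00
  P01 := PVII01
  P02 := PVII02
  P11 := PVII11
  P12 := PVII12
  P22 := PVII22

/-- chart II -/
def chII : Chart where
  ya := (((cst 4) *ₓ (pw vx 2)) *ₓ vy)
  ma := vx
  Ga := ((((cst 20) *ₓ ((cst 1) -ₓ vx)) *ₓ (pw vx 2)) *ₓ vz)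
  f := (((cst 4) *ₓ (pw vx 2)) *ₓ ((cst 1) -ₓ vy))
  f2 := (((cst 4) *ₓ (pw vx 2)) *ₓ ((cst 1) -ₓ vy))
  nu := ((pw ((cst 1) -ₓ vy) 2) *ₓ (pw ((cst 1) +ₓ vz) 2))
  l := ((cst 10240) *ₓ ((pw vx 12) *ₓ ((cst 1) -ₓ vx)))
  r1 := (((pw vx 2) *ₓ ((cst 1) -ₓ vy)) *ₓ ((cst 1) +ₓ vz))
  r2 := ((cst 1) -ₓ vy)
  r3 := (vx *ₓ ((cst 1) +ₓ vz))
  dr := cst 0
  e1 := 8
  e3 := 8
  P00 := PII00
  P01 := PII01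
  P02 := PII02
  P11 := PII11
  P12 := PII12
  P22 := PII22

end Crest.Agent.R249.Cd133
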