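import Crest.Agent.R249.Ch1_174
import Crest.Agent.R249.Two6_709
import Crest.Agent.R249.WH1_509

/-!
# R249 (helper174), D3-LIM/CH: the chart

* `sqrt_qf_inv_sub`, `qf_near` : matrices near each other, resp. near `1`;
* `ev_ni`, `ul_ni` : near isometry with respect to `h z` at small scales;
* `chStmt : ChStmt`.
-/

set_option autoImplicit false
noncomputable section
open Set Filter Topology Bundle MeasureTheory Metric
open scoped ContDiff Manifold ENNReal NNReal Matrix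
open Crest.GeometryTopology.CoordMetric Crest.GeometryTopology.ChartCurvature
  Crest.GeometryTopology.RicciEnergy Crest.GeometryTopology.PointedLimit
open Crest.Agent.R247.Bo84
open Crest.Agent.R249.D1Def104 Crest.Agent.R249.Ul174 Crest.Agent.R249.Len47
open Crest.Agent.R249.AsmD832 Crest.Agent.R249.LimDef41 Crest.Agent.R249.St174
open Crest.Agent.R249.VE_222 Crest.Agent.R249.Two709

namespace Crest.Agent.R249.Ch174

/-! ### matrices -/

section mat

variable {n : ℕ}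

local notation "𝔼" => EuclideanSpace ℝ (Fin n)

theorem abs_coord_le (v : 𝔼) (i : Fin n) : |v i| ≤ ‖v‖ := by
  have := PiLp.norm_apply_le v i
  simpa using this

theorem abs_bilin_le (S : Matrix (Fin n) (Fin n) ℝ) (a b : 𝔼) :
    |∑ i, ∑ j, S i j * (a i * b j)| ≤ (∑ i, ∑ j, |S i j|) * (‖a‖ * ‖b‖) := by
  calc |∑ i, ∑ j, S i j * (a i * b j)| ≤ ∑ i, |∑ j, S i j * (a i * b j)| :=
        Finset.abs_sum_le_sum_abs _ _
    _ ≤ ∑ i, ∑ j, |S i j * (a i * b j)| :=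
        Finset.sum_le_sum fun i _ => Finset.abs_sum_le_sum_abs _ _
    _ ≤ ∑ i, ∑ j, |S i j| * (‖a‖ * ‖b‖) := by
        refine Finset.sum_le_sum fun i _ => Finset.sum_le_sum fun j _ => ?_
        rw [abs_mul, abs_mul]
        gcongr
        · exact abs_coord_le a i
        · exact abs_coord_le b j
    _ = (∑ i, ∑ j, |S i j|) * (‖a‖ * ‖b‖) := by
        rw [Finset.sum_mul]
        refine Finset.sum_congr rfl fun i _ => ?_
        rw [Finset.sum_mul]

theorem qf_eq_sum (A : Matrix (Fin n) (Fin n) ℝ) (v : 𝔼) :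
    qf A v = ∑ i, ∑ j, A i j * (v i * v j) := by
  unfold qf
  simp only [dotProduct, Matrix.mulVec, Finset.mul_sum]
  exact Finset.sum_congr rfl fun i _ => Finset.sum_congr rfl fun j _ => by ring

theorem norm_sq_eq_sum (v : 𝔼) : ‖v‖ ^ 2 = ∑ i, ∑ j, (if i = j then (1 : ℝ) else 0) * (v i * v j) := by
  rw [EuclideanSpace.real_norm_sq_eq]
  refine Finset.sum_congr rfl fun i _ => ?_
  rw [Finset.sum_eq_single i]
  · simp [sq]
  · intro j _ hj
    simp [Ne.symm hj]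
  · intro h; exact absurd (Finset.mem_univ i) h

/-- matrices near `1` -/
theorem qf_near {A : Matrix (Fin n) (Fin n) ℝ} {ε : ℝ}
    (hA : ∑ a, ∑ b, |A a b - if a = b then 1 else 0| ≤ ε) (v : 𝔼) :
    |qf A v - ‖v‖ ^ 2| ≤ ε * ‖v‖ ^ 2 := by
  rw [qf_eq_sum, norm_sq_eq_sum, ← Finset.sum_sub_distrib]
  simp_rw [← Finset.sum_sub_distrib, ← sub_mul]
  have h1 := abs_bilin_le (fun i j => A i j - if i = j then 1 else 0) v v
  refine h1.trans ?_
  rw [← norm_sq_eq_sum, sq]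
  gcongr

/-- symmetric matrix with the bounds `1/2`, `2` -/
structure Nr (A : Matrix (Fin n) (Fin n) ℝ) : Prop where
  sym : A.IsSymm
  low : ∀ v : 𝔼, (2 : ℝ)⁻¹ * ‖v‖ ^ 2 ≤ qf A v
  up : ∀ v : 𝔼, qf A v ≤ 2 * ‖v‖ ^ 2

theorem Nr.of_near {A : Matrix (Fin n) (Fin n) ℝ} (hs : A.IsSymm) {ε : ℝ} (hε : ε ≤ 1 / 2)
    (hA : ∑ a, ∑ b, |A a b - if a = b then 1 else 0| ≤ ε) : Nr A := by
  refine ⟨hs, fun v => ?_, fun v => ?_⟩
  · have h1 := (abs_le.1 (qf_near hA v)).1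
    have h2 : 0 ≤ ‖v‖ ^ 2 := by positivity
    nlinarith
  · have h1 := (abs_le.1 (qf_near hA v)).2
    have h2 : 0 ≤ ‖v‖ ^ 2 := by positivity
    nlinarith

theorem Nr.isUnit {A : Matrix (Fin n) (Fin n) ℝ} (h : Nr A) : IsUnit A.det := by
  have := (posDef_of_bounds h.sym (c := (2 : ℝ)⁻¹) (by norm_num) h.low).det_pos
  exact (isUnit_iff_ne_zero).2 this.ne'

/-- the vector `A⁻¹ v` -/
theorem Nr.norm_inv_le {A : Matrix (Fin n) (Fin n) ℝ} (h : Nr A) (v : 𝔼) :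
    ‖(WithLp.toLp 2 (A⁻¹ *ᵥ v.ofLp) : 𝔼)‖ ≤ 2 * ‖v‖ := by
  set a : 𝔼 := WithLp.toLp 2 (A⁻¹ *ᵥ v.ofLp) with ha
  have h1 : A *ᵥ a.ofLp = v.ofLp := by
    rw [ha]
    change A *ᵥ (A⁻¹ *ᵥ v.ofLp) = v.ofLp
    rw [Matrix.mulVec_mulVec, Matrix.mul_nonsing_inv _ h.isUnit, Matrix.one_mulVec]
  have h2 : qf A a = ∑ i, a i * v i := by
    unfold qf
    rw [h1]
    rfl
  have h3 : qf A a ≤ ‖a‖ * ‖v‖ := by
    rw [h2]
    have h4 := real_inner_le_norm a v
    have h5 : inner ℝ a v = ∑ i, a i * v i := by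
      rw [EuclideanSpace.inner_eq_star_dotProduct]
      simp only [dotProduct, star_trivial]
      exact Finset.sum_congr rfl fun i _ => by
        simp [mul_comm]
    rw [← h5]
    exact h4
  have h4 := h.low a
  by_contra hc
  push Not at hc
  have h5 : 0 ≤ ‖v‖ := norm_nonneg _
  have h6 : 0 < ‖a‖ := by linarith
  nlinarith

/-- continuity of the dual norm in the matrix -/
theorem abs_qf_inv_sub {A A' : Matrix (Fin n) (Fin n) ℝ} (h : Nr A) (h' : Nr A') (v : 𝔼) :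
    |qf A⁻¹ v - qf A'⁻¹ v| ≤ 4 * (∑ a, ∑ b, |A a b - A' a b|) * ‖v‖ ^ 2 := by
  set a : 𝔼 := WithLp.toLp 2 (A⁻¹ *ᵥ v.ofLp) with ha
  set a' : 𝔼 := WithLp.toLp 2 (A'⁻¹ *ᵥ v.ofLp) with ha'
  have h1 : A *ᵥ a.ofLp = v.ofLp := by
    rw [ha]
    change A *ᵥ (A⁻¹ *ᵥ v.ofLp) = v.ofLp
    rw [Matrix.mulVec_mulVec, Matrix.mul_nonsing_inv _ h.isUnit, Matrix.one_mulVec]
  have h1' : A' *ᵥ a'.ofLp = v.ofLp := by
    rw [ha']
    change A' *ᵥ (A'⁻¹ *ᵥ v.ofLp) = v.ofLp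
    rw [Matrix.mulVec_mulVec, Matrix.mul_nonsing_inv _ h'.isUnit, Matrix.one_mulVec]
  have h2 : qf A⁻¹ v = ∑ i, ∑ j, A' i j * (a i * a' j) := by
    have : qf A⁻¹ v = ∑ i, v i * a i := rfl
    rw [this]
    refine Finset.sum_congr rfl fun i _ => ?_
    have h3 : v i = ∑ j, A' i j * a' j := (congrFun h1' i).symm
    rw [h3, Finset.sum_mul]
    exact Finset.sum_congr rfl fun j _ => by ring
  have h2' : qf A'⁻¹ v = ∑ i, ∑ j, A i j * (a i * a' j) := by
    have : qf A'⁻¹ v = ∑ j, v j * a' j := rfl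
    rw [this, Finset.sum_comm]
    refine Finset.sum_congr rfl fun j _ => ?_
    have h3 : v j = ∑ i, A j i * a i := (congrFun h1 j).symm
    rw [h3, Finset.sum_mul]
    refine Finset.sum_congr rfl fun i _ => ?_
    rw [h.sym.apply i j]
    ring
  have h3 : qf A⁻¹ v - qf A'⁻¹ v = -∑ i, ∑ j, (A i j - A' i j) * (a i * a' j) := by
    rw [h2, h2', ← Finset.sum_sub_distrib, ← Finset.sum_neg_distrib]
    refine Finset.sum_congr rfl fun i _ => ?_
    rw [← Finset.sum_sub_distrib, ← Finset.sum_neg_distrib]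
    exact Finset.sum_congr rfl fun j _ => by ring
  rw [h3, abs_neg]
  refine (abs_bilin_le (fun i j => A i j - A' i j) a a').trans ?_
  have h4 : ‖a‖ * ‖a'‖ ≤ (2 * ‖v‖) * (2 * ‖v‖) :=
    mul_le_mul (h.norm_inv_le v) (h'.norm_inv_le v) (norm_nonneg _) (by positivity)
  have h5 : 0 ≤ ∑ a, ∑ b, |A a b - A' a b| :=
    Finset.sum_nonneg fun _ _ => Finset.sum_nonneg fun _ _ => abs_nonneg _
  calc (∑ i, ∑ j, |A i j - A' i j|) * (‖a‖ * ‖a'‖)
      ≤ (∑ i, ∑ j, |A i j - A' i j|) * ((2 * ‖v‖) * (2 * ‖v‖)) :=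
        mul_le_mul_of_nonneg_left h4 h5
    _ = _ := by ring

theorem Nr.inv_low {A : Matrix (Fin n) (Fin n) ℝ} (h : Nr A) (v : 𝔼) :
    (2 : ℝ)⁻¹ * ‖v‖ ^ 2 ≤ qf A⁻¹ v := (qf_inv_bounds h.sym two_pos h.low h.up).1 v

theorem Nr.inv_up {A : Matrix (Fin n) (Fin n) ℝ} (h : Nr A) (v : 𝔼) :
    qf A⁻¹ v ≤ 2 * ‖v‖ ^ 2 := (qf_inv_bounds h.sym two_pos h.low h.up).2 v

theorem Nr.sqrt_low {A : Matrix (Fin n) (Fin n) ℝ} (h : Nr A) (v : 𝔼) :
    ‖v‖ / 2 ≤ √(qf A⁻¹ v) := by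
  refine Real.le_sqrt_of_sq_le ?_
  have h1 := h.inv_low v
  have h2 : 0 ≤ ‖v‖ ^ 2 := by positivity
  nlinarith

theorem sqrt_qf_inv_sub {A A' : Matrix (Fin n) (Fin n) ℝ} (h : Nr A) (h' : Nr A') (v : 𝔼) :
    |√(qf A⁻¹ v) - √(qf A'⁻¹ v)| ≤ 4 * (∑ a, ∑ b, |A a b - A' a b|) * ‖v‖ := by
  rcases eq_or_ne v 0 with rfl | hv
  · have : ∀ B : Matrix (Fin n) (Fin n) ℝ, qf B (0 : 𝔼) = 0 := fun B => by
      rw [qf_eq_sum]; simp
    rw [this, this]; simp
  have hv0 : 0 < ‖v‖ := norm_pos_iff.2 hv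
  have h1 := abs_qf_inv_sub h h' v
  have hX : 0 ≤ qf A⁻¹ v := le_trans (by positivity) (h.inv_low v)
  have hY : 0 ≤ qf A'⁻¹ v := le_trans (by positivity) (h'.inv_low v)
  have h2 : |√(qf A⁻¹ v) - √(qf A'⁻¹ v)| * (√(qf A⁻¹ v) + √(qf A'⁻¹ v)) =
      |qf A⁻¹ v - qf A'⁻¹ v| := by
    rw [← abs_of_nonneg (add_nonneg (Real.sqrt_nonneg (qf A⁻¹ v)) (Real.sqrt_nonneg (qf A'⁻¹ v))),
      ← abs_mul]
    congr 1
    have h3 := Real.sq_sqrt hX
    have h4 := Real.sq_sqrt hY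
    linear_combination h3 - h4
  have h3 : ‖v‖ ≤ √(qf A⁻¹ v) + √(qf A'⁻¹ v) := by
    linarith [h.sqrt_low v, h'.sqrt_low v]
  have h4 : |√(qf A⁻¹ v) - √(qf A'⁻¹ v)| * ‖v‖ ≤
      4 * (∑ a, ∑ b, |A a b - A' a b|) * ‖v‖ * ‖v‖ := by
    calc _ ≤ |√(qf A⁻¹ v) - √(qf A'⁻¹ v)| * (√(qf A⁻¹ v) + √(qf A'⁻¹ v)) :=
          mul_le_mul_of_nonneg_left h3 (abs_nonneg _)
      _ = |qf A⁻¹ v - qf A'⁻¹ v| := h2
      _ ≤ 4 * (∑ a, ∑ b, |A a b - A' a b|) * ‖v‖ ^ 2 := h1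
      _ = _ := by ring
  exact le_of_mul_le_mul_right h4 hv0

theorem Nr.one : Nr (1 : Matrix (Fin n) (Fin n) ℝ) :=
  Nr.of_near (by simp [Matrix.IsSymm]) (ε := 0) (by norm_num) (by
    simp [Matrix.one_apply])

theorem qf_one (v : 𝔼) : qf (1 : Matrix (Fin n) (Fin n) ℝ) v = ‖v‖ ^ 2 := by
  rw [qf_eq_sum, norm_sq_eq_sum]
  simp [Matrix.one_apply]

/-- matrices near `1`: the dual norm is near the norm -/
theorem sqrt_qf_inv_near {A : Matrix (Fin n) (Fin n) ℝ} (hs : A.IsSymm) {ε : ℝ} (hε : ε ≤ 1 / 2)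
    (hA : ∑ a, ∑ b, |A a b - if a = b then 1 else 0| ≤ ε) (v : 𝔼) :
    |√(qf A⁻¹ v) - ‖v‖| ≤ 4 * ε * ‖v‖ := by
  have h1 := sqrt_qf_inv_sub (Nr.of_near hs hε hA) Nr.one v
  rw [inv_one, qf_one, Real.sqrt_sq (norm_nonneg _)] at h1
  refine h1.trans ?_
  simp only [Matrix.one_apply]
  gcongr

end mat


/-! ### one manifold -/

section one

local notation "𝔼" => EuclideanSpace ℝ (Fin 4)

variable {M : Type} [MetricSpace M] [CompleteSpace M] [ConnectedSpace M]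
  [ChartedSpace (EuclideanSpace ℝ (Fin 4)) M]
  [IsManifold 𝓘(ℝ, EuclideanSpace ℝ (Fin 4)) ∞ M]
  [RiemannianBundle (fun x : M => TangentSpace 𝓘(ℝ, EuclideanSpace ℝ (Fin 4)) x)]
  [IsContMDiffRiemannianBundle 𝓘(ℝ, EuclideanSpace ℝ (Fin 4)) ∞ (EuclideanSpace ℝ (Fin 4))
    (fun x : M => TangentSpace 𝓘(ℝ, EuclideanSpace ℝ (Fin 4)) x)]
  [IsRiemannianManifold 𝓘(ℝ, EuclideanSpace ℝ (Fin 4)) M]
  [MeasurableSpace M] [BorelSpace M]

theorem contMDiffAt_two {u : Fin 4 → M → ℝ} {x : M} {W : ℝ}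
    (hu : ∀ a, ContMDiffOn 𝓘(ℝ, 𝔼) 𝓘(ℝ, ℝ) ∞ (u a) (ball x W)) (a : Fin 4) {y : M}
    (hy : y ∈ ball x W) : ContMDiffAt 𝓘(ℝ, 𝔼) 𝓘(ℝ, ℝ) 2 (u a) y :=
  ((hu a).contMDiffAt (isOpen_ball.mem_nhds hy)).of_le two_le_infty

/-- the `L¹` bound of the Hessians from the Morrey bound -/
theorem hsum_le (hRic : HasRicciLowerBound 4 M 0) {u : Fin 4 → M → ℝ} {x : M} {W : ℝ}
    (hu : ∀ a, ContMDiffOn 𝓘(ℝ, 𝔼) 𝓘(ℝ, ℝ) ∞ (u a) (ball x W)) {z : M} {r B l : ℝ} (hr : 0 < r)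
    (hl : 0 < l) (hz : closedBall z r ⊆ ball x W)
    (hB : ∫ y in ball z r, ∑ a, mHessSq 4 (u a) y ∂(μHE[4] : Measure M) ≤ B) :
    ∫⁻ y in ball z r, ENNReal.ofReal (hsum u y) ∂(μHE[4] : Measure M) ≤
      ENNReal.ofReal (l / 2 * B + 2 / l * (om4 * r ^ 4)) := by
  have := Crest.Agent.R247.HR216.properSpace_of_riemannian 4 M
  have := Crest.Agent.R247.GluM923.isLocallyFinite 4 M
  have hcont : ContinuousOn (fun y => ∑ a, mHessSq 4 (u a) y) (closedBall z r) := by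
    intro y hy
    refine ContinuousAt.continuousWithinAt ?_
    refine tendsto_finsetSum _ fun a _ => ?_
    exact Crest.Agent.R247.Bs84.continuousAt_mHessSq (contMDiffAt_two hu a (hz hy))
  have hi : IntegrableOn (fun y => ∑ a, mHessSq 4 (u a) y) (ball z r) (μHE[4] : Measure M) :=
    (hcont.integrableOn_compact (isCompact_closedBall z r)).mono_set ball_subset_closedBall
  have hfin : (μHE[4] : Measure M) (ball z r) ≠ ⊤ := measure_ball_lt_top.ne
  have hi2 : IntegrableOn (fun y => l / 2 * (∑ a, mHessSq 4 (u a) y) + 2 / l) (ball z r)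
      (μHE[4] : Measure M) := (hi.const_mul _).add (integrableOn_const hfin)
  have hn : ∀ a, ∀ y ∈ ball z r, 0 ≤ mHessSq 4 (u a) y := fun a y hy =>
    mHessSq_nonneg (contMDiffAt_two hu a (hz (ball_subset_closedBall hy)))
  have hpt : ∀ y ∈ ball z r, hsum u y ≤ l / 2 * (∑ a, mHessSq 4 (u a) y) + 2 / l := by
    intro y hy
    unfold hsum
    have h1 : ∀ a, √(mHessSq 4 (u a) y) ≤ l / 2 * mHessSq 4 (u a) y + 1 / (2 * l) := by
      intro a
      have h2 := Real.sq_sqrt (hn a y hy)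
      set t := √(mHessSq 4 (u a) y) with ht
      rw [← h2]
      have h3 : 0 ≤ (l * t - 1) ^ 2 / (2 * l) := by positivity
      have h4 : (l * t - 1) ^ 2 / (2 * l) = l / 2 * t ^ 2 + 1 / (2 * l) - t := by
        field_simp
        ring
      linarith
    calc ∑ a, √(mHessSq 4 (u a) y) ≤ ∑ a, (l / 2 * mHessSq 4 (u a) y + 1 / (2 * l)) :=
          Finset.sum_le_sum fun a _ => h1 a
      _ = l / 2 * (∑ a, mHessSq 4 (u a) y) + 2 / l := by
          rw [Finset.sum_add_distrib, Finset.mul_sum, Finset.sum_const, Finset.card_univ,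
            Fintype.card_fin, nsmul_eq_mul]
          push_cast
          field_simp
          ring
  calc ∫⁻ y in ball z r, ENNReal.ofReal (hsum u y) ∂(μHE[4] : Measure M)
      ≤ ∫⁻ y in ball z r, ENNReal.ofReal (l / 2 * (∑ a, mHessSq 4 (u a) y) + 2 / l)
          ∂(μHE[4] : Measure M) := setLIntegral_mono' measurableSet_ball fun y hy =>
            ENNReal.ofReal_le_ofReal (hpt y hy)
    _ = ENNReal.ofReal (∫ y in ball z r, (l / 2 * (∑ a, mHessSq 4 (u a) y) + 2 / l)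
          ∂(μHE[4] : Measure M)) := by
        rw [ofReal_integral_eq_lintegral_ofReal hi2]
        refine (ae_restrict_iff' measurableSet_ball).2 (Eventually.of_forall fun y hy => ?_)
        have : 0 ≤ ∑ a, mHessSq 4 (u a) y := Finset.sum_nonneg fun a _ => hn a y hy
        change 0 ≤ l / 2 * (∑ a, mHessSq 4 (u a) y) + 2 / l
        positivity
    _ ≤ _ := by
        refine ENNReal.ofReal_le_ofReal ?_
        rw [integral_add (hi.const_mul _) (integrableOn_const hfin), integral_const_mul,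
          setIntegral_const, smul_eq_mul]
        have h1 : (μHE[4] : Measure M).real (ball z r) ≤ om4 * r ^ 4 :=
          ENNReal.toReal_le_of_le_ofReal (by have := om4_pos; positivity) (vol_le hRic z hr)
        have h2 : 0 ≤ 2 / l := by positivity
        have h3 : l / 2 * (∫ y in ball z r, ∑ a, mHessSq 4 (u a) y ∂(μHE[4] : Measure M)) ≤
            l / 2 * B := mul_le_mul_of_nonneg_left hB (by positivity)
        nlinarith

/-- the integral of the deviation as a lower integral -/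
theorem gdev_le {u : Fin 4 → M → ℝ} {x : M} {W : ℝ}
    (hu : ∀ a, ContMDiffOn 𝓘(ℝ, 𝔼) 𝓘(ℝ, ℝ) ∞ (u a) (ball x W)) {z : M} {r B : ℝ}
    (A : Matrix (Fin 4) (Fin 4) ℝ) (hz : closedBall z r ⊆ ball x W)
    (hB : ∫ y in ball z r, ∑ a, ∑ b, |mGam 4 (u a) (u b) y - A a b| ∂(μHE[4] : Measure M) ≤ B) :
    ∫⁻ y in ball z r, ENNReal.ofReal (gdev A u y) ∂(μHE[4] : Measure M) ≤ ENNReal.ofReal B := by
  have hi := integrableOn_dev hu A hz 1
  simp only [one_mul] at hi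
  have h1 : ∫⁻ y in ball z r, ENNReal.ofReal (gdev A u y) ∂(μHE[4] : Measure M) =
      ENNReal.ofReal (∫ y in ball z r, ∑ a, ∑ b, |mGam 4 (u a) (u b) y - A a b|
        ∂(μHE[4] : Measure M)) := by
    rw [ofReal_integral_eq_lintegral_ofReal hi]
    · rfl
    · exact Eventually.of_forall fun y =>
        Finset.sum_nonneg fun _ _ => Finset.sum_nonneg fun _ _ => abs_nonneg _
  rw [h1]
  exact ENNReal.ofReal_le_ofReal hB

end one

/-! ### the sequence -/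

section seq

local notation "𝔼" => EuclideanSpace ℝ (Fin 4)

variable {M : ℕ → Type} [∀ k, MetricSpace (M k)] [∀ k, CompleteSpace (M k)]
  [∀ k, ConnectedSpace (M k)] [∀ k, ChartedSpace (EuclideanSpace ℝ (Fin 4)) (M k)]
  [∀ k, IsManifold 𝓘(ℝ, EuclideanSpace ℝ (Fin 4)) ∞ (M k)]
  [∀ k, RiemannianBundle (fun x : M k => TangentSpace 𝓘(ℝ, EuclideanSpace ℝ (Fin 4)) x)]
  [∀ k, IsContMDiffRiemannianBundle 𝓘(ℝ, EuclideanSpace ℝ (Fin 4)) ∞ (EuclideanSpace ℝ (Fin 4))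
    (fun x : M k => TangentSpace 𝓘(ℝ, EuclideanSpace ℝ (Fin 4)) x)]
  [∀ k, IsRiemannianManifold 𝓘(ℝ, EuclideanSpace ℝ (Fin 4)) (M k)]
  [∀ k, MeasurableSpace (M k)] [∀ k, BorelSpace (M k)] {q : ∀ k, M k}
  {x : ∀ k, M k} {hx : Bd q x} {ρ α C C' ε ε₁ δ lam : ℝ} {lamk : ℕ → ℝ}
  {u : ∀ k, Fin 4 → M k → ℝ} {h : UL q → Matrix (Fin 4) (Fin 4) ℝ}

/-- near isometry along the sequence, at small scales -/
theorem ev_ni (hδ : δ ≤ 1 / 2) (hε : ε₁ ≤ 1 / 2) (hD : HData x ρ α C ε δ lam lamk u)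
    (hA : AvOut x hx ρ α C' ε₁ u h) {η : ℝ} (hη : 0 < η) :
    ∃ s₁ : ℝ, 0 < s₁ ∧ s₁ ≤ ρ / 6 ∧ ∀ z ∈ ball (UL.mk x hx) (4 * ρ), ∀ s : ℝ, 0 < s → s ≤ s₁ →
      ∀ᶠ k in om, ∀ y ∈ ball (z.rep k) s, ∀ y' ∈ ball (z.rep k) s,
        |√(qf (h z)⁻¹ (uv (u k) y - uv (u k) y')) - dist y y'| ≤ η * s := by
  have hρ := hD.ρ_pos
  have hα0 : 0 < α := by linarith [hD.α_gt]
  have hα1 := hD.α_lt
  have hC := hD.C_pos
  have hw := om4_pos
  obtain ⟨d, hd, key⟩ := ni.{0} 4 (ε := η) (c := 1 / 2) (L := 2) (Λ := 2) hη (by norm_num)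
    (by norm_num) (by norm_num)
  set D : ℝ := |C'| with hDdef
  have hD0 : 0 ≤ D := abs_nonneg _
  -- the constants
  set K₁ : ℝ := D * 7776 with hK₁
  set K₂ : ℝ := C / 2 * 1296 + 2 * (om4 * 1296) with hK₂
  have hK₁0 : 0 ≤ K₁ := by positivity
  have hK₂0 : 0 < K₂ := by positivity
  -- the scale
  have ht : ∀ K : ℝ, ∀ᶠ s : ℝ in 𝓝[>] 0, K * s ^ α < d := by
    intro K
    have h1 : Tendsto (fun s : ℝ => s ^ α) (𝓝[>] 0) (𝓝 0) := by
      have h2 := (Real.continuousAt_rpow_const (0 : ℝ) α (Or.inr hα0.le)).tendsto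
      rw [Real.zero_rpow hα0.ne'] at h2
      exact h2.mono_left nhdsWithin_le_nhds
    have h3 : Tendsto (fun s : ℝ => K * s ^ α) (𝓝[>] 0) (𝓝 0) := by simpa using h1.const_mul K
    exact (tendsto_order.1 h3).2 d hd
  have h2 : ∀ᶠ s : ℝ in 𝓝[>] 0, s ∈ Ioo (0 : ℝ) (min (ρ / 6) 1) :=
    Ioo_mem_nhdsGT (lt_min (by positivity) one_pos)
  obtain ⟨s₁, ⟨hs1, hs2⟩, hs3⟩ := (((ht K₁).and (ht K₂)).and h2).exists
  refine ⟨s₁, hs3.1, hs3.2.le.trans (min_le_left _ _), ?_⟩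
  intro z hz s hs hss
  have hs6 : s ≤ ρ / 6 := hss.trans (hs3.2.le.trans (min_le_left _ _))
  have hs11 : s ≤ 1 := hss.trans (hs3.2.le.trans (min_le_right _ _))
  have hN : Nr (h z) := Nr.of_near (by
    ext a b; exact hA.symm z b a) hε (hA.near z hz)
  have hmono : ∀ K : ℝ, 0 ≤ K → K * s₁ ^ α < d → K * s ^ α ≤ d := by
    intro K hK h1
    have h3 : s ^ α ≤ s₁ ^ α := Real.rpow_le_rpow hs.le hss hα0.le
    nlinarith
  have hmem : ∀ᶠ k in om, z.rep k ∈ ball (x k) (4 * ρ) := by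
    refine UL.ev_lt z.bd_rep hx ?_
    rw [UL.mk_rep]
    exact hz
  have hav := hA.av z hz (6 * s) (by positivity) (by linarith)
  filter_upwards [hD.ric, hD.pinch, hD.smooth, hD.harm, hmem, hav,
    hD.hess (6 * s) (by positivity)] with k hric hpin hsm hharm hmem hav hhess
  intro y hy y' hy'
  have hcb : closedBall (z.rep k) (6 * s) ⊆ ball (x k) (16 * ρ) := by
    intro w hw
    have h1 := mem_closedBall.1 hw
    have h2 := mem_ball.1 hmem
    have h3 := dist_triangle w (z.rep k) (x k)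
    rw [mem_ball]
    linarith
  have hzk8 : z.rep k ∈ ball (x k) (8 * ρ) := ball_subset_ball (by linarith) hmem
  have hzk16 : z.rep k ∈ ball (x k) (16 * ρ) := ball_subset_ball (by linarith) hmem
  refine key (M k) 0 le_rfl (by simpa using hric) (z.rep k) s hs (by simp) ?_ (h z) hN.sym
    hN.low hN.up (u k) (fun b w hw => contMDiffAt_two hsm b (hcb (ball_subset_closedBall hw)))
    (fun b w hw => ?_) ?_ ?_ y y' hy hy'
  · refine le_trans ?_ (hpin (z.rep k) hzk16 s hs (by linarith))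
    gcongr
    linarith
  · have h1 := (hharm b w (hcb (ball_subset_closedBall hw))).2
    linarith
  · refine (gdev_le hsm (h z) hcb hav).trans (ENNReal.ofReal_le_ofReal ?_)
    have h1 : (6 * s) ^ (4 + α) ≤ 7776 * s ^ 4 * s ^ α := by
      rw [Real.rpow_add (by positivity), Real.mul_rpow (by norm_num) hs.le (z := α)]
      have h1 : (6 : ℝ) ^ α ≤ 6 := by
        calc (6 : ℝ) ^ α ≤ 6 ^ (1 : ℝ) := Real.rpow_le_rpow_of_exponent_le (by norm_num) hα1.le
          _ = 6 := Real.rpow_one 6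
      have h2 : (6 * s) ^ (4 : ℝ) = 1296 * s ^ 4 := by
        rw [show (4 : ℝ) = ((4 : ℕ) : ℝ) by norm_num, Real.rpow_natCast]; ring
      rw [h2]
      have h4 : 0 ≤ s ^ 4 * s ^ α := by positivity
      nlinarith
    calc C' * (6 * s) ^ (4 + α) ≤ D * (6 * s) ^ (4 + α) := by
          gcongr
          exact le_abs_self _
      _ ≤ D * (7776 * s ^ 4 * s ^ α) := by gcongr
      _ = K₁ * s ^ α * s ^ 4 := by rw [hK₁]; ring
      _ ≤ d * s ^ 4 := by
          gcongr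
          exact hmono K₁ hK₁0 hs1
  · have hh := hhess (z.rep k) hzk8 (6 * s) le_rfl (by linarith)
    have hl : 0 < s ^ (1 - α) := by positivity
    have h1 := hsum_le hric hsm (z := z.rep k) (r := 6 * s) (l := s ^ (1 - α)) (by positivity) hl
      hcb hh
    calc ENNReal.ofReal s * ∫⁻ w in ball (z.rep k) (6 * s), ENNReal.ofReal (hsum (u k) w)
          ∂(μHE[4] : Measure (M k))
        ≤ ENNReal.ofReal s * ENNReal.ofReal (s ^ (1 - α) / 2 * (C * (6 * s) ^ (2 + 2 * α)) +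
          2 / s ^ (1 - α) * (om4 * (6 * s) ^ 4)) := by gcongr
      _ = ENNReal.ofReal (s * (s ^ (1 - α) / 2 * (C * (6 * s) ^ (2 + 2 * α)) +
          2 / s ^ (1 - α) * (om4 * (6 * s) ^ 4))) := by rw [ENNReal.ofReal_mul hs.le]
      _ ≤ ENNReal.ofReal (d * s ^ 4) := by
          refine ENNReal.ofReal_le_ofReal ?_
          have e1 : (6 * s) ^ (2 + 2 * α) ≤ 1296 * (s ^ 2 * (s ^ α * s ^ α)) := by
            rw [Real.mul_rpow (by norm_num) hs.le]
            have h2 : (6 : ℝ) ^ (2 + 2 * α) ≤ 1296 := by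
              calc (6 : ℝ) ^ (2 + 2 * α) ≤ 6 ^ (4 : ℝ) :=
                    Real.rpow_le_rpow_of_exponent_le (by norm_num) (by linarith)
                _ = 1296 := by
                    rw [show (4 : ℝ) = ((4 : ℕ) : ℝ) by norm_num, Real.rpow_natCast]; norm_num
            have h3 : s ^ (2 + 2 * α) = s ^ 2 * (s ^ α * s ^ α) := by
              rw [Real.rpow_add hs, ← Real.rpow_add hs α α, ← two_mul]
              congr 1
              rw [show (2 : ℝ) = ((2 : ℕ) : ℝ) by norm_num, Real.rpow_natCast]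
            rw [h3]
            have h4 : 0 ≤ s ^ 2 * (s ^ α * s ^ α) := by positivity
            nlinarith
          have e2 : s ^ (1 - α) * s ^ α = s := by
            rw [← Real.rpow_add hs]; simp
          have e3 : 2 / s ^ (1 - α) = 2 * s ^ α / s := by
            have e2' : s ^ α * s ^ (1 - α) = s := by rw [mul_comm]; exact e2
            rw [div_eq_div_iff hl.ne' hs.ne', mul_assoc, e2']
          have e4 : s * (s ^ (1 - α) / 2 * (C * (6 * s) ^ (2 + 2 * α))) ≤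
              C / 2 * 1296 * s ^ α * s ^ 4 := by
            calc s * (s ^ (1 - α) / 2 * (C * (6 * s) ^ (2 + 2 * α)))
                ≤ s * (s ^ (1 - α) / 2 * (C * (1296 * (s ^ 2 * (s ^ α * s ^ α))))) := by gcongr
              _ = C / 2 * 1296 * s ^ α * (s * s ^ 2 * (s ^ (1 - α) * s ^ α)) := by ring
              _ = _ := by rw [e2]; ring
          have e5 : s * (2 / s ^ (1 - α) * (om4 * (6 * s) ^ 4)) =
              2 * (om4 * 1296) * s ^ α * s ^ 4 := by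
            rw [e3]
            field_simp
            ring
          calc s * (s ^ (1 - α) / 2 * (C * (6 * s) ^ (2 + 2 * α)) +
                2 / s ^ (1 - α) * (om4 * (6 * s) ^ 4))
              = s * (s ^ (1 - α) / 2 * (C * (6 * s) ^ (2 + 2 * α))) +
                s * (2 / s ^ (1 - α) * (om4 * (6 * s) ^ 4)) := by ring
            _ ≤ C / 2 * 1296 * s ^ α * s ^ 4 + 2 * (om4 * 1296) * s ^ α * s ^ 4 := by
                rw [e5]; gcongr
            _ = K₂ * s ^ α * s ^ 4 := by rw [hK₂]; ring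
            _ ≤ d * s ^ 4 := by
                gcongr
                exact hmono K₂ hK₂0.le hs2

/-- the limit of the maps -/
theorem exists_U (hD : HData x ρ α C ε δ lam lamk u) : ∃ U : UL q → EuclideanSpace ℝ (Fin 4),
    (∀ a, LimOn (ball (UL.mk x hx) (8 * ρ)) (fun k => u k a) fun y => U y a) ∧
      U (UL.mk x hx) = 0 := by
  have hρ := hD.ρ_pos
  set T : UL q ≃ᵢ UL x := UL.rebase hx with hT
  have hE : ∀ a, EqC x (fun k => u k a) (8 * ρ) := by
    intro a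
    refine EqC.of_lipschitz (L := 2) ?_ ⟨0, 0, ?_⟩
    · filter_upwards [hD.smooth, hD.harm] with k hsm hharm y z hy hz
      have h1 := WH_509.lip_of_grad (n := 4) (f := u k a) (Λ := 2) (r := 16 * ρ) (x := x k)
        two_pos (fun w hw => ((hsm a).contMDiffAt (isOpen_ball.mem_nhds hw)).of_le (by simp))
        (fun w hw => by have := (hharm a w hw).2; linarith)
        (y := y) (z := z) (by rw [mem_ball, dist_comm]; linarith)
        (by rw [mem_ball, dist_comm]; linarith)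
      rw [Real.dist_eq]
      exact h1
    · filter_upwards [hD.zero] with k hk
      rw [hk a, dist_self]
  refine ⟨fun y => WithLp.toLp 2 fun a => UL.flim (fun k => u k a) (T y), ?_, ?_⟩
  · intro a y hy hyb
    have h1 : T (UL.mk y hy) = UL.mk y (hx.bd_iff.1 hy) := UL.rebase_mk hx hy
    have h2 : dist (UL.base x) (UL.mk y (hx.bd_iff.1 hy)) < 8 * ρ := by
      rw [← h1, ← UL.rebase_base hx, ← hT, T.dist_eq, dist_comm]
      exact hyb
    have h3 := (hE a).tendsto_flim (hx.bd_iff.1 hy) h2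
    change Tendsto (fun k => u k a (y k)) om (𝓝 (UL.flim (fun k => u k a) (T (UL.mk y hy))))
    rw [h1]
    exact h3
  · ext a
    have h1 : T (UL.mk x hx) = UL.base x := UL.rebase_base hx
    have h2 := (hE a).tendsto_flim (Bd.refl x) (by
      change dist (UL.base x) (UL.base x) < 8 * ρ
      rw [dist_self]; positivity)
    have h3 : Tendsto (fun k => u k a (x k)) om (𝓝 0) :=
      tendsto_const_nhds.congr' (hD.zero.mono fun k hk => (hk a).symm)
    change UL.flim (fun k => u k a) (T (UL.mk x hx)) = 0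
    rw [h1]
    exact tendsto_nhds_unique h2 h3

theorem tendsto_uv {U : UL q → EuclideanSpace ℝ (Fin 4)} {R : ℝ}
    (hlim : ∀ a, LimOn (ball (UL.mk x hx) R) (fun k => u k a) fun y => U y a) {y : UL q}
    (hy : y ∈ ball (UL.mk x hx) R) :
    Tendsto (fun k => uv (u k) (y.rep k)) om (𝓝 (U y)) := by
  have h2 : Tendsto (fun k => (fun a => u k a (y.rep k) : Fin 4 → ℝ)) om
      (𝓝 fun a => U y a) := by
    rw [tendsto_pi_nhds]
    intro a
    have h3 := hlim a y.rep y.bd_rep (by rw [UL.mk_rep]; exact hy)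
    rwa [UL.mk_rep] at h3
  exact ((PiLp.continuous_toLp 2 _).tendsto _).comp h2

/-- near isometry of the limit map at small scales -/
theorem ul_ni (hδ : δ ≤ 1 / 2) (hε : ε₁ ≤ 1 / 2) (hD : HData x ρ α C ε δ lam lamk u)
    (hA : AvOut x hx ρ α C' ε₁ u h) {U : UL q → EuclideanSpace ℝ (Fin 4)}
    (hlim : ∀ a, LimOn (ball (UL.mk x hx) (8 * ρ)) (fun k => u k a) fun y => U y a)
    {η : ℝ} (hη : 0 < η) :
    ∃ s₁ : ℝ, 0 < s₁ ∧ s₁ ≤ ρ / 6 ∧ ∀ z ∈ ball (UL.mk x hx) (4 * ρ), ∀ s : ℝ, 0 < s → s ≤ s₁ →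
      ∀ y ∈ ball z s, ∀ y' ∈ ball z s,
        |√(qf (h z)⁻¹ (U y - U y')) - dist y y'| ≤ η * s := by
  have hρ := hD.ρ_pos
  obtain ⟨s₁, h1, h2, h3⟩ := ev_ni hδ hε hD hA hη
  refine ⟨s₁, h1, h2, ?_⟩
  intro z hz s hs hss y hy y' hy'
  have hmem : ∀ w ∈ ball z s, w ∈ ball (UL.mk x hx) (8 * ρ) := by
    intro w hw
    have e1 := mem_ball.1 hw
    have e2 := mem_ball.1 hz
    have e3 := dist_triangle w z (UL.mk x hx)
    rw [mem_ball]
    linarith
  have hev : ∀ w ∈ ball z s, ∀ᶠ k in om, w.rep k ∈ ball (z.rep k) s := by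
    intro w hw
    refine UL.ev_lt w.bd_rep z.bd_rep ?_
    rw [UL.mk_rep, UL.mk_rep]
    exact hw
  have ht : Tendsto (fun k => |√(qf (h z)⁻¹ (uv (u k) (y.rep k) - uv (u k) (y'.rep k))) -
      dist (y.rep k) (y'.rep k)|) om (𝓝 |√(qf (h z)⁻¹ (U y - U y')) - dist y y'|) := by
    have e1 := (tendsto_uv hlim (hmem y hy)).sub (tendsto_uv hlim (hmem y' hy'))
    have e2 := (((continuous_qf (h z)⁻¹).tendsto _).comp e1).sqrt
    exact (e2.sub (UL.tendsto_dist_rep y y')).abs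
  refine le_of_tendsto ht ?_
  filter_upwards [h3 z hz s hs hss, hev y hy, hev y' hy'] with k hk hk1 hk2
  exact hk _ hk1 _ hk2

end seq

end Crest.Agent.R249.Ch174
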