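import Crest.Agent.R249.NI3_923
import Crest.Agent.R249.Ch1_174

/-!
# R249 (helper923), D3-LIM/CH, part 2: linear algebra and the near isometry estimate on one manifold

* `lo_of_near`, `nrm_near_euc`, `nrm_diff` : comparison of the norms `|v|_{A⁻¹}`;
* `near_M` : the near isometry lemma with the inputs of `HData`, `AvOut`.
-/

set_option autoImplicit false
noncomputable section
open Set Filter Topology Bundle MeasureTheory Metric
open scoped ContDiff Manifold ENNReal NNReal Matrix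
open Crest.GeometryTopology.CoordMetric Crest.GeometryTopology.ChartCurvature
  Crest.GeometryTopology.RicciEnergy Crest.GeometryTopology.PointedLimit
open Crest.Agent.R247 Crest.Agent.R247.Bo84
open Crest.Agent.R249.D1Def104 Crest.Agent.R249.Ul174 Crest.Agent.R249.Len47
open Crest.Agent.R249.AsmD832 Crest.Agent.R249.LimDef41 Crest.Agent.R249.NI_923
open Crest.Agent.R249.St174

namespace Crest.Agent.R249.Ch923

section lin

variable {n : ℕ} {A B : Matrix (Fin n) (Fin n) ℝ}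

lemma lo_of_near (hs : ∀ a b, A a b = A b a) {ε : ℝ} (hε : ε ≤ 1 / 2)
    (h : ∑ a, ∑ b, |A a b - if a = b then 1 else 0| ≤ ε) : Lo A := by
  constructor
  · ext a b
    exact hs b a
  · intro v
    have h1 := abs_form_le (A - 1) v
    have h2 : (∑ a, ∑ b, |(A - 1) a b|) ≤ ε := by
      refine le_trans (le_of_eq ?_) h
      refine Finset.sum_congr rfl fun a _ => Finset.sum_congr rfl fun b _ => ?_
      rw [Matrix.sub_apply, Matrix.one_apply]
    have h3 : v ⬝ᵥ ((A - 1) *ᵥ v) = v ⬝ᵥ (A *ᵥ v) - v ⬝ᵥ v := by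
      rw [Matrix.sub_mulVec, Matrix.one_mulVec, dotProduct_sub]
    rw [h3] at h1
    have h4 := (abs_le.1 h1).1
    have h5 := dot_nonneg v
    nlinarith

lemma nrm_near_euc (h : Lo A) {ε : ℝ} (hε : ∑ a, ∑ b, |A a b - if a = b then 1 else 0| ≤ ε)
    (v : EuclideanSpace ℝ (Fin n)) : |nrm A v.ofLp - ‖v‖| ≤ 2 * ε * ‖v‖ := by
  have h1 := h.nrm_near (fun a => EuclideanSpace.single a (1:ℝ)) v (κ := ε) (by
    refine le_trans (le_of_eq ?_) hε
    refine Finset.sum_congr rfl fun a _ => Finset.sum_congr rfl fun b _ => ?_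
    rw [abs_sub_comm]
    congr 2
    simp [EuclideanSpace.inner_single_left])
  have h2 : (fun a => (inner ℝ (EuclideanSpace.single a (1:ℝ)) v : ℝ)) = v.ofLp := by
    ext a
    simp [EuclideanSpace.inner_single_left]
  rwa [h2] at h1

lemma abs_bil_le (E : Matrix (Fin n) (Fin n) ℝ) (ξ ζ : Fin n → ℝ) :
    |ξ ⬝ᵥ (E *ᵥ ζ)| ≤ (∑ a, ∑ b, |E a b|) * ((ξ ⬝ᵥ ξ + ζ ⬝ᵥ ζ) / 2) := by
  have h0 : ξ ⬝ᵥ (E *ᵥ ζ) = ∑ a, ∑ b, ξ a * E a b * ζ b := by
    simp only [dotProduct, Matrix.mulVec, Finset.mul_sum, mul_assoc]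
  have hsq : ∀ (η : Fin n → ℝ) (c : Fin n), η c ^ 2 ≤ η ⬝ᵥ η := by
    intro η c
    have h1 : η ⬝ᵥ η = ∑ c, η c ^ 2 := by
      simp only [dotProduct]
      exact Finset.sum_congr rfl fun i _ => by ring
    rw [h1]
    exact Finset.single_le_sum (f := fun c => η c ^ 2) (fun i _ => sq_nonneg _) (Finset.mem_univ c)
  rw [h0, Finset.sum_mul]
  refine (Finset.abs_sum_le_sum_abs _ _).trans (Finset.sum_le_sum fun a _ => ?_)
  rw [Finset.sum_mul]
  refine (Finset.abs_sum_le_sum_abs _ _).trans (Finset.sum_le_sum fun b _ => ?_)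
  rw [abs_mul, abs_mul]
  have h1 := hsq ξ a
  have h2 := hsq ζ b
  have h3 : |ξ a| * |ζ b| ≤ (ξ ⬝ᵥ ξ + ζ ⬝ᵥ ζ) / 2 := by
    have h4 : |ξ a| ^ 2 = ξ a ^ 2 := sq_abs _
    have h5 : |ζ b| ^ 2 = ζ b ^ 2 := sq_abs _
    nlinarith [sq_nonneg (|ξ a| - |ζ b|)]
  calc |ξ a| * |E a b| * |ζ b| = |E a b| * (|ξ a| * |ζ b|) := by ring
    _ ≤ _ := mul_le_mul_of_nonneg_left h3 (abs_nonneg _)

lemma inv_dot_le (h : Lo A) (v : Fin n → ℝ) : (A⁻¹ *ᵥ v) ⬝ᵥ (A⁻¹ *ᵥ v) ≤ 4 * (v ⬝ᵥ v) := by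
  set ξ := A⁻¹ *ᵥ v with hξ
  have h1 := h.lo ξ
  have h2 : A *ᵥ ξ = v := h.mul_inv v
  rw [h2] at h1
  have h5 := dot_nonneg ((2 : ℝ) • v - ξ)
  rw [sub_dotProduct, dotProduct_sub, dotProduct_sub, smul_dotProduct, smul_dotProduct,
    dotProduct_smul, dotProduct_smul, dotProduct_comm v ξ] at h5
  simp only [smul_eq_mul] at h5
  nlinarith

lemma nrm_diff (hA : Lo A) (hB : Lo B) {κ : ℝ} (hκ : ∑ a, ∑ b, |B a b - A a b| ≤ κ)
    (v : Fin n → ℝ) : |nrm A v - nrm B v| ≤ 2 * √κ * √(v ⬝ᵥ v) := by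
  have hκ0 : 0 ≤ κ := le_trans (Finset.sum_nonneg fun i _ => Finset.sum_nonneg fun j _ =>
    abs_nonneg _) hκ
  have hv := dot_nonneg v
  have e1 : nrm A v ^ 2 = (A⁻¹ *ᵥ v) ⬝ᵥ (B *ᵥ (B⁻¹ *ᵥ v)) := by
    rw [hA.nrm_sq, hB.mul_inv, dotProduct_comm]
  have e2 : nrm B v ^ 2 = (A⁻¹ *ᵥ v) ⬝ᵥ (A *ᵥ (B⁻¹ *ᵥ v)) := by
    rw [hB.nrm_sq, hA.swap, hA.mul_inv, dotProduct_comm]
  have e3 : nrm A v ^ 2 - nrm B v ^ 2 = (A⁻¹ *ᵥ v) ⬝ᵥ ((B - A) *ᵥ (B⁻¹ *ᵥ v)) := by
    rw [e1, e2, Matrix.sub_mulVec, dotProduct_sub]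
  have h1 := abs_bil_le (B - A) (A⁻¹ *ᵥ v) (B⁻¹ *ᵥ v)
  rw [← e3] at h1
  have h2 := inv_dot_le hA v
  have h3 := inv_dot_le hB v
  have h4 : |nrm A v ^ 2 - nrm B v ^ 2| ≤ κ * (4 * (v ⬝ᵥ v)) := by
    refine h1.trans (mul_le_mul ?_ (by linarith) ?_ hκ0)
    · simpa [Matrix.sub_apply] using hκ
    · have := dot_nonneg (A⁻¹ *ᵥ v)
      have := dot_nonneg (B⁻¹ *ᵥ v)
      linarith
  have hA0 := nrm_nonneg A v
  have hB0 := nrm_nonneg B v
  have h5 : (nrm A v - nrm B v) ^ 2 ≤ κ * (4 * (v ⬝ᵥ v)) := by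
    refine le_trans ?_ h4
    have h6 : nrm A v ^ 2 - nrm B v ^ 2 = (nrm A v - nrm B v) * (nrm A v + nrm B v) := by ring
    rw [h6, abs_mul, abs_of_nonneg (a := nrm A v + nrm B v) (by linarith), ← sq_abs, sq]
    refine mul_le_mul_of_nonneg_left ?_ (abs_nonneg _)
    rw [abs_le]
    constructor <;> linarith
  refine abs_le_of_sq_le_sq ?_ (by positivity)
  calc (nrm A v - nrm B v) ^ 2 ≤ κ * (4 * (v ⬝ᵥ v)) := h5
    _ = (2 * √κ * √(v ⬝ᵥ v)) ^ 2 := by
      rw [mul_pow, mul_pow, Real.sq_sqrt hκ0, Real.sq_sqrt hv]; ring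

end lin

local notation "𝔼" => EuclideanSpace ℝ (Fin 4)

/-- the near isometry lemma with Bochner integrals -/
theorem near_M {ε : ℝ} (hε : 0 < ε) : ∃ δ : ℝ, 0 < δ ∧
    ∀ (M : Type) [MetricSpace M] [CompleteSpace M] [ConnectedSpace M]
    [ChartedSpace (EuclideanSpace ℝ (Fin 4)) M]
    [IsManifold 𝓘(ℝ, EuclideanSpace ℝ (Fin 4)) ∞ M]
    [RiemannianBundle (fun x : M => TangentSpace 𝓘(ℝ, EuclideanSpace ℝ (Fin 4)) x)]
    [IsContMDiffRiemannianBundle 𝓘(ℝ, EuclideanSpace ℝ (Fin 4)) ∞ (EuclideanSpace ℝ (Fin 4))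
      (fun x : M => TangentSpace 𝓘(ℝ, EuclideanSpace ℝ (Fin 4)) x)]
    [IsRiemannianManifold 𝓘(ℝ, EuclideanSpace ℝ (Fin 4)) M]
    [MeasurableSpace M] [BorelSpace M] (x z : M) (W s : ℝ), 0 < s →
    closedBall z (6 * s) ⊆ ball x W → HasRicciLowerBound 4 M 0 →
    ENNReal.ofReal (1 / 2) * volume (ball (0 : 𝔼) s) ≤ (μHE[4] : Measure M) (ball z s) →
    ∀ u : Fin 4 → M → ℝ, (∀ a, ContMDiffOn 𝓘(ℝ, 𝔼) 𝓘(ℝ, ℝ) ∞ (u a) (ball x W)) →
    (∀ a, ∀ p ∈ ball x W, mGam 4 (u a) (u a) p ≤ 4) →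
    ∀ A : Matrix (Fin 4) (Fin 4) ℝ, Lo A → ∀ H D t : ℝ, 0 < t →
    ∫ y in ball z (6 * s), ∑ a, mHessSq 4 (u a) y ∂(μHE[4] : Measure M) ≤ H →
    ∫ y in ball z (6 * s), ∑ a, ∑ b, |mGam 4 (u a) (u b) y - A a b| ∂(μHE[4] : Measure M) ≤ D →
    t / 2 * H + 2 / t * (om4 * (6 * s) ^ 4) ≤ δ * s ^ 3 → D ≤ δ * s ^ 4 →
    ∀ y ∈ ball z s, ∀ y' ∈ ball z s,
      |nrm A (fun a => u a y - u a y') - dist y y'| ≤ ε * s := by
  obtain ⟨δ, hδ, key⟩ := near_iso.{0} 4 (by norm_num) hε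
  refine ⟨δ, hδ, ?_⟩
  intro M _ _ _ _ _ _ _ _ _ _ x z W s hs hsub hric hvol u hu hgr A hA H D t ht hH hD hHs hDs
  have := HR216.properSpace_of_riemannian 4 M
  have := GluM923.isLocallyFinite 4 M
  have hsub' : ball z (6 * s) ⊆ ball x W := ball_subset_closedBall.trans hsub
  have h2 : ∀ a, ∀ p ∈ ball x W, ContMDiffAt 𝓘(ℝ, 𝔼) 𝓘(ℝ, ℝ) 2 (u a) p := fun a p hp =>
    ((hu a).contMDiffAt (isOpen_ball.mem_nhds hp)).of_le two_le_infty
  have hsum0 : ∀ y ∈ ball z (6 * s), 0 ≤ ∑ a, mHessSq 4 (u a) y := fun y hy =>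
    Finset.sum_nonneg fun a _ => mHessSq_nonneg (h2 a y (hsub' hy))
  have hHint : IntegrableOn (fun y => ∑ a, mHessSq 4 (u a) y) (ball z (6 * s))
      (μHE[4] : Measure M) := by
    have h1 : ContinuousOn (fun y => ∑ a, mHessSq 4 (u a) y) (closedBall z (6 * s)) := by
      refine continuousOn_finsetSum _ fun a _ => ?_
      intro p hp
      exact (Bs84.continuousAt_mHessSq (h2 a p (hsub hp))).continuousWithinAt
    exact (h1.integrableOn_compact (isCompact_closedBall z _)).mono_set ball_subset_closedBall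
  have hDint : IntegrableOn (fun y => ∑ a, ∑ b, |mGam 4 (u a) (u b) y - A a b|) (ball z (6 * s))
      (μHE[4] : Measure M) := by
    have h1 := integrableOn_dev hu A hsub 1
    simpa using h1
  refine key M 0 le_rfl (by rw [neg_zero]; exact hric) z s hs (by simp) hvol u
    (fun a p hp => h2 a p (hsub' hp)) (fun a p hp => by
      have := hgr a p (hsub' hp); norm_num; exact this) A hA ?_ ?_
  · -- the Hessian
    have hpt : ∀ y ∈ ball z (6 * s),
        ∑ a, √(mHessSq 4 (u a) y) ≤ t / 2 * (∑ a, mHessSq 4 (u a) y) + 2 / t := by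
      intro y hy
      have h1 : ∀ a, √(mHessSq 4 (u a) y) ≤ t / 2 * mHessSq 4 (u a) y + 1 / (2 * t) := by
        intro a
        set r := √(mHessSq 4 (u a) y) with hr
        have hr2 : mHessSq 4 (u a) y = r ^ 2 :=
          (Real.sq_sqrt (mHessSq_nonneg (h2 a y (hsub' hy)))).symm
        rw [hr2]
        have h3 : 0 ≤ (t * r - 1) ^ 2 / (2 * t) := by positivity
        have h4 : (t * r - 1) ^ 2 / (2 * t) = t / 2 * r ^ 2 + 1 / (2 * t) - r := by
          field_simp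
          ring
        linarith
      calc ∑ a, √(mHessSq 4 (u a) y) ≤ ∑ a, (t / 2 * mHessSq 4 (u a) y + 1 / (2 * t)) :=
            Finset.sum_le_sum fun a _ => h1 a
        _ = _ := by
          rw [Finset.sum_add_distrib, ← Finset.mul_sum]
          simp only [Finset.sum_const, Finset.card_univ, Fintype.card_fin, nsmul_eq_mul]
          have : ((4 : ℕ) : ℝ) * (1 / (2 * t)) = 2 / t := by
            push_cast
            field_simp
            norm_num
          rw [this]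
    calc ∫⁻ y in ball z (6 * s), ENNReal.ofReal (∑ a, √(mHessSq 4 (u a) y)) ∂(μHE[4] : Measure M)
        ≤ ∫⁻ y in ball z (6 * s), (ENNReal.ofReal (t / 2 * (∑ a, mHessSq 4 (u a) y)) +
            ENNReal.ofReal (2 / t)) ∂(μHE[4] : Measure M) := by
          refine setLIntegral_mono' measurableSet_ball fun y hy => ?_
          rw [← ENNReal.ofReal_add (by have := hsum0 y hy; positivity) (by positivity)]
          exact ENNReal.ofReal_le_ofReal (hpt y hy)
      _ = ENNReal.ofReal (∫ y in ball z (6 * s), t / 2 * (∑ a, mHessSq 4 (u a) y)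
            ∂(μHE[4] : Measure M)) + ENNReal.ofReal (2 / t) * (μHE[4] : Measure M) (ball z (6 * s)) := by
          rw [lintegral_add_right _ measurable_const, lintegral_const, Measure.restrict_apply_univ,
            ofReal_integral_eq_lintegral_ofReal (hHint.const_mul _)
              ((ae_restrict_iff' measurableSet_ball).2 (Eventually.of_forall fun y hy => by
                have := hsum0 y hy; positivity))]
      _ ≤ ENNReal.ofReal (t / 2 * H) + ENNReal.ofReal (2 / t) *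
            ENNReal.ofReal (om4 * (6 * s) ^ 4) := by
          gcongr
          · rw [integral_const_mul]
            exact mul_le_mul_of_nonneg_left hH (by positivity)
          · exact vol_le hric z (by positivity)
      _ = ENNReal.ofReal (t / 2 * H + 2 / t * (om4 * (6 * s) ^ 4)) := by
          have hH0 : 0 ≤ H := le_trans (setIntegral_nonneg measurableSet_ball hsum0) hH
          have := om4_pos
          rw [← ENNReal.ofReal_mul (by positivity), ← ENNReal.ofReal_add (by positivity)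
            (by positivity)]
      _ ≤ ENNReal.ofReal (δ * s ^ (4 - 1)) := ENNReal.ofReal_le_ofReal hHs
  · rw [← ofReal_integral_eq_lintegral_ofReal hDint (Eventually.of_forall fun y =>
      Finset.sum_nonneg fun a _ => Finset.sum_nonneg fun b _ => abs_nonneg _)]
    exact ENNReal.ofReal_le_ofReal (hD.trans hDs)

end Crest.Agent.R249.Ch923
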