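import Crest.Agent.R249.Ch2_923

/-!
# R249 (helper923), D3-LIM/CH, part 3: the limit map and the chart

* `vec`, `eqC_vec`, `limU` : the limit map `U`;
* `nrm_lim` : the near isometry estimate for `U`, `|v|_{h(y)⁻¹}`;
* `chStmt : ChStmt`.
-/

set_option autoImplicit false
set_option linter.unusedSectionVars false
noncomputable section
open Set Filter Topology Bundle MeasureTheory Metric
open scoped ContDiff Manifold ENNReal NNReal Matrix
open Crest.GeometryTopology.CoordMetric Crest.GeometryTopology.ChartCurvature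
  Crest.GeometryTopology.RicciEnergy Crest.GeometryTopology.PointedLimit
open Crest.Agent.R247 Crest.Agent.R247.Bo84
open Crest.Agent.R249.D1Def104 Crest.Agent.R249.Ul174
open Crest.Agent.R249.AsmD832 Crest.Agent.R249.LimDef41 Crest.Agent.R249.NI_923
open Crest.Agent.R249.St174 Crest.Agent.R249.Ch174
open Crest.Agent.R249.UH1_544 (NI Full VolLow VolUp NI.full num)
open Crest.Agent.R249.UH3_544 (homeo)

namespace Crest.Agent.R249.Ch923

local notation "𝔼" => EuclideanSpace ℝ (Fin 4)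

/-! ### small powers -/

theorem small_rpow {α : ℝ} (hα : 0 < α) {K δ : ℝ} (hK : 0 ≤ K) (hδ : 0 < δ) :
    ∃ r : ℝ, 0 < r ∧ ∀ s : ℝ, 0 < s → s ≤ r → K * s ^ α ≤ δ := by
  set B : ℝ := δ / (K + 1) with hB
  have hB0 : 0 < B := by positivity
  refine ⟨B ^ (1 / α), by positivity, ?_⟩
  intro s hs hsr
  have h1 : s ^ α ≤ B := by
    calc s ^ α ≤ (B ^ (1 / α)) ^ α := Real.rpow_le_rpow hs.le hsr hα.le
      _ = B := by
        rw [← Real.rpow_mul hB0.le, one_div_mul_cancel hα.ne', Real.rpow_one]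
  calc K * s ^ α ≤ (K + 1) * B := by
        have : 0 < s ^ α := by positivity
        nlinarith
    _ = δ := by rw [hB]; field_simp

theorem hess_pow {C α s : ℝ} (hs : 0 < s) :
    (s / s ^ α) / 2 * (C * (6 * s) ^ (2 + 2 * α)) + 2 / (s / s ^ α) * (om4 * (6 * s) ^ 4) =
      (C * 6 ^ (2 + 2 * α) / 2 + 2592 * om4) * s ^ α * s ^ 3 := by
  have hX : 0 < s ^ α := by positivity
  have h1 : (6 * s) ^ (2 + 2 * α) = 6 ^ (2 + 2 * α) * (s ^ 2 * (s ^ α) ^ 2) := by
    rw [Real.mul_rpow (by norm_num) hs.le, Real.rpow_add hs]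
    congr 2
    · exact_mod_cast Real.rpow_natCast s 2
    · rw [mul_comm, Real.rpow_mul hs.le]
      exact_mod_cast Real.rpow_natCast (s ^ α) 2
  rw [h1]
  field_simp
  ring

theorem dev_pow {C α s : ℝ} (hs : 0 < s) :
    C * (6 * s) ^ (4 + α) = C * 6 ^ (4 + α) * s ^ α * s ^ 4 := by
  have h1 : (6 * s) ^ (4 + α) = 6 ^ (4 + α) * (s ^ 4 * s ^ α) := by
    rw [Real.mul_rpow (by norm_num) hs.le, Real.rpow_add hs]
    congr 2
    exact_mod_cast Real.rpow_natCast s 4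
  rw [h1]
  ring

theorem continuous_nrm {n : ℕ} (A : Matrix (Fin n) (Fin n) ℝ) : Continuous (nrm A) := by
  unfold nrm
  simp only [dotProduct, Matrix.mulVec]
  fun_prop

section one

variable {M : Type} [MetricSpace M] [CompleteSpace M]
  [ChartedSpace (EuclideanSpace ℝ (Fin 4)) M]
  [IsManifold 𝓘(ℝ, EuclideanSpace ℝ (Fin 4)) ∞ M]
  [RiemannianBundle (fun x : M => TangentSpace 𝓘(ℝ, EuclideanSpace ℝ (Fin 4)) x)]
  [IsContMDiffRiemannianBundle 𝓘(ℝ, EuclideanSpace ℝ (Fin 4)) ∞ (EuclideanSpace ℝ (Fin 4))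
    (fun x : M => TangentSpace 𝓘(ℝ, EuclideanSpace ℝ (Fin 4)) x)]
  [IsRiemannianManifold 𝓘(ℝ, EuclideanSpace ℝ (Fin 4)) M]

theorem dist_toLp_le {f g : Fin 4 → ℝ} {d : ℝ} (hd : 0 ≤ d) (h : ∀ a, |f a - g a| ≤ 2 * d) :
    dist (WithLp.toLp 2 f : 𝔼) (WithLp.toLp 2 g) ≤ 4 * d := by
  rw [EuclideanSpace.dist_eq]
  apply Real.sqrt_le_iff.2 ⟨by positivity, ?_⟩
  calc ∑ i, dist ((WithLp.toLp 2 f : 𝔼) i) ((WithLp.toLp 2 g : 𝔼) i) ^ 2
      ≤ ∑ _i : Fin 4, (2 * d) ^ 2 := by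
        refine Finset.sum_le_sum fun i _ => ?_
        have h1 := h i
        have h2 : dist ((WithLp.toLp 2 f : 𝔼) i) ((WithLp.toLp 2 g : 𝔼) i) = |f i - g i| := by
          simp [Real.dist_eq]
        rw [h2]
        exact pow_le_pow_left₀ (abs_nonneg _) h1 2
    _ = (4 * d) ^ 2 := by
        simp only [Finset.sum_const, Finset.card_univ, Fintype.card_fin, nsmul_eq_mul]
        push_cast
        ring

theorem vec_lip {u : Fin 4 → M → ℝ} {x : M} {W : ℝ}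
    (hu : ∀ a, ContMDiffOn 𝓘(ℝ, 𝔼) 𝓘(ℝ, ℝ) ∞ (u a) (ball x W))
    (hgr : ∀ a, ∀ p ∈ ball x W, mGam 4 (u a) (u a) p ≤ 4) {y z : M}
    (h : dist x y + dist y z < W) :
    dist (WithLp.toLp 2 fun a => u a y : 𝔼) (WithLp.toLp 2 fun a => u a z) ≤ 4 * dist y z := by
  refine dist_toLp_le dist_nonneg fun a => ?_
  rw [abs_sub_comm]
  refine lip_of_grad (n := 4) (x := x) (r := W) (by norm_num) (fun p hp => ?_) (fun p hp => ?_) h
  · exact (((hu a).contMDiffAt (isOpen_ball.mem_nhds hp)).mdifferentiableAt (by simp))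
  · have := hgr a p hp
    norm_num
    exact this

end one

section seq

variable {M : ℕ → Type} [∀ k, MetricSpace (M k)] [∀ k, CompleteSpace (M k)]
  [∀ k, ConnectedSpace (M k)] [∀ k, ChartedSpace (EuclideanSpace ℝ (Fin 4)) (M k)]
  [∀ k, IsManifold 𝓘(ℝ, EuclideanSpace ℝ (Fin 4)) ∞ (M k)]
  [∀ k, RiemannianBundle (fun x : M k => TangentSpace 𝓘(ℝ, EuclideanSpace ℝ (Fin 4)) x)]
  [∀ k, IsContMDiffRiemannianBundle 𝓘(ℝ, EuclideanSpace ℝ (Fin 4)) ∞ (EuclideanSpace ℝ (Fin 4))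
    (fun x : M k => TangentSpace 𝓘(ℝ, EuclideanSpace ℝ (Fin 4)) x)]
  [∀ k, IsRiemannianManifold 𝓘(ℝ, EuclideanSpace ℝ (Fin 4)) (M k)]
  [∀ k, MeasurableSpace (M k)] [∀ k, BorelSpace (M k)] {q : ∀ k, M k}

/-- the vector valued maps -/
def vec (u : ∀ k, Fin 4 → M k → ℝ) (k : ℕ) (y : M k) : 𝔼 := WithLp.toLp 2 fun a => u k a y

variable {x : ∀ k, M k} {hx : Bd q x} {ρ α C C' ε ε₁ δ lam : ℝ} {lamk : ℕ → ℝ}
  {u : ∀ k, Fin 4 → M k → ℝ} {h : UL q → Matrix (Fin 4) (Fin 4) ℝ}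

theorem ev_lip (hD : HData x ρ α C ε δ lam lamk u) : ∀ᶠ k in om, ∀ y z : M k,
    dist (x k) y + dist y z < 16 * ρ → dist (vec u k y) (vec u k z) ≤ 4 * dist y z := by
  filter_upwards [hD.smooth, hD.harm] with k hk1 hk2 y z hyz
  exact vec_lip hk1 (fun a p hp => (hk2 a p hp).2) hyz

theorem eqC_vec (hD : HData x ρ α C ε δ lam lamk u) : EqC x (vec u) (8 * ρ) := by
  have hρ := hD.ρ_pos
  constructor
  · intro η hη
    refine ⟨min (8 * ρ) (η / 4), by positivity, ?_⟩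
    filter_upwards [ev_lip hD] with k hk y z hy hz hyz
    have h1 : dist y z < 8 * ρ := hyz.trans_le (min_le_left _ _)
    have h2 : dist y z < η / 4 := hyz.trans_le (min_le_right _ _)
    have h3 := hk y z (by linarith)
    linarith
  · refine ⟨0, 4 * (8 * ρ), ?_⟩
    filter_upwards [ev_lip hD, hD.zero] with k hk hk0 y hy
    have h1 := hk (x k) y (by rw [dist_self]; linarith)
    have h2 : vec u k (x k) = 0 := by
      ext a
      simp [vec, hk0 a]
    rw [h2, dist_comm] at h1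
    linarith

/-- the limit map -/
def limU (hx : Bd q x) (u : ∀ k, Fin 4 → M k → ℝ) (y : UL q) : 𝔼 :=
  UL.flim (vec u) (UL.rebase hx y)

theorem limU_tendsto (hD : HData x ρ α C ε δ lam lamk u) {y : ∀ k, M k} (hy : Bd q y)
    (hyb : UL.mk y hy ∈ ball (UL.mk x hx) (8 * ρ)) :
    Tendsto (fun k => vec u k (y k)) om (𝓝 (limU hx u (UL.mk y hy))) := by
  have h1 : dist (UL.base x) (UL.mk y (hx.bd_iff.1 hy)) < 8 * ρ := by
    rw [← UL.rebase_mk hx hy, ← UL.rebase_base hx, (UL.rebase hx).dist_eq, dist_comm]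
    exact hyb
  have h2 := (eqC_vec hD).tendsto_flim (hx.bd_iff.1 hy) h1
  unfold limU
  rwa [UL.rebase_mk hx hy]

theorem limU_limOn (hD : HData x ρ α C ε δ lam lamk u) (a : Fin 4) :
    LimOn (ball (UL.mk x hx) (8 * ρ)) (fun k => u k a) fun y => limU hx u y a := by
  intro y hy hyb
  have h1 := limU_tendsto (hx := hx) hD hy hyb
  have h2 : Continuous (fun v : 𝔼 => v a) := by fun_prop
  exact (h2.tendsto _).comp h1

theorem limU_rep (hD : HData x ρ α C ε δ lam lamk u) {y : UL q}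
    (hy : y ∈ ball (UL.mk x hx) (8 * ρ)) :
    Tendsto (fun k => vec u k (y.rep k)) om (𝓝 (limU hx u y)) := by
  have h1 := limU_tendsto (hx := hx) hD (y := y.rep) y.bd_rep (by rwa [UL.mk_rep])
  rwa [UL.mk_rep] at h1

theorem limU_zero (hD : HData x ρ α C ε δ lam lamk u) : limU hx u (UL.mk x hx) = 0 := by
  have hρ := hD.ρ_pos
  have h1 := limU_tendsto (hx := hx) hD hx (mem_ball_self (by positivity))
  refine tendsto_nhds_unique h1 ?_
  refine tendsto_const_nhds.congr' ?_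
  filter_upwards [hD.zero] with k hk
  ext a
  simp [vec, hk a]

theorem ev_rep_ball {y : UL q} {R : ℝ} (hy : y ∈ ball (UL.mk x hx) R) :
    ∀ᶠ k in om, dist (y.rep k) (x k) < R := by
  refine UL.ev_lt y.bd_rep hx ?_
  rw [UL.mk_rep]
  exact hy

theorem limU_lip (hD : HData x ρ α C ε δ lam lamk u) {y z : UL q}
    (hy : y ∈ ball (UL.mk x hx) (4 * ρ)) (hz : z ∈ ball (UL.mk x hx) (4 * ρ)) :
    dist (limU hx u y) (limU hx u z) ≤ 4 * dist y z := by
  have hρ := hD.ρ_pos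
  have h1 := (limU_rep (hx := hx) hD (ball_subset_ball (by linarith) hy)).dist
    (limU_rep (hx := hx) hD (ball_subset_ball (by linarith) hz))
  have h2 := (UL.tendsto_dist_rep y z).const_mul 4
  refine le_of_tendsto_of_tendsto h1 h2 ?_
  filter_upwards [ev_lip hD, ev_rep_ball hy, ev_rep_ball hz] with k hk hk1 hk2
  refine hk _ _ ?_
  have h3 := dist_triangle_right (y.rep k) (z.rep k) (x k)
  rw [dist_comm (x k)]
  linarith

set_option maxHeartbeats 1600000 in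
/-- **the near isometry estimate for the limit map** -/
theorem nrm_lim {ε' : ℝ} (hε' : 0 < ε') : ∃ δ' : ℝ, 0 < δ' ∧
    ∀ (M : ℕ → Type) [∀ k, MetricSpace (M k)] [∀ k, CompleteSpace (M k)]
    [∀ k, ConnectedSpace (M k)] [∀ k, ChartedSpace (EuclideanSpace ℝ (Fin 4)) (M k)]
    [∀ k, IsManifold 𝓘(ℝ, EuclideanSpace ℝ (Fin 4)) ∞ (M k)]
    [∀ k, RiemannianBundle (fun x : M k => TangentSpace 𝓘(ℝ, EuclideanSpace ℝ (Fin 4)) x)]
    [∀ k, IsContMDiffRiemannianBundle 𝓘(ℝ, EuclideanSpace ℝ (Fin 4)) ∞ (EuclideanSpace ℝ (Fin 4))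
      (fun x : M k => TangentSpace 𝓘(ℝ, EuclideanSpace ℝ (Fin 4)) x)]
    [∀ k, IsRiemannianManifold 𝓘(ℝ, EuclideanSpace ℝ (Fin 4)) (M k)]
    [∀ k, MeasurableSpace (M k)] [∀ k, BorelSpace (M k)] (q x : ∀ k, M k) (hx : Bd q x)
    (ρ α C C' ε ε₁ δ lam : ℝ) (lamk : ℕ → ℝ) (u : ∀ k, Fin 4 → M k → ℝ)
    (h : UL q → Matrix (Fin 4) (Fin 4) ℝ), δ ≤ 1 / 2 → ε₁ ≤ 1 / 2 →
    HData x ρ α C ε δ lam lamk u → AvOut x hx ρ α C' ε₁ u h →
    ∀ y ∈ ball (UL.mk x hx) (4 * ρ), ∀ y' : UL q, ∀ s : ℝ, 0 < s → 6 * s ≤ ρ → dist y y' < s →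
    (C * 6 ^ (2 + 2 * α) / 2 + 2592 * om4) * s ^ α ≤ δ' → C' * 6 ^ (4 + α) * s ^ α ≤ δ' →
    |nrm (h y) (limU hx u y - limU hx u y').ofLp - dist y y'| ≤ ε' * s := by
  obtain ⟨δ', hδ', key⟩ := near_M hε'
  refine ⟨δ', hδ', ?_⟩
  intro M _ _ _ _ _ _ _ _ _ _ q x hx ρ α C C' ε ε₁ δ lam lamk u h hδ hε₁ hD hA y hy y' s hs hs6
    hyy' hc1 hc2
  have hρ := hD.ρ_pos
  have hy8 : y ∈ ball (UL.mk x hx) (8 * ρ) := ball_subset_ball (by linarith) hy
  have hy'8 : y' ∈ ball (UL.mk x hx) (8 * ρ) := by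
    rw [mem_ball] at *
    have := dist_triangle_left y' (UL.mk x hx) y
    linarith
  have hLo : Lo (h y) := lo_of_near (hA.symm y) hε₁ (hA.near y hy)
  have h1 : Tendsto (fun k => |nrm (h y) (fun a => u k a (y.rep k) - u k a (y'.rep k)) -
      dist (y.rep k) (y'.rep k)|) om
      (𝓝 |nrm (h y) (limU hx u y - limU hx u y').ofLp - dist y y'|) := by
    refine Tendsto.abs (Tendsto.sub ?_ (UL.tendsto_dist_rep y y'))
    have h2 : Tendsto (fun k => vec u k (y.rep k) - vec u k (y'.rep k)) om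
        (𝓝 (limU hx u y - limU hx u y')) := (limU_rep hD hy8).sub (limU_rep hD hy'8)
    have h3 : Continuous (fun v : 𝔼 => nrm (h y) v.ofLp) :=
      (continuous_nrm (h y)).comp (PiLp.continuous_ofLp 2 _)
    exact (h3.tendsto _).comp h2
  refine le_of_tendsto h1 ?_
  have e1 := ev_rep_ball hy
  have e2 : ∀ᶠ k in om, dist (y.rep k) (y'.rep k) < s :=
    (UL.tendsto_dist_rep y y').eventually_lt_const hyy'
  have e3 := hD.hess (6 * s) (by positivity)
  have e4 := hA.av y hy (6 * s) (by positivity) hs6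
  filter_upwards [e1, e2, e3, e4, hD.ric, hD.pinch, hD.smooth, hD.harm] with k h1 h2 h3 h4 h5 h6 h7 h8
  have hsub : closedBall (y.rep k) (6 * s) ⊆ ball (x k) (16 * ρ) := by
    intro p hp
    rw [mem_closedBall] at hp
    rw [mem_ball]
    have := dist_triangle p (y.rep k) (x k)
    linarith
  have hmem : y.rep k ∈ ball (x k) (16 * ρ) := by rw [mem_ball]; linarith
  have hvol : ENNReal.ofReal (1 / 2) * volume (ball (0 : 𝔼) s) ≤
      (μHE[4] : Measure (M k)) (ball (y.rep k) s) := by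
    refine le_trans ?_ (h6 (y.rep k) hmem s hs (by linarith))
    gcongr
    linarith
  have hgr : ∀ a, ∀ p ∈ ball (x k) (16 * ρ), mGam 4 (u k a) (u k a) p ≤ 4 :=
    fun a p hp => (h8 a p hp).2
  have hH := h3 (y.rep k) (by rw [mem_ball]; linarith) (6 * s) le_rfl (by linarith)
  have hb1 : (s / s ^ α) / 2 * (C * (6 * s) ^ (2 + 2 * α)) + 2 / (s / s ^ α) *
      (om4 * (6 * s) ^ 4) ≤ δ' * s ^ 3 := by
    rw [hess_pow hs]
    exact mul_le_mul_of_nonneg_right hc1 (by positivity)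
  have hb2 : C' * (6 * s) ^ (4 + α) ≤ δ' * s ^ 4 := by
    rw [dev_pow hs]
    exact mul_le_mul_of_nonneg_right hc2 (by positivity)
  have ht : 0 < s / s ^ α := by positivity
  have hy'b : y'.rep k ∈ ball (y.rep k) s := by rw [mem_ball, dist_comm]; exact h2
  exact key (M k) (x k) (y.rep k) (16 * ρ) s hs hsub h5 hvol (u k) h7 hgr (h y) hLo _ _ _ ht hH h4
    hb1 hb2 (y.rep k) (mem_ball_self hs) (y'.rep k) hy'b

end seq

end Crest.Agent.R249.Ch923
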