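import Crest.Agent.R249.Ch3_923

/-!
# R249 (helper923), D3-LIM/CH, part 4: `chStmt : ChStmt`
-/

set_option autoImplicit false
set_option linter.unusedSectionVars false
noncomputable section
open Set Filter Topology Bundle MeasureTheory Metric
open scoped ContDiff Manifold ENNReal NNReal Matrix
open Crest.GeometryTopology.CoordMetric Crest.GeometryTopology.ChartCurvature
  Crest.GeometryTopology.RicciEnergy Crest.GeometryTopology.PointedLimit
open Crest.Agent.R247 Crest.Agent.R247.Bo84
open Crest.Agent.R249.D1Def104 Crest.Agent.R249.Ul174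
open Crest.Agent.R249.AsmD832 Crest.Agent.R249.LimDef41 Crest.Agent.R249.NI_923
open Crest.Agent.R249.St174 Crest.Agent.R249.Ch174
open Crest.Agent.R249.UH1_544 (NI Full VolLow VolUp NI.full num)
open Crest.Agent.R249.UH3_544 (homeo)

namespace Crest.Agent.R249.Ch923

local notation "𝔼" => EuclideanSpace ℝ (Fin 4)

/-- **D3-LIM/CH** -/
theorem chStmt : ChStmt := by
  obtain ⟨ε₀, hε₀, hε₀1, hε₀2, hnum⟩ := num 4 (1 / 10) (by norm_num)
  obtain ⟨c, hc, δv, hδv, HV⟩ := ul_chart_R.{0} 4 ε₀ hε₀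
  obtain ⟨δ', hδ', HN⟩ := nrm_lim (ε' := ε₀ / 4) (by positivity)
  refine ⟨ε₀ / 16, min (1 / 2) δv, by positivity, by positivity, ?_⟩
  intro M _ _ _ _ _ _ _ _ _ _ q x hx ρ α C C' ε δ lam lamk u h hδ hD hA
  have hρ := hD.ρ_pos
  have hα : 0 < α := by have := hD.α_gt; linarith
  have hC := hD.C_pos
  have hδ1 : δ ≤ 1 / 2 := hδ.trans (min_le_left _ _)
  have hε₁ : ε₀ / 16 ≤ 1 / 2 := by linarith
  have hom := om4_pos
  set K₁ : ℝ := C * 6 ^ (2 + 2 * α) / 2 + 2592 * om4 with hK₁
  have hK₁0 : 0 ≤ K₁ := by positivity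
  set K₂ : ℝ := |C'| * 6 ^ (4 + α) with hK₂
  have hK₂0 : 0 ≤ K₂ := by positivity
  have hK₂' : ∀ s : ℝ, 0 < s → C' * 6 ^ (4 + α) * s ^ α ≤ K₂ * s ^ α := by
    intro s hs
    refine mul_le_mul_of_nonneg_right ?_ (by positivity)
    exact mul_le_mul_of_nonneg_right (le_abs_self _) (by positivity)
  set U : UL q → 𝔼 := limU hx u with hU
  -- the scale of the near isometry
  obtain ⟨r₁, hr₁, hr₁K⟩ := small_rpow hα hK₁0 hδ'
  obtain ⟨r₂, hr₂, hr₂K⟩ := small_rpow hα hK₂0 hδ'
  set r₀ : ℝ := min (min (r₁ / 32) (r₂ / 32)) (min (ρ / 192) (4 * c * ρ)) with hr₀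
  have hr₀0 : 0 < r₀ := by positivity
  have hr₀1 : 32 * r₀ ≤ r₁ := by
    have : r₀ ≤ r₁ / 32 := (min_le_left _ _).trans (min_le_left _ _)
    linarith
  have hr₀2 : 32 * r₀ ≤ r₂ := by
    have : r₀ ≤ r₂ / 32 := (min_le_left _ _).trans (min_le_right _ _)
    linarith
  have hr₀3 : 192 * r₀ ≤ ρ := by
    have : r₀ ≤ ρ / 192 := (min_le_right _ _).trans (min_le_left _ _)
    linarith
  have hr₀4 : r₀ ≤ c * (16 * ρ) := by
    have : r₀ ≤ 4 * c * ρ := (min_le_right _ _).trans (min_le_right _ _)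
    nlinarith [mul_pos hc hρ]
  have hsub4 : ball (UL.mk x hx) (4 * r₀) ⊆ ball (UL.mk x hx) (4 * ρ) :=
    ball_subset_ball (by linarith)
  -- norm of differences
  have hUl : ∀ y ∈ ball (UL.mk x hx) (4 * r₀), ∀ y' ∈ ball (UL.mk x hx) (4 * r₀),
      dist (U y) (U y') ≤ 4 * dist y y' := fun y hy y' hy' =>
    limU_lip hD (hsub4 hy) (hsub4 hy')
  have hNI : ∀ y ∈ ball (UL.mk x hx) (4 * r₀), ∀ y' ∈ ball (UL.mk x hx) (4 * r₀),
      |dist (U y) (U y') - dist y y'| ≤ ε₀ * dist y y' := by
    intro y hy y' hy'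
    rcases eq_or_ne y y' with rfl | hne
    · simp
    have hd : 0 < dist y y' := dist_pos.2 hne
    have hd8 : dist y y' < 8 * r₀ := by
      rw [mem_ball] at hy hy'
      have := dist_triangle_right y y' (UL.mk x hx)
      linarith
    have h1 := HN M q x hx ρ α C C' ε (ε₀ / 16) δ lam lamk u h hδ1 hε₁ hD hA y (hsub4 hy) y'
      (2 * dist y y') (by positivity) (by linarith) (by linarith)
      (hr₁K _ (by positivity) (by linarith))
      ((hK₂' _ (by positivity)).trans (hr₂K _ (by positivity) (by linarith)))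
    have hLo : Lo (h y) := lo_of_near (hA.symm y) hε₁ (hA.near y (hsub4 hy))
    have h2 := nrm_near_euc hLo (hA.near y (hsub4 hy)) (U y - U y')
    have h3 := hUl y hy y' hy'
    rw [dist_eq_norm] at h3 ⊢
    have h4 : |‖U y - U y'‖ - dist y y'| ≤
        |nrm (h y) (U y - U y').ofLp - ‖U y - U y'‖| +
          |nrm (h y) (U y - U y').ofLp - dist y y'| := by
      have h5 : ‖U y - U y'‖ - dist y y' = -(nrm (h y) (U y - U y').ofLp - ‖U y - U y'‖) +
          (nrm (h y) (U y - U y').ofLp - dist y y') := by ring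
      rw [h5]
      refine (abs_add_le _ _).trans ?_
      rw [abs_neg]
    have h6 : 2 * (ε₀ / 16) * ‖U y - U y'‖ ≤ 2 * (ε₀ / 16) * (4 * dist y y') :=
      mul_le_mul_of_nonneg_left h3 (by positivity)
    calc _ ≤ _ := h4
      _ ≤ 2 * (ε₀ / 16) * (4 * dist y y') + ε₀ / 4 * (2 * dist y y') :=
        add_le_add (h2.trans h6) h1
      _ = ε₀ * dist y y' := by ring
  -- the chart
  let _ : MeasurableSpace (UL q) := borel _
  have : BorelSpace (UL q) := ⟨rfl⟩
  have hV : VolLow (UL.mk x hx) (c * (16 * ρ)) 4 ε₀ := by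
    obtain ⟨G, -, -, -, hG⟩ := HV M q x hx (16 * ρ) (by positivity) hD.ric (by
      filter_upwards [hD.pinch] with k hk y hy r hr hr'
      refine le_trans ?_ (hk y hy r hr hr')
      have : δ ≤ δv := hδ.trans (min_le_right _ _)
      gcongr)
    exact hG.1
  have hNI' : NI U (UL.mk x hx) r₀ ε₀ := by
    intro y z hy hz
    refine hNI y ?_ z ?_
    · rw [mem_ball, dist_comm]; linarith
    · rw [mem_ball, dist_comm]; linarith
  have hF : Full U (UL.mk x hx) r₀ ε₀ :=
    hNI'.full hε₀.le (by linarith) (hnum ε₀ hε₀.le le_rfl).1 (hV.mono hr₀4 le_rfl)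
  obtain ⟨e, he1, he2, he3⟩ := homeo hε₀.le (by linarith) hNI' hF
  have hni : ∀ y ∈ ball (UL.mk x hx) (4 * r₀), ∀ y' ∈ ball (UL.mk x hx) (4 * r₀),
      |dist (U y) (U y') - dist y y'| ≤ 1 / 10 * dist y y' := fun y hy y' hy' =>
    (hNI y hy y' hy').trans (mul_le_mul_of_nonneg_right hε₀2 dist_nonneg)
  refine ⟨r₀, U, e, ?_, ?_⟩
  · refine ⟨hr₀0, by linarith, fun a => limU_limOn hD a, he3, he1, ?_, hni, ?_⟩
    · intro w hw
      rw [mem_ball] at hw
      rw [he2]
      obtain ⟨z, hz1, hz2⟩ := hF (UL.mk x hx) r₀ hr₀0 (fun y hy => hy) w (by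
        have h0 : U (UL.mk x hx) = 0 := limU_zero hD
        rw [h0, dist_comm]
        nlinarith)
      exact ⟨z, by rw [mem_ball, dist_comm]; exact hz1, hz2⟩
    · -- infinitesimal scale
      intro η hη
      obtain ⟨δ'', hδ'', HN'⟩ := nrm_lim (ε' := η / 4) (by positivity)
      obtain ⟨s₁, hs₁, hs₁K⟩ := small_rpow hα hK₁0 hδ''
      obtain ⟨s₂, hs₂, hs₂K⟩ := small_rpow hα hK₂0 hδ''
      obtain ⟨s₃, hs₃, hs₃K⟩ := small_rpow hα (K := 16 * |C'|) (by positivity)
        (δ := (η / 16) ^ 2) (by positivity)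
      refine ⟨min (min (s₁ / 4) (s₂ / 4)) (min s₃ (ρ / 24)), by positivity, ?_⟩
      set r : ℝ := min (min (s₁ / 4) (s₂ / 4)) (min s₃ (ρ / 24)) with hr
      have hra : 4 * r ≤ s₁ := by
        have : r ≤ s₁ / 4 := (min_le_left _ _).trans (min_le_left _ _)
        linarith
      have hrb : 4 * r ≤ s₂ := by
        have : r ≤ s₂ / 4 := (min_le_left _ _).trans (min_le_right _ _)
        linarith
      have hrc : r ≤ s₃ := (min_le_right _ _).trans (min_le_left _ _)
      have hrd : 24 * r ≤ ρ := by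
        have : r ≤ ρ / 24 := (min_le_right _ _).trans (min_le_right _ _)
        linarith
      intro y hy y' hy' y'' hy'' hd' hd''
      change |nrm (h y) (U y' - U y'').ofLp - dist y' y''| ≤ η * dist y' y''
      rcases eq_or_ne y' y'' with rfl | hne
      · simp
      have hd : 0 < dist y' y'' := dist_pos.2 hne
      have hdr : dist y' y'' < 2 * r := by
        have := dist_triangle_left y' y'' y
        linarith
      have h1 := HN' M q x hx ρ α C C' ε (ε₀ / 16) δ lam lamk u h hδ1 hε₁ hD hA y' (hsub4 hy')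
        y'' (2 * dist y' y'') (by positivity) (by linarith) (by linarith)
        (hs₁K _ (by positivity) (by linarith))
        ((hK₂' _ (by positivity)).trans (hs₂K _ (by positivity) (by linarith)))
      have hLo : Lo (h y) := lo_of_near (hA.symm y) hε₁ (hA.near y (hsub4 hy))
      have hLo' : Lo (h y') := lo_of_near (hA.symm y') hε₁ (hA.near y' (hsub4 hy'))
      have h2 : ∑ a, ∑ b, |h y' a b - h y a b| ≤ (η / 16) ^ 2 := by
        rcases eq_or_ne y' y with rfl | hne'
        · simp; positivity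
        have hdd : 0 < dist y' y := dist_pos.2 hne'
        calc ∑ a, ∑ b, |h y' a b - h y a b|
            ≤ ∑ _a : Fin 4, ∑ _b : Fin 4, |C'| * dist y' y ^ α := by
              refine Finset.sum_le_sum fun a _ => Finset.sum_le_sum fun b _ => ?_
              refine (hA.hold y' (hsub4 hy') y (hsub4 hy) a b).trans ?_
              exact mul_le_mul_of_nonneg_right (le_abs_self _) (by positivity)
          _ = 16 * |C'| * dist y' y ^ α := by
              simp only [Finset.sum_const, Finset.card_univ, Fintype.card_fin, nsmul_eq_mul]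
              push_cast
              ring
          _ ≤ (η / 16) ^ 2 := hs₃K _ hdd (by rw [dist_comm]; linarith)
      have h3 := nrm_diff hLo hLo' h2 (U y' - U y'').ofLp
      rw [Real.sqrt_sq (by positivity)] at h3
      have h4 : √((U y' - U y'').ofLp ⬝ᵥ (U y' - U y'').ofLp) = dist (U y') (U y'') := by
        rw [dist_eq_norm, EuclideanSpace.norm_eq]
        congr 1
        simp only [dotProduct, Real.norm_eq_abs, sq_abs]
        exact Finset.sum_congr rfl fun i _ => by ring
      rw [h4] at h3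
      have h5 := hUl y' hy' y'' hy''
      have h6 : |nrm (h y) (U y' - U y'').ofLp - dist y' y''| ≤
          |nrm (h y) (U y' - U y'').ofLp - nrm (h y') (U y' - U y'').ofLp| +
            |nrm (h y') (U y' - U y'').ofLp - dist y' y''| := by
        have h7 : nrm (h y) (U y' - U y'').ofLp - dist y' y'' =
            (nrm (h y) (U y' - U y'').ofLp - nrm (h y') (U y' - U y'').ofLp) +
            (nrm (h y') (U y' - U y'').ofLp - dist y' y'') := by ring
        rw [h7]
        exact abs_add_le _ _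
      calc _ ≤ _ := h6
        _ ≤ 2 * (η / 16) * (4 * dist y' y'') + η / 4 * (2 * dist y' y'') :=
          add_le_add (h3.trans (mul_le_mul_of_nonneg_left h5 (by positivity))) h1
        _ = η * dist y' y'' := by ring
  · exact spOut hr₀0 (R := 8 * ρ) (by linarith) (fun a => limU_limOn hD a) he3 he1 hni

end Crest.Agent.R249.Ch923
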