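import Mathlib
import Crest.Agent.R244.CFCoord

/-!
# R249, leaf D2-FLATLOC, part 2: symmetries of the curvature; `K = 0` or (`Ric = 0`, `K ≥ 0`) ⟹ `R = 0`

* `curv_anti`, `curv_bianchi`, `g_curv_anti`, `g_curv_pair` for `IsLC U g Γ`;
* `curv_eq_zero_of_sec` : `g(R(u,v)v,u) = 0` for all `u v` implies `R = 0`;
* `ricci_sum_eq` : `Σ ricci g x i j v i w j = Σ_k (R(e_k, w) v)_k`;
* `curv_eq_zero_of_ricci` : `Ric = 0` and `secNumer ≥ 0` imply `R = 0`.
-/

set_option autoImplicit false
set_option maxSynthPendingDepth 3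

open scoped ContDiff Topology
open Crest.Agent.R244 Crest.Agent.R244.CF
open Crest.GeometryTopology.CoordMetric Crest.GeometryTopology.ChartCurvature

namespace Crest.Agent.R249.Flat676

section Abstract

variable {E : Type*} [NormedAddCommGroup E] [NormedSpace ℝ E]
variable {U : Set E} {g : E → E →L[ℝ] E →L[ℝ] ℝ} {Γ : E → E →L[ℝ] E →L[ℝ] E}

theorem curv_anti (Γ : E → E →L[ℝ] E →L[ℝ] E) (x u v w : E) :
    curv Γ x u v w = - curv Γ x v u w := by
  simp only [CF.curv]
  abel

theorem curv_bianchi (h : IsLC U g Γ) {x : E} (hx : x ∈ U) (u v w : E) :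
    curv Γ x u v w + curv Γ x v w u + curv Γ x w u v = 0 := by
  simp only [CF.curv]
  rw [h.fderiv_Γ_symm hx u w v, h.fderiv_Γ_symm hx v w u, h.fderiv_Γ_symm hx w v u,
    h.Γ_symm x hx v w, h.Γ_symm x hx u w, h.Γ_symm x hx v u]
  abel

/-- the second derivative of the metric -/
theorem ddg_eq (h : IsLC U g Γ) {x : E} (hx : x ∈ U) (u v w z : E) :
    fderiv ℝ (fderiv ℝ g) x u v w z =
      g x (Γ x u (Γ x v w)) z + g x (Γ x v w) (Γ x u z) + g x (fderiv ℝ Γ x u v w) z
      + (g x (Γ x u w) (Γ x v z) + g x w (Γ x u (Γ x v z)) + g x w (fderiv ℝ Γ x u v z)) := by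
  have e1 : (fun y => fderiv ℝ g y v w z) =ᶠ[𝓝 x]
      fun y => g y (Γ y v w) z + g y w (Γ y v z) := by
    filter_upwards [h.isOpen.mem_nhds hx] with y hy using h.compat y hy v w z
  have hΓ : ∀ a b : E, HasFDerivAt (fun y => Γ y a b)
      (((ContinuousLinearMap.apply ℝ E b).comp (ContinuousLinearMap.apply ℝ (E →L[ℝ] E) a)).comp
        (fderiv ℝ Γ x)) x := fun a b =>
    ((ContinuousLinearMap.apply ℝ E b).comp
      (ContinuousLinearMap.apply ℝ (E →L[ℝ] E) a)).hasFDerivAt.comp x
      (h.Γ_differentiableAt hx).hasFDerivAt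
  have hd : HasFDerivAt (fun y => fderiv ℝ g y v w z)
      ((ContinuousLinearMap.apply ℝ ℝ z).comp ((ContinuousLinearMap.apply ℝ (E →L[ℝ] ℝ) w).comp
      ((ContinuousLinearMap.apply ℝ (E →L[ℝ] E →L[ℝ] ℝ) v).comp (fderiv ℝ (fderiv ℝ g) x)))) x :=
    (ContinuousLinearMap.apply ℝ ℝ z).hasFDerivAt.comp x
      ((ContinuousLinearMap.apply ℝ (E →L[ℝ] ℝ) w).hasFDerivAt.comp x
      ((ContinuousLinearMap.apply ℝ (E →L[ℝ] E →L[ℝ] ℝ) v).hasFDerivAt.comp x
        (h.dg_differentiableAt hx).hasFDerivAt))
  have hg := (h.g_differentiableAt hx).hasFDerivAt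
  have r1 := hasFDerivAt_apply2 hg (hΓ v w) (hasFDerivAt_const z x) u
  have r2 := hasFDerivAt_apply2 hg (hasFDerivAt_const w x) (hΓ v z) u
  have d1 : DifferentiableAt ℝ (fun y => g y (Γ y v w) z) x :=
    ((hg.clm_apply (hΓ v w)).clm_apply (hasFDerivAt_const z x)).differentiableAt
  have d2 : DifferentiableAt ℝ (fun y => g y w (Γ y v z)) x :=
    ((hg.clm_apply (hasFDerivAt_const w x)).clm_apply (hΓ v z)).differentiableAt
  have e2 := DFunLike.congr_fun (e1.fderiv_eq (𝕜 := ℝ)) u
  rw [hd.fderiv] at e2
  have e3 : fderiv ℝ (fun y => g y (Γ y v w) z + g y w (Γ y v z)) x u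
      = fderiv ℝ (fun y => g y (Γ y v w) z) x u + fderiv ℝ (fun y => g y w (Γ y v z)) x u := by
    rw [fderiv_fun_add d1 d2]; rfl
  rw [e3, r1, r2, h.compat x hx, h.compat x hx] at e2
  simpa using e2

theorem g_curv_anti (h : IsLC U g Γ) {x : E} (hx : x ∈ U) (u v w z : E) :
    g x (curv Γ x u v w) z = - g x (curv Γ x u v z) w := by
  have k1 := ddg_eq h hx u v w z
  have k2 := ddg_eq h hx v u w z
  have k3 : fderiv ℝ (fderiv ℝ g) x u v = fderiv ℝ (fderiv ℝ g) x v u :=
    ((h.g_contDiffAt hx).isSymmSndFDerivAt (by simpa using two_le_infty)) _ _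
  rw [k3, k2] at k1
  have s1 := h.g_symm x hx w (Γ x u (Γ x v z))
  have s2 := h.g_symm x hx w (Γ x v (Γ x u z))
  have s3 := h.g_symm x hx w (fderiv ℝ Γ x u v z)
  have s4 := h.g_symm x hx w (fderiv ℝ Γ x v u z)
  simp only [CF.curv, map_add, map_sub, add_apply, sub_apply]
  linarith

theorem g_curv_pair (h : IsLC U g Γ) {x : E} (hx : x ∈ U) (u v w z : E) :
    g x (curv Γ x u v w) z = g x (curv Γ x w z u) v := by
  have hb : ∀ a b c d : E, g x (curv Γ x a b c) d + g x (curv Γ x b c a) d
      + g x (curv Γ x c a b) d = 0 := by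
    intro a b c d
    have := congrArg (fun y => g x y d) (curv_bianchi h hx a b c)
    simpa using this
  have h12 : ∀ a b c d : E, g x (curv Γ x a b c) d = - g x (curv Γ x b a c) d := by
    intro a b c d
    rw [curv_anti]; simp
  have h34 := g_curv_anti h hx
  have b1 := hb u v w z
  have b2 := hb v w z u
  have b3 := hb w z u v
  have b4 := hb z u v w
  have a1 := h12 u v w z
  have a2 := h34 u v w z
  have a3 := h34 v w z u
  have a4 := h34 w u v z
  have a5 := h34 w z u v
  have a6 := h34 v z w u
  have a7 := h34 z v w u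
  have a8 := h34 z u v w
  have a9 := h34 u w z v
  have c1 := h12 z v w u
  have c2 := h12 w u v z
  have c3 := h12 w u z v
  have c4 := h12 u z w v
  have c5 := h12 z w v u
  have c6 := h12 v w u z
  have c7 := h12 z u w v
  have c8 := h34 w u z v
  have c9 := h34 v z u w
  have c10 := h12 v z u w
  have c11 := h34 v u z w
  have c12 := h12 v u z w
  have c13 := h34 u z v w
  have c14 := h34 z w u v
  have c15 := h12 z w u v
  have c16 := h34 v w u z
  have c17 := h12 u z v w
  have c18 := h34 u v z w
  linarith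

/-- vanishing sectional curvatures imply vanishing curvature -/
theorem curv_eq_zero_of_sec (h : IsLC U g Γ) {x : E} (hx : x ∈ U)
    (hs : ∀ u v : E, g x (curv Γ x u v v) u = 0) (u v w : E) : curv Γ x u v w = 0 := by
  have hadd1 : ∀ a a' b c : E, curv Γ x (a + a') b c = curv Γ x a b c + curv Γ x a' b c := by
    intro a a' b c
    simp only [CF.curv, map_add, add_apply]
    abel
  have hadd2 : ∀ a b b' c : E, curv Γ x a (b + b') c = curv Γ x a b c + curv Γ x a b' c := by
    intro a b b' c
    simp only [CF.curv, map_add, add_apply]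
    abel
  have hadd3 : ∀ a b c c' : E, curv Γ x a b (c + c') = curv Γ x a b c + curv Γ x a b c' := by
    intro a b c c'
    simp only [CF.curv, map_add]
    abel
  -- first polarization
  have p1 : ∀ u v w : E, g x (curv Γ x u v v) w = 0 := by
    intro u v w
    have e := hs (u + w) v
    rw [hadd1] at e
    simp only [map_add, add_apply] at e
    have e1 := hs u v
    have e2 := hs w v
    have e3 := g_curv_pair h hx w v v u
    have e4 : g x (curv Γ x v u w) v = - g x (curv Γ x v u v) w := g_curv_anti h hx v u w v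
    have e5 : g x (curv Γ x v u v) w = - g x (curv Γ x u v v) w := by
      rw [curv_anti]; simp
    linarith
  have p2 : ∀ u v : E, curv Γ x u v v = 0 := by
    intro u v
    apply h.eq_of_forall hx
    intro w
    rw [p1]; simp
  have p3 : ∀ a b c : E, curv Γ x a b c = - curv Γ x a c b := by
    intro a b c
    have e := p2 a (b + c)
    rw [hadd2, hadd3, hadd3, p2, p2, zero_add, add_zero] at e
    exact eq_neg_of_add_eq_zero_left e
  have b := curv_bianchi h hx u v w
  have e1 : curv Γ x v w u = curv Γ x u v w := by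
    rw [p3 v w u, curv_anti Γ x v u w, neg_neg]
  have e2 : curv Γ x w u v = curv Γ x u v w := by
    rw [curv_anti Γ x w u v, p3 u w v, neg_neg]
  rw [e1, e2] at b
  have b2 : (3 : ℝ) • curv Γ x u v w = 0 := by
    rw [← b]
    module
  exact (smul_eq_zero.1 b2).resolve_left (by norm_num)

end Abstract

section Coord

variable {n : ℕ} {U : Set (EuclideanSpace ℝ (Fin n))} {g : MetricField n}

/-- the Ricci tensor of the Prelude is the trace of the curvature -/
theorem ricci_eq (h : IsRiemannianOn g U) {x : EuclideanSpace ℝ (Fin n)} (hx : x ∈ U)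
    (i j : Fin n) : ricci g x i j = ∑ k, riemann g x k i k j := by
  have hsm : ∀ k a b, DifferentiableAt ℝ (fun y => christoffel g y k a b) x := fun k a b =>
    ((contDiffOn_christoffel h k a b).contDiffAt (h.isOpen.mem_nhds hx)).differentiableAt (by simp)
  have hsymm : ∀ k a b, christoffel g x k a b = christoffel g x k b a := fun k a b =>
    christoffel_symm h hx k a b
  have hpd : ∀ k, pderiv k (fun y => christoffel g y k i j) x
      = pderiv k (fun y => christoffel g y k j i) x := by
    intro k
    have : (fun y => christoffel g y k i j) =ᶠ[𝓝 x] fun y => christoffel g y k j i := by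
      filter_upwards [h.isOpen.mem_nhds hx] with y hy using christoffel_symm h hy k i j
    rw [pderiv, pderiv, this.fderiv_eq]
  have hsum : pderiv j (fun y => ∑ k, christoffel g y k k i) x
      = ∑ k, pderiv j (fun y => christoffel g y k k i) x := by
    simp only [pderiv]
    rw [fderiv_fun_sum (fun k _ => hsm k k i)]
    simp
  have e1 : ∑ k, ∑ l, christoffel g x k k l * christoffel g x l i j
      = ∑ k, ∑ l, christoffel g x k k l * christoffel g x l j i :=
    Finset.sum_congr rfl fun k _ => Finset.sum_congr rfl fun l _ => by rw [hsymm l i j]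
  rw [ricci, hsum, e1]
  simp only [riemann, Finset.sum_add_distrib, Finset.sum_sub_distrib, hpd]
  ring

theorem ricci_sum_eq (h : IsRiemannianOn g U) {x : EuclideanSpace ℝ (Fin n)} (hx : x ∈ U)
    (v w : EuclideanSpace ℝ (Fin n)) :
    ∑ i, ∑ j, ricci g x i j * v i * w j
      = ∑ k, curv (Gam g) x (EuclideanSpace.single k 1) w v k := by
  have e : ∀ k, curv (Gam g) x (EuclideanSpace.single k 1) w v k
      = ∑ i, ∑ j, riemann g x k i k j * v i * w j := by
    intro k
    rw [curv_apply h hx]
    refine Finset.sum_congr rfl fun i _ => ?_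
    rw [Finset.sum_eq_single k]
    · refine Finset.sum_congr rfl fun j _ => ?_
      simp
    · intro l _ hl
      simp [hl]
    · simp
  simp only [e, ricci_eq h hx, Finset.sum_mul]
  calc ∑ i, ∑ j, ∑ k, riemann g x k i k j * v i * w j
      = ∑ i, ∑ k, ∑ j, riemann g x k i k j * v i * w j :=
        Finset.sum_congr rfl fun i _ => Finset.sum_comm
    _ = _ := Finset.sum_comm

open scoped MatrixOrder in
/-- a positive definite matrix is `Bᴴ * B` with `B` invertible -/
theorem exists_factor {G : Matrix (Fin n) (Fin n) ℝ} (hG : G.PosDef) :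
    ∃ B : Matrix (Fin n) (Fin n) ℝ, G = B.transpose * B ∧ IsUnit B.det := by
  obtain ⟨B, hB⟩ := CStarAlgebra.nonneg_iff_eq_star_mul_self.mp hG.posSemidef.nonneg
  refine ⟨B, by simpa [Matrix.star_eq_conjTranspose] using hB, ?_⟩
  have h1 : G.det = B.det * B.det := by
    rw [hB, Matrix.det_mul, Matrix.star_eq_conjTranspose, Matrix.conjTranspose_eq_transpose_of_trivial,
      Matrix.det_transpose]
  have h2 := hG.det_pos
  rw [h1] at h2
  exact (by intro h0; simp [h0] at h2 : B.det ≠ 0).isUnit

theorem posSemidef_eq_zero_of_trace {G M : Matrix (Fin n) (Fin n) ℝ} (hG : G.PosDef)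
    (hM : M.PosSemidef) (ht : (G * M).trace = 0) : M = 0 := by
  obtain ⟨B, hB, hBu⟩ := exists_factor hG
  have h1 : (B * M * B.transpose).PosSemidef := by
    have := hM.mul_mul_conjTranspose_same B
    rwa [Matrix.conjTranspose_eq_transpose_of_trivial] at this
  have h2 : (B * M * B.transpose).trace = 0 := by
    rw [← ht, hB, Matrix.trace_mul_comm (B * M), Matrix.mul_assoc]
  have h3 := h1.trace_eq_zero_iff.1 h2
  have hBt : IsUnit B.transpose.det := by rwa [Matrix.det_transpose]
  calc M = (B⁻¹ * B) * M * (B.transpose * B.transpose⁻¹) := by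
        rw [Matrix.nonsing_inv_mul _ hBu, Matrix.mul_nonsing_inv _ hBt, one_mul, mul_one]
    _ = B⁻¹ * (B * M * B.transpose) * B.transpose⁻¹ := by simp only [Matrix.mul_assoc]
    _ = 0 := by rw [h3]; simp

/-- `Ric = 0` and non-negative sectional curvature imply that the metric is flat at `x`. -/
theorem curv_eq_zero_of_ricci (h : IsRiemannianOn g U) {x : EuclideanSpace ℝ (Fin n)} (hx : x ∈ U)
    (hric : ∀ i j, ricci g x i j = 0) (hsec : ∀ u v, 0 ≤ secNumer g x u v)
    (u v w : EuclideanSpace ℝ (Fin n)) : curv (Gam g) x u v w = 0 := by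
  have hLC := isLC_of_isRiemannianOn h
  refine curv_eq_zero_of_sec hLC hx (fun u v => ?_) u v w
  -- the operator `T u = R(u,v)v` is self-adjoint, non-negative and has trace zero
  set T : Matrix (Fin n) (Fin n) ℝ := Matrix.of fun k l =>
    curv (Gam g) x (EuclideanSpace.single l 1) v v k with hT
  have hlin : ∀ u : EuclideanSpace ℝ (Fin n), curv (Gam g) x u v v
      = ∑ l, u l • curv (Gam g) x (EuclideanSpace.single l 1) v v := by
    intro u
    have hu : u = ∑ i, u i • EuclideanSpace.single i (1 : ℝ) := by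
      ext k
      simp [Pi.single_apply]
    have hadd : ∀ (s : Finset (Fin n)), curv (Gam g) x (∑ i ∈ s, u i • EuclideanSpace.single i (1 : ℝ)) v v
        = ∑ i ∈ s, u i • curv (Gam g) x (EuclideanSpace.single i 1) v v := by
      intro s
      simp only [CF.curv, map_sum, map_smul, sum_apply, smul_apply, smul_sub, smul_add,
        Finset.sum_add_distrib, Finset.sum_sub_distrib]
    conv_lhs => rw [hu]
    exact hadd _
  have hTu : ∀ (u : EuclideanSpace ℝ (Fin n)) (k : Fin n), curv (Gam g) x u v v k
      = (T.mulVec u) k := by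
    intro u k
    rw [hlin u]
    simp [hT, Matrix.mulVec, dotProduct, mul_comm]
  have hG : ∀ a w : EuclideanSpace ℝ (Fin n), gB g x a w = w.ofLp ⬝ᵥ ((g x).mulVec a.ofLp) := by
    intro a w
    rw [gB_symm h hx, gB_apply]
    simp only [dotProduct, Matrix.mulVec, Finset.mul_sum]
    refine Finset.sum_congr rfl fun i _ => Finset.sum_congr rfl fun j _ => ?_
    ring
  have hgT : ∀ u w : EuclideanSpace ℝ (Fin n), gB g x (curv (Gam g) x u v v) w
      = w.ofLp ⬝ᵥ ((g x * T).mulVec u.ofLp) := by
    intro u w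
    rw [hG, ← Matrix.mulVec_mulVec]
    congr 2
    funext k
    exact hTu u k
  have hsymm : ∀ a b : EuclideanSpace ℝ (Fin n), gB g x (curv (Gam g) x a v v) b
      = gB g x (curv (Gam g) x b v v) a := by
    intro a b
    have e1 := g_curv_pair hLC hx a v v b
    have e2 := g_curv_anti hLC hx v b a v
    have e3 : gB g x (curv (Gam g) x v b v) a = - gB g x (curv (Gam g) x b v v) a := by
      rw [curv_anti]; simp
    linarith
  have hM : (g x * T).PosSemidef := by
    refine Matrix.PosSemidef.of_dotProduct_mulVec_nonneg ?_ ?_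
    · ext k l
      have e1 := hgT (EuclideanSpace.single l 1) (EuclideanSpace.single k 1)
      have e2 := hgT (EuclideanSpace.single k 1) (EuclideanSpace.single l 1)
      rw [hsymm] at e1
      rw [e1] at e2
      simpa using e2.symm
    · intro y
      have e1 := hgT (WithLp.toLp 2 y) (WithLp.toLp 2 y)
      rw [← secNumer_eq h hx] at e1
      have e2 := hsec (WithLp.toLp 2 y) v
      rw [e1] at e2
      simpa using e2
  have htr : ((g x)⁻¹ * (g x * T)).trace = 0 := by
    have hdet : IsUnit (g x).det := ((h.posDef x hx).det_pos).ne'.isUnit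
    rw [← Matrix.mul_assoc, Matrix.nonsing_inv_mul _ hdet, one_mul]
    have e := ricci_sum_eq h hx v v
    simp only [hric, zero_mul, Finset.sum_const_zero] at e
    simpa [hT, Matrix.trace] using e.symm
  have hM0 := posSemidef_eq_zero_of_trace (h.posDef x hx).inv hM htr
  rw [hgT, hM0]
  simp

end Coord

end Crest.Agent.R249.Flat676
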