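import Crest.Agent.R249.Prj4_832
import Crest.Agent.R249.Flat2_676
import Crest.Agent.R249.Len2_47

/-!
# R249, D4-PROJ (helper832), part 5: `INF` from `InfScale` (helper47)
-/

set_option autoImplicit false
set_option linter.style.haveILetI false
set_option linter.unusedSectionVars false
noncomputable section
open Set Filter Topology Metric
open scoped ContDiff Manifold
open Crest.GeometryTopology.CoordMetric
open Crest.Agent.R249.Len47

namespace Crest.Agent.R249.Prj832

variable {n : ℕ} {ι : Type*} {X : Type*} [MetricSpace X]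

/-- the norm of a metric at a point is the euclidean norm after a linear change of variables -/
theorem exists_sqrt {h : MetricField n} {x : EuclideanSpace ℝ (Fin n)} (hx : (h x).PosDef) :
    ∃ L : EuclideanSpace ℝ (Fin n) ≃L[ℝ] EuclideanSpace ℝ (Fin n), ∀ v, nrm h x v = ‖L v‖ := by
  obtain ⟨B, hB, hBu⟩ := Flat676.exists_factor hx
  set T := Matrix.toEuclideanLin B with hT
  have hTv : ∀ v k, T v k = ∑ i, B k i * v i := by
    intro v k
    rw [hT]
    rfl
  have h1 : ∀ v, quadForm h x v = ‖T v‖ ^ 2 := by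
    intro v
    rw [EuclideanSpace.norm_sq_eq]
    simp only [hTv, Real.norm_eq_abs, sq_abs]
    unfold quadForm
    have e1 : ∀ i j, h x i j = ∑ k, B k i * B k j := by
      intro i j
      rw [hB, Matrix.mul_apply]
      rfl
    simp only [e1, sq, Finset.sum_mul]
    calc ∑ i, ∑ j, ∑ k, B k i * B k j * v i * v j
        = ∑ i, ∑ k, ∑ j, B k i * B k j * v i * v j :=
          Finset.sum_congr rfl fun i _ => Finset.sum_comm
      _ = ∑ k, ∑ i, ∑ j, B k i * B k j * v i * v j := Finset.sum_comm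
      _ = _ := by
          refine Finset.sum_congr rfl fun k _ => Finset.sum_congr rfl fun i _ => ?_
          rw [Finset.mul_sum]
          refine Finset.sum_congr rfl fun j _ => ?_
          ring
  have hinj : Function.Injective T := by
    rw [injective_iff_map_eq_zero]
    intro v hv
    have h2 : B.mulVec (WithLp.ofLp v) = 0 := by
      funext k
      have := hTv v k
      rw [hv] at this
      exact this.symm
    have h3 : (WithLp.ofLp v : Fin n → ℝ) = 0 := by
      have h4 := Matrix.eq_zero_of_mulVec_eq_zero (M := B) hBu.ne_zero h2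
      exact h4
    ext i
    exact congrFun h3 i
  refine ⟨(LinearEquiv.ofInjectiveEndo T hinj).toContinuousLinearEquiv, fun v => ?_⟩
  rw [nrm, h1, Real.sqrt_sq (norm_nonneg _)]
  rfl

/-- `INF` at a point, from `InfScale` -/
theorem inf_of_scale {e : OpenPartialHomeomorph X (EuclideanSpace ℝ (Fin n))} {h : MetricField n}
    (hh : IsRiemannianOn h e.target) (hs : InfScale e h) {z : X} (hz : z ∈ e.source) :
    ∃ L : EuclideanSpace ℝ (Fin n) ≃L[ℝ] EuclideanSpace ℝ (Fin n),
      (∀ v, nrm h (e z) v = ‖L v‖) ∧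
      ∀ η : ℝ, 0 < η → ∃ r : ℝ, 0 < r ∧ ∀ x ∈ ball z r, ∀ y ∈ ball z r,
        |dist x y - ‖L (e x - e y)‖| ≤ η * dist x y := by
  obtain ⟨L, hL⟩ := exists_sqrt (hh.posDef (e z) (e.map_source hz))
  refine ⟨L, hL, fun η hη => ?_⟩
  set N' : ℝ := ‖(L.symm : EuclideanSpace ℝ (Fin n) →L[ℝ] EuclideanSpace ℝ (Fin n))‖ + 1 with hN'
  have hN'0 : 0 < N' := by positivity
  have h3' : ∀ v, ‖v‖ ≤ N' * ‖L v‖ := by
    intro v
    have := (L.symm : EuclideanSpace ℝ (Fin n) →L[ℝ] EuclideanSpace ℝ (Fin n)).le_opNorm (L v)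
    have h4 : ‖v‖ ≤ (N' - 1) * ‖L v‖ := by simpa [hN'] using this
    nlinarith [norm_nonneg (L v)]
  -- `ε N' ≤ 1/2` and `2 ε N' ≤ η`
  obtain ⟨ε, hε, hε1, hε2⟩ : ∃ ε : ℝ, 0 < ε ∧ ε * N' ≤ 1 / 2 ∧ 2 * (ε * N') ≤ η := by
    refine ⟨min (1 / 2) (η / 2) / N', by positivity, ?_, ?_⟩
    · rw [div_mul_cancel₀ _ hN'0.ne']
      exact min_le_left _ _
    · rw [div_mul_cancel₀ _ hN'0.ne']
      have := min_le_right (1 / 2) (η / 2)
      linarith
  obtain ⟨r, hr, h1⟩ := hs z hz ε hε
  refine ⟨r, hr, fun x hx y hy => ?_⟩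
  have h2 := h1 x y hx hy
  rw [hL] at h2
  set v := e x - e y with hv
  have h4 := h3' v
  have h5 : ε * ‖v‖ ≤ ε * N' * ‖L v‖ := by
    rw [mul_assoc]; gcongr
  have h6 := (abs_le.1 h2).1
  have h7 : ‖L v‖ ≤ 2 * dist x y := by nlinarith [norm_nonneg (L v)]
  refine h2.trans (h5.trans ?_)
  calc ε * N' * ‖L v‖ ≤ ε * N' * (2 * dist x y) := by gcongr
    _ = 2 * (ε * N') * dist x y := by ring
    _ ≤ η * dist x y := by gcongr

/-- **the embedding and the projection, from `InfScale`** -/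
theorem exists_proj_of_scale [CompactSpace X] [Nonempty X] [Fintype ι]
    (e : ι → OpenPartialHomeomorph X (EuclideanSpace ℝ (Fin n))) (h : ι → MetricField n)
    (hh : ∀ a, IsRiemannianOn (h a) (e a).target) (hs : ∀ a, InfScale (e a) (h a))
    (hcov : ∀ x, ∃ a, x ∈ (e a).source)
    (htr : ∀ a b, ContDiffOn ℝ ∞ (fun y => e b ((e a).symm y))
      {y | y ∈ (e a).target ∧ (e a).symm y ∈ (e b).source}) :
    ∃ m : ℕ, Nonempty (Proj m e) := by
  refine exists_proj e hcov htr fun z => ?_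
  obtain ⟨a, ha⟩ := hcov z
  obtain ⟨L, -, hL⟩ := inf_of_scale (hh a) (hs a) ha
  exact ⟨a, ha, L, hL⟩

end Crest.Agent.R249.Prj832
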