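import Crest.Agent.R249.D4Fin_789
import Crest.Agent.R249.Prj5_832

/-!
R249, part D4 (helper789), file 13: **D4Out** (smooth local diffeomorphisms `M k → X` for almost
every `k`), from helper832's embedding and projection.
-/

set_option autoImplicit false
set_option linter.unusedSectionVars false

open Set Filter Metric
open scoped ContDiff Topology
open Crest.Agent.R249.AsmD832

namespace Crest.Agent.R249.D4_789

noncomputable section

/-- conversion of the projection data -/
def Proj.of {n : ℕ} {X : Type*} [MetricSpace X] {ι : Type*}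
    {e : ι → OpenPartialHomeomorph X (EuclideanSpace ℝ (Fin n))}
    (hcov : ∀ x, ∃ a, x ∈ (e a).source) {m : ℕ} (P : Prj832.Proj m e) : Proj n X e where
  N := m
  i := P.io
  cont_i := by
    have : LipschitzWith (Real.toNNReal P.C₀) P.io := LipschitzWith.of_dist_le_mul fun x y => by
      rw [Real.coe_toNNReal _ P.C₀_pos.le, dist_eq_norm]
      exact P.upper x y
    exact this.continuous
  smooth_i := P.smooth_io
  cover := hcov
  O := P.O
  isOpen_O := P.isOpen_O
  mem_O := P.io_mem
  pr := P.pi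
  cont_pr := P.continuousOn_pi
  pr_i := P.pi_io
  smooth_pr := P.smooth_pi
  c₀ := P.c₀
  C₀ := P.C₀
  c₀_pos := P.c₀_pos
  C₀_nonneg := P.C₀_pos.le
  flat := fun η hη => by
    obtain ⟨d₀, hd₀, h⟩ := P.flat η hη
    refine ⟨d₀, hd₀, fun d hd hdd x₀ => ?_⟩
    obtain ⟨f, B, h1, -, h3, h4⟩ := h d hd hdd x₀
    refine ⟨f, B, fun c => (h1 c).1, fun c => (h1 c).2,
      fun x y hx hy => h3 x (mem_ball.2 hx) y (mem_ball.2 hy), fun c hc => ?_⟩
    obtain ⟨y, hy, hyc⟩ := h4 c hc
    exact ⟨y, mem_ball.1 hy, hyc⟩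

theorem projStmt : ProjStmt := by
  intro X _ _ _ lam m C hcov htr
  obtain ⟨N, ⟨P⟩⟩ := Prj832.exists_proj_of_scale (fun a => (C a).e) (fun a => (C a).h)
    (fun a => (C a).riem) (fun a => (C a).inf) hcov htr
  exact ⟨Proj.of hcov P⟩

/-- **D4 is complete.** -/
theorem d4out : D4Out := d4out_of projStmt

end

end Crest.Agent.R249.D4_789
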