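import Crest.Agent.R249.DenQ_714
import Crest.Agent.R249.DenL_714
import Crest.Agent.R249.TzM_805

/-!
# Row 249, PART C (helper714): pointwise statements for the two `Dat`s of a Clifford pair

`WD T P D0 D1` : `D0`, `D1` are the `Dat`s of `WeakStmt` (805).  For ANY local data
`C : CLoc P.D0 P.D1 P.cc h a0 a1 c j0 j1` at `z`:

* `WD.rank0`, `WD.rank1` : `∑_a p_aa z = card ι`;
* `WD.tr0`, `WD.tr1`     : `∑ Q_ab p_ab z = ev (tr Q)`;
* `WD.dn0`, `WD.dn1`     : `dn D z = 1/(32π²) ev (tr Q²) + 1/(192π²) ev (tO a)`.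
-/

set_option autoImplicit false
set_option maxSynthPendingDepth 3
set_option linter.unusedSectionVars false

open Filter Topology Set Bundle Manifold Matrix MeasureTheory
open scoped ContDiff ENNReal NNReal
open Crest.GeometryTopology.CoordMetric Crest.GeometryTopology.ChartCurvature
open Crest.Agent.R249.Fr129 Crest.Agent.R249.Sg129
open Crest.Agent.R249.Tv57 Crest.Agent.R249.Tz805
open Crest.Agent.R249.HK286 (E4)

noncomputable section

namespace Crest.Agent.R249.HK9_714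

variable {M : Type*} [MetricSpace M] [ChartedSpace (EuclideanSpace ℝ (Fin 4)) M]
  [IsManifold (𝓡 4) ∞ M]
  [RiemannianBundle (fun p : M => TangentSpace (𝓡 4) p)]
  [IsContMDiffRiemannianBundle (𝓡 4) ∞ (EuclideanSpace ℝ (Fin 4)) (fun p : M => TangentSpace (𝓡 4) p)]
  [IsRiemannianManifold (𝓡 4) M] [MeasurableSpace M] [BorelSpace M]
  [SecondCountableTopology M] [Nonempty M]

variable {κ κ0 κ1 : Type} [Fintype κ] [Fintype κ0] [Fintype κ1]

/-- the two `Dat`s of `WeakStmt` -/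
structure WD (T : ToF 4 M) (P : CPair 4 M κ κ0 κ1) (D0 : Dat 4 M κ0) (D1 : Dat 4 M κ1) : Prop where
  X0 : ∀ a b z, D0.X a b z = T.toF z (P.D0.W a b z)
  p0 : D0.p = P.D0.p
  Q0 : D0.Q = potQ P.s P.D0 P.cc
  X1 : ∀ a b z, D1.X a b z = T.toF z (P.D1.W a b z)
  p1 : D1.p = P.D1.p
  Q1 : D1.Q = potQ P.s P.D1 (fun y x => P.cc x y)

namespace WD

variable {T : ToF 4 M} {P : CPair 4 M κ κ0 κ1} {D0 : Dat 4 M κ0} {D1 : Dat 4 M κ1}
  (W : WD T P D0 D1)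
  {z : M} {e : Fin 4 → EuclideanSpace ℝ (Fin 4) → EuclideanSpace ℝ (Fin 4)}
  {h : ONF (chartMetric 4 M z) (chartAt (EuclideanSpace ℝ (Fin 4)) z).target (chartCentre 4 M z) e}
  {ι0 ι1 : Type} [Fintype ι0] [DecidableEq ι0] [Fintype ι1] [DecidableEq ι1]
  {a0 : Fin 4 → Matrix ι0 ι0 (SG (chartCentre 4 M z))}
  {a1 : Fin 4 → Matrix ι1 ι1 (SG (chartCentre 4 M z))}
  {c : Fin 4 → Matrix ι1 ι0 (SG (chartCentre 4 M z))}
  {j0 : Matrix κ0 ι0 (SG (chartCentre 4 M z))} {j1 : Matrix κ1 ι1 (SG (chartCentre 4 M z))}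
  (C : CLoc P.D0 P.D1 P.cc h a0 a1 c j0 j1)
include W C

theorem germ0 : (Matrix.of fun y y' => Tz805.fg (n := 4) z (D0.Q y y'))
    = j0 * C2_198.Q h.frameOf a0 c * j0ᵀ := by
  rw [W.Q0]
  exact potQ_germ0 P.s P.smc C

theorem germ1 : (Matrix.of fun y y' => Tz805.fg (n := 4) z (D1.Q y y'))
    = j1 * C2_198.Q h.frameOf a1 (fun i => (c i)ᵀ) * j1ᵀ := by
  rw [W.Q1]
  exact potQ_germ1 P.s P.smc C

theorem rank0 : ∑ x, D0.p x x z = Fintype.card ι0 := rank_germ P.D0 D0 W.p0 C.l0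

theorem rank1 : ∑ x, D1.p x x z = Fintype.card ι1 := rank_germ P.D1 D1 W.p1 C.l1

theorem tr0 : ∑ x, ∑ y, D0.Q x y z * D0.p x y z = ev (C2_198.Q h.frameOf a0 c).trace :=
  trace_germ P.D0 D0 W.p0 C.l0 (W.germ0 C)

theorem tr1 : ∑ x, ∑ y, D1.Q x y z * D1.p x y z
    = ev (C2_198.Q h.frameOf a1 (fun i => (c i)ᵀ)).trace :=
  trace_germ P.D1 D1 W.p1 C.l1 (W.germ1 C)

theorem dn0 : dn D0 z
    = 1 / (32 * Real.pi ^ 2) * ev (C2_198.Q h.frameOf a0 c * C2_198.Q h.frameOf a0 c).trace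
      + 1 / (192 * Real.pi ^ 2) * ev (C2_198.tO h.frameOf a0) :=
  dn_germ P.D0 D0 T W.X0 W.p0 h C.l0 (W.germ0 C)

theorem dn1 : dn D1 z
    = 1 / (32 * Real.pi ^ 2) * ev (C2_198.Q h.frameOf a1 (fun i => (c i)ᵀ)
        * C2_198.Q h.frameOf a1 (fun i => (c i)ᵀ)).trace
      + 1 / (192 * Real.pi ^ 2) * ev (C2_198.tO h.frameOf a1) :=
  dn_germ P.D1 D1 T W.X1 W.p1 h C.l1 (W.germ1 C)

omit C in
/-- a point where the bundle is not zero (input `h0`, `h1` of 57's `index_D`) -/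
theorem exists_ne0 (z : M) (hz : ∑ a, D0.p a a z ≠ 0) : ∃ z a, D0.p a a z ≠ 0 := by
  obtain ⟨a, -, ha⟩ := Finset.exists_ne_zero_of_sum_ne_zero hz
  exact ⟨z, a, ha⟩

end WD

end Crest.Agent.R249.HK9_714
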