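import Crest.Agent.R247.Bs6_342

/-!
R249 (helper709), leaf D1-DIAM, file 1: the Ricci budget along a minimising geodesic.

If `Ric ≥ 0` and `Ric ≥ (lam - e) g` pointwise with `e ≥ 0` continuous, then along every unit speed
minimising geodesic `γ` of length `L`: `lam * L / 3 - 4 * n / L ≤ ∫₀ᴸ e (γ s) ds`.
Proof: the exact formula of R247 (`Lc582.mLap_integral`) for the two distance functions from the
end points, and the minimum principle at the midpoint. No second variation formula is used.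
-/

set_option autoImplicit false
set_option maxSynthPendingDepth 3
set_option linter.unusedSectionVars false

open Bundle Set Filter Topology Metric MeasureTheory
open scoped Manifold ContDiff NNReal Interval
open Crest.GeometryTopology.CoordMetric Crest.GeometryTopology.ChartCurvature
  Crest.GeometryTopology.PointedLimit
open Crest.GeometryTopology.MTW Crest.Agent.R244 Crest.Agent.R226
open Crest.Agent.R226.ChartMet842
open Crest.Agent.R226.CutSmooth77 (SC)
open Crest.Agent.R202.Tens Crest.Agent.R247.Ms322 Crest.Agent.R247.Bo84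
open Crest.Agent.R247.Sm879 Crest.Agent.R247.Lc582 Crest.Agent.R247.Bs342

noncomputable section

namespace Crest.Agent.R249.Diam709

/-- `Ric ≥ (lam - e) g` pointwise. -/
def RicGe (n : ℕ) (M : Type*) [TopologicalSpace M] [ChartedSpace (EuclideanSpace ℝ (Fin n)) M]
    [RiemannianBundle (fun x : M => TangentSpace 𝓘(ℝ, EuclideanSpace ℝ (Fin n)) x)]
    (lam : ℝ) (e : M → ℝ) : Prop :=
  ∀ x : M, ∀ v : EuclideanSpace ℝ (Fin n),
    (lam - e x) * quadForm (chartMetric n M x) (chartCentre n M x) v ≤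
      ∑ i, ∑ j, ricci (chartMetric n M x) (chartCentre n M x) i j * v i * v j

variable {n : ℕ} {M : Type*} [MetricSpace M] [ChartedSpace (EuclideanSpace ℝ (Fin n)) M]
  [IsManifold (𝓡 n) ∞ M]
  [RiemannianBundle (fun p : M => TangentSpace (𝓡 n) p)]
  [IsContMDiffRiemannianBundle (𝓡 n) ∞ (EuclideanSpace ℝ (Fin n)) (fun p : M => TangentSpace (𝓡 n) p)]
  [IsRiemannianManifold (𝓡 n) M]

local notation "𝔼" => EuclideanSpace ℝ (Fin n)

theorem mDev_ge_pt [ProperSpace M] (hm : ExM M) {lam : ℝ} {e : M → ℝ} (he : RicGe n M lam e)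
    {z p : M} (h : SC n z p) :
    (lam - e p) * dist z p ^ 2 ≤ mDev n (halfDistSq z) p := by
  rw [mDev_eq]
  have hg := Crest.Agent.R247.Bo84.isRiemannianOn_chartMetric (n := n) p
  have hc : chartCentre n M p ∈ (chartAt 𝔼 p).target := mem_chart_target 𝔼 p
  have hf2 : ContDiffAt ℝ 2 (inCh n p (halfDistSq z)) (chartCentre n M p) :=
    contDiffAt_centre (by norm_cast) (cost2 h)
  have h1 := hessDev_nonneg hg hc hf2
  have h2 := ricQ_lower hg hc (inCh n p (halfDistSq z)) (K := lam - e p) (he p)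
  have hsrc := mem_chart_source 𝔼 p
  have h3 : gam (chartMetric n M p) (inCh n p (halfDistSq z)) (inCh n p (halfDistSq z))
      (chartCentre n M p) = dist z p ^ 2 := by
    rw [inCh_eq_fz]
    have h4 : chartCentre n M p = chartAt 𝔼 p p := rfl
    rw [h4, gam_fz hm ((chartAt 𝔼 p).map_source hsrc)
      (by rw [(chartAt 𝔼 p).left_inv hsrc]; exact h), fz, (chartAt 𝔼 p).left_inv hsrc, halfDistSq]
    ring
  rw [h3] at h2
  linarith

/-- one half of the budget: from the end point `z = γ 0` to an interior point `γ D`. -/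
theorem half_budget [ProperSpace M] (hm : ExM M) (hK : HasRicciLowerBound n M 0) {lam : ℝ}
    {e : M → ℝ} (he : RicGe n M lam e) (hec : Continuous e)
    {γ : ℝ → M} {z : M} {D L : ℝ} (hD : 0 < D) (hDL : D < L)
    (hγ : ∀ s ∈ Icc 0 L, ∀ t ∈ Icc 0 L, dist (γ s) (γ t) = |s - t|) (h0 : γ 0 = z) :
    ∫ s in (0 : ℝ)..D, (lam - e (γ s)) * s ^ 2 ≤ D * (n - mLap n (halfDistSq z) (γ D)) := by
  have hL : 0 < L := hD.trans hDL
  have h0m : (0:ℝ) ∈ Icc 0 L := ⟨le_rfl, hL.le⟩
  have hLm : L ∈ Icc 0 L := ⟨hL.le, le_rfl⟩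
  have hdz : ∀ t ∈ Icc 0 L, dist z (γ t) = t := by
    intro t ht
    rw [← h0, hγ 0 h0m t ht, zero_sub, abs_neg, abs_of_nonneg ht.1]
  have hsc : ∀ t ∈ Icc 0 D, SC n z (γ t) := by
    intro t ht
    have ht' : t ∈ Icc 0 L := ⟨ht.1, ht.2.trans hDL.le⟩
    have e1 : dist (γ t) (γ L) = L - t := by
      rw [hγ t ht' L hLm, abs_sub_comm, abs_of_nonneg (by linarith [ht.2])]
    refine sc_of_btw (y' := γ L) hm ?_ ?_
    · rw [e1, hdz t ht', hdz L hLm]; ring
    · intro h'
      rw [h', dist_self] at e1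
      linarith [ht.2]
  have hγ' : ∀ s ∈ Icc 0 D, ∀ t ∈ Icc 0 D, dist (γ s) (γ t) = |s - t| := fun s hs t ht =>
    hγ s ⟨hs.1, hs.2.trans hDL.le⟩ t ⟨ht.1, ht.2.trans hDL.le⟩
  have hK' : HasRicciLowerBound n M (-(0:ℝ)) := by rw [neg_zero]; exact hK
  obtain ⟨h1, h2⟩ := mLap_integral hm hK' hD hγ' h0 (hsc D ⟨hD.le, le_rfl⟩)
  rw [← h2]
  have hγc : ContinuousOn γ (Icc 0 D) := by
    have : LipschitzOnWith 1 γ (Icc 0 D) := by
      refine LipschitzOnWith.of_dist_le_mul fun s hs t ht => ?_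
      rw [hγ' s hs t ht, Real.dist_eq]; simp
    exact this.continuousOn
  have hint : IntervalIntegrable (fun s => (lam - e (γ s)) * s ^ 2) volume 0 D := by
    apply ContinuousOn.intervalIntegrable
    rw [uIcc_of_le hD.le]
    exact (continuousOn_const.sub (hec.comp_continuousOn hγc)).mul (by fun_prop)
  refine intervalIntegral.integral_mono_on hD.le hint h1 fun s hs => ?_
  have h3 := mDev_ge_pt hm he (hsc s hs)
  rwa [hdz s ⟨hs.1, hs.2.trans hDL.le⟩] at h3

/-- **Ricci budget**. -/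
theorem ricci_budget [ProperSpace M] (hm : ExM M) (hK : HasRicciLowerBound n M 0) {lam : ℝ}
    {e : M → ℝ} (he : RicGe n M lam e) (hec : Continuous e) (he0 : ∀ x, 0 ≤ e x)
    {γ : ℝ → M} {L : ℝ} (hL : 0 < L)
    (hγ : ∀ s ∈ Icc 0 L, ∀ t ∈ Icc 0 L, dist (γ s) (γ t) = |s - t|) :
    lam * L / 3 - 4 * n / L ≤ ∫ s in (0 : ℝ)..L, e (γ s) := by
  set D := L / 2 with hDdef
  have hD : 0 < D := by positivity
  have hDL : D < L := by rw [hDdef]; linarith
  have hDD : D + D = L := by rw [hDdef]; ring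
  have h0m : (0:ℝ) ∈ Icc 0 L := ⟨le_rfl, hL.le⟩
  have hLm : L ∈ Icc 0 L := ⟨hL.le, le_rfl⟩
  have hDm : D ∈ Icc 0 L := ⟨hD.le, hDL.le⟩
  have b1 := half_budget hm hK he hec hD hDL hγ rfl
  have hγ2 : ∀ s ∈ Icc 0 L, ∀ t ∈ Icc 0 L, dist (γ (L - s)) (γ (L - t)) = |s - t| := by
    intro s hs t ht
    rw [hγ (L - s) ⟨by linarith [hs.2], by linarith [hs.1]⟩ (L - t)
      ⟨by linarith [ht.2], by linarith [ht.1]⟩]
    have : L - s - (L - t) = -(s - t) := by ring
    rw [this, abs_neg]
  have b2 := half_budget (γ := fun s => γ (L - s)) hm hK he hec hD hDL hγ2 rfl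
  simp only [sub_zero] at b2
  have hLD : L - D = D := by rw [hDdef]; ring
  rw [hLD] at b2
  -- minimum principle at the midpoint
  set z := γ 0 with hz
  set y := γ L with hy
  set p := γ D with hp
  have dzp : dist z p = D := by
    rw [hz, hp, hγ 0 h0m D hDm, zero_sub, abs_neg, abs_of_pos hD]
  have dpy : dist p y = D := by
    rw [hp, hy, hγ D hDm L hLm, abs_sub_comm, abs_of_nonneg (by linarith)]; linarith
  have dzy : dist z y = L := by
    rw [hz, hy, hγ 0 h0m L hLm, zero_sub, abs_neg, abs_of_pos hL]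
  have hbt : dist z p + dist p y = dist z y := by rw [dzp, dpy, dzy, hDD]
  have hzp : z ≠ p := dist_pos.1 (by rw [dzp]; exact hD)
  have hpy : p ≠ y := dist_pos.1 (by rw [dpy]; exact hD)
  have s1 : SC n z p := sc_of_Om hm (mem_Om_of_btw hpy hbt)
  have s2 : SC n y p := sc_of_Om hm (mem_Om_of_btw' hzp hbt)
  have c1 := cost2 s1
  have c2 := cost2 s2
  have hmin : IsLocalMin (fun q => halfDistSq z q + halfDistSq y q) p := by
    refine Filter.Eventually.of_forall fun q => ?_
    simp only [halfDistSq]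
    rw [dzp, dist_comm y p, dpy]
    have h3 : D + D ≤ dist z q + dist y q := by
      rw [hDD, ← dzy, dist_comm y q]
      exact dist_triangle _ _ _
    nlinarith [sq_nonneg (dist z q - D), sq_nonneg (dist y q - D)]
  have h0 := mLap_nonneg_of_min (n := n) (c1.add c2) hmin
  have h1 : mLap n (fun q => halfDistSq z q + halfDistSq y q) p
      = mLap n (halfDistSq z) p + mLap n (halfDistSq y) p := mLap_add c1 c2
  have h0' : 0 ≤ mLap n (halfDistSq z) p + mLap n (halfDistSq y) p := h1 ▸ h0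
  have hsum : (∫ s in (0 : ℝ)..D, (lam - e (γ s)) * s ^ 2) +
      ∫ s in (0 : ℝ)..D, (lam - e (γ (L - s))) * s ^ 2 ≤ n * L := by
    have : D * (n - mLap n (halfDistSq z) p) + D * (n - mLap n (halfDistSq y) p) =
        n * (D + D) - D * (mLap n (halfDistSq z) p + mLap n (halfDistSq y) p) := by ring
    have h5 : 0 ≤ D * (mLap n (halfDistSq z) p + mLap n (halfDistSq y) p) := by positivity
    rw [hDD] at this
    linarith
  -- continuity and integrability
  have hγc : ContinuousOn γ (Icc 0 L) := by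
    have : LipschitzOnWith 1 γ (Icc 0 L) := by
      refine LipschitzOnWith.of_dist_le_mul fun s hs t ht => ?_
      rw [hγ s hs t ht, Real.dist_eq]; simp
    exact this.continuousOn
  have hEc : ContinuousOn (fun s => e (γ s)) (Icc 0 L) := hec.comp_continuousOn hγc
  have hsub : Icc 0 D ⊆ Icc 0 L := Icc_subset_Icc_right hDL.le
  have hE1 : IntervalIntegrable (fun s => e (γ s)) volume 0 D := by
    apply ContinuousOn.intervalIntegrable
    rw [uIcc_of_le hD.le]
    exact hEc.mono hsub
  have hE1' : IntervalIntegrable (fun s => e (γ s)) volume D L := by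
    apply ContinuousOn.intervalIntegrable
    rw [uIcc_of_le hDL.le]
    exact hEc.mono (Icc_subset_Icc_left hD.le)
  have hEc2 : ContinuousOn (fun s => e (γ (L - s))) (Icc 0 L) := by
    have : ContinuousOn (fun s : ℝ => L - s) (Icc 0 L) := by fun_prop
    exact hEc.comp this fun s hs => ⟨by linarith [hs.2], by linarith [hs.1]⟩
  have hE2 : IntervalIntegrable (fun s => e (γ (L - s))) volume 0 D := by
    apply ContinuousOn.intervalIntegrable
    rw [uIcc_of_le hD.le]
    exact hEc2.mono hsub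
  -- lower bounds of the two halves
  have key : ∀ F : ℝ → ℝ, ContinuousOn F (Icc 0 D) → (∀ s ∈ Icc 0 D, 0 ≤ F s) →
      lam * D ^ 3 / 3 - D ^ 2 * ∫ s in (0 : ℝ)..D, F s ≤ ∫ s in (0 : ℝ)..D, (lam - F s) * s ^ 2 := by
    intro F hF hF0
    have hFi : IntervalIntegrable F volume 0 D := by
      apply ContinuousOn.intervalIntegrable
      rwa [uIcc_of_le hD.le]
    have hi2 : IntervalIntegrable (fun s => (lam - F s) * s ^ 2) volume 0 D := by
      apply ContinuousOn.intervalIntegrable
      rw [uIcc_of_le hD.le]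
      exact (continuousOn_const.sub hF).mul (by fun_prop)
    have hi3 : IntervalIntegrable (fun s : ℝ => lam * s ^ 2 - D ^ 2 * F s) volume 0 D :=
      (Continuous.intervalIntegrable (by fun_prop) _ _).sub (hFi.const_mul _)
    have h5 : ∫ s in (0 : ℝ)..D, (lam * s ^ 2 - D ^ 2 * F s) =
        lam * D ^ 3 / 3 - D ^ 2 * ∫ s in (0 : ℝ)..D, F s := by
      rw [intervalIntegral.integral_sub (Continuous.intervalIntegrable (by fun_prop) _ _)
        (hFi.const_mul _), intervalIntegral.integral_const_mul, intervalIntegral.integral_const_mul,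
        integral_pow]
      norm_num
      ring
    rw [← h5]
    refine intervalIntegral.integral_mono_on hD.le hi3 hi2 fun s hs => ?_
    have h6 : s ^ 2 ≤ D ^ 2 := by
      have := hs.1
      have := hs.2
      gcongr
    have h7 := mul_le_mul_of_nonneg_left h6 (hF0 s hs)
    nlinarith
  have k1 := key (fun s => e (γ s)) (hEc.mono hsub) fun s _ => he0 _
  have k2 := key (fun s => e (γ (L - s))) (hEc2.mono hsub) fun s _ => he0 _
  have hsplit : (∫ s in (0 : ℝ)..D, e (γ s)) + ∫ s in (0 : ℝ)..D, e (γ (L - s)) =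
      ∫ s in (0 : ℝ)..L, e (γ s) := by
    have h8 : ∫ s in (0 : ℝ)..D, e (γ (L - s)) = ∫ s in D..L, e (γ s) := by
      rw [intervalIntegral.integral_comp_sub_left (fun s => e (γ s)) L]
      rw [hLD, sub_zero]
    rw [h8]
    exact intervalIntegral.integral_add_adjacent_intervals hE1 hE1'
  have hfin : lam * D ^ 3 / 3 * 2 - D ^ 2 * ∫ s in (0 : ℝ)..L, e (γ s) ≤ n * L := by
    rw [← hsplit]
    linarith
  have hL2 : L = 2 * D := by linarith
  rw [hL2] at hfin ⊢
  have hD2 : 0 < D ^ 2 := by positivity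
  have h9 : lam * (2 * D) / 3 - 4 * n / (2 * D) =
      (lam * D ^ 3 / 3 * 2 - n * (2 * D)) / D ^ 2 := by
    field_simp
    ring
  rw [h9, div_le_iff₀ hD2]
  linarith

end Crest.Agent.R249.Diam709
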