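import Crest.Agent.R226.GeoLoc_577
import Crest.Agent.R244.CFCoord

/-!
# R249: the Prelude distance `riemDist h V` near the diagonal is `√(2 L.h)`

For `IsRiemannianOn h V`, `x ∈ V` and any local geometry `L : LocGeo V (gB h) (Gam h) x` (R226), for
all `a, b` near `x`: `riemDist h V a b = √(2 L.h (a, b))`, and `b = L.Ex (a, v)` with a short `v`.
-/

set_option autoImplicit false
set_option maxSynthPendingDepth 3
set_option linter.unusedSectionVars false
set_option linter.unusedSimpArgs false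
set_option linter.unusedVariables false

open Set Filter Topology MeasureTheory
open scoped ContDiff
open Crest.Agent.R244.CF
open Crest.Agent.R226.GeoLoc577 (LocGeo)
open Crest.GeometryTopology.CoordMetric

namespace Crest.Agent.R249.Hin3_615

/-- real-variable core: `f'² ≤ 2 f r²`, `f 0 = 0`, `f ≥ 0` implies `√(2 f T) ≤ ∫₀ᵀ r`. -/
theorem sqrt_two_mul_le_integral {f f' r : ℝ → ℝ} {T : ℝ} (hT : 0 ≤ T) (h0 : f 0 = 0)
    (hnn : ∀ s ∈ Icc (0:ℝ) T, 0 ≤ f s) (hc : ContinuousOn f (Icc 0 T))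
    (hd : ∀ s ∈ Ioo (0:ℝ) T, HasDerivAt f (f' s) s)
    (hr : ContinuousOn r (Icc 0 T)) (hrn : ∀ s ∈ Icc (0:ℝ) T, 0 ≤ r s)
    (hb : ∀ s ∈ Ioo (0:ℝ) T, (f' s) ^ 2 ≤ 2 * f s * r s ^ 2) :
    Real.sqrt (2 * f T) ≤ ∫ s in (0:ℝ)..T, r s := by
  have key : ∀ ε : ℝ, 0 < ε → Real.sqrt (2 * f T) ≤ (∫ s in (0:ℝ)..T, r s) + ε := by
    intro ε hε
    set F : ℝ → ℝ := fun s => Real.sqrt (2 * f s + ε ^ 2) with hF
    have hpos : ∀ s ∈ Icc (0:ℝ) T, 0 < 2 * f s + ε ^ 2 := by
      intro s hs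
      have := hnn s hs
      positivity
    have hFc : ContinuousOn F (Icc 0 T) := by
      apply ContinuousOn.sqrt
      exact (continuousOn_const.mul hc).add continuousOn_const
    have hint : IntervalIntegrable r volume 0 T := by
      apply ContinuousOn.intervalIntegrable
      rwa [uIcc_of_le hT]
    set R : ℝ → ℝ := fun s => ∫ t in (0:ℝ)..s, r t with hR
    have hRc : ContinuousOn R (Icc 0 T) := by
      have := intervalIntegral.continuousOn_primitive_interval' hint (left_mem_uIcc)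
      rwa [uIcc_of_le hT] at this
    have hRd : ∀ s ∈ Ioo (0:ℝ) T, HasDerivAt R (r s) s := by
      intro s hs
      apply intervalIntegral.integral_hasDerivAt_right
      · exact hint.mono_set (by
          rw [uIcc_of_le hT, uIcc_of_le hs.1.le]; exact Icc_subset_Icc le_rfl hs.2.le)
      · exact (hr.mono Ioo_subset_Icc_self).stronglyMeasurableAtFilter isOpen_Ioo s hs
      · exact hr.continuousAt (Icc_mem_nhds hs.1 hs.2)
    have hFd : ∀ s ∈ Ioo (0:ℝ) T, HasDerivAt F ((2 * f' s) / (2 * Real.sqrt (2 * f s + ε ^ 2))) s := by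
      intro s hs
      have h1 : HasDerivAt (fun s => 2 * f s + ε ^ 2) (2 * f' s) s :=
        ((hd s hs).const_mul 2).add_const _
      exact h1.sqrt (hpos s (Ioo_subset_Icc_self hs)).ne'
    have hmono : MonotoneOn (fun s => R s - F s) (Icc 0 T) := by
      apply monotoneOn_of_deriv_nonneg (convex_Icc 0 T) (hRc.sub hFc)
      · rw [interior_Icc]
        intro s hs
        exact ((hRd s hs).sub (hFd s hs)).differentiableAt.differentiableWithinAt
      · rw [interior_Icc]
        intro s hs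
        rw [((hRd s hs).sub (hFd s hs)).deriv]
        have hp := hpos s (Ioo_subset_Icc_self hs)
        have hsp : 0 < Real.sqrt (2 * f s + ε ^ 2) := Real.sqrt_pos.2 hp
        have hrs := hrn s (Ioo_subset_Icc_self hs)
        rw [sub_nonneg, div_le_iff₀ (by positivity)]
        have h2 : f' s ≤ r s * Real.sqrt (2 * f s + ε ^ 2) := by
          apply le_of_sq_le_sq _ (by positivity)
          rw [mul_pow, Real.sq_sqrt hp.le]
          have h3 := hb s hs
          nlinarith [sq_nonneg (r s), sq_nonneg ε, mul_nonneg (sq_nonneg (r s)) (sq_nonneg ε)]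
        linarith
    have h5 := hmono (left_mem_Icc.2 hT) (right_mem_Icc.2 hT) hT
    have hF0 : F 0 = ε := by
      simp only [hF, h0, mul_zero, zero_add]
      exact Real.sqrt_sq hε.le
    have hR0 : R 0 = 0 := by simp [hR]
    have h4 : Real.sqrt (2 * f T) ≤ F T := by
      apply Real.sqrt_le_sqrt
      have : 0 ≤ ε ^ 2 := by positivity
      linarith
    simp only [hF0, hR0] at h5
    have : R T = ∫ s in (0:ℝ)..T, r s := rfl
    linarith
  exact le_of_forall_pos_le_add key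

variable {n : ℕ}

local notation "𝔼" => EuclideanSpace ℝ (Fin n)

theorem continuousOn_speed {h : MetricField n} {V : Set 𝔼} (hR : IsRiemannianOn h V) {γ : ℝ → 𝔼}
    (hγ : ContDiff ℝ 1 γ) {s : Set ℝ} (hs : ∀ t ∈ s, γ t ∈ V) :
    ContinuousOn (fun t => Real.sqrt (quadForm h (γ t) (deriv γ t))) s := by
  have h1 : ContinuousOn (fun t => gB h (γ t)) s :=
    (contDiffOn_gB hR).continuousOn.comp hγ.continuous.continuousOn hs
  have h2 : Continuous (deriv γ) := hγ.continuous_deriv (by simp)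
  have h3 : ContinuousOn (fun t => gB h (γ t) (deriv γ t) (deriv γ t)) s :=
    (h1.clm_apply h2.continuousOn).clm_apply h2.continuousOn
  apply ContinuousOn.sqrt
  exact h3.congr fun t ht => (gB_self h (γ t) (deriv γ t)).symm

/-- **Lower bound along a path.** -/
theorem energy_le_of_path {h : MetricField n} {V : Set 𝔼} (hR : IsRiemannianOn h V)
    {O : Set 𝔼} (hO : IsOpen O) (hOV : O ⊆ V) {a : 𝔼} (ha : a ∈ O)
    {f : 𝔼 → ℝ} (h0 : f a = 0) (hnn : ∀ b ∈ O, 0 ≤ f b)
    (hd : ∀ b ∈ O, DifferentiableAt ℝ f b ∧ ∀ w, (fderiv ℝ f b w) ^ 2 ≤ 2 * f b * gB h b w w)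
    {r : ℝ} (hr : 0 < r) (hK : IsCompact {b ∈ O | 2 * f b ≤ r ^ 2})
    {γ : ℝ → 𝔼} (hγ : ContDiff ℝ 1 γ) (hV : ∀ t ∈ Icc (0:ℝ) 1, γ t ∈ V) (hγ0 : γ 0 = a)
    (hlen : curveLength h γ < r) :
    γ 1 ∈ O ∧ Real.sqrt (2 * f (γ 1)) ≤ curveLength h γ := by
  set K : Set 𝔼 := {b ∈ O | 2 * f b ≤ r ^ 2} with hKdef
  have haK : a ∈ K := ⟨ha, by rw [h0, mul_zero]; positivity⟩
  have hKO : K ⊆ O := fun b hb => hb.1
  have hKc : IsClosed K := hK.isClosed
  have hLC := isLC_of_isRiemannianOn hR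
  have hsp := continuousOn_speed hR hγ (s := Icc 0 1) hV
  have hlenle : ∀ t ∈ Icc (0:ℝ) 1, (∫ s in (0:ℝ)..t, Real.sqrt (quadForm h (γ s) (deriv γ s))) ≤
      curveLength h γ := by
    intro t ht
    unfold curveLength
    have hi : IntervalIntegrable (fun s => Real.sqrt (quadForm h (γ s) (deriv γ s))) volume 0 1 := by
      apply ContinuousOn.intervalIntegrable
      rwa [uIcc_of_le zero_le_one]
    exact intervalIntegral.integral_mono_interval le_rfl ht.1 ht.2
      (Filter.Eventually.of_forall fun s => Real.sqrt_nonneg _) hi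
  -- estimate on intervals that stay in K
  have hest : ∀ t ∈ Icc (0:ℝ) 1, (∀ s ∈ Icc (0:ℝ) t, γ s ∈ K) →
      Real.sqrt (2 * f (γ t)) ≤ curveLength h γ := by
    intro t ht hin
    have hin' : ∀ s ∈ Icc (0:ℝ) t, γ s ∈ O := fun s hs' => hKO (hin s hs')
    have hdiff : ∀ s ∈ Icc (0:ℝ) t, HasDerivAt (fun s => f (γ s))
        (fderiv ℝ f (γ s) (deriv γ s)) s := by
      intro s hs'
      exact (hd _ (hin' s hs')).1.hasFDerivAt.comp_hasDerivAt s
        (hγ.differentiable (by simp) s).hasDerivAt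
    refine le_trans (sqrt_two_mul_le_integral (f := fun s => f (γ s))
      (f' := fun s => fderiv ℝ f (γ s) (deriv γ s))
      (r := fun s => Real.sqrt (quadForm h (γ s) (deriv γ s))) ht.1 ?_ ?_ ?_ ?_ ?_ ?_ ?_) (hlenle t ht)
    · simp only [hγ0, h0]
    · intro s hs'
      exact hnn _ (hin' s hs')
    · intro s hs'
      exact (hdiff s hs').continuousAt.continuousWithinAt
    · intro s hs'
      exact hdiff s (Ioo_subset_Icc_self hs')
    · exact hsp.mono (Icc_subset_Icc le_rfl ht.2)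
    · intro s _; exact Real.sqrt_nonneg _
    · intro s hs'
      have h1 := hin' s (Ioo_subset_Icc_self hs')
      refine ((hd _ h1).2 _).trans ?_
      have h2 : 0 ≤ quadForm h (γ s) (deriv γ s) := by
        rw [← gB_self]; exact hLC.nonneg (hOV h1) _
      rw [Real.sq_sqrt h2, ← gB_self]
  -- continuity induction
  have hsub : Icc (0:ℝ) 1 ⊆ γ ⁻¹' K := by
    have hcl : IsClosed (γ ⁻¹' K ∩ Icc 0 1) :=
      (hKc.preimage hγ.continuous).inter isClosed_Icc
    apply hcl.Icc_subset_of_forall_mem_nhdsGT_of_Icc_subset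
    · change γ 0 ∈ K
      rw [hγ0]
      exact haK
    · rintro t ⟨ht0, ht1⟩ hin
      have h1 := hest t ⟨ht0, ht1.le⟩ hin
      have h3 := hin (right_mem_Icc.2 ht0)
      have h4 : Real.sqrt (2 * f (γ t)) < r := lt_of_le_of_lt h1 hlen
      have h5 : 2 * f (γ t) < r ^ 2 := by
        rwa [Real.sqrt_lt' hr] at h4
      have hc1 : ContinuousAt γ t := hγ.continuous.continuousAt
      have hc3 : ContinuousAt (fun s => 2 * f (γ s)) t := by
        have : ContinuousAt f (γ t) := (hd _ (hKO h3)).1.continuousAt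
        exact continuousAt_const.mul (ContinuousAt.comp (g := f) (f := γ) this hc1)
      have : γ ⁻¹' K ∈ 𝓝 t := by
        filter_upwards [hc1.eventually_mem (hO.mem_nhds (hKO h3)), hc3.eventually_lt_const h5]
          with s a2 a3
        exact ⟨a2, a3.le⟩
      exact mem_nhdsWithin_of_mem_nhds this
  exact ⟨hKO (hsub (right_mem_Icc.2 zero_le_one)),
    hest 1 (right_mem_Icc.2 zero_le_one) fun s hs' => hsub hs'⟩

/-- the radial path as an admissible path -/
theorem riemDist_le_radial {h : MetricField n} {V : Set 𝔼} (hR : IsRiemannianOn h V) {x : 𝔼}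
    (L : LocGeo V (gB h) (Gam h) x) {a v : 𝔼} (ha : a ∈ L.W) (hv : gB h a v v < L.ρ ^ 2) :
    riemDist h V a (L.Ex (a, v)) ≤ Real.sqrt (gB h a v v) := by
  have hLC := isLC_of_isRiemannianOn hR
  have haV : a ∈ V := L.W_sub ha
  set θ : ℝ → ℝ := Real.smoothTransition with hθ
  have hθd : ContDiff ℝ ∞ θ := Real.smoothTransition.contDiff
  have hθ0 : ∀ t, 0 ≤ θ t := Real.smoothTransition.nonneg
  have hθ1 : ∀ t, θ t ≤ 1 := Real.smoothTransition.le_one
  have habs : ∀ t, |θ t| ≤ 1 := fun t => by rw [abs_of_nonneg (hθ0 t)]; exact hθ1 t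
  have hsm : ∀ c : ℝ, |c| ≤ 1 → gB h a (c • v) (c • v) < L.ρ ^ 2 := by
    intro c hc
    have h0 := hLC.nonneg haV v
    simp only [map_smul, smul_apply, smul_eq_mul]
    have hc2 : c * c ≤ 1 := by nlinarith [abs_nonneg c, abs_mul_abs_self c]
    nlinarith [mul_nonneg (sub_nonneg.2 hc2) h0]
  set γ : ℝ → 𝔼 := fun t => L.Ex (a, θ t • v) with hγ
  have hγd : ContDiff ℝ 1 γ := by
    rw [contDiff_iff_contDiffAt]
    intro t
    have h1 := L.Ex_smooth a ha (θ t • v) (hsm _ (habs t))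
    have h2 : ContDiffAt ℝ ∞ (fun t : ℝ => ((a, θ t • v) : 𝔼 × 𝔼)) t :=
      contDiffAt_const.prodMk (hθd.contDiffAt.smul contDiffAt_const)
    exact (h1.comp t h2).of_le (by exact_mod_cast le_top)
  have hγ0 : γ 0 = a := by
    simp only [hγ, hθ, Real.smoothTransition.zero, zero_smul]
    exact L.Ex_zero a ha
  have hγ1 : γ 1 = L.Ex (a, v) := by
    simp only [hγ, hθ, Real.smoothTransition.one, one_smul]
  have hγV : ∀ t ∈ Icc (0:ℝ) 1, γ t ∈ V := fun t _ => L.Ex_mem a ha _ (hsm _ (habs t))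
  have hder : ∀ t, HasDerivAt γ (deriv θ t • L.vel (θ t) (a, v)) t := by
    intro t
    have h1 := L.hasDerivAt_Ex a ha v hv (θ t) (habs t)
    have h2 : HasDerivAt θ (deriv θ t) t := (hθd.differentiable (by simp) t).hasDerivAt
    exact h1.scomp t h2
  have hθ' : ∀ t, 0 ≤ deriv θ t := fun t => (Real.smoothTransition.monotone).deriv_nonneg
  have hspeed : ∀ t, Real.sqrt (quadForm h (γ t) (deriv γ t)) =
      deriv θ t * Real.sqrt (gB h a v v) := by
    intro t
    rw [(hder t).deriv, ← gB_self]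
    simp only [map_smul, smul_apply, smul_eq_mul]
    rw [← mul_assoc, hγ]
    simp only
    rw [L.speed a ha v hv (θ t) (habs t), Real.sqrt_mul (mul_self_nonneg _),
      Real.sqrt_mul_self (hθ' t)]
  have hlen : curveLength h γ = Real.sqrt (gB h a v v) := by
    unfold curveLength
    simp only [hspeed]
    rw [intervalIntegral.integral_mul_const]
    have : ∫ t in (0:ℝ)..1, deriv θ t = θ 1 - θ 0 := by
      apply intervalIntegral.integral_deriv_eq_sub
      · intro t _; exact hθd.differentiable (by simp) t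
      · exact (hθd.continuous_deriv (by simp)).intervalIntegrable _ _
    rw [this]
    simp [hθ, Real.smoothTransition.zero, Real.smoothTransition.one]
  rw [← hlen]
  have hbdd : BddBelow (range fun γ : AdmissiblePath V a (L.Ex (a, v)) => curveLength h γ.1) := by
    refine ⟨0, ?_⟩
    rintro _ ⟨γ, rfl⟩
    exact intervalIntegral.integral_nonneg zero_le_one fun t _ => Real.sqrt_nonneg _
  exact ciInf_le hbdd (⟨γ, hγd, hγ0, hγ1, hγV⟩ : AdmissiblePath V a (L.Ex (a, v)))

/-- **Near the diagonal `riemDist = √(2h)`.** -/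
theorem riemDist_eq {h : MetricField n} {V : Set 𝔼} (hR : IsRiemannianOn h V) {x : 𝔼}
    (L : LocGeo V (gB h) (Gam h) x) {a v : 𝔼} (ha : a ∈ L.W) (hv : gB h a v v < L.ρ ^ 2) :
    riemDist h V a (L.Ex (a, v)) = Real.sqrt (gB h a v v) := by
  have hLC := isLC_of_isRiemannianOn hR
  have haV : a ∈ V := L.W_sub ha
  have hρ := L.ρ_pos
  refine le_antisymm (riemDist_le_radial hR L ha hv) ?_
  have hne : Nonempty (AdmissiblePath V a (L.Ex (a, v))) := by
    -- the same radial path; nonemptiness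
    set θ : ℝ → ℝ := Real.smoothTransition with hθ
    have hθd : ContDiff ℝ ∞ θ := Real.smoothTransition.contDiff
    have habs : ∀ t, |θ t| ≤ 1 := fun t => by
      rw [abs_of_nonneg (Real.smoothTransition.nonneg t)]; exact Real.smoothTransition.le_one t
    have hsm : ∀ c : ℝ, |c| ≤ 1 → gB h a (c • v) (c • v) < L.ρ ^ 2 := by
      intro c hc
      have h0 := hLC.nonneg haV v
      simp only [map_smul, smul_apply, smul_eq_mul]
      have hc2 : c * c ≤ 1 := by nlinarith [abs_nonneg c, abs_mul_abs_self c]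
      nlinarith [mul_nonneg (sub_nonneg.2 hc2) h0]
    refine ⟨⟨fun t => L.Ex (a, θ t • v), ?_, ?_, ?_, ?_⟩⟩
    · rw [contDiff_iff_contDiffAt]
      intro t
      have h1 := L.Ex_smooth a ha (θ t • v) (hsm _ (habs t))
      have h2 : ContDiffAt ℝ ∞ (fun t : ℝ => ((a, θ t • v) : 𝔼 × 𝔼)) t :=
        contDiffAt_const.prodMk (hθd.contDiffAt.smul contDiffAt_const)
      exact (h1.comp t h2).of_le (by exact_mod_cast le_top)
    · simp only [hθ, Real.smoothTransition.zero, zero_smul]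
      exact L.Ex_zero a ha
    · simp only [hθ, Real.smoothTransition.one, one_smul]
    · exact fun t _ => L.Ex_mem a ha _ (hsm _ (habs t))
  refine le_ciInf fun γ => ?_
  obtain ⟨γ, hγd, hγ0, hγ1, hγV⟩ := γ
  simp only
  by_contra hcon
  push Not at hcon
  -- set up the energy from `a`
  set O : Set 𝔼 := (fun v => L.Ex (a, v)) '' {v | gB h a v v < L.ρ ^ 2} with hO
  set f : 𝔼 → ℝ := fun b => L.h (a, b) with hf
  have hOo : IsOpen O := L.isOpen_ball a ha L.ρ L.ρ_pos le_rfl
  have hOV : O ⊆ V := by rintro _ ⟨w, hw, rfl⟩; exact L.Ex_mem a ha w hw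
  have h00 : gB h a (0 : 𝔼) 0 < L.ρ ^ 2 := by
    simp only [map_zero, zero_apply]; positivity
  have haO : a ∈ O := ⟨0, h00, L.Ex_zero a ha⟩
  have hfa : f a = 0 := by
    have := L.h_eq a ha 0 h00
    rw [L.Ex_zero a ha] at this
    simp only [hf, this, map_zero, zero_apply, zero_div]
  have hfv : ∀ w, gB h a w w < L.ρ ^ 2 → f (L.Ex (a, w)) = gB h a w w / 2 := fun w hw =>
    L.h_eq a ha w hw
  have hnn : ∀ b ∈ O, 0 ≤ f b := by
    rintro _ ⟨w, hw, rfl⟩
    have := hfv w hw
    simp only at this ⊢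
    rw [this]
    have := hLC.nonneg haV w
    positivity
  have hd : ∀ b ∈ O, DifferentiableAt ℝ f b ∧
      ∀ w, (fderiv ℝ f b w) ^ 2 ≤ 2 * f b * gB h b w w := by
    rintro _ ⟨w, hw, rfl⟩
    simp only
    have hsm := L.h_smooth a ha w hw
    have hcomp : ContDiffAt ℝ ∞ f (L.Ex (a, w)) :=
      ContDiffAt.comp (L.Ex (a, w)) (g := L.h) (f := fun b => (a, b)) hsm
        (contDiffAt_const.prodMk contDiffAt_id)
    refine ⟨hcomp.differentiableAt (by simp), fun η => ?_⟩
    have hder : fderiv ℝ f (L.Ex (a, w)) η = gB h (L.Ex (a, w)) (L.vel 1 (a, w)) η := by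
      have h1 : HasFDerivAt L.h (fderiv ℝ L.h (a, L.Ex (a, w))) (a, L.Ex (a, w)) :=
        (hsm.differentiableAt (by simp)).hasFDerivAt
      have h2 : HasFDerivAt (fun y : 𝔼 => (a, y)) ((0 : 𝔼 →L[ℝ] 𝔼).prod (ContinuousLinearMap.id ℝ 𝔼))
          (L.Ex (a, w)) := (hasFDerivAt_const a _).prodMk (hasFDerivAt_id _)
      have h3 := (h1.comp (L.Ex (a, w)) h2).fderiv
      have h4 : (L.h ∘ fun y : 𝔼 => (a, y)) = f := rfl
      rw [h4] at h3
      rw [h3]
      simp only [ContinuousLinearMap.comp_apply, ContinuousLinearMap.prod_apply,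
        zero_apply, ContinuousLinearMap.id_apply]
      rw [L.h_fderiv a ha w hw 0 η]
      simp
    rw [hder, hfv w hw]
    have hbV := L.Ex_mem a ha w hw
    have hsp := L.speed a ha w hw 1 (by simp)
    rw [one_smul] at hsp
    -- Cauchy-Schwarz
    set G := gB h (L.Ex (a, w)) with hG
    set X := L.vel 1 (a, w) with hX
    have hsymm : G X η = G η X := hLC.g_symm _ hbV X η
    have hcs : ∀ t : ℝ, 0 ≤ G η η * (t * t) + (2 * G X η) * t + G X X := by
      intro t
      have := hLC.nonneg hbV (X + t • η)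
      rw [← hG] at this
      simp only [map_add, map_smul, add_apply, smul_apply, smul_eq_mul] at this
      rw [← hsymm] at this
      nlinarith
    have hdisc := discrim_le_zero hcs
    unfold discrim at hdisc
    rw [← hsp]
    nlinarith
  have hcl : ∀ r, 0 ≤ r → r < L.ρ → IsCompact {b ∈ O | 2 * f b ≤ r ^ 2} := by
    intro r hr0 hr
    have heq : {b ∈ O | 2 * f b ≤ r ^ 2} = (fun v => L.Ex (a, v)) '' {v | gB h a v v ≤ r ^ 2} := by
      ext b
      constructor
      · rintro ⟨⟨w, hw, rfl⟩, h2⟩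
        refine ⟨w, ?_, rfl⟩
        have := hfv w hw
        simp only at h2 this
        rw [this] at h2
        show gB h a w w ≤ r ^ 2
        linarith
      · rintro ⟨w, hw, rfl⟩
        have hw' : gB h a w w ≤ r ^ 2 := hw
        have hw2 : gB h a w w < L.ρ ^ 2 := by nlinarith
        refine ⟨⟨w, hw2, rfl⟩, ?_⟩
        have := hfv w hw2
        simp only at this ⊢
        rw [this]; linarith
    rw [heq]
    exact L.isCompact_closedBall a ha r hr0 hr
  -- choose a radius
  have hsv : Real.sqrt (gB h a v v) < L.ρ := by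
    rw [Real.sqrt_lt' hρ]; exact hv
  have hlen0 : 0 ≤ curveLength h γ :=
    intervalIntegral.integral_nonneg zero_le_one fun t _ => Real.sqrt_nonneg _
  have hrpos : 0 < Real.sqrt (gB h a v v) := lt_of_le_of_lt hlen0 hcon
  have := energy_le_of_path hR hOo hOV haO hfa hnn hd hrpos (hcl _ hrpos.le hsv) hγd hγV hγ0 hcon
  have h2 := this.2
  rw [hγ1, hfv v hv] at h2
  have h3 : 2 * (gB h a v v / 2) = gB h a v v := by ring
  rw [h3] at h2
  linarith

/-- points near `(x, x)` are joined by short geodesics -/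
theorem exists_vec {h : MetricField n} {V : Set 𝔼} (hR : IsRiemannianOn h V) {x : 𝔼}
    (L : LocGeo V (gB h) (Gam h) x) {r : ℝ} (hr : 0 < r) :
    ∀ᶠ q in 𝓝 ((x, x) : 𝔼 × 𝔼), q.1 ∈ L.W ∧
      ∃ v, gB h q.1 v v < L.ρ ^ 2 ∧ gB h q.1 v v < r ^ 2 ∧ L.Ex (q.1, v) = q.2 := by
  have hLC := isLC_of_isRiemannianOn hR
  have hρ := L.ρ_pos
  set m := min L.ρ r with hm
  have hm0 : 0 < m := lt_min hρ hr
  -- open set of short vectors
  set O : Set (𝔼 × 𝔼) := {z | z.1 ∈ L.W ∧ gB h z.1 z.2 z.2 < m ^ 2} with hO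
  have hcont : ContinuousOn (fun z : 𝔼 × 𝔼 => gB h z.1 z.2 z.2) (L.W ×ˢ univ) := by
    have h1 : ContinuousOn (fun z : 𝔼 × 𝔼 => gB h z.1) (L.W ×ˢ univ) :=
      (contDiffOn_gB hR).continuousOn.comp continuous_fst.continuousOn
        (fun z hz => L.W_sub hz.1)
    exact (h1.clm_apply continuous_snd.continuousOn).clm_apply continuous_snd.continuousOn
  have hOo : IsOpen O := by
    have h1 := hcont.isOpen_inter_preimage (L.isOpen_W.prod isOpen_univ) (isOpen_Iio (a := m ^ 2))
    have h2 : O = L.W ×ˢ univ ∩ (fun z : 𝔼 × 𝔼 => gB h z.1 z.2 z.2) ⁻¹' Iio (m ^ 2) := by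
      ext z; simp [hO]
    rw [h2]; exact h1
  have hmρ : m ^ 2 ≤ L.ρ ^ 2 := by
    have : m ≤ L.ρ := min_le_left _ _
    gcongr
  have hmr : m ^ 2 ≤ r ^ 2 := by
    have : m ≤ r := min_le_right _ _
    gcongr
  have himg := L.isOpen_image O hOo (fun z hz => ⟨hz.1, lt_of_lt_of_le hz.2 hmρ⟩)
  have hmem : ((x, x) : 𝔼 × 𝔼) ∈ (fun z : 𝔼 × 𝔼 => (z.1, L.Ex z)) '' O := by
    refine ⟨(x, 0), ⟨L.mem_W, ?_⟩, ?_⟩
    · simp only [map_zero, zero_apply]; positivity
    · simp only [L.Ex_zero x L.mem_W]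
  filter_upwards [himg.mem_nhds hmem] with q hq
  obtain ⟨⟨a, v⟩, ⟨h1, h2⟩, rfl⟩ := hq
  exact ⟨h1, v, lt_of_lt_of_le h2 hmρ, lt_of_lt_of_le h2 hmr, rfl⟩

/-- near `(x,x)`: `riemDist = √(2 h)` -/
theorem riemDist_eq_energy {h : MetricField n} {V : Set 𝔼} (hR : IsRiemannianOn h V) {x : 𝔼}
    (L : LocGeo V (gB h) (Gam h) x) :
    ∀ᶠ q in 𝓝 ((x, x) : 𝔼 × 𝔼), riemDist h V q.1 q.2 = Real.sqrt (2 * L.h q) ∧ 0 ≤ L.h q := by
  have hLC := isLC_of_isRiemannianOn hR
  filter_upwards [exists_vec hR L one_pos] with q hq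
  obtain ⟨hW, v, hv, -, hEx⟩ := hq
  have h1 := riemDist_eq hR L hW hv
  have h2 := L.h_eq q.1 hW v hv
  rw [hEx] at h1 h2
  have h3 := hLC.nonneg (L.W_sub hW) v
  constructor
  · rw [h1, h2]; congr 1; ring
  · show 0 ≤ L.h (q.1, q.2)
    rw [h2]; positivity

end Crest.Agent.R249.Hin3_615
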