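import Crest.Agent.R249.Hin2_615
import Crest.Agent.R249.Hin3_615
import Crest.Agent.R244.CFLift

/-!
# R249 (S0386), leaf T4: curvature `≥ 0` of the smooth limit

`secNumer_nonneg_of_mid`: if `X` is a metric space satisfying the midpoint inequality and
`Φ : ℝⁿ → X` preserves `riemDist h V` near `x ∈ V` (`h` smooth Riemannian on the open set `V`), then
`secNumer h x u w ≥ 0` for all `u, w`.
-/

set_option autoImplicit false
set_option maxSynthPendingDepth 3
set_option linter.unusedSectionVars false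
set_option linter.unusedSimpArgs false
set_option linter.unusedVariables false

open Set Filter Topology MeasureTheory
open scoped ContDiff
open Crest.Agent.R244.CF
open Crest.Agent.R226.GeoLoc577 (LocGeo exists_locGeo)
open Crest.GeometryTopology.CoordMetric Crest.GeometryTopology.ChartCurvature

namespace Crest.Agent.R249.Hin5_615

open Crest.Agent.R249.Hin2_615 Crest.Agent.R249.Hin3_615

variable {n : ℕ}

local notation "𝔼" => EuclideanSpace ℝ (Fin n)

/-- the midpoint inequality (curvature `≥ 0`), a purely metric condition -/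
def MidIneq (X : Type*) [MetricSpace X] : Prop :=
  ∀ p x z m : X, dist x m = dist x z / 2 → dist m z = dist x z / 2 →
    (dist p x ^ 2 + dist p z ^ 2) / 2 - dist x z ^ 2 / 4 ≤ dist p m ^ 2

/-- **T4**. -/
theorem secNumer_nonneg_of_mid {h : MetricField n} {V : Set 𝔼} (hR : IsRiemannianOn h V)
    {X : Type*} [MetricSpace X] (hX : MidIneq X) {Φ : 𝔼 → X} {x : 𝔼} (hx : x ∈ V)
    (hloc : ∀ᶠ q in 𝓝 ((x, x) : 𝔼 × 𝔼), dist (Φ q.1) (Φ q.2) = riemDist h V q.1 q.2) (u w : 𝔼) :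
    0 ≤ secNumer h x u w := by
  have hLC := isLC_of_isRiemannianOn hR
  obtain ⟨L⟩ := exists_locGeo hLC hx
  have hρ := L.ρ_pos
  have hr' := L.r'_pos
  rw [secNumer_eq hR hx]
  refine curv_nonneg_of_midpoint L hLC ?_ u w
  -- neighbourhoods
  obtain ⟨δ, hδ, hB⟩ : ∃ δ > 0, ∀ a ∈ Metric.ball x δ, ∀ b ∈ Metric.ball x δ,
      dist (Φ a) (Φ b) = riemDist h V a b ∧
      (riemDist h V a b = Real.sqrt (2 * L.h (a, b)) ∧ 0 ≤ L.h (a, b)) := by
    have h1 := hloc.and (riemDist_eq_energy hR L)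
    obtain ⟨δ, hδ, hb⟩ := Metric.eventually_nhds_iff.1 h1
    refine ⟨δ, hδ, fun a ha b hb' => hb (y := (a, b)) ?_⟩
    rw [Prod.dist_eq]
    exact max_lt ha hb'
  have hsq : ∀ a ∈ Metric.ball x δ, ∀ b ∈ Metric.ball x δ,
      dist (Φ a) (Φ b) ^ 2 = 2 * L.h (a, b) := by
    intro a ha b hb
    obtain ⟨h1, h2, h3⟩ := hB a ha b hb
    rw [h1, h2, Real.sq_sqrt (by positivity)]
  filter_upwards [Metric.ball_mem_nhds x hδ, L.isOpen_W'.mem_nhds L.mem_W'] with y hy hyW' ξ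
  have hyW := L.W'_sub hyW'
  have hyV := L.W_sub hyW
  have hxB : x ∈ Metric.ball x δ := Metric.mem_ball_self hδ
  -- the two end points tend to `y`
  have hEx : Tendsto (fun t : ℝ => L.Ex (y, t • ξ)) (𝓝 0) (𝓝 y) := by
    have h1 : ContinuousAt L.Ex (y, (0 : 𝔼)) :=
      (L.Ex_smooth y hyW 0 (by simp only [map_zero, zero_apply]; positivity)).continuousAt
    have h2 : Tendsto (fun t : ℝ => ((y, t • ξ) : 𝔼 × 𝔼)) (𝓝 0) (𝓝 (y, (0 : 𝔼))) := by
      have : Continuous (fun t : ℝ => ((y, t • ξ) : 𝔼 × 𝔼)) := by fun_prop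
      simpa using this.tendsto 0
    have h3 := h1.tendsto.comp h2
    rw [L.Ex_zero y hyW] at h3
    exact h3
  have hExn : Tendsto (fun t : ℝ => L.Ex (y, -(t • ξ))) (𝓝 0) (𝓝 y) := by
    have h4 : Tendsto (fun t : ℝ => -t) (𝓝 0) (𝓝 0) := by
      have : Continuous (fun t : ℝ => -t) := continuous_neg
      simpa using this.tendsto 0
    have h5 := hEx.comp h4
    refine h5.congr fun t => ?_
    simp [neg_smul]
  have hsmall : ∀ᶠ t : ℝ in 𝓝 0, t ^ 2 * gB h y ξ ξ < L.r' ^ 2 ∧ 4 * (t ^ 2 * gB h y ξ ξ) < L.ρ ^ 2 := by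
    have hcont : Tendsto (fun t : ℝ => t ^ 2 * gB h y ξ ξ) (𝓝 0) (𝓝 0) := by
      have : Continuous (fun t : ℝ => t ^ 2 * gB h y ξ ξ) := by fun_prop
      simpa using this.tendsto 0
    filter_upwards [hcont.eventually (gt_mem_nhds (show (0 : ℝ) < L.r' ^ 2 by positivity)),
      hcont.eventually (gt_mem_nhds (show (0 : ℝ) < L.ρ ^ 2 / 4 by positivity))] with t h1 h2
    exact ⟨h1, by linarith⟩
  have hBy : Metric.ball x δ ∈ 𝓝 y := Metric.isOpen_ball.mem_nhds hy
  filter_upwards [hEx.eventually hBy, hExn.eventually hBy, hsmall] with t hz1 hz2 hs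
  set v : 𝔼 := t • ξ with hv
  have hgv : gB h y v v = t ^ 2 * gB h y ξ ξ := by
    rw [hv]; simp only [map_smul, smul_apply, smul_eq_mul]; ring
  have hgn : gB h y (-v) (-v) = gB h y v v := by simp
  have hv0 : 0 ≤ gB h y v v := hLC.nonneg hyV v
  have hvr : gB h y v v < L.r' ^ 2 := by rw [hgv]; exact hs.1
  have hr'ρ : L.r' ≤ L.ρ := by have := L.r'_le; linarith
  have hvρ : gB h y v v < L.ρ ^ 2 := by nlinarith
  have hnρ : gB h y (-v) (-v) < L.ρ ^ 2 := by rwa [hgn]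
  have hnr : gB h y (-v) (-v) < L.r' ^ 2 := by rwa [hgn]
  -- distances
  have d1 : dist (Φ y) (Φ (L.Ex (y, v))) = Real.sqrt (gB h y v v) := by
    rw [(hB y hy _ hz1).1, riemDist_eq hR L hyW hvρ]
  have d2 : dist (Φ y) (Φ (L.Ex (y, -v))) = Real.sqrt (gB h y v v) := by
    rw [(hB y hy _ hz2).1, riemDist_eq hR L hyW hnρ, hgn]
  have d3 : dist (Φ (L.Ex (y, -v))) (Φ (L.Ex (y, v))) = 2 * Real.sqrt (gB h y v v) := by
    have hW2 : L.Ex (y, -v) ∈ L.W := L.Ex_mem_W y hyW' (-v) hnr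
    have hseg := L.seg y hyW' v hvr (-1) 1 (by simp) (by simp)
    have hsp := L.speed y hyW v hvρ (-1) (by simp)
    have e1 : ((-1 : ℝ) • v) = -v := by simp
    have e2 : ((1 : ℝ) • v) = v := one_smul _ _
    rw [e1, e2] at hseg
    rw [e1] at hsp
    set X2 : 𝔼 := (1 - (-1) : ℝ) • L.vel (-1) (y, v) with hX2
    have hX2n : gB h (L.Ex (y, -v)) X2 X2 = 4 * gB h y v v := by
      rw [hX2]; simp only [map_smul, smul_apply, smul_eq_mul]
      rw [hsp]; ring
    have hX2ρ : gB h (L.Ex (y, -v)) X2 X2 < L.ρ ^ 2 := by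
      rw [hX2n, hgv]; exact hs.2
    have := riemDist_eq hR L hW2 hX2ρ
    rw [hseg, hX2n] at this
    rw [(hB _ hz2 _ hz1).1, this]
    have h4 : (4 : ℝ) * gB h y v v = 2 ^ 2 * gB h y v v := by ring
    rw [h4, Real.sqrt_mul (by positivity), Real.sqrt_sq (by norm_num)]
  have hmid := hX (Φ x) (Φ (L.Ex (y, -v))) (Φ (L.Ex (y, v))) (Φ y)
    (by rw [dist_comm, d2, d3]; ring) (by rw [d1, d3]; ring)
  rw [hsq x hxB _ hz2, hsq x hxB _ hz1, hsq x hxB y hy, d3, mul_pow, Real.sq_sqrt hv0, hgv] at hmid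
  linarith

end Crest.Agent.R249.Hin5_615
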