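import Crest.Agent.R249.Hin4_615
import Crest.Agent.R249.Hin5_615
import Crest.Agent.R249.Len2_47
import Crest.Agent.R249.Ul1_174

/-!
# R249 (S0386), leaf D4-HINGE: limits

* `alex0_ul` : the four point condition passes to ultralimits `UL q` (helper174).
* `MidIneq.of_alex0`.
* `secNumer_nonneg_of_chart` : a length space with the midpoint inequality has `secNumer h ≥ 0` in
  every smooth infinitesimally scaled chart (form of helper47's `dist_eq_riemDist`).
-/

set_option autoImplicit false

open Set Filter Topology Metric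
open scoped ContDiff
open Crest.GeometryTopology.CoordMetric Crest.GeometryTopology.ChartCurvature

noncomputable section

namespace Crest.Agent.R249.Hin6_615

open Crest.Agent.R249.Hin4_615 Crest.Agent.R249.Hin5_615
open Crest.Agent.R249.Ul174 Crest.Agent.R249.Len47

universe u

/-- the four point condition passes to ultralimits -/
theorem alex0_ul {M : ℕ → Type u} [∀ k, MetricSpace (M k)] {q : ∀ k, M k}
    (h : ∀ᶠ k in om, Alex0 (M k)) : Alex0 (UL q) := by
  intro p x z m t ht
  obtain ⟨p', hp, rfl⟩ := UL.exists_rep p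
  obtain ⟨x', hx, rfl⟩ := UL.exists_rep x
  obtain ⟨z', hz, rfl⟩ := UL.exists_rep z
  obtain ⟨m', hm, rfl⟩ := UL.exists_rep m
  have h1 := UL.tendsto_dist hp hx
  have h2 := UL.tendsto_dist hp hz
  have h3 := UL.tendsto_dist hp hm
  have h4 := UL.tendsto_dist hx hz
  have h5 := UL.tendsto_dist hm hx
  have h6 := UL.tendsto_dist hm hz
  have hQ : Tendsto (fun i => Q4 (x' i) (z' i) (m' i) t) om
      (𝓝 (Q4 (UL.mk x' hx) (UL.mk z' hz) (UL.mk m' hm) t)) := by
    unfold Q4
    exact (((h5.pow 2).const_mul _).add ((h6.pow 2).const_mul _)).sub ((h4.pow 2).const_mul _)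
  constructor
  · refine ge_of_tendsto hQ ?_
    filter_upwards [h] with i hi using (hi (p' i) (x' i) (z' i) (m' i) t ht).1
  · refine le_of_tendsto_of_tendsto ?_ ?_
      (h.mono fun i hi => (hi (p' i) (x' i) (z' i) (m' i) t ht).2)
    · exact (((h1.pow 2).const_mul _).add ((h2.pow 2).const_mul _)).sub ((h4.pow 2).const_mul _)
    · exact (h3.add (hQ.sqrt)).pow 2

theorem MidIneq.of_alex0 {X : Type*} [MetricSpace X] (h : Alex0 X) : MidIneq X :=
  fun _ _ _ _ h1 h2 => h.mid h1 h2

/-- midpoint inequality of ultralimits -/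
theorem midIneq_ul {M : ℕ → Type u} [∀ k, MetricSpace (M k)] {q : ∀ k, M k}
    (h : ∀ᶠ k in om, Alex0 (M k)) : MidIneq (UL q) := MidIneq.of_alex0 (alex0_ul h)

variable {n : ℕ} {X : Type*} [MetricSpace X]

local notation "𝔼" => EuclideanSpace ℝ (Fin n)

/-- **curvature `≥ 0` in smooth charts** (homeomorphism form): `e` an open partial homeomorphism and
`dist = riemDist h e.target` locally. -/
theorem secNumer_nonneg_of_local (hX : MidIneq X) {e : OpenPartialHomeomorph X 𝔼}
    {h : MetricField n} (hR : IsRiemannianOn h e.target)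
    (hloc : ∀ z ∈ e.source, ∃ ρ > 0, ∀ x ∈ ball z ρ, ∀ y ∈ ball z ρ,
      dist x y = riemDist h e.target (e x) (e y)) {a : 𝔼} (ha : a ∈ e.target) (v w : 𝔼) :
    0 ≤ secNumer h a v w := by
  have hz : e.symm a ∈ e.source := e.map_target ha
  obtain ⟨ρ, hρ, hd⟩ := hloc (e.symm a) hz
  refine secNumer_nonneg_of_mid hR hX (Φ := e.symm) ha ?_ v w
  have hc : ContinuousAt e.symm a := e.continuousAt_symm ha
  have h1 : ∀ᶠ b in 𝓝 a, e.symm b ∈ ball (e.symm a) ρ ∧ b ∈ e.target :=
    (hc.eventually (ball_mem_nhds _ hρ)).and (e.open_target.mem_nhds ha)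
  rw [nhds_prod_eq]
  filter_upwards [h1.prod_mk h1] with q hq
  have := hd _ hq.1.1 _ hq.2.1
  rw [e.right_inv hq.1.2, e.right_inv hq.2.2] at this
  exact this

/-- **curvature `≥ 0` in smooth charts** of a length space. -/
theorem secNumer_nonneg_of_chart (hX : MidIneq X) (hC : ChainLen X)
    {e : OpenPartialHomeomorph X 𝔼} {h : MetricField n} (hR : IsRiemannianOn h e.target)
    (hs : InfScale e h) {a : 𝔼} (ha : a ∈ e.target) (v w : 𝔼) : 0 ≤ secNumer h a v w := by
  refine secNumer_nonneg_of_local hX hR (fun z hz => ?_) ha v w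
  obtain ⟨ρ, hρ, -, hd⟩ := dist_eq_riemDist hC (ContMetric.of_riem hR) hs hz
  exact ⟨ρ, hρ, hd⟩

end Crest.Agent.R249.Hin6_615
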