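import Crest.Agent.R249.LimDef_41
import Crest.Agent.R249.Lim8_41
import Crest.Agent.R249.Hin6_615
import Crest.Agent.R249.Bad2_174

/-!
# R249, D3-LIM/FIN (helper832): `RThm` from the closed statements of helper41

* `SysStmt` : `HData, AvOut, ChOut, SpOut, MsOut, StOut ⟹ LOut` (leaves BD + L-A);
* `RegStmt` : regularity of the limit system (leaf REG + RIC), Euclidean;
* `WhStmt`  : harmonic functions in the limit (leaf WH);
* `rthm_of` : `RThm`.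
-/

set_option autoImplicit false
set_option maxSynthPendingDepth 3
noncomputable section
open Set Filter Topology Bundle MeasureTheory Metric
open scoped ContDiff Manifold ENNReal NNReal Matrix
open Crest.GeometryTopology.CoordMetric Crest.GeometryTopology.ChartCurvature
  Crest.GeometryTopology.RicciEnergy Crest.GeometryTopology.PointedLimit
open Crest.Agent.R247.Bo84
open Crest.Agent.R249.D1Def104 Crest.Agent.R249.Ul174 Crest.Agent.R249.Len47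
open Crest.Agent.R249.AsmD832 Crest.Agent.R249.LimDef41
open Crest.Agent.R249.LPt_191 (N1)

namespace Crest.Agent.R249.Fin832

local notation "𝔼" => EuclideanSpace ℝ (Fin 4)

/-- the limit system (BD + L-A) -/
def SysStmt : Prop := ∃ ε₁ δ₁ : ℝ, 0 < ε₁ ∧ 0 < δ₁ ∧
  ∀ (M : ℕ → Type) [∀ k, MetricSpace (M k)] [∀ k, CompleteSpace (M k)]
    [∀ k, ConnectedSpace (M k)] [∀ k, ChartedSpace (EuclideanSpace ℝ (Fin 4)) (M k)]
    [∀ k, IsManifold 𝓘(ℝ, EuclideanSpace ℝ (Fin 4)) ∞ (M k)]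
    [∀ k, RiemannianBundle (fun x : M k => TangentSpace 𝓘(ℝ, EuclideanSpace ℝ (Fin 4)) x)]
    [∀ k, IsContMDiffRiemannianBundle 𝓘(ℝ, EuclideanSpace ℝ (Fin 4)) ∞ (EuclideanSpace ℝ (Fin 4))
      (fun x : M k => TangentSpace 𝓘(ℝ, EuclideanSpace ℝ (Fin 4)) x)]
    [∀ k, IsRiemannianManifold 𝓘(ℝ, EuclideanSpace ℝ (Fin 4)) (M k)]
    [∀ k, MeasurableSpace (M k)] [∀ k, BorelSpace (M k)]
    (q : ∀ k, M k) (x : ∀ k, M k) (hx : Bd q x) (ρ α C C' ε δ lam : ℝ) (lamk : ℕ → ℝ)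
    (u : ∀ k, Fin 4 → M k → ℝ) (h : UL q → Matrix (Fin 4) (Fin 4) ℝ) (r₀ : ℝ)
    (U : UL q → EuclideanSpace ℝ (Fin 4))
    (e : OpenPartialHomeomorph (UL q) (EuclideanSpace ℝ (Fin 4))), δ ≤ δ₁ →
    HData x ρ α C ε δ lam lamk u → AvOut x hx ρ α C' ε₁ u h → ChOut x hx ρ u h r₀ U e →
    SpOut x u r₀ e → MsOut x u h r₀ e → StOut x u h r₀ e →
    ∃ (H : Fin 4 → Fin 4 → Fin 4 → 𝔼 → ℝ) (C'' : ℝ),
      (∀ x ∈ e.target, ∀ y ∈ e.target, ∀ a b,
        |h (e.symm x) a b - h (e.symm y) a b| ≤ C'' * dist x y ^ α) ∧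
      Lim41.LOut e.target (fun y => h (e.symm y)) H lam C'' α

/-- regularity of the limit system (REG + RIC), Euclidean -/
def RegStmt : Prop := ∀ (Ω : Set 𝔼) (h : 𝔼 → Matrix (Fin 4) (Fin 4) ℝ)
  (H : Fin 4 → Fin 4 → Fin 4 → 𝔼 → ℝ) (lam C α : ℝ), IsOpen Ω → 2 / 3 < α → α < 1 → 0 ≤ lam →
  (∀ y ∈ Ω, ∀ a b, h y a b = h y b a) → (∀ y ∈ Ω, N1 (h y - 1) ≤ 1 / 8) →
  (∀ x ∈ Ω, ∀ y ∈ Ω, ∀ a b, |h x a b - h y a b| ≤ C * dist x y ^ α) →
  Lim41.LOut Ω h H lam C α →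
  (∀ a b, ContDiffOn ℝ ∞ (fun y => h y a b) Ω) ∧
    ∀ x ∈ Ω, ∀ i j, ricci (fun y => (h y)⁻¹) x i j = lam * (h x)⁻¹ i j

/-- limits of harmonic functions are weakly harmonic -/
def WhStmt : Prop := ∃ ε₁ δ₁ : ℝ, 0 < ε₁ ∧ 0 < δ₁ ∧
  ∀ (M : ℕ → Type) [∀ k, MetricSpace (M k)] [∀ k, CompleteSpace (M k)]
    [∀ k, ConnectedSpace (M k)] [∀ k, ChartedSpace (EuclideanSpace ℝ (Fin 4)) (M k)]
    [∀ k, IsManifold 𝓘(ℝ, EuclideanSpace ℝ (Fin 4)) ∞ (M k)]
    [∀ k, RiemannianBundle (fun x : M k => TangentSpace 𝓘(ℝ, EuclideanSpace ℝ (Fin 4)) x)]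
    [∀ k, IsContMDiffRiemannianBundle 𝓘(ℝ, EuclideanSpace ℝ (Fin 4)) ∞ (EuclideanSpace ℝ (Fin 4))
      (fun x : M k => TangentSpace 𝓘(ℝ, EuclideanSpace ℝ (Fin 4)) x)]
    [∀ k, IsRiemannianManifold 𝓘(ℝ, EuclideanSpace ℝ (Fin 4)) (M k)]
    [∀ k, MeasurableSpace (M k)] [∀ k, BorelSpace (M k)]
    (q : ∀ k, M k) (x : ∀ k, M k) (hx : Bd q x) (ρ α C C' ε δ lam : ℝ) (lamk : ℕ → ℝ)
    (u : ∀ k, Fin 4 → M k → ℝ) (h : UL q → Matrix (Fin 4) (Fin 4) ℝ) (r₀ : ℝ)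
    (U : UL q → EuclideanSpace ℝ (Fin 4))
    (e : OpenPartialHomeomorph (UL q) (EuclideanSpace ℝ (Fin 4))), δ ≤ δ₁ →
    HData x ρ α C ε δ lam lamk u → AvOut x hx ρ α C' ε₁ u h → ChOut x hx ρ u h r₀ U e →
    SpOut x u r₀ e → MsOut x u h r₀ e → StOut x u h r₀ e →
    ∀ Ch : RChart 4 (UL q) lam, Ch.e = e → Ch.h = hInv h e →
      HarmChart 4 Ch.e ∧ CoordHarm Ch ∧ WH 4 Ch

/-! ### linear algebra -/

/-- a symmetric matrix near `1` is positive definite -/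
theorem posDef_of_near {n : ℕ} {A : Matrix (Fin n) (Fin n) ℝ} (hs : ∀ a b, A a b = A b a)
    (hn : N1 (A - 1) ≤ 1 / 8) : A.PosDef := by
  refine Matrix.PosDef.of_dotProduct_mulVec_pos ?_ fun v hv => ?_
  · ext a b
    simp [Matrix.conjTranspose_apply, hs a b]
  · simp only [star_trivial]
    have h1 : v ⬝ᵥ A *ᵥ v = v ⬝ᵥ v + v ⬝ᵥ (A - 1) *ᵥ v := by
      rw [Matrix.sub_mulVec, Matrix.one_mulVec, dotProduct_sub]
      ring
    have h2 : 0 < v ⬝ᵥ v := by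
      have h6 : 0 ≤ v ⬝ᵥ v := Finset.sum_nonneg fun i _ => mul_self_nonneg _
      exact lt_of_le_of_ne h6 fun h7 => hv (dotProduct_self_eq_zero.1 h7.symm)
    have h3 : |v ⬝ᵥ (A - 1) *ᵥ v| ≤ N1 (A - 1) * (v ⬝ᵥ v) := by
      have e1 : v ⬝ᵥ (A - 1) *ᵥ v = ∑ a, ∑ b, (A - 1) a b * (v a * v b) := by
        simp only [dotProduct, Matrix.mulVec, Finset.mul_sum]
        refine Finset.sum_congr rfl fun a _ => Finset.sum_congr rfl fun b _ => ?_
        ring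
      rw [e1]
      refine (Finset.abs_sum_le_sum_abs _ _).trans ?_
      unfold N1
      rw [Finset.sum_mul]
      refine Finset.sum_le_sum fun a _ => ?_
      refine (Finset.abs_sum_le_sum_abs _ _).trans ?_
      rw [Finset.sum_mul]
      refine Finset.sum_le_sum fun b _ => ?_
      rw [abs_mul]
      refine mul_le_mul_of_nonneg_left ?_ (abs_nonneg _)
      have ha : v a ^ 2 ≤ v ⬝ᵥ v := by
        simp only [dotProduct]
        rw [sq]
        exact Finset.single_le_sum (f := fun i => v i * v i) (fun i _ => mul_self_nonneg _)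
          (Finset.mem_univ a)
      have hb : v b ^ 2 ≤ v ⬝ᵥ v := by
        simp only [dotProduct]
        rw [sq]
        exact Finset.single_le_sum (f := fun i => v i * v i) (fun i _ => mul_self_nonneg _)
          (Finset.mem_univ b)
      rw [abs_mul]
      nlinarith [sq_nonneg (|v a| - |v b|), sq_abs (v a), sq_abs (v b)]
    rw [h1]
    have h4 := (abs_le.1 h3).1
    have h5 : N1 (A - 1) * (v ⬝ᵥ v) ≤ 1 / 8 * (v ⬝ᵥ v) := mul_le_mul_of_nonneg_right hn h2.le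
    linarith

/-- smoothness of the entries of the inverse -/
theorem contDiffOn_inv_of {n : ℕ} {Ω : Set (EuclideanSpace ℝ (Fin n))}
    {h : EuclideanSpace ℝ (Fin n) → Matrix (Fin n) (Fin n) ℝ}
    (hs : ∀ a b, ContDiffOn ℝ ∞ (fun y => h y a b) Ω) (hd : ∀ y ∈ Ω, (h y).det ≠ 0) (a b : Fin n) :
    ContDiffOn ℝ ∞ (fun y => (h y)⁻¹ a b) Ω := by
  have h1 : ContDiffOn ℝ ∞ (fun y => (h y).det) Ω := by
    simp only [Matrix.det_apply]
    refine ContDiffOn.sum fun σ _ => ?_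
    refine ContDiffOn.const_smul _ ?_
    exact contDiffOn_prod fun i _ => hs _ _
  have h2 : ContDiffOn ℝ ∞ (fun y => (h y).adjugate a b) Ω := by
    simp only [Matrix.adjugate_apply, Matrix.det_apply]
    refine ContDiffOn.sum fun σ _ => ?_
    refine ContDiffOn.const_smul _ ?_
    refine contDiffOn_prod fun i _ => ?_
    by_cases hi : σ i = b
    · rw [hi]
      simp only [Matrix.updateRow_self]
      exact contDiffOn_const
    · simp only [Matrix.updateRow_ne hi]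
      exact hs _ _
  have h3 : ∀ y ∈ Ω, (h y)⁻¹ a b = ((h y).det)⁻¹ * (h y).adjugate a b := by
    intro y hy
    rw [Matrix.inv_def, Matrix.smul_apply, Ring.inverse_eq_inv', smul_eq_mul]
  exact ((h1.inv hd).mul h2).congr h3

end Crest.Agent.R249.Fin832
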