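import Crest.Agent.R249.FrmC_285
import Crest.Agent.R247.Bo8_84

/-!
# R249, leaf FRM (helper285), part D: invariant functions of the curvature on oriented manifolds

`mInv Φ : M → ℝ`, `mInv_chart`, `mInv_germ`, `contMDiff_mInv`.
-/

set_option autoImplicit false
set_option maxSynthPendingDepth 3

open Filter Topology Set Bundle
open scoped ContDiff Manifold
open Crest.GeometryTopology.CoordMetric Crest.GeometryTopology.ChartCurvature
open Crest.Agent.R202.Tens Crest.Agent.R247.Bo84 Crest.Agent.R249.FrmB_285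
open Crest.Agent.R249.FrmC_285 Crest.Agent.R249.OriD_285

noncomputable section

namespace Crest.Agent.R249.FrmD_285

variable {n : ℕ}

local notation "𝔼" => EuclideanSpace ℝ (Fin n)
local notation "𝓘E" => 𝓘(ℝ, EuclideanSpace ℝ (Fin n))

section Local

variable {g : MetricField n} {U : Set (EuclideanSpace ℝ (Fin n))} {x : EuclideanSpace ℝ (Fin n)}

theorem contDiffAt_Rc (hg : IsRiemannianOn g U) (hx : x ∈ U) {e : Fin n → 𝔼 → 𝔼}
    (he : ∀ i, ContDiffAt ℝ ∞ (e i) x) (i j k l : Fin n) :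
    ContDiffAt ℝ ∞ (fun y => Rc g y (fun i => e i y) i j k l) x := by
  have hG : ContDiffAt ℝ ∞ (Gam g) x := contDiffAt_Gam hg hx
  have hG' : ContDiffAt ℝ ∞ (fderiv ℝ (Gam g)) x := hG.fderiv_right (m := ∞) (by simp)
  have h1 : ∀ a b c : Fin n, ContDiffAt ℝ ∞
      (fun y => fderiv ℝ (Gam g) y (e a y) (e b y) (e c y)) x := fun a b c =>
    ((hG'.clm_apply (he a)).clm_apply (he b)).clm_apply (he c)
  have h2 : ∀ a b c : Fin n, ContDiffAt ℝ ∞
      (fun y => Gam g y (e a y) (Gam g y (e b y) (e c y))) x := fun a b c =>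
    (hG.clm_apply (he a)).clm_apply ((hG.clm_apply (he b)).clm_apply (he c))
  have h3 : ContDiffAt ℝ ∞ (fun y => curv (Gam g) y (e i y) (e j y) (e k y)) x := by
    unfold curv
    exact (((h1 i j k).sub (h1 j i k)).add (h2 i j k)).sub (h2 j i k)
  exact contDiffAt_bil hg hx le_rfl h3 (he l)

end Local

variable {M : Type*} [TopologicalSpace M] [ChartedSpace (EuclideanSpace ℝ (Fin n)) M]
  [IsManifold 𝓘(ℝ, EuclideanSpace ℝ (Fin n)) ∞ M]
  [RiemannianBundle (fun x : M => TangentSpace 𝓘(ℝ, EuclideanSpace ℝ (Fin n)) x)]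
  [IsContMDiffRiemannianBundle 𝓘(ℝ, EuclideanSpace ℝ (Fin n)) ∞ (EuclideanSpace ℝ (Fin n))
      (fun x : M => TangentSpace 𝓘(ℝ, EuclideanSpace ℝ (Fin n)) x)]

/-- a positive orthonormal basis at the centre of the preferred chart of `p`. -/
def bas (p : M) : Fin n → EuclideanSpace ℝ (Fin n) :=
  Classical.choose (exists_basis (isRiemannianOn_chartMetric (n := n) p) (centre_mem p))

theorem bas_orth (p : M) : Orth (chartMetric n M p (chartCentre n M p)) (bas p) :=
  (Classical.choose_spec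
    (exists_basis (isRiemannianOn_chartMetric (n := n) p) (centre_mem p))).1

theorem bas_det (p : M) : 0 < (mat (bas (n := n) p)).det :=
  (Classical.choose_spec
    (exists_basis (isRiemannianOn_chartMetric (n := n) p) (centre_mem p))).2

/-- the function on `M` given by an invariant function of the curvature components. -/
def mInv (Φ : (Fin n → Fin n → Fin n → Fin n → ℝ) → ℝ) (p : M) : ℝ :=
  Φ (Rc (chartMetric n M p) (chartCentre n M p) (bas p))

variable {Φ : (Fin n → Fin n → Fin n → Fin n → ℝ) → ℝ}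

/-- expression of `mInv Φ` in every chart and every positive orthonormal basis. -/
theorem mInv_chart (hO : Oriented n M) (hΦ : Inv Φ) {x₀ : M} {y : 𝔼}
    (hy : y ∈ (chartAt 𝔼 x₀).target) {e : Fin n → 𝔼} (he : Orth (chartMetric n M x₀ y) e)
    (hd : 0 < (mat e).det) :
    mInv Φ ((chartAt 𝔼 x₀).symm y) = Φ (Rc (chartMetric n M x₀) y e) := by
  set q := (chartAt 𝔼 x₀).symm y with hq
  have hyd : y ∈ tdom x₀ q := mem_tdom_self hy
  have hP := pull_trans (n := n) x₀ q
  have hpos := hO x₀ q y hyd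
  have hc : R247.Bo84.trans x₀ q y = chartCentre n M q := rfl
  have h1 := orth_pull hP hyd he
  have h2 := Rc_pull hP hyd e
  have h3 : 0 < (mat fun i => fderiv ℝ (R247.Bo84.trans x₀ q) y (e i)).det := by
    rw [det_map]; exact mul_pos hpos hd
  rw [hc] at h1 h2
  rw [← h2, mInv]
  exact hΦ.eq (isRiemannianOn_chartMetric (n := n) q) (centre_mem q) h1 (bas_orth q) h3 (bas_det q)

theorem mInv_chart' (hO : Oriented n M) (hΦ : Inv Φ) {x₀ p : M}
    (hp : p ∈ (chartAt 𝔼 x₀).source) {e : Fin n → 𝔼}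
    (he : Orth (chartMetric n M x₀ (chartAt 𝔼 x₀ p)) e) (hd : 0 < (mat e).det) :
    mInv Φ p = Φ (Rc (chartMetric n M x₀) (chartAt 𝔼 x₀ p) e) := by
  rw [← mInv_chart hO hΦ ((chartAt 𝔼 x₀).map_source hp) he hd, (chartAt 𝔼 x₀).left_inv hp]

/-- germ of `mInv Φ` in a chart. -/
theorem mInv_germ (hO : Oriented n M) (hΦ : Inv Φ) {x₀ : M} {y : 𝔼}
    (hy : y ∈ (chartAt 𝔼 x₀).target) {e : Fin n → 𝔼 → 𝔼}
    (he : ∀ᶠ z in 𝓝 y, Orth (chartMetric n M x₀ z) (fun i => e i z) ∧
      0 < (mat fun i => e i z).det) :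
    inCh n x₀ (mInv Φ) =ᶠ[𝓝 y] fun z => Φ (Rc (chartMetric n M x₀) z fun i => e i z) := by
  filter_upwards [he, (chartAt 𝔼 x₀).open_target.mem_nhds hy] with z hz hzt
  exact mInv_chart hO hΦ hzt hz.1 hz.2

theorem contMDiff_mInv (hO : Oriented n M) (hΦ : Inv Φ) (hs : ContDiff ℝ ∞ Φ) :
    ContMDiff 𝓘E 𝓘(ℝ, ℝ) ∞ (mInv Φ : M → ℝ) := by
  intro p
  have hg := isRiemannianOn_chartMetric (n := n) p
  have hc : chartCentre n M p ∈ (chartAt 𝔼 p).target := centre_mem p
  obtain ⟨e, he, hoe⟩ := FrmB_285.exists_frame hg hc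
  refine contMDiffAt_of_inCh le_rfl (mem_chart_source 𝔼 p) ?_
  refine ContDiffAt.congr_of_eventuallyEq ?_ (mInv_germ hO hΦ hc hoe)
  refine hs.contDiffAt.comp _ ?_
  refine contDiffAt_pi.2 fun i => contDiffAt_pi.2 fun j => contDiffAt_pi.2 fun k =>
    contDiffAt_pi.2 fun l => ?_
  exact contDiffAt_Rc hg hc he i j k l

end Crest.Agent.R249.FrmD_285
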