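import Crest.Agent.R249.OriR_285
import Crest.Agent.R249.FrmD_285
import Crest.Agent.R249.B2Iso_474
import Crest.Agent.R249.Asm1_49

/-!
# R249, leaf ORI-REV (helper285), part 2: transport of invariants and of `Mod`

`mInv_locIso` (orientation preserving), `mInv_rev` (orientation reversing), `parCurv_push`,
`frame_push`, `mod_push`.
-/

set_option autoImplicit false
set_option maxSynthPendingDepth 3
set_option linter.unusedSectionVars false

open Bundle Set Filter Topology Bornology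
open scoped ContDiff Manifold
open Crest.GeometryTopology.CoordMetric Crest.GeometryTopology.ChartCurvature
open Crest.Agent.R247.Bo84 Crest.Agent.R202.Tens
open Crest.Agent.R249.Loc1_285 Crest.Agent.R249.OriD_285 Crest.Agent.R249.OriR_285
open Crest.Agent.R249.FrmB_285 Crest.Agent.R249.FrmC_285 Crest.Agent.R249.FrmD_285

noncomputable section

namespace Crest.Agent.R249.OriS_285

variable {n : ℕ}

local notation "𝔼" => EuclideanSpace ℝ (Fin n)
local notation "𝓘E" => 𝓘(ℝ, EuclideanSpace ℝ (Fin n))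

section Inv

variable {N M : Type*}
  [TopologicalSpace N] [ChartedSpace (EuclideanSpace ℝ (Fin n)) N]
  [IsManifold 𝓘(ℝ, EuclideanSpace ℝ (Fin n)) ∞ N]
  [RiemannianBundle (fun x : N => TangentSpace 𝓘(ℝ, EuclideanSpace ℝ (Fin n)) x)]
  [IsContMDiffRiemannianBundle 𝓘(ℝ, EuclideanSpace ℝ (Fin n)) ∞
      (EuclideanSpace ℝ (Fin n)) (fun x : N => TangentSpace 𝓘(ℝ, EuclideanSpace ℝ (Fin n)) x)]
  [TopologicalSpace M] [ChartedSpace (EuclideanSpace ℝ (Fin n)) M]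
  [IsManifold 𝓘(ℝ, EuclideanSpace ℝ (Fin n)) ∞ M]
  [RiemannianBundle (fun x : M => TangentSpace 𝓘(ℝ, EuclideanSpace ℝ (Fin n)) x)]
  [IsContMDiffRiemannianBundle 𝓘(ℝ, EuclideanSpace ℝ (Fin n)) ∞
      (EuclideanSpace ℝ (Fin n)) (fun x : M => TangentSpace 𝓘(ℝ, EuclideanSpace ℝ (Fin n)) x)]
  {ϖ : N → M} {Φ : (Fin n → Fin n → Fin n → Fin n → ℝ) → ℝ}

/-- an orientation preserving local isometry preserves the invariants. -/
theorem mInv_locIso (h : LocIso n ϖ) (hΦ : Inv Φ) (x : N)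
    (hp : 0 < LinearMap.det (fderiv ℝ (lmap n ϖ x (ϖ x)) (chartCentre n N x) : 𝔼 →ₗ[ℝ] 𝔼)) :
    mInv Φ x = mInv Φ (ϖ x) := by
  have hP := h.pull x (ϖ x)
  have hc := h.centre_mem x
  have h1 := orth_pull hP hc (bas_orth (n := n) x)
  have h2 := Rc_pull hP hc (bas (n := n) x)
  rw [h.lmap_centre] at h1 h2
  rw [mInv, mInv, ← h2]
  refine hΦ.eq_of_mul_pos (isRiemannianOn_chartMetric (n := n) (ϖ x)) (centre_mem (ϖ x))
    (bas_orth (ϖ x)) h1 ?_
  rw [det_map]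
  exact mul_pos (bas_det (ϖ x)) (mul_pos hp (bas_det x))

/-- an orientation reversing local isometry. -/
theorem mInv_rev (h : LocIso n ϖ) (hΦ : Inv Φ) {D : Matrix (Fin n) (Fin n) ℝ}
    (hD : D * D.transpose = 1) (hdet : D.det < 0) (x : N)
    (hp : LinearMap.det (fderiv ℝ (lmap n ϖ x (ϖ x)) (chartCentre n N x) : 𝔼 →ₗ[ℝ] 𝔼) < 0) :
    mInv Φ x = mInv (fun R => Φ (act D R)) (ϖ x) := by
  have hP := h.pull x (ϖ x)
  have hc := h.centre_mem x
  have h1 := orth_pull hP hc (bas_orth (n := n) x)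
  have h2 := Rc_pull hP hc (bas (n := n) x)
  rw [h.lmap_centre] at h1 h2
  rw [mInv, mInv, ← h2, ← Rc_change]
  refine hΦ.eq_of_mul_pos (isRiemannianOn_chartMetric (n := n) (ϖ x)) (centre_mem (ϖ x))
    (orth_change (bas_orth (ϖ x)) hD) h1 ?_
  rw [det_map, det_change]
  exact mul_pos_of_neg_of_neg (mul_neg_of_neg_of_pos hdet (bas_det (ϖ x)))
    (mul_neg_of_neg_of_pos hp (bas_det x))

end Inv

section Mod

open Crest.Agent.R244.CF (LocIsoAt)
open Crest.Agent.R226.ChartMet842 (gm Gm isLC_gm gm_apply)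
open Crest.Agent.R249.B2Defs_474

variable {N M : Type*} [MetricSpace N] [ChartedSpace (EuclideanSpace ℝ (Fin n)) N]
  [IsManifold 𝓘(ℝ, EuclideanSpace ℝ (Fin n)) ∞ N]
  [RiemannianBundle (fun x : N => TangentSpace 𝓘(ℝ, EuclideanSpace ℝ (Fin n)) x)]
  [IsContMDiffRiemannianBundle 𝓘(ℝ, EuclideanSpace ℝ (Fin n)) ∞
      (EuclideanSpace ℝ (Fin n)) (fun x : N => TangentSpace 𝓘(ℝ, EuclideanSpace ℝ (Fin n)) x)]
  [MetricSpace M] [ChartedSpace (EuclideanSpace ℝ (Fin n)) M]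
  [IsManifold 𝓘(ℝ, EuclideanSpace ℝ (Fin n)) ∞ M]
  [RiemannianBundle (fun x : M => TangentSpace 𝓘(ℝ, EuclideanSpace ℝ (Fin n)) x)]
  [IsContMDiffRiemannianBundle 𝓘(ℝ, EuclideanSpace ℝ (Fin n)) ∞
      (EuclideanSpace ℝ (Fin n)) (fun x : M => TangentSpace 𝓘(ℝ, EuclideanSpace ℝ (Fin n)) x)]
  {ϖ : N → M}

theorem gm_eq_bil (p : M) (y u v : 𝔼) : gm p y u v = bil (chartMetric n M p y) u v := by
  rw [gm_apply, bil_chartMetric]
  rfl

/-- a local isometry is a local isometry in the sense of `R244.CF`. -/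
theorem locIsoAt (h : LocIso n ϖ) (x : N) :
    LocIsoAt (chartAt 𝔼 x).target (gm x) (chartAt 𝔼 (ϖ x)).target (gm (ϖ x))
      (lmap n ϖ x (ϖ x)) (chartAt 𝔼 x x) := by
  have hP := h.pull x (ϖ x)
  have hc : chartAt 𝔼 x x ∈ ldom n ϖ x (ϖ x) := h.centre_mem x
  refine ⟨mem_chart_target 𝔼 x, hP.maps _ hc, ?_, ?_, ?_⟩
  · filter_upwards [hP.isOpen.mem_nhds hc] with y hy using hP.contDiffAt hy
  · filter_upwards [hP.isOpen.mem_nhds hc] with y hy using hP.surj hy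
  · filter_upwards [hP.isOpen.mem_nhds hc] with y hy u v
    rw [gm_eq_bil, gm_eq_bil, hP.bil_eq hy]

theorem lmap_chartAt (h : LocIso n ϖ) (x : N) :
    lmap n ϖ x (ϖ x) (chartAt 𝔼 x x) = chartAt 𝔼 (ϖ x) (ϖ x) := h.lmap_centre x

/-- parallel curvature goes down. -/
theorem parCurv_push (h : LocIso n ϖ) (hs : Function.Surjective ϖ) (hN : ParCurv n N) :
    ParCurv n M := by
  intro p W X Y Z
  obtain ⟨x, rfl⟩ := hs p
  have hL := locIsoAt h x
  have hsur : Function.Surjective (fderiv ℝ (lmap n ϖ x (ϖ x)) (chartAt 𝔼 x x)) :=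
    hL.surj.self_of_nhds
  obtain ⟨W, rfl⟩ := hsur W
  obtain ⟨X, rfl⟩ := hsur X
  obtain ⟨Y, rfl⟩ := hsur Y
  obtain ⟨Z, rfl⟩ := hsur Z
  have h1 := B2Iso_474.nab_transform hL (isLC_gm x) (isLC_gm (ϖ x)) W X Y Z
  rw [lmap_chartAt h] at h1
  rw [← h1, hN x, map_zero]

/-- frames go down. -/
theorem frame_push (h : LocIso n ϖ) {R0 : 𝔼 → 𝔼 → 𝔼 → 𝔼} (x : N) (F : Frame n R0 x) :
    Nonempty (Frame n R0 (ϖ x)) := by
  have hL := locIsoAt h x
  refine ⟨⟨(fderiv ℝ (lmap n ϖ x (ϖ x)) (chartAt 𝔼 x x)).comp F.I, ?_, ?_⟩⟩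
  · intro u v
    rw [← F.iso u v]
    have h1 := hL.iso.self_of_nhds (F.I u) (F.I v)
    rw [lmap_chartAt h] at h1
    exact h1.symm
  · intro u v w
    have h1 := hL.curv (isLC_gm x) (isLC_gm (ϖ x)) (F.I u) (F.I v) (F.I w)
    rw [lmap_chartAt h, F.curv_eq] at h1
    exact h1.symm

end Mod

/-- `Mod` goes down along a surjective local isometry. -/
theorem mod_push {R0 : EuclideanSpace ℝ (Fin 4) → EuclideanSpace ℝ (Fin 4) →
      EuclideanSpace ℝ (Fin 4) → EuclideanSpace ℝ (Fin 4)} {N M : Type}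
    [MetricSpace N] [ChartedSpace (EuclideanSpace ℝ (Fin 4)) N]
    [IsManifold 𝓘(ℝ, EuclideanSpace ℝ (Fin 4)) ∞ N]
    [RiemannianBundle (fun x : N => TangentSpace 𝓘(ℝ, EuclideanSpace ℝ (Fin 4)) x)]
    [IsContMDiffRiemannianBundle 𝓘(ℝ, EuclideanSpace ℝ (Fin 4)) ∞
      (EuclideanSpace ℝ (Fin 4)) (fun x : N => TangentSpace 𝓘(ℝ, EuclideanSpace ℝ (Fin 4)) x)]
    [MetricSpace M] [ChartedSpace (EuclideanSpace ℝ (Fin 4)) M]
    [IsManifold 𝓘(ℝ, EuclideanSpace ℝ (Fin 4)) ∞ M]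
    [RiemannianBundle (fun x : M => TangentSpace 𝓘(ℝ, EuclideanSpace ℝ (Fin 4)) x)]
    [IsContMDiffRiemannianBundle 𝓘(ℝ, EuclideanSpace ℝ (Fin 4)) ∞
      (EuclideanSpace ℝ (Fin 4)) (fun x : M => TangentSpace 𝓘(ℝ, EuclideanSpace ℝ (Fin 4)) x)]
    {ϖ : N → M} (h : LocIso 4 ϖ) (hs : Function.Surjective ϖ) (hN : Asm49.Mod R0 N) :
    Asm49.Mod R0 M := by
  refine ⟨parCurv_push h hs hN.1, fun p => ?_⟩
  obtain ⟨x, rfl⟩ := hs p
  obtain ⟨F⟩ := hN.2 x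
  exact frame_push h x F

end Crest.Agent.R249.OriS_285
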