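import Crest.Agent.R249.Trw_285
import Crest.Agent.R249.OriS_285

/-!
# R249, T-RW (helper285), part 2: the constraint, assembly of `BC`

`cons_of` : `√|W⁺|² + √|W⁻|² ≤ 2 lam √(2/3)`; `bc_of` : `Asm49.BC` from T-III and T-I (only for
`|W⁻| = 0`; the case `|W⁺| = 0` is obtained by reversing the orientation).
-/

set_option autoImplicit false
set_option maxSynthPendingDepth 3

open Filter Topology Set Bundle
open scoped ContDiff Manifold
open Crest.GeometryTopology.CoordMetric Crest.GeometryTopology.ChartCurvature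
  Crest.GeometryTopology.PointedLimit
open Crest.Agent.R202.Tens Crest.Agent.R247.Bo84 Crest.Agent.R249.FrmB_285
open Crest.Agent.R249.FrmC_285 Crest.Agent.R249.FrmD_285 Crest.Agent.R249.OriD_285
open Crest.Agent.R249.Fr129 Crest.Agent.R249.Sg129 Crest.Agent.R249.Top49
open Crest.Agent.R249.Trw_285 Crest.Agent.R249.OriR_285 Crest.Agent.R249.OriS_285
open Crest.Agent.R249.Loc1_285 Crest.Agent.R249.Mk_285

noncomputable section

namespace Crest.Agent.R249.Trx_285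

local notation "𝔼" => EuclideanSpace ℝ (Fin 4)
local notation "𝓘E" => 𝓘(ℝ, EuclideanSpace ℝ (Fin 4))

section

variable {lam : ℝ} {Φ Ψ : T4 → ℝ}
variable {M : Type*} [TopologicalSpace M] [ChartedSpace (EuclideanSpace ℝ (Fin 4)) M]
  [IsManifold 𝓘(ℝ, EuclideanSpace ℝ (Fin 4)) ∞ M]
  [RiemannianBundle (fun x : M => TangentSpace 𝓘(ℝ, EuclideanSpace ℝ (Fin 4)) x)]
  [IsContMDiffRiemannianBundle 𝓘(ℝ, EuclideanSpace ℝ (Fin 4)) ∞ (EuclideanSpace ℝ (Fin 4))
      (fun x : M => TangentSpace 𝓘(ℝ, EuclideanSpace ℝ (Fin 4)) x)]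

/-- **the constraint.** -/
theorem cons_of (hO : Oriented 4 M) (hE : IsEinsteinWith 4 M lam)
    (hK : HasNonnegSectionalCurvature 4 M) (hΦ : QF lam false Φ) (hΨ : QF lam true Ψ) (p : M) :
    Real.sqrt (mInv Φ p) + Real.sqrt (mInv Ψ p) ≤ 2 * lam * Real.sqrt (2 / 3) := by
  obtain ⟨e, h, hpos⟩ := exists_onf (n := 4) p (centre_mem (n := 4) p)
  have hF : h.frameOf.Einstein (algebraMap ℝ (SG _) lam) := by
    refine h.einstein ?_
    filter_upwards [(chartAt 𝔼 p).open_target.mem_nhds (centre_mem (n := 4) p)] with y hy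
    exact fun i j => einstein_chart hE p hy i j
  obtain ⟨h1, -, -⟩ := dict hO hΦ p h hpos
  obtain ⟨h2, -, -⟩ := dict hO hΨ p h hpos
  have h3 := Frame.pinch_pt h.frameOf ev hF fun a b => h.nonneg (hK p) a b
  change ev (h.frameOf.qq (algebraMap ℝ (SG _) lam)) = _ at h1
  change ev (h.frameOf.flip.qq (algebraMap ℝ (SG _) lam)) = _ at h2
  rw [h1, h2] at h3
  refine h3.trans (le_of_eq ?_)
  have h4 : Real.sqrt (2 / 3) = Real.sqrt 6 / 3 := by
    rw [show (2:ℝ) / 3 = 6 / 3 ^ 2 by norm_num, Real.sqrt_div (by norm_num),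
      Real.sqrt_sq (by norm_num)]
  rw [h4]; ring

end

/-- the reflection `e_3 ↦ - e_3`. -/
def D4 : Matrix (Fin 4) (Fin 4) ℝ := Matrix.diagonal ![1, 1, 1, -1]

theorem D4_mul : D4 * D4.transpose = 1 := by
  rw [D4, Matrix.diagonal_transpose, Matrix.diagonal_mul_diagonal, ← Matrix.diagonal_one]
  congr 1
  funext i
  fin_cases i <;> simp

theorem D4_det : D4.det < 0 := by
  rw [D4, Matrix.det_diagonal, Fin.prod_univ_four]
  simp

theorem act_D4 (R : T4) (i j k l : Fin 4) :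
    act D4 R i j k l = (![1, 1, 1, -1] : Fin 4 → ℝ) i * (![1, 1, 1, -1] : Fin 4 → ℝ) j *
      (![1, 1, 1, -1] : Fin 4 → ℝ) k * (![1, 1, 1, -1] : Fin 4 → ℝ) l * R i j k l := by
  have h : ∀ (i : Fin 4) (f : Fin 4 → ℝ), ∑ a, D4 i a * f a = (![1, 1, 1, -1] : Fin 4 → ℝ) i * f i := by
    intro i f
    rw [Finset.sum_eq_single i]
    · rw [D4, Matrix.diagonal_apply_eq]
    · intro b _ hb
      rw [D4, Matrix.diagonal_apply_ne _ hb.symm, zero_mul]
    · simp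
  simp only [act]
  have e1 : ∀ a b c, ∑ d, D4 i a * D4 j b * D4 k c * D4 l d * R a b c d =
      D4 i a * (D4 j b * (D4 k c * ((![1, 1, 1, -1] : Fin 4 → ℝ) l * R a b c l))) := by
    intro a b c
    rw [← h l, Finset.mul_sum, Finset.mul_sum, Finset.mul_sum]
    exact Finset.sum_congr rfl fun d _ => by ring
  simp only [e1, ← Finset.mul_sum, h]
  ring

theorem act_D4_D4 (R : T4) : act D4 (act D4 R) = R := by
  funext i j k l
  rw [act_D4, act_D4]
  have h : ∀ i : Fin 4, (![1, 1, 1, -1] : Fin 4 → ℝ) i * (![1, 1, 1, -1] : Fin 4 → ℝ) i = 1 := by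
    intro i; fin_cases i <;> simp
  have hi := h i
  have hj := h j
  have hk := h k
  have hl := h l
  generalize (![1, 1, 1, -1] : Fin 4 → ℝ) i = a at *
  generalize (![1, 1, 1, -1] : Fin 4 → ℝ) j = b at *
  generalize (![1, 1, 1, -1] : Fin 4 → ℝ) k = c at *
  generalize (![1, 1, 1, -1] : Fin 4 → ℝ) l = d at *
  calc a * b * c * d * (a * b * c * d * R i j k l) =
      (a * a) * (b * b) * (c * c) * (d * d) * R i j k l := by ring
    _ = R i j k l := by rw [hi, hj, hk, hl]; ring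

section BC

local notation "E4" => EuclideanSpace ℝ (Fin 4)

variable (Q : ℝ → T4 → ℝ)

/-- `|W⁻|²` from `|W⁺|²`. -/
def Qm (c : ℝ) (R : T4) : ℝ := Q c (act D4 R)

/-- T-III. -/
def TIII (RP : ℝ → E4 → E4 → E4 → E4) : Prop :=
  ∀ (N : Type) [MetricSpace N] [ChartedSpace (EuclideanSpace ℝ (Fin 4)) N]
    [IsManifold 𝓘(ℝ, EuclideanSpace ℝ (Fin 4)) ∞ N] [CompactSpace N] [ConnectedSpace N]
    [RiemannianBundle (fun x : N => TangentSpace 𝓘(ℝ, EuclideanSpace ℝ (Fin 4)) x)]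
    [IsContMDiffRiemannianBundle 𝓘(ℝ, EuclideanSpace ℝ (Fin 4)) ∞ (EuclideanSpace ℝ (Fin 4))
      (fun x : N => TangentSpace 𝓘(ℝ, EuclideanSpace ℝ (Fin 4)) x)]
    [IsRiemannianManifold 𝓘(ℝ, EuclideanSpace ℝ (Fin 4)) N],
    Oriented 4 N → ∀ c : ℝ, 0 < c → IsEinsteinWith 4 N c → HasNonnegSectionalCurvature 4 N →
      (∀ x : N, mInv (Q c) x = 2 / 3 * c ^ 2 ∧ mInv (Qm Q c) x = 2 / 3 * c ^ 2) →
      Asm49.Mod (RP c) N

/-- T-I. -/
def TI (RS RC : ℝ → E4 → E4 → E4 → E4) : Prop :=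
  ∀ (N : Type) [MetricSpace N] [ChartedSpace (EuclideanSpace ℝ (Fin 4)) N]
    [IsManifold 𝓘(ℝ, EuclideanSpace ℝ (Fin 4)) ∞ N] [CompactSpace N] [ConnectedSpace N]
    [RiemannianBundle (fun x : N => TangentSpace 𝓘(ℝ, EuclideanSpace ℝ (Fin 4)) x)]
    [IsContMDiffRiemannianBundle 𝓘(ℝ, EuclideanSpace ℝ (Fin 4)) ∞ (EuclideanSpace ℝ (Fin 4))
      (fun x : N => TangentSpace 𝓘(ℝ, EuclideanSpace ℝ (Fin 4)) x)]
    [IsRiemannianManifold 𝓘(ℝ, EuclideanSpace ℝ (Fin 4)) N],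
    Oriented 4 N → ∀ c : ℝ, 0 < c → IsEinsteinWith 4 N c → HasNonnegSectionalCurvature 4 N →
      (∀ x : N, mInv (Qm Q c) x = 0) → Asm49.Mod (RS c) N ∨ Asm49.Mod (RC c) N

/-- **assembly of `BC`.** -/
theorem bc_of {Q : ℝ → T4 → ℝ} (hp : ∀ c, QF c false (Q c)) (hm : ∀ c, QF c true (Qm Q c))
    {RS RC RP : ℝ → E4 → E4 → E4 → E4} (h3 : TIII Q RP) (h1 : TI Q RS RC) :
    Asm49.BC RS RC RP := by
  intro N _ _ _ _ _ _ _ _ hO c hc hE hK
  refine ⟨mInv (Q c), mInv (Qm Q c), ?_⟩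
  refine
  { hp := stHyp_of hO hE (hp c)
    hm := stHyp_of hO hE (hm c)
    cons := cons_of hO hE hK (hp c) (hm c)
    caseIII := h3 N hO c hc hE hK
    caseI := h1 N hO c hc hE hK
    caseI' := ?_ }
  intro h0
  obtain ⟨G, ϖ, hcp, hOG, hs, hL, hrev⟩ := exists_reversed hO
  have hq : ∀ x : G.S, mInv (Qm Q c) x = 0 := by
    intro x
    rw [mInv_rev hL (hm c).inv D4_mul D4_det x (hrev x)]
    have h2 : (fun R => Qm Q c (act D4 R)) = Q c := by
      funext R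
      rw [Qm, act_D4_D4]
    rw [h2]
    exact h0 (ϖ x)
  rcases h1 G.S hOG c hc (hL.einstein hE) (hL.nonnegSec hK) hq with h | h
  · exact Or.inl (mod_push hL hs h)
  · exact Or.inr (mod_push hL hs h)

end BC

end Crest.Agent.R249.Trx_285
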