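import Crest.Agent.R249.Par6_493
import Crest.Agent.R249.Trx_285
import Crest.Agent.R249.B2Fin_474

/-!
Row 249, B1-PAR (helper493): T-III, and T-I from the vanishing of `∇W⁺` (805's end game),
in the interface of `Trx_285`.
-/

set_option autoImplicit false
set_option maxSynthPendingDepth 3
set_option linter.unusedSectionVars false

open Filter Topology Set Bundle
open scoped ContDiff Manifold
open Crest.GeometryTopology.CoordMetric Crest.GeometryTopology.ChartCurvature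
open Crest.Agent.R247.Bo84
open Crest.Agent.R249.FrmB_285
open Crest.Agent.R249.FrmC_285 Crest.Agent.R249.FrmD_285 Crest.Agent.R249.OriD_285
open Crest.Agent.R249.Fr129
open Crest.Agent.R249.Sg129 hiding gm
open Crest.Agent.R249.Trw_285 Crest.Agent.R249.Trx_285

noncomputable section

namespace Crest.Agent.R249.Par7_493

local notation "E4" => EuclideanSpace ℝ (Fin 4)

theorem RS_eq (c : ℝ) : Par6_493.RS c = B2Fin_474.RS c := rfl
theorem RC_eq (c : ℝ) : Par6_493.RC c = B2Fin_474.RC c := rfl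
theorem RP_eq (c : ℝ) : Par6_493.RP c = B2Fin_474.RP c := rfl

section

variable {M : Type*} [TopologicalSpace M] [ChartedSpace (EuclideanSpace ℝ (Fin 4)) M]
  [RiemannianBundle (fun x : M => TangentSpace 𝓘(ℝ, EuclideanSpace ℝ (Fin 4)) x)]

theorem mLap_of_const [IsManifold 𝓘(ℝ, EuclideanSpace ℝ (Fin 4)) ∞ M]
    [IsContMDiffRiemannianBundle 𝓘(ℝ, EuclideanSpace ℝ (Fin 4)) ∞ (EuclideanSpace ℝ (Fin 4))
      (fun x : M => TangentSpace 𝓘(ℝ, EuclideanSpace ℝ (Fin 4)) x)]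
    {f : M → ℝ} {a : ℝ} (h : ∀ x, f x = a) (p : M) : mLap 4 f p = 0 := by
  have : f = fun _ => a := funext h
  rw [this]
  exact Crest.Agent.R247.Bo84.mLap_const _

end

variable {Q : ℝ → T4 → ℝ}

/-- **T-III.** -/
theorem tIII (hp : ∀ c, QF c false (Q c)) (hm : ∀ c, QF c true (Qm Q c)) :
    TIII Q B2Fin_474.RP := by
  intro N _ _ _ _ _ _ _ _ hO c hc hE _ hq
  refine Par6_493.caseIII hc hE fun p => ?_
  obtain ⟨e, h, hpos⟩ := exists_onf (n := 4) p (centre_mem (n := 4) p)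
  refine ⟨e, h, ?_⟩
  obtain ⟨a1, a2, -⟩ := dict hO (hp c) p h hpos
  obtain ⟨b1, b2, -⟩ := dict hO (hm c) p h hpos
  rw [cond_lap0] at a2 b2
  rw [mLap_of_const (fun x => (hq x).1)] at a2
  rw [mLap_of_const (fun x => (hq x).2)] at b2
  rw [(hq p).1] at a1
  rw [(hq p).2] at b1
  exact ⟨a1, a2, b1, b2⟩

/-- the statement that `W⁻ = 0` implies `∇W⁺ = 0` (output of part C). -/
def NNStmt (Q : ℝ → T4 → ℝ) : Prop :=
  ∀ (N : Type) [MetricSpace N] [ChartedSpace (EuclideanSpace ℝ (Fin 4)) N]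
    [IsManifold 𝓘(ℝ, EuclideanSpace ℝ (Fin 4)) ∞ N] [CompactSpace N] [ConnectedSpace N]
    [RiemannianBundle (fun x : N => TangentSpace 𝓘(ℝ, EuclideanSpace ℝ (Fin 4)) x)]
    [IsContMDiffRiemannianBundle 𝓘(ℝ, EuclideanSpace ℝ (Fin 4)) ∞ (EuclideanSpace ℝ (Fin 4))
      (fun x : N => TangentSpace 𝓘(ℝ, EuclideanSpace ℝ (Fin 4)) x)]
    [IsRiemannianManifold 𝓘(ℝ, EuclideanSpace ℝ (Fin 4)) N],
    Oriented 4 N → ∀ c : ℝ, 0 < c → IsEinsteinWith 4 N c → HasNonnegSectionalCurvature 4 N →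
      (∀ x : N, mInv (Qm Q c) x = 0) →
      ∀ (p : N) (e : Fin 4 → E4 → E4)
        (h : ONF (chartMetric 4 N p) (chartAt E4 p).target (chartCentre 4 N p) e),
        (∀ᶠ z in 𝓝 (chartCentre 4 N p), Orth (chartMetric 4 N p z) (fun i => e i z) ∧
          0 < (mat fun i => e i z).det) →
        ∀ q a b, h.frameOf.NN q a b = 0

/-- **T-I from `∇W⁺ = 0`.** -/
theorem tI_of (hp : ∀ c, QF c false (Q c)) (hm : ∀ c, QF c true (Qm Q c)) (hN : NNStmt Q) :
    TI Q B2Fin_474.RS B2Fin_474.RC := by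
  intro N _ _ _ _ _ _ _ _ hO c hc hE hK hq
  refine Par6_493.caseI hc hE (f := mInv (Q c))
    (contMDiff_mInv hO (hp c).inv (hp c).smooth).continuous fun p => ?_
  obtain ⟨e, h, hpos⟩ := exists_onf (n := 4) p (centre_mem (n := 4) p)
  refine ⟨e, h, ?_⟩
  obtain ⟨a1, -, -⟩ := dict hO (hp c) p h hpos
  obtain ⟨b1, b2, -⟩ := dict hO (hm c) p h hpos
  rw [cond_lap0] at b2
  rw [mLap_of_const hq] at b2
  rw [hq p] at b1
  exact ⟨a1, hN N hO c hc hE hK hq p e h hpos, b1, b2⟩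

/-- **`BC` from part C.** -/
theorem bc_of_nn (hp : ∀ c, QF c false (Q c)) (hm : ∀ c, QF c true (Qm Q c)) (hN : NNStmt Q) :
    Asm49.BC B2Fin_474.RS B2Fin_474.RC B2Fin_474.RP :=
  bc_of hp hm (tIII hp hm) (tI_of hp hm hN)

end Crest.Agent.R249.Par7_493

end
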