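import Crest.Agent.R249.Trx_285
import Crest.Agent.R249.Ga_129

/-!
# R249, T-RW (helper285), part 3: the algebraic functions `|W⁺|²`, `|W⁻|²` of the curvature

`qqg lam R` over any commutative `ℝ`-algebra, `F.qq lam = qqg lam F.Rm`, naturality, and the
equations `QF.eq` for `qqg` (`qq_germ`) and `qqg ∘ act D4` (`flip_qq_germ`).
-/

set_option autoImplicit false
set_option maxSynthPendingDepth 3

open Filter Topology Set Bundle
open scoped ContDiff Manifold
open Crest.GeometryTopology.CoordMetric Crest.GeometryTopology.ChartCurvature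
open Crest.Agent.R202.Tens Crest.Agent.R247.Bo84 Crest.Agent.R249.FrmB_285
open Crest.Agent.R249.FrmC_285 Crest.Agent.R249.FrmD_285
open Crest.Agent.R249.Fr129 Crest.Agent.R249.Sg129
open Crest.Agent.R249.Trw_285 Crest.Agent.R249.Trx_285

noncomputable section

namespace Crest.Agent.R249.Qr_285

section Alg

variable {S : Type*} [CommRing S] [Algebra ℝ S]

/-- components of the curvature of `Λ⁺`. -/
def PPg (R : Fin 4 → Fin 4 → Fin 4 → Fin 4 → S) (k l : Fin 4) : Fin 3 → S :=
  ![R k l 0 1 + R k l 2 3, R k l 0 2 - R k l 1 3, R k l 0 3 + R k l 1 2]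

/-- the `Λ⁺`-block. -/
def AAg (R : Fin 4 → Fin 4 → Fin 4 → Fin 4 → S) (c d : Fin 3) : S :=
  - Frame.half * (![PPg R 0 1 c + PPg R 2 3 c, PPg R 0 2 c - PPg R 1 3 c,
    PPg R 0 3 c + PPg R 1 2 c] d)

/-- the self-dual Weyl tensor. -/
def WWg (lam : S) (R : Fin 4 → Fin 4 → Fin 4 → Fin 4 → S) (c d : Fin 3) : S :=
  AAg R c d - if c = d then Frame.third * lam else 0

/-- `|W⁺|²`. -/
def qqg (lam : S) (R : Fin 4 → Fin 4 → Fin 4 → Fin 4 → S) : S :=
  ∑ c, ∑ d, WWg lam R c d * WWg lam R c d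

theorem qq_eq (F : Frame 4 S) (lam : S) : F.qq lam = qqg lam F.Rm := rfl

variable {S' : Type*} [CommRing S'] [Algebra ℝ S']

theorem map_PPg (φ : S →ₐ[ℝ] S') (R : Fin 4 → Fin 4 → Fin 4 → Fin 4 → S) (k l : Fin 4)
    (c : Fin 3) : φ (PPg R k l c) = PPg (fun i j k l => φ (R i j k l)) k l c := by
  fin_cases c <;> simp [PPg]

theorem map_half (φ : S →ₐ[ℝ] S') : φ Frame.half = Frame.half := by
  rw [Frame.half, Frame.half, AlgHom.commutes]

theorem map_third (φ : S →ₐ[ℝ] S') : φ Frame.third = Frame.third := by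
  rw [Frame.third, Frame.third, AlgHom.commutes]

theorem map_AAg (φ : S →ₐ[ℝ] S') (R : Fin 4 → Fin 4 → Fin 4 → Fin 4 → S) (c d : Fin 3) :
    φ (AAg R c d) = AAg (fun i j k l => φ (R i j k l)) c d := by
  rw [AAg, AAg, map_mul, map_neg, map_half]
  fin_cases d <;> simp [map_PPg]

theorem map_WWg (φ : S →ₐ[ℝ] S') (lam : S) (R : Fin 4 → Fin 4 → Fin 4 → Fin 4 → S)
    (c d : Fin 3) : φ (WWg lam R c d) = WWg (φ lam) (fun i j k l => φ (R i j k l)) c d := by
  rw [WWg, WWg, map_sub, map_AAg]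
  split_ifs
  · rw [map_mul, map_third]
  · rw [map_zero]

theorem map_qqg (φ : S →ₐ[ℝ] S') (lam : S) (R : Fin 4 → Fin 4 → Fin 4 → Fin 4 → S) :
    φ (qqg lam R) = qqg (φ lam) fun i j k l => φ (R i j k l) := by
  simp only [qqg, map_sum, map_mul, map_WWg]

end Alg

section Germ

variable {x : EuclideanSpace ℝ (Fin 4)}

/-- `qqg` of germs. -/
theorem qqg_germ (lam : ℝ) (R : EuclideanSpace ℝ (Fin 4) → T4)
    (hR : ∀ i j k l, ContDiffAt ℝ ∞ (fun y => R y i j k l) x)
    (hs : ContDiffAt ℝ ∞ (fun y => qqg lam (R y)) x) :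
    qqg (algebraMap ℝ (SG x) lam) (fun i j k l => germ (fun y => R y i j k l) (hR i j k l)) =
      germ (fun y => qqg lam (R y)) hs := by
  let R' : Fin 4 → Fin 4 → Fin 4 → Fin 4 → CF x := fun i j k l =>
    ⟨fun y => R y i j k l, hR i j k l⟩
  have h1 : (fun i j k l => germ (fun y => R y i j k l) (hR i j k l)) =
      fun i j k l => gm (R' i j k l) := rfl
  rw [h1, ← AlgHom.commutes (gm (x := x)) lam, ← map_qqg]
  change gm (qqg (algebraMap ℝ (CF x) lam) R') = gm ⟨fun y => qqg lam (R y), hs⟩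
  refine congrArg gm (Subtype.ext (funext fun y => ?_))
  let evy : CF x →ₐ[ℝ] ℝ :=
    (Pi.evalAlgHom ℝ (fun _ : EuclideanSpace ℝ (Fin 4) => ℝ) y).comp (CF x).val
  have h2 := map_qqg evy (algebraMap ℝ (CF x) lam) R'
  rw [AlgHom.commutes] at h2
  exact h2

theorem contDiff_qqg (lam : ℝ) : ContDiff ℝ ∞ (fun R : T4 => qqg lam R) := by
  have h : ∀ i j k l : Fin 4, ContDiff ℝ ∞ (fun R : T4 => R i j k l) := fun i j k l => by
    fun_prop
  have hP : ∀ (k l : Fin 4) (c : Fin 3), ContDiff ℝ ∞ (fun R : T4 => PPg R k l c) := by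
    intro k l c
    fin_cases c
    · exact (h k l 0 1).add (h k l 2 3)
    · exact (h k l 0 2).sub (h k l 1 3)
    · exact (h k l 0 3).add (h k l 1 2)
  have hA : ∀ c d : Fin 3, ContDiff ℝ ∞ (fun R : T4 => AAg R c d) := by
    intro c d
    refine contDiff_const.mul ?_
    fin_cases d
    · exact (hP 0 1 c).add (hP 2 3 c)
    · exact (hP 0 2 c).sub (hP 1 3 c)
    · exact (hP 0 3 c).add (hP 1 2 c)
  have hW : ∀ c d : Fin 3, ContDiff ℝ ∞ (fun R : T4 => WWg lam R c d) := fun c d =>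
    (hA c d).sub contDiff_const
  exact ContDiff.sum fun c _ => ContDiff.sum fun d _ => (hW c d).mul (hW c d)

theorem contDiff_act (O : Matrix (Fin 4) (Fin 4) ℝ) : ContDiff ℝ ∞ (act O : T4 → T4) := by
  refine contDiff_pi.2 fun i => contDiff_pi.2 fun j => contDiff_pi.2 fun k =>
    contDiff_pi.2 fun l => ?_
  unfold act
  fun_prop

variable {g : MetricField 4} {U : Set (EuclideanSpace ℝ (Fin 4))}
  {e : Fin 4 → EuclideanSpace ℝ (Fin 4) → EuclideanSpace ℝ (Fin 4)}

theorem qq_germ (lam : ℝ) (h : ONF g U x e)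
    (hs : ContDiffAt ℝ ∞ (fun y => qqg lam (Rc g y fun i => e i y)) x) :
    h.frameOf.qq (algebraMap ℝ (SG x) lam) = germ (fun y => qqg lam (Rc g y fun i => e i y)) hs := by
  have hR : ∀ i j k l, ContDiffAt ℝ ∞ (fun y => Rc g y (fun i => e i y) i j k l) x :=
    fun i j k l => contDiffAt_Rc h.riem h.mem h.smooth i j k l
  have h0 : h.frameOf.Rm = fun i j k l => germ (fun y => Rc g y (fun i => e i y) i j k l)
      (hR i j k l) := by
    funext i j k l
    rw [h.Rm_germ]
    refine germ_eq (Eventually.of_forall fun y => ?_)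
    simp only [Rc]
  rw [qq_eq, h0]
  exact qqg_germ lam (fun y => Rc g y fun i => e i y) hR hs

theorem flip_qq_germ (lam : ℝ) (h : ONF g U x e)
    (hs : ContDiffAt ℝ ∞ (fun y => qqg lam (act D4 (Rc g y fun i => e i y))) x) :
    h.frameOf.flip.qq (algebraMap ℝ (SG x) lam) =
      germ (fun y => qqg lam (act D4 (Rc g y fun i => e i y))) hs := by
  have hR : ∀ i j k l, ContDiffAt ℝ ∞ (fun y => act D4 (Rc g y fun i => e i y) i j k l) x := by
    intro i j k l
    simp only [act_D4]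
    exact contDiffAt_const.mul (contDiffAt_Rc h.riem h.mem h.smooth i j k l)
  have h0 : h.frameOf.flip.Rm = fun i j k l =>
      germ (fun y => act D4 (Rc g y fun i => e i y) i j k l) (hR i j k l) := by
    funext i j k l
    rw [Frame.Rm_flip, h.Rm_germ]
    have e0 : ∀ i : Fin 4, ((Frame.e3 i : ℤ) : SG x) =
        algebraMap ℝ (SG x) ((![1, 1, 1, -1] : Fin 4 → ℝ) i) := by
      intro i
      fin_cases i <;> simp [Frame.e3]
    rw [e0, e0, e0, e0, algebraMap_eq, algebraMap_eq, algebraMap_eq, algebraMap_eq, germ_mul,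
      germ_mul, germ_mul, germ_mul]
    refine germ_eq (Eventually.of_forall fun y => ?_)
    simp only [act_D4, Rc]
  rw [qq_eq, h0]
  exact qqg_germ lam (fun y => act D4 (Rc g y fun i => e i y)) hR hs

/-- `QF` for `|W⁺|²` from the gauge law. -/
theorem qf_false {lam : ℝ} (hI : Inv fun R : T4 => qqg lam R) :
    QF lam false (fun R => qqg lam R) where
  inv := hI
  smooth := contDiff_qqg lam
  eq h hs := qq_germ lam h hs

/-- `QF` for `|W⁻|²` from the gauge law. -/
theorem qf_true {lam : ℝ} (hI : Inv fun R : T4 => qqg lam (act D4 R)) :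
    QF lam true (fun R => qqg lam (act D4 R)) where
  inv := hI
  smooth := (contDiff_qqg lam).comp (contDiff_act D4)
  eq h hs := flip_qq_germ lam h hs

end Germ

section Gauge

open Crest.Agent.R249.Ga129

theorem qqg_eq_qqa (lam : ℝ) (R : T4) : qqg lam R = qqa lam R := rfl

theorem act_eq_cj (O : Matrix (Fin 4) (Fin 4) ℝ) (R : T4) : act O R = cj O.transpose R := by
  funext i j k l
  simp only [act, cj, Matrix.transpose_apply]
  refine Finset.sum_congr rfl fun a _ => Finset.sum_congr rfl fun b _ =>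
    Finset.sum_congr rfl fun c _ => Finset.sum_congr rfl fun d _ => ?_
  ring

theorem act_D4_eq_flp (R : T4) : act D4 R = flp R := by
  funext i j k l
  rw [act_D4, flp]
  have e0 : ∀ i : Fin 4, ((Frame.e3 i : ℤ) : ℝ) = (![1, 1, 1, -1] : Fin 4 → ℝ) i := by
    intro i
    fin_cases i <;> simp [Frame.e3]
  rw [e0, e0, e0, e0]

theorem anti_of_algCurv {R : T4} (h : AlgCurv R) : Anti R := ⟨h.anti12, h.anti34⟩

theorem inv_qqg (lam : ℝ) : Inv fun R : T4 => qqg lam R := by
  intro R hR O hO hd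
  change qqa lam (act O R) = qqa lam R
  rw [act_eq_cj]
  refine qqa_cj lam (anti_of_algCurv hR) ?_ ?_
  · rw [Matrix.transpose_transpose]; exact hO
  · rw [Matrix.det_transpose]; exact hd

theorem inv_qqg_flp (lam : ℝ) : Inv fun R : T4 => qqg lam (act D4 R) := by
  intro R hR O hO hd
  change qqa lam (act D4 (act O R)) = qqa lam (act D4 R)
  rw [act_D4_eq_flp, act_D4_eq_flp, act_eq_cj]
  refine qqa_flp_cj lam (anti_of_algCurv hR) ?_ ?_
  · rw [Matrix.transpose_transpose]; exact hO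
  · rw [Matrix.det_transpose]; exact hd

/-- `|W⁺|²` as a function of the curvature components. -/
def Qp (c : ℝ) (R : T4) : ℝ := qqg c R

theorem qfp (c : ℝ) : QF c false (Qp c) := qf_false (inv_qqg c)

theorem qfm (c : ℝ) : QF c true (Qm Qp c) := qf_true (inv_qqg_flp c)

/-- **assembly of `BC` from T-III and T-I.** -/
theorem bc_of' {RS RC RP : ℝ → EuclideanSpace ℝ (Fin 4) → EuclideanSpace ℝ (Fin 4) →
      EuclideanSpace ℝ (Fin 4) → EuclideanSpace ℝ (Fin 4)} (h3 : TIII Qp RP) (h1 : TI Qp RS RC) :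
    Asm49.BC RS RC RP := bc_of qfp qfm h3 h1

end Gauge

end Crest.Agent.R249.Qr_285
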