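import Crest.Agent.R249.Kg3_285
import Crest.Agent.R249.Qr_285
import Crest.Agent.R249.Par7_493

/-!
# R249, C3-GLOB (helper285), part 4: from Killing fields to `∇W⁺ = 0`

`nn_of_killing` : an oriented connected Einstein 4-manifold (`c > 0`) with a vector space of Killing
fields of dimension at least five has `NN = 0` in every positive orthonormal frame germ.
-/

set_option autoImplicit false
set_option maxSynthPendingDepth 3
set_option linter.unusedSectionVars false

open Filter Topology Set Bundle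
open scoped ContDiff Manifold
open Crest.GeometryTopology.CoordMetric Crest.GeometryTopology.ChartCurvature
  Crest.GeometryTopology.PointedLimit
open Crest.Agent.R202.Tens Crest.Agent.R247.Bo84 Crest.Agent.R249.FrmB_285
open Crest.Agent.R249.FrmC_285 Crest.Agent.R249.FrmD_285 Crest.Agent.R249.OriD_285
open Crest.Agent.R249.Fr129 Crest.Agent.R249.Sg129 Crest.Agent.R249.Vf281
  Crest.Agent.R249.Kil1_805 Crest.Agent.R249.Kg1_285 Crest.Agent.R249.Kg2_285
  Crest.Agent.R249.Kg3_285 Crest.Agent.R249.Trw_285 Crest.Agent.R249.Trx_285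
  Crest.Agent.R249.Qr_285
open Crest.Agent.R249.Ga129 (AAa cj rho)

noncomputable section

namespace Crest.Agent.R249.Kg4_285

/-! ### the invariants `tr A²`, `tr A³` -/

section Alg

variable {S : Type*} [CommRing S] [Algebra ℝ S]

/-- `tr A²`. -/
def f2a (R : Fin 4 → Fin 4 → Fin 4 → Fin 4 → S) : S :=
  (Matrix.of (AAa R) * Matrix.of (AAa R)).trace

/-- `tr A³`. -/
def f3a (R : Fin 4 → Fin 4 → Fin 4 → Fin 4 → S) : S :=
  (Matrix.of (AAa R) * Matrix.of (AAa R) * Matrix.of (AAa R)).trace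

theorem f2_eq (F : Frame 4 S) : f2 F = f2a F.Rm := rfl

theorem f3_eq (F : Frame 4 S) : f3 F = f3a F.Rm := rfl

variable {S' : Type*} [CommRing S'] [Algebra ℝ S']

theorem map_ofA (φ : S →ₐ[ℝ] S') (R : Fin 4 → Fin 4 → Fin 4 → Fin 4 → S) :
    (Matrix.of (AAa R)).map φ = Matrix.of (AAa fun i j k l => φ (R i j k l)) := by
  ext c d
  exact Ga129.map_AAa φ R c d

theorem map_trace (φ : S →ₐ[ℝ] S') (X : Matrix (Fin 3) (Fin 3) S) :
    φ X.trace = (X.map φ).trace := by
  simp [Matrix.trace, map_sum]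

theorem map_f2a (φ : S →ₐ[ℝ] S') (R : Fin 4 → Fin 4 → Fin 4 → Fin 4 → S) :
    φ (f2a R) = f2a fun i j k l => φ (R i j k l) := by
  rw [f2a, f2a, map_trace, Matrix.map_mul, map_ofA]

theorem map_f3a (φ : S →ₐ[ℝ] S') (R : Fin 4 → Fin 4 → Fin 4 → Fin 4 → S) :
    φ (f3a R) = f3a fun i j k l => φ (R i j k l) := by
  rw [f3a, f3a, map_trace, Matrix.map_mul, Matrix.map_mul, map_ofA]

theorem f2a_cj {R : Fin 4 → Fin 4 → Fin 4 → Fin 4 → S} (hR : Ga129.Anti R)
    {O : Matrix (Fin 4) (Fin 4) S} (hO : O.transpose * O = 1) (hd : O.det = 1) :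
    f2a (cj O R) = f2a R := by
  rw [f2a, f2a, Ga129.AAa_cj hR hO hd]
  set A := Matrix.of (AAa R)
  set P := rho O
  have h1 : P.transpose * P = 1 := Ga129.rho_orth hO hd
  have h2 : P * P.transpose = 1 := mul_eq_one_comm.1 h1
  have : P.transpose * A * P * (P.transpose * A * P) = P.transpose * (A * A * P) := by
    calc P.transpose * A * P * (P.transpose * A * P) =
        P.transpose * A * (P * P.transpose) * (A * P) := by simp only [Matrix.mul_assoc]
      _ = _ := by rw [h2]; simp only [Matrix.mul_one, Matrix.mul_assoc]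
  rw [this, Matrix.trace_mul_comm, Matrix.mul_assoc, h2, Matrix.mul_one]

theorem f3a_cj {R : Fin 4 → Fin 4 → Fin 4 → Fin 4 → S} (hR : Ga129.Anti R)
    {O : Matrix (Fin 4) (Fin 4) S} (hO : O.transpose * O = 1) (hd : O.det = 1) :
    f3a (cj O R) = f3a R := by
  rw [f3a, f3a, Ga129.AAa_cj hR hO hd]
  set A := Matrix.of (AAa R)
  set P := rho O
  have h1 : P.transpose * P = 1 := Ga129.rho_orth hO hd
  have h2 : P * P.transpose = 1 := mul_eq_one_comm.1 h1
  have : P.transpose * A * P * (P.transpose * A * P) * (P.transpose * A * P) =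
      P.transpose * (A * A * A * P) := by
    calc P.transpose * A * P * (P.transpose * A * P) * (P.transpose * A * P) =
        P.transpose * A * (P * P.transpose) * A * (P * P.transpose) * (A * P) := by
          simp only [Matrix.mul_assoc]
      _ = _ := by rw [h2]; simp only [Matrix.mul_one, Matrix.mul_assoc]
  rw [this, Matrix.trace_mul_comm, Matrix.mul_assoc, h2, Matrix.mul_one]

end Alg

theorem inv_f2a : Inv (f2a : T4 → ℝ) := by
  intro R hR O hO hd
  rw [act_eq_cj]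
  refine f2a_cj (anti_of_algCurv hR) ?_ ?_
  · rw [Matrix.transpose_transpose]; exact hO
  · rw [Matrix.det_transpose]; exact hd

theorem inv_f3a : Inv (f3a : T4 → ℝ) := by
  intro R hR O hO hd
  rw [act_eq_cj]
  refine f3a_cj (anti_of_algCurv hR) ?_ ?_
  · rw [Matrix.transpose_transpose]; exact hO
  · rw [Matrix.det_transpose]; exact hd

theorem contDiff_AAa (c d : Fin 3) : ContDiff ℝ ∞ (fun R : T4 => AAa R c d) := by
  have h : ∀ i j k l : Fin 4, ContDiff ℝ ∞ (fun R : T4 => R i j k l) := fun i j k l => by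
    fun_prop
  have hP : ∀ (k l : Fin 4) (c : Fin 3), ContDiff ℝ ∞ (fun R : T4 => Ga129.PPa R k l c) := by
    intro k l c
    fin_cases c
    · exact (h k l 0 1).add (h k l 2 3)
    · exact (h k l 0 2).sub (h k l 1 3)
    · exact (h k l 0 3).add (h k l 1 2)
  refine contDiff_const.mul ?_
  fin_cases d
  · exact (hP 0 1 c).add (hP 2 3 c)
  · exact (hP 0 2 c).sub (hP 1 3 c)
  · exact (hP 0 3 c).add (hP 1 2 c)

theorem contDiff_f2a : ContDiff ℝ ∞ (f2a : T4 → ℝ) := by
  have h : (f2a : T4 → ℝ) = fun R => ∑ c, ∑ d, AAa R c d * AAa R d c := by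
    funext R
    simp [f2a, Matrix.trace, Matrix.mul_apply]
  rw [h]
  exact ContDiff.sum fun c _ => ContDiff.sum fun d _ =>
    (contDiff_AAa c d).mul (contDiff_AAa d c)

theorem contDiff_f3a : ContDiff ℝ ∞ (f3a : T4 → ℝ) := by
  have h : (f3a : T4 → ℝ) = fun R => ∑ c, ∑ d, (∑ b, AAa R c b * AAa R b d) * AAa R d c := by
    funext R
    simp [f3a, Matrix.trace, Matrix.mul_apply]
  rw [h]
  exact ContDiff.sum fun c _ => ContDiff.sum fun d _ =>
    (ContDiff.sum fun b _ => (contDiff_AAa c b).mul (contDiff_AAa b d)).mul (contDiff_AAa d c)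

section Germ

variable {x : EuclideanSpace ℝ (Fin 4)}

/-- evaluation of a smooth function at `y`. -/
def evy (y : EuclideanSpace ℝ (Fin 4)) : CF x →ₐ[ℝ] ℝ :=
  (Pi.evalAlgHom ℝ (fun _ : EuclideanSpace ℝ (Fin 4) => ℝ) y).comp (CF x).val

theorem f2a_germ (R : EuclideanSpace ℝ (Fin 4) → T4)
    (hR : ∀ i j k l, ContDiffAt ℝ ∞ (fun y => R y i j k l) x)
    (hs : ContDiffAt ℝ ∞ (fun y => f2a (R y)) x) :
    f2a (fun i j k l => germ (fun y => R y i j k l) (hR i j k l)) =
      germ (fun y => f2a (R y)) hs := by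
  let R' : Fin 4 → Fin 4 → Fin 4 → Fin 4 → CF x := fun i j k l =>
    ⟨fun y => R y i j k l, hR i j k l⟩
  have h1 : (fun i j k l => germ (fun y => R y i j k l) (hR i j k l)) =
      fun i j k l => gm (R' i j k l) := rfl
  rw [h1, ← map_f2a]
  change gm (f2a R') = gm ⟨fun y => f2a (R y), hs⟩
  refine congrArg gm (Subtype.ext (funext fun y => ?_))
  exact map_f2a (evy y) R'

theorem f3a_germ (R : EuclideanSpace ℝ (Fin 4) → T4)
    (hR : ∀ i j k l, ContDiffAt ℝ ∞ (fun y => R y i j k l) x)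
    (hs : ContDiffAt ℝ ∞ (fun y => f3a (R y)) x) :
    f3a (fun i j k l => germ (fun y => R y i j k l) (hR i j k l)) =
      germ (fun y => f3a (R y)) hs := by
  let R' : Fin 4 → Fin 4 → Fin 4 → Fin 4 → CF x := fun i j k l =>
    ⟨fun y => R y i j k l, hR i j k l⟩
  have h1 : (fun i j k l => germ (fun y => R y i j k l) (hR i j k l)) =
      fun i j k l => gm (R' i j k l) := rfl
  rw [h1, ← map_f3a]
  change gm (f3a R') = gm ⟨fun y => f3a (R y), hs⟩
  refine congrArg gm (Subtype.ext (funext fun y => ?_))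
  exact map_f3a (evy y) R'

variable {g : MetricField 4} {U : Set (EuclideanSpace ℝ (Fin 4))}
  {e : Fin 4 → EuclideanSpace ℝ (Fin 4) → EuclideanSpace ℝ (Fin 4)}

theorem cd_Phi {Φ : T4 → ℝ} (hΦ : ContDiff ℝ ∞ Φ) (h : ONF g U x e) :
    ContDiffAt ℝ ∞ (fun y => Φ (Rc g y fun i => e i y)) x := by
  refine hΦ.contDiffAt.comp _ ?_
  refine contDiffAt_pi.2 fun i => contDiffAt_pi.2 fun j => contDiffAt_pi.2 fun k =>
    contDiffAt_pi.2 fun l => ?_
  exact contDiffAt_Rc h.riem h.mem h.smooth i j k l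

theorem Rm_fun (h : ONF g U x e) : h.frameOf.Rm =
    fun i j k l => germ (fun y => Rc g y (fun i => e i y) i j k l)
      (contDiffAt_Rc h.riem h.mem h.smooth i j k l) := by
  funext i j k l
  rw [h.Rm_germ]
  refine germ_eq (Eventually.of_forall fun y => ?_)
  simp only [Rc]

theorem f2_germ (h : ONF g U x e) :
    f2 h.frameOf = germ (fun y => f2a (Rc g y fun i => e i y)) (cd_Phi contDiff_f2a h) := by
  rw [f2_eq, Rm_fun h]
  exact f2a_germ (fun y => Rc g y fun i => e i y)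
    (fun i j k l => contDiffAt_Rc h.riem h.mem h.smooth i j k l) (cd_Phi contDiff_f2a h)

theorem f3_germ (h : ONF g U x e) :
    f3 h.frameOf = germ (fun y => f3a (Rc g y fun i => e i y)) (cd_Phi contDiff_f3a h) := by
  rw [f3_eq, Rm_fun h]
  exact f3a_germ (fun y => Rc g y fun i => e i y)
    (fun i j k l => contDiffAt_Rc h.riem h.mem h.smooth i j k l) (cd_Phi contDiff_f3a h)

/-- a sum of squares of germs. -/
theorem sq_zero {ι : Type*} [Fintype ι] {f : ι → SG x} (h : ∑ i, f i * f i = 0) (i : ι) :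
    f i = 0 := by
  choose g hg hgf using fun i => exists_germ (f i)
  have h1 : ∀ᶠ y in 𝓝 x, ∑ i, g i y * g i y = 0 := by
    simp only [← hgf, germ_mul] at h
    rw [germ_sum, ← germ_zero] at h
    exact germ_eq_iff.1 h
  rw [← hgf i, ← germ_zero]
  refine germ_eq ?_
  filter_upwards [h1] with y hy
  have h2 := (Finset.sum_eq_zero_iff_of_nonneg fun i _ => mul_self_nonneg (g i y)).1 hy i
    (Finset.mem_univ i)
  exact mul_self_eq_zero.1 h2

end Germ

/-! ### functions with zero gradient -/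

section const

variable {n : ℕ} {M : Type*} [TopologicalSpace M] [ChartedSpace (EuclideanSpace ℝ (Fin n)) M]
  [IsManifold 𝓘(ℝ, EuclideanSpace ℝ (Fin n)) ∞ M]
  [RiemannianBundle (fun x : M => TangentSpace 𝓘(ℝ, EuclideanSpace ℝ (Fin n)) x)]
  [IsContMDiffRiemannianBundle 𝓘(ℝ, EuclideanSpace ℝ (Fin n)) ∞ (EuclideanSpace ℝ (Fin n))
      (fun x : M => TangentSpace 𝓘(ℝ, EuclideanSpace ℝ (Fin n)) x)]

local notation "𝔼" => EuclideanSpace ℝ (Fin n)
local notation "𝓘E" => 𝓘(ℝ, EuclideanSpace ℝ (Fin n))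

theorem const_of_mGam [PreconnectedSpace M] {f : M → ℝ} (hf : ContMDiff 𝓘E 𝓘(ℝ, ℝ) ∞ f)
    (h0 : ∀ p, mGam n f f p = 0) (p q : M) : f p = f q := by
  have hz : ∀ p (v : TangentSpace 𝓘E p), mfderiv 𝓘E 𝓘(ℝ, ℝ) f p v = 0 := by
    intro p v
    have h1 : mgrad n f p = 0 := by
      have := h0 p
      rw [mGam_self] at this
      exact norm_eq_zero.1 (pow_eq_zero_iff two_ne_zero |>.1 this)
    rw [← inner_mgrad, h1, inner_zero_left]
    rfl
  have hloc : IsLocallyConstant f := by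
    rw [IsLocallyConstant.iff_eventually_eq]
    intro x
    have hx := mem_chart_source 𝔼 x
    have hxt : chartAt 𝔼 x x ∈ (chartAt 𝔼 x).target := (chartAt 𝔼 x).map_source hx
    obtain ⟨r, hr, hB⟩ := Metric.isOpen_iff.1 (chartAt 𝔼 x).open_target _ hxt
    have hdiff : ∀ y ∈ (chartAt 𝔼 x).target, DifferentiableAt ℝ (inCh n x f) y := fun y hy => by
      have h1 : ContDiffAt ℝ ∞ (inCh n x f) y :=
        contDiffAt_inCh (n := n) (x₀ := x) (by simp) hy (hf _)
      exact h1.differentiableAt (by simp)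
    have hconst : ∀ y ∈ Metric.ball (chartAt 𝔼 x x) r,
        inCh n x f y = inCh n x f (chartAt 𝔼 x x) := by
      intro y hy
      refine Metric.isOpen_ball.is_const_of_fderiv_eq_zero (𝕜 := ℝ)
        (convex_ball _ _).isPreconnected
        (fun z hz => (hdiff z (hB hz)).differentiableWithinAt) (fun z hzB => ?_) hy
        (Metric.mem_ball_self hr)
      ext v
      rw [fderiv_inCh (hB hzB)]
      exact hz _ _
    filter_upwards [(chartAt 𝔼 x).open_source.mem_nhds hx,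
      ((chartAt 𝔼 x).continuousAt hx).preimage_mem_nhds (Metric.ball_mem_nhds _ hr)] with y hy1 hy2
    have := hconst _ hy2
    change f ((chartAt 𝔼 x).symm (chartAt 𝔼 x y)) = f ((chartAt 𝔼 x).symm (chartAt 𝔼 x x)) at this
    rwa [(chartAt 𝔼 x).left_inv hy1, (chartAt 𝔼 x).left_inv hx] at this
  exact hloc.apply_eq_of_preconnectedSpace p q

end const

section main

local notation "𝔼" => EuclideanSpace ℝ (Fin 4)
local notation "𝓘E" => 𝓘(ℝ, EuclideanSpace ℝ (Fin 4))

variable {M : Type*} [TopologicalSpace M] [ChartedSpace (EuclideanSpace ℝ (Fin 4)) M]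
  [IsManifold 𝓘(ℝ, EuclideanSpace ℝ (Fin 4)) ∞ M]
  [RiemannianBundle (fun x : M => TangentSpace 𝓘(ℝ, EuclideanSpace ℝ (Fin 4)) x)]
  [IsContMDiffRiemannianBundle 𝓘(ℝ, EuclideanSpace ℝ (Fin 4)) ∞ (EuclideanSpace ℝ (Fin 4))
      (fun x : M => TangentSpace 𝓘(ℝ, EuclideanSpace ℝ (Fin 4)) x)]

/-- the dictionary for `tr A²`, `tr A³`. -/
theorem germ_mInv (hO : Oriented 4 M) {Φ : T4 → ℝ} (hI : Inv Φ) (hs : ContDiff ℝ ∞ Φ) {p : M}
    {e : Fin 4 → 𝔼 → 𝔼}
    (h : ONF (chartMetric 4 M p) (chartAt 𝔼 p).target (chartCentre 4 M p) e)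
    (hpos : ∀ᶠ z in 𝓝 (chartCentre 4 M p), Orth (chartMetric 4 M p z) (fun i => e i z) ∧
      0 < (mat fun i => e i z).det) :
    ∃ hs' : ContDiffAt ℝ ∞ (inCh 4 p (mInv Φ)) (chartCentre 4 M p),
      germ (fun y => Φ (Rc (chartMetric 4 M p) y fun i => e i y)) (cd_Phi hs h) =
        germ (inCh 4 p (mInv Φ)) hs' := by
  have hg := mInv_germ hO hI (centre_mem (n := 4) p) hpos
  exact ⟨(cd_Phi hs h).congr_of_eventuallyEq hg, germ_eq hg.symm⟩

theorem mGam_zero (hO : Oriented 4 M) {Φ : T4 → ℝ} (hI : Inv Φ) (hs : ContDiff ℝ ∞ Φ) {p : M}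
    {e : Fin 4 → 𝔼 → 𝔼}
    (h : ONF (chartMetric 4 M p) (chartAt 𝔼 p).target (chartCentre 4 M p) e)
    (hpos : ∀ᶠ z in 𝓝 (chartCentre 4 M p), Orth (chartMetric 4 M p z) (fun i => e i z) ∧
      0 < (mat fun i => e i z).det)
    (h0 : ∀ i, ev (h.frameOf.D i
      (germ (fun y => Φ (Rc (chartMetric 4 M p) y fun i => e i y)) (cd_Phi hs h))) = 0) :
    mGam 4 (mInv Φ) (mInv Φ) p = 0 := by
  obtain ⟨hs', e1⟩ := germ_mInv hO hI hs h hpos
  rw [e1] at h0
  have h1 : ev (h.frameOf.gam (germ (inCh 4 p (mInv Φ)) hs')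
      (germ (inCh 4 p (mInv Φ)) hs')) = 0 := by
    rw [Frame.gam, map_sum]
    refine Finset.sum_eq_zero fun i _ => ?_
    rw [map_mul, h0 i, mul_zero]
  rw [h.gam_germ, ev_germ] at h1
  exact h1

theorem germ_const (hO : Oriented 4 M) {Φ : T4 → ℝ} (hI : Inv Φ) (hs : ContDiff ℝ ∞ Φ) {p : M}
    {e : Fin 4 → 𝔼 → 𝔼}
    (h : ONF (chartMetric 4 M p) (chartAt 𝔼 p).target (chartCentre 4 M p) e)
    (hpos : ∀ᶠ z in 𝓝 (chartCentre 4 M p), Orth (chartMetric 4 M p z) (fun i => e i z) ∧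
      0 < (mat fun i => e i z).det) {r : ℝ} (hr : ∀ q : M, mInv Φ q = r) :
    germ (fun y => Φ (Rc (chartMetric 4 M p) y fun i => e i y)) (cd_Phi hs h) =
      algebraMap ℝ (SG _) r := by
  obtain ⟨hs', e1⟩ := germ_mInv hO hI hs h hpos
  rw [e1, algebraMap_eq]
  exact germ_eq (Eventually.of_forall fun y => hr _)

variable {K : Type*} [AddCommGroup K] [Module ℝ K]

/-- the germs of a linear family of vector fields. -/
def vcL {p : M} {e : Fin 4 → 𝔼 → 𝔼}
    (h : ONF (chartMetric 4 M p) (chartAt 𝔼 p).target (chartCentre 4 M p) e)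
    (V : K →ₗ[ℝ] ((q : M) → TangentSpace 𝓘E q)) (hsm : ∀ k q, VSm 4 ∞ (V k) q) :
    K →ₗ[ℝ] (Fin 4 → SG (chartCentre 4 M p)) where
  toFun k i := vc h (hsm k p) i
  map_add' x y := by
    funext i
    change vc h (hsm (x + y) p) i = vc h (hsm x p) i + vc h (hsm y p) i
    rw [vc, vc, vc, vcg, vcg, vcg, germ_add]
    refine germ_eq (Eventually.of_forall fun z => ?_)
    have h1 : vCh 4 p (V (x + y)) z = vCh 4 p (V x) z + vCh 4 p (V y) z := by
      rw [vCh, vCh, vCh, map_add V]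
      exact map_add _ _ _
    simp only [cf]
    rw [h1, map_add, _root_.add_apply]
  map_smul' r x := by
    funext i
    change vc h (hsm (r • x) p) i = r • vc h (hsm x p) i
    rw [vc, vc, vcg, vcg, smul_germ]
    refine germ_eq (Eventually.of_forall fun z => ?_)
    have h1 : vCh 4 p (V (r • x)) z = r • vCh 4 p (V x) z := by
      rw [vCh, vCh, map_smul V]
      exact (dCh p ((chartAt 𝔼 p).symm z)).map_smul r (V x ((chartAt 𝔼 p).symm z))
    simp only [cf]
    rw [h1, map_smul, _root_.smul_apply, smul_eq_mul]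

/-- `tr A²` and `tr A³` are constant. -/
theorem const_of_killing [PreconnectedSpace M] (hO : Oriented 4 M) {c : ℝ}
    (hE : IsEinsteinWith 4 M c) (V : K →ₗ[ℝ] ((q : M) → TangentSpace 𝓘E q))
    (hV : Function.Injective V) (hsm : ∀ k q, VSm 4 ∞ (V k) q)
    (hK : ∀ q, ∃ e : Fin 4 → 𝔼 → 𝔼,
      ∃ h : ONF (chartMetric 4 M q) (chartAt 𝔼 q).target (chartCentre 4 M q) e,
        (∀ᶠ z in 𝓝 (chartCentre 4 M q), Orth (chartMetric 4 M q z) (fun i => e i z) ∧
          0 < (mat fun i => e i z).det) ∧ ∀ k, Kill h.frameOf (vc h (hsm k q)))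
    (h5 : 5 ≤ Module.finrank ℝ K) (p q : M) :
    mInv f2a p = mInv f2a q ∧ mInv f3a p = mInv f3a q := by
  have key : ∀ p : M, mGam 4 (mInv f2a) (mInv f2a) p = 0 ∧
      mGam 4 (mInv f3a) (mInv f3a) p = 0 := by
    intro p
    obtain ⟨e, h, hpos, hk⟩ := hK p
    have hF : h.frameOf.Einstein (algebraMap ℝ (SG _) c) := by
      refine h.einstein ?_
      filter_upwards [(chartAt 𝔼 p).open_target.mem_nhds (centre_mem (n := 4) p)] with y hy
      exact fun i j => einstein_chart hE p hy i j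
    have h1 := ev_D_zero h.frameOf ev (vcL h V hsm) hF hk (fun k hv hb => ?_) h5
    · refine ⟨mGam_zero hO inv_f2a contDiff_f2a h hpos fun i => ?_,
        mGam_zero hO inv_f3a contDiff_f3a h hpos fun i => ?_⟩
      · rw [← f2_germ h]; exact h1.1 i
      · rw [← f3_germ h]; exact h1.2 i
    · apply hV
      rw [map_zero]
      funext q
      exact kill_uc (hsm k) (fun q => by
        obtain ⟨e, h, -, hk⟩ := hK q
        exact ⟨e, h, hk k⟩) h (hk k) hv hb q
  exact ⟨const_of_mGam (contMDiff_mInv hO inv_f2a contDiff_f2a) (fun p => (key p).1) p q,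
    const_of_mGam (contMDiff_mInv hO inv_f3a contDiff_f3a) (fun p => (key p).2) p q⟩

/-- the end game for germs. -/
theorem nn_of_const {x : EuclideanSpace ℝ (Fin 4)} (F : Frame 4 (SG x)) {c r₂ r₃ : ℝ}
    (hc : 0 < c) (hF : F.Einstein (algebraMap ℝ (SG x) c))
    (h2 : f2 F = algebraMap ℝ (SG x) r₂) (h3 : f3 F = algebraMap ℝ (SG x) r₃)
    (k : Fin 4) (a b : Fin 3) : F.NN k a b = 0 := by
  have ht := Am_trace F hF
  have d2 : ∀ k, F.D k (f2 F) = 0 := fun k => by rw [h2, Derivation.map_algebraMap]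
  have d3 : ∀ k, F.D k (f3 F) = 0 := fun k => by rw [h3, Derivation.map_algebraMap]
  have i2 : ∀ (r : ℝ) (z : SG x), r ≠ 0 → algebraMap ℝ (SG x) r * z = 0 → z = 0 := by
    intro r z hr hz
    have : z = algebraMap ℝ (SG x) r⁻¹ * (algebraMap ℝ (SG x) r * z) := by
      rw [← mul_assoc, ← map_mul, inv_mul_cancel₀ hr, map_one, one_mul]
    rw [this, hz, mul_zero]
  have a2 : (2 : SG x) = algebraMap ℝ (SG x) 2 := (map_ofNat (algebraMap ℝ (SG x)) 2).symm
  have a3 : (3 : SG x) = algebraMap ℝ (SG x) 3 := (map_ofNat (algebraMap ℝ (SG x)) 3).symm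
  have a6 : (6 : SG x) = algebraMap ℝ (SG x) 6 := (map_ofNat (algebraMap ℝ (SG x)) 6).symm
  have a12 : (12 : SG x) = algebraMap ℝ (SG x) 12 := (map_ofNat (algebraMap ℝ (SG x)) 12).symm
  have a18 : (18 : SG x) = algebraMap ℝ (SG x) 18 := (map_ofNat (algebraMap ℝ (SG x)) 18).symm
  have hev : ∀ k c d, ev (F.NN k c d) = 0 := by
    refine ev_NN_zero F ev hc hF d2 d3 fun y z hyz => ?_
    set Y := algebraMap ℝ (SG x) y with hY
    set Z := algebraMap ℝ (SG x) z with hZ
    have hr : ∃ r : ℝ, 6 * (Pm F Y Z * Pm F Y Z).trace = algebraMap ℝ (SG x) r := by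
      refine ⟨(6 * c * r₃ - 3 * (c ^ 2 - r₂) * r₂ + (c ^ 3 - 3 * c * r₂ + 2 * r₃) * c)
        - 12 * (y + z) * r₃ + 6 * ((y + z) ^ 2 + 2 * (y * z)) * r₂
        - 12 * (y * z) * (y + z) * c + 18 * (y * z) ^ 2, ?_⟩
      rw [six_tr_PP, ht, h2, h3, hY, hZ, a2, a3, a6, a12, a18]
      simp only [map_add, map_sub, map_mul, map_pow]
    obtain ⟨r, hr⟩ := hr
    have hr0 : r = 0 := by
      have h4 := congrArg ev hr
      rw [map_mul, ev_trace, map_mul3, hyz, AlgHom.commutes] at h4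
      simp at h4
      exact h4.symm
    rw [hr0, map_zero, a6] at hr
    have h5 := i2 6 _ (by norm_num) hr
    rw [PP_trace, ← Fintype.sum_prod_type'] at h5
    ext i j
    exact sq_zero (f := fun q : Fin 3 × Fin 3 => Pm F Y Z q.1 q.2) h5 (i, j)
  have l2 : F.lap0 (f2 F) = 0 := by
    simp only [Frame.lap0, Frame.hess0, d2, map_zero, mul_zero, Finset.sum_const_zero, sub_zero]
  rw [lap_f2, Lm_formula F hF, Matrix.mul_sub, Matrix.mul_sub, Matrix.mul_smul, Matrix.mul_smul,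
    Matrix.mul_smul, Matrix.mul_one, Matrix.trace_sub, Matrix.trace_sub, Matrix.trace_smul,
    Matrix.trace_smul, Matrix.trace_smul, ← Matrix.mul_assoc] at l2
  change 2 * ((6 * (Am F).trace) • f2 F - (6 : SG x) • f3 F -
    (2 * ((Am F).trace ^ 2 - f2 F)) • (Am F).trace) + 2 * ∑ k, (Nm F k * Nm F k).trace = 0 at l2
  rw [ht, h2, h3] at l2
  simp only [smul_eq_mul] at l2
  have hr : ∃ r : ℝ, 2 * ∑ k, (Nm F k * Nm F k).trace = algebraMap ℝ (SG x) r := by
    refine ⟨- (2 * ((6 * c) * r₂ - 6 * r₃ - (2 * (c ^ 2 - r₂)) * c)), ?_⟩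
    rw [a2, a6] at l2
    rw [a2, eq_neg_of_add_eq_zero_right l2]
    simp only [map_neg, map_sub, map_mul, map_pow]
  obtain ⟨r, hr⟩ := hr
  have htr : ∀ k, (Nm F k * Nm F k).trace = ∑ c, ∑ d, F.NN k c d * F.NN k c d := by
    intro k
    rw [Matrix.trace]
    refine Finset.sum_congr rfl fun c _ => ?_
    rw [Matrix.diag_apply, Matrix.mul_apply]
    refine Finset.sum_congr rfl fun d _ => ?_
    change F.NN k c d * F.NN k d c = _
    rw [F.NN_symm k d c]
  have hr0 : r = 0 := by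
    have h4 := congrArg ev hr
    rw [map_mul, AlgHom.commutes, map_sum] at h4
    simp only [htr, map_sum, map_mul, hev, mul_zero, Finset.sum_const_zero] at h4
    exact h4.symm
  rw [hr0, map_zero, a2] at hr
  have h5 := i2 2 _ (by norm_num) hr
  simp only [htr] at h5
  have h6 : ∑ q : Fin 4 × Fin 3 × Fin 3, F.NN q.1 q.2.1 q.2.2 * F.NN q.1 q.2.1 q.2.2 = 0 := by
    rw [Fintype.sum_prod_type, ← h5]
    refine Finset.sum_congr rfl fun k _ => ?_
    rw [Fintype.sum_prod_type]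
  exact sq_zero (f := fun q : Fin 4 × Fin 3 × Fin 3 => F.NN q.1 q.2.1 q.2.2) h6 (k, a, b)

/-- **from Killing fields to `∇W⁺ = 0`.** -/
theorem nn_of_killing [ConnectedSpace M] (hO : Oriented 4 M) {c : ℝ} (hc : 0 < c)
    (hE : IsEinsteinWith 4 M c) (V : K →ₗ[ℝ] ((q : M) → TangentSpace 𝓘E q))
    (hV : Function.Injective V) (hsm : ∀ k q, VSm 4 ∞ (V k) q)
    (hK : ∀ q, ∃ e : Fin 4 → 𝔼 → 𝔼,
      ∃ h : ONF (chartMetric 4 M q) (chartAt 𝔼 q).target (chartCentre 4 M q) e,
        (∀ᶠ z in 𝓝 (chartCentre 4 M q), Orth (chartMetric 4 M q z) (fun i => e i z) ∧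
          0 < (mat fun i => e i z).det) ∧ ∀ k, Kill h.frameOf (vc h (hsm k q)))
    (h5 : 5 ≤ Module.finrank ℝ K) (p : M) (e : Fin 4 → 𝔼 → 𝔼)
    (h : ONF (chartMetric 4 M p) (chartAt 𝔼 p).target (chartCentre 4 M p) e)
    (hpos : ∀ᶠ z in 𝓝 (chartCentre 4 M p), Orth (chartMetric 4 M p z) (fun i => e i z) ∧
      0 < (mat fun i => e i z).det) (q : Fin 4) (a b : Fin 3) : h.frameOf.NN q a b = 0 := by
  have hF : h.frameOf.Einstein (algebraMap ℝ (SG _) c) := by
    refine h.einstein ?_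
    filter_upwards [(chartAt 𝔼 p).open_target.mem_nhds (centre_mem (n := 4) p)] with y hy
    exact fun i j => einstein_chart hE p hy i j
  have h1 := fun q => (const_of_killing hO hE V hV hsm hK h5 q p).1
  have h2 := fun q => (const_of_killing hO hE V hV hsm hK h5 q p).2
  refine nn_of_const h.frameOf hc hF (r₂ := mInv f2a p) (r₃ := mInv f3a p) ?_ ?_ q a b
  · rw [f2_germ h]; exact germ_const hO inv_f2a contDiff_f2a h hpos h1
  · rw [f3_germ h]; exact germ_const hO inv_f3a contDiff_f3a h hpos h2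

end main

/-- what remains for part C: a five-dimensional space of Killing fields when `W⁻ = 0`. -/
def KillStmt : Prop :=
  ∀ (N : Type) [MetricSpace N] [ChartedSpace (EuclideanSpace ℝ (Fin 4)) N]
    [IsManifold 𝓘(ℝ, EuclideanSpace ℝ (Fin 4)) ∞ N] [CompactSpace N] [ConnectedSpace N]
    [RiemannianBundle (fun x : N => TangentSpace 𝓘(ℝ, EuclideanSpace ℝ (Fin 4)) x)]
    [IsContMDiffRiemannianBundle 𝓘(ℝ, EuclideanSpace ℝ (Fin 4)) ∞ (EuclideanSpace ℝ (Fin 4))
      (fun x : N => TangentSpace 𝓘(ℝ, EuclideanSpace ℝ (Fin 4)) x)]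
    [IsRiemannianManifold 𝓘(ℝ, EuclideanSpace ℝ (Fin 4)) N],
    Oriented 4 N → ∀ c : ℝ, 0 < c → IsEinsteinWith 4 N c → HasNonnegSectionalCurvature 4 N →
      (∀ x : N, mInv (Qm Qp c) x = 0) →
      ∃ (K : Type) (_ : AddCommGroup K) (_ : Module ℝ K)
        (V : K →ₗ[ℝ] ((q : N) → TangentSpace 𝓘(ℝ, EuclideanSpace ℝ (Fin 4)) q))
        (hsm : ∀ k q, VSm 4 ∞ (V k) q),
        Function.Injective V ∧ 5 ≤ Module.finrank ℝ K ∧
        ∀ q, ∃ (e : Fin 4 → EuclideanSpace ℝ (Fin 4) → EuclideanSpace ℝ (Fin 4))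
          (h : ONF (chartMetric 4 N q) (chartAt (EuclideanSpace ℝ (Fin 4)) q).target
            (chartCentre 4 N q) e),
          (∀ᶠ z in 𝓝 (chartCentre 4 N q), Orth (chartMetric 4 N q z) (fun i => e i z) ∧
            0 < (mat fun i => e i z).det) ∧ ∀ k, Kill h.frameOf (vc h (hsm k q))

/-- **T-I from Killing fields.** -/
theorem tI_of_killing (h : KillStmt) : TI Qp B2Fin_474.RS B2Fin_474.RC := by
  refine Par7_493.tI_of qfp qfm ?_
  intro N _ _ _ _ _ _ _ _ hO c hc hE hK hq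
  obtain ⟨K, iK, iM, V, hsm, hV, h5, hk⟩ := h N hO c hc hE hK hq
  exact nn_of_killing hO hc hE V hV hsm hk h5

end Crest.Agent.R249.Kg4_285
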