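import Crest.Agent.R249.Idx9_789
import Crest.Agent.R249.Kend_493
import Crest.Agent.R249.Trx_285
import Crest.Agent.R249.Kg4_285

/-!
# R249, COUNT (helper789): `dim ker D ≥ 7` for the complex twisted by `Λ⁻`

`count_of` : closed oriented Einstein `M⁴`, `lam > 0`, `sec ≥ 0`, `W⁻ = 0`.
-/

set_option autoImplicit false
set_option maxSynthPendingDepth 3
set_option linter.unusedSectionVars false

open Filter Topology Set Bundle Manifold Matrix MeasureTheory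
open scoped ContDiff ENNReal NNReal
open Crest.GeometryTopology.CoordMetric Crest.GeometryTopology.ChartCurvature
  Crest.GeometryTopology.PointedLimit
open Crest.Agent.R202.Tens Crest.Agent.R247.Bo84 Crest.Agent.R249.FrmB_285 Crest.Agent.R249.Vf281
  Crest.Agent.R249.Tz1_805 Crest.Agent.R249.Tz2_805 Crest.Agent.R249.Tz805
open Crest.Agent.R249.Fr129 Crest.Agent.R249.C2_198
open Crest.Agent.R249.Sg129 (ONF SG ev ev_germ)
open Crest.Agent.R249.Tv57 Crest.Agent.R249.HK9_714 Crest.Agent.R249.OriD_285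
open Crest.Agent.R249.Vol_285 Crest.Agent.R249.D1Def104
open Crest.Agent.R249.FrmC_285 Crest.Agent.R249.FrmD_285 Crest.Agent.R249.Trw_285

noncomputable section

namespace Crest.Agent.R249.Idx789

section ring

variable {S : Type*} [CommRing S] [Algebra ℝ S] (F : Frame 4 S) (ε : S →ₐ[ℝ] ℝ)

theorem three_map (S : Type*) [CommRing S] [Algebra ℝ S] (lam : ℝ) :
    (3 : S) * algebraMap ℝ S (lam / 3) = algebraMap ℝ S lam := by
  have : (3 : S) = algebraMap ℝ S 3 := (map_ofNat (algebraMap ℝ S) 3).symm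
  rw [this, ← map_mul]
  congr 1
  ring

theorem third_map (S : Type*) [CommRing S] [Algebra ℝ S] (lam : ℝ) :
    (Frame.third : S) * algebraMap ℝ S lam = algebraMap ℝ S (lam / 3) := by
  rw [Frame.third, ← map_mul]
  congr 1
  ring

/-- `|A|² = |W⁺|² + lam²/3` -/
theorem ev_AA2 {lam : ℝ} (hE : F.Einstein (algebraMap ℝ S lam)) :
    ε (AA2 F) = ε (F.qq (algebraMap ℝ S lam)) + lam ^ 2 / 3 := by
  have h1 := (F.Wr_sym0 ε hE).tr
  have h2 : ε (AA2 F) = ∑ c, ∑ d, ε (F.AA c d) ^ 2 := by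
    simp only [AA2, map_sum, map_pow]
  rw [F.ev_qq ε, h2]
  simp only [F.AA_eq_W ε hE, FrM129.nsq, Fin.sum_univ_three, Fin.isValue,
    reduceIte, Fin.reduceEq, add_zero, zero_ne_one, one_ne_zero]
  linear_combination (2 * lam / 3) * h1

theorem CC2_scal {c : S} (hC : CScal F c) : CC2 F = 3 * c ^ 2 := by
  simp only [CC2, hC _ _, Fin.sum_univ_three]
  simp
  ring

/-- the pinching: `|W⁺|² ≤ 24 (lam/3)²` when `W⁻ = 0` -/
theorem qq_le {lam : ℝ} (hE : F.Einstein (algebraMap ℝ S lam))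
    (hK : ∀ x y : Fin 4 → ℝ,
      0 ≤ ∑ i, ∑ j, ∑ k, ∑ l, ε (F.Rm i j k l) * x i * y j * y k * x l)
    (h0 : ε (F.flip.qq (algebraMap ℝ S lam)) = 0) :
    ε (F.qq (algebraMap ℝ S lam)) ≤ 24 * (lam / 3) ^ 2 := by
  have h1 := F.pinch_pt ε hE hK
  rw [h0, Real.sqrt_zero, add_zero] at h1
  have h2 : 0 ≤ ε (F.qq (algebraMap ℝ S lam)) := by
    rw [F.ev_qq ε]
    exact FrM129.nsq_nonneg _
  have h3 : (Real.sqrt 6 * (2 * lam / 3)) ^ 2 = 24 * (lam / 3) ^ 2 := by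
    rw [mul_pow, Real.sq_sqrt (by norm_num)]; ring
  rw [← h3, ← Real.sq_sqrt h2]
  exact pow_le_pow_left₀ (Real.sqrt_nonneg _) h1 2

/-- the density of the untwisted complex -/
theorem densR {c : ℝ} (hE : F.Einstein (3 * algebraMap ℝ S c)) (hC : CScal F (algebraMap ℝ S c)) :
    1 / (32 * Real.pi ^ 2) * ε (Q F (e0 F) (cK S) * Q F (e0 F) (cK S)).trace
        + 1 / (192 * Real.pi ^ 2) * ε (tO F (e0 F))
      - (1 / (32 * Real.pi ^ 2) *
          ε (Q F F.tan (fun i => (cK S i)ᵀ) * Q F F.tan (fun i => (cK S i)ᵀ)).trace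
        + 1 / (192 * Real.pi ^ 2) * ε (tO F F.tan)) =
      12 * c ^ 2 / (32 * Real.pi ^ 2) + 4 * (ε (AA2 F) - 3 * c ^ 2) / (192 * Real.pi ^ 2) := by
  have h1 := congrArg ε (strQ_R hE hC).2
  have h2 := congrArg ε (strO_R F hE)
  rw [map_sub] at h1 h2
  rw [CC2_scal F hC] at h2
  simp only [map_mul, map_pow, map_ofNat, map_sub, AlgHom.commutes, Algebra.algebraMap_self,
    RingHom.id_apply] at h1 h2
  linear_combination (1 / (32 * Real.pi ^ 2)) * h1 + (1 / (192 * Real.pi ^ 2)) * h2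

/-- the density of the twisted complex -/
theorem densL {c : ℝ} (hE : F.Einstein (3 * algebraMap ℝ S c)) (hC : CScal F (algebraMap ℝ S c)) :
    1 / (32 * Real.pi ^ 2) * ε (Q F (Frame.tens (e0 F) (asc F)) (tw (cK S))
          * Q F (Frame.tens (e0 F) (asc F)) (tw (cK S))).trace
        + 1 / (192 * Real.pi ^ 2) * ε (tO F (Frame.tens (e0 F) (asc F)))
      - (1 / (32 * Real.pi ^ 2) *
          ε (Q F (Frame.tens F.tan (asc F)) (fun i => (tw (ι := Fin 3) (cK S) i)ᵀ)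
            * Q F (Frame.tens F.tan (asc F)) (fun i => (tw (ι := Fin 3) (cK S) i)ᵀ)).trace
        + 1 / (192 * Real.pi ^ 2) * ε (tO F (Frame.tens F.tan (asc F)))) =
      132 * c ^ 2 / (32 * Real.pi ^ 2) + 12 * (ε (AA2 F) - 3 * c ^ 2) / (192 * Real.pi ^ 2) := by
  have h1 := congrArg ε (strQ_L hE hC).2
  have h2 := congrArg ε (strO_L F hE)
  rw [map_sub] at h1 h2
  rw [CC2_scal F hC] at h2
  simp only [map_mul, map_pow, map_ofNat, map_sub, AlgHom.commutes, Algebra.algebraMap_self,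
    RingHom.id_apply] at h1 h2
  linear_combination (1 / (32 * Real.pi ^ 2)) * h1 + (1 / (192 * Real.pi ^ 2)) * h2

end ring

/-- `|W|² = 0` as a germ: `W = 0` -/
theorem WW_zero {x : EuclideanSpace ℝ (Fin 4)} (F : Frame 4 (SG x)) (l : SG x)
    (h0 : F.qq l = 0) (c d : Fin 3) : F.WW l c d = 0 := by
  have h3 : ∑ i : Fin 3 × Fin 3, F.WW l i.1 i.2 * F.WW l i.1 i.2 = 0 := by
    rw [Fintype.sum_prod_type]
    exact h0
  exact Kend_493.sg_sq (fun i : Fin 3 × Fin 3 => F.WW l i.1 i.2) h3 (c, d)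

section grp

variable {M : Type*} [TopologicalSpace M] [ChartedSpace (EuclideanSpace ℝ (Fin 4)) M]
  [IsManifold 𝓘(ℝ, EuclideanSpace ℝ (Fin 4)) ∞ M]
  [RiemannianBundle (fun x : M => TangentSpace 𝓘(ℝ, EuclideanSpace ℝ (Fin 4)) x)]
  [IsContMDiffRiemannianBundle 𝓘(ℝ, EuclideanSpace ℝ (Fin 4)) ∞ (EuclideanSpace ℝ (Fin 4))
      (fun x : M => TangentSpace 𝓘(ℝ, EuclideanSpace ℝ (Fin 4)) x)]

variable {κ : Type} [Fintype κ]

/-- the Clifford pair of `D : (ℝ ⊕ Λ⁻) ⊗ Λ⁻ → T ⊗ Λ⁻` -/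
structure GLP (κ : Type) [Fintype κ]
    (vol : (z : M) → (Fin 4 → TangentSpace 𝓘(ℝ, EuclideanSpace ℝ (Fin 4)) z) → ℝ) where
  P : CPair 4 M κ (Option (κ × κ) × (κ × κ)) (κ × (κ × κ))
  cl : ∀ (z : M) (e : Fin 4 → EuclideanSpace ℝ (Fin 4) → EuclideanSpace ℝ (Fin 4))
    (h : ONF (chartMetric 4 M z) (chartAt (EuclideanSpace ℝ (Fin 4)) z).target
      (chartCentre 4 M z) e), VolAt vol z e →
    ∃ j0 j1, CLoc P.D0 P.D1 P.cc h (Frame.tens (e0 h.frameOf) (asc h.frameOf))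
      (Frame.tens h.frameOf.tan (asc h.frameOf)) (tw (cK _)) j0 j1

/-- the frame data at a point of a positive Einstein manifold with `sec ≥ 0`, `W⁻ = 0` -/
theorem exists_pt (hO : Oriented 4 M) {lam : ℝ} (hE : IsEinsteinWith 4 M lam)
    (hK : HasNonnegSectionalCurvature 4 M) {Ψ : T4 → ℝ} (hΨ : QF lam true Ψ)
    (hq : ∀ x : M, mInv Ψ x = 0) (z : M) :
    ∃ e, ∃ h : ONF (chartMetric 4 M z) (chartAt (EuclideanSpace ℝ (Fin 4)) z).target
      (chartCentre 4 M z) e, VolAt vol4 z e ∧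
      h.frameOf.Einstein (3 * algebraMap ℝ _ (lam / 3)) ∧
      CScal h.frameOf (algebraMap ℝ _ (lam / 3)) ∧
      ev (AA2 h.frameOf) ≤ 27 * (lam / 3) ^ 2 := by
  obtain ⟨e, h, hpos⟩ := exists_onf (n := 4) z (centre_mem (n := 4) z)
  have hF : h.frameOf.Einstein (algebraMap ℝ (SG _) lam) := by
    refine h.einstein ?_
    filter_upwards [(chartAt _ z).open_target.mem_nhds (centre_mem (n := 4) z)] with y hy
    exact fun i j => einstein_chart hE z hy i j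
  have e3 := three_map (SG (chartCentre 4 M z)) lam
  have h0 : h.frameOf.flip.qq (algebraMap ℝ (SG _) lam) = 0 := by
    have h1 := hΨ.eq h (Kg4_285.cd_Phi hΨ.smooth h)
    rw [Kg4_285.germ_const hO hΨ.inv hΨ.smooth h hpos hq, map_zero] at h1
    exact h1
  have h2 := WW_zero h.frameOf.flip _ h0
  have h4 := cscal_of_WW h.frameOf h2
  rw [third_map] at h4
  refine ⟨e, h, volAt_vol4 hO hpos, by rw [e3]; exact hF, h4, ?_⟩
  have h5 := qq_le h.frameOf ev hF (fun a b => h.nonneg (hK z) a b) (by rw [h0, map_zero])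
  rw [ev_AA2 h.frameOf ev hF]
  linarith

end grp

section closed

variable {M : Type} [MetricSpace M] [ChartedSpace (EuclideanSpace ℝ (Fin 4)) M]
  [IsManifold (𝓡 4) ∞ M]
  [RiemannianBundle (fun p : M => TangentSpace (𝓡 4) p)]
  [IsContMDiffRiemannianBundle (𝓡 4) ∞ (EuclideanSpace ℝ (Fin 4)) (fun p : M => TangentSpace (𝓡 4) p)]
  [IsRiemannianManifold (𝓡 4) M] [MeasurableSpace M] [BorelSpace M]
  [SecondCountableTopology M] [Nonempty M]

variable {κ : Type} [Fintype κ] {s : PF 4 M κ}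
  {vol : (z : M) → (Fin 4 → TangentSpace 𝓘(ℝ, EuclideanSpace ℝ (Fin 4)) z) → ℝ}
  {T : ToF 4 M}
  {z : M} {e : Fin 4 → EuclideanSpace ℝ (Fin 4) → EuclideanSpace ℝ (Fin 4)}
  (h : ONF (chartMetric 4 M z) (chartAt (EuclideanSpace ℝ (Fin 4)) z).target
      (chartCentre 4 M z) e)

section R

variable {D0 : Dat 4 M (Option (κ × κ))} {D1 : Dat 4 M κ} (G : GRP s vol) (W : WD T G.P D0 D1)
include W

theorem GRP.dn_eq (hve : VolAt vol z e) {c : ℝ}
    (hE : h.frameOf.Einstein (3 * algebraMap ℝ _ c)) (hC : CScal h.frameOf (algebraMap ℝ _ c)) :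
    dn D0 z - dn D1 z =
      12 * c ^ 2 / (32 * Real.pi ^ 2) + 4 * (ev (AA2 h.frameOf) - 3 * c ^ 2) / (192 * Real.pi ^ 2) := by
  obtain ⟨j0, C⟩ := G.cl z e h hve
  rw [W.dn0 C, W.dn1 C]
  exact densR h.frameOf ev hE hC

/-- the potential of the tangent bundle of an Einstein manifold -/
theorem GRP.pot_ein (hve : VolAt vol z e) {lam : ℝ}
    (hE : h.frameOf.Einstein (algebraMap ℝ _ lam)) (a b : κ) :
    D1.Q a b z = lam * D1.p a b z := by
  obtain ⟨j0, C⟩ := G.cl z e h hve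
  have h1 := W.germ1 C
  rw [Q1_ein hE, Matrix.mul_smul, Matrix.mul_one, Matrix.smul_mul, C.l1.jjt] at h1
  have h2 := congrArg ev (congrFun (congrFun h1 a) b)
  rw [Matrix.smul_apply, Matrix.of_apply, Matrix.of_apply, smul_eq_mul, map_mul,
    AlgHom.commutes, Tz805.ev_fg (D1.smQ a b), Tz805.ev_fg (G.P.D1.smp a b)] at h2
  rw [h2, W.p1]
  rfl

end R

section L

variable {E0 : Dat 4 M (Option (κ × κ) × (κ × κ))} {E1 : Dat 4 M (κ × (κ × κ))} (L : GLP κ vol)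
  (W : WD T L.P E0 E1)
include W

theorem GLP.dn_eq (hve : VolAt vol z e) {c : ℝ}
    (hE : h.frameOf.Einstein (3 * algebraMap ℝ _ c)) (hC : CScal h.frameOf (algebraMap ℝ _ c)) :
    dn E0 z - dn E1 z =
      132 * c ^ 2 / (32 * Real.pi ^ 2) +
        12 * (ev (AA2 h.frameOf) - 3 * c ^ 2) / (192 * Real.pi ^ 2) := by
  obtain ⟨j0, j1, C⟩ := L.cl z e h hve
  rw [W.dn0 C, W.dn1 C]
  exact densL h.frameOf ev hE hC

include h in
theorem GLP.rank (hve : VolAt vol z e) : ∑ a, E0.p a a z = 12 ∧ ∑ a, E1.p a a z = 12 := by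
  obtain ⟨j0, j1, C⟩ := L.cl z e h hve
  have h0 := W.rank0 C
  have h1 := W.rank1 C
  simp only [Fintype.card_prod, Fintype.card_fin] at h0 h1
  constructor
  · rw [h0]; norm_num
  · rw [h1]; norm_num

theorem GLP.tr (hve : VolAt vol z e) {c : ℝ}
    (hE : h.frameOf.Einstein (3 * algebraMap ℝ _ c)) (hC : CScal h.frameOf (algebraMap ℝ _ c)) :
    ∑ a, ∑ b, E0.Q a b z * E0.p a b z = ∑ a, ∑ b, E1.Q a b z * E1.p a b z := by
  obtain ⟨j0, j1, C⟩ := L.cl z e h hve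
  rw [W.tr0 C, W.tr1 C, (strQ_L hE hC).1]

end L

/-- **COUNT**: `7 ≤ dim ker D` for `G = Λ⁻` -/
theorem count_of [CompactSpace M] [ConnectedSpace M] (hO : Oriented 4 M) {lam : ℝ}
    (hlam : 0 < lam) (hE : IsEinsteinWith 4 M lam) (hK : HasNonnegSectionalCurvature 4 M)
    {Ψ : T4 → ℝ} (hΨ : QF lam true Ψ) (hq : ∀ x : M, mInv Ψ x = 0)
    (G : GRP s (vol4 (M := M))) (L : GLP κ (vol4 (M := M)))
    {D0 : Dat 4 M (Option (κ × κ))} {D1 : Dat 4 M κ} (W : WD T G.P D0 D1) (R : DPair D0 D1)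
    (hA : R.A = opA G.P.D0 G.P.cc)
    {E0 : Dat 4 M (Option (κ × κ) × (κ × κ))} {E1 : Dat 4 M (κ × (κ × κ))}
    (WL : WD T L.P E0 E1) (RL : DPair E0 E1) :
    ∃ N, 7 ≤ N ∧ Nonempty (KerD E0 RL.A N) := by
  have := Crest.Agent.R247.Ms322.isLocallyFiniteMeasure 4 M
  have z0 : M := Classical.arbitrary M
  have hv := isVol_vol4 hO
  have key := exists_pt hO hE hK hΨ hq
  have hr0 := G.rank W hv
  obtain ⟨d0, d1, K0, K1, hi, hEq⟩ := index_D HK286.chartStmt R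
    (W.exists_ne0 z0 (by rw [(hr0 z0).1]; norm_num))
    (by
      obtain ⟨a, -, ha⟩ := Finset.exists_ne_zero_of_sum_ne_zero
        (show ∑ a, D1.p a a z0 ≠ 0 by rw [(hr0 z0).2]; norm_num)
      exact ⟨z0, a, ha⟩)
    (fun z => by rw [(hr0 z).1, (hr0 z).2]) (fun z => G.tr W hv z)
  have hQ : ∀ a b z, D1.Q a b z = lam * D1.p a b z := by
    intro a b z
    obtain ⟨e, h, hve, hF, -, -⟩ := key z
    rw [three_map] at hF
    exact G.pot_ein h W hve hF a b
  have hd1 : d1 = 0 := kerD_zero K1 fun w hw hs h0 => ker_pos R hlam hQ hw hs h0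
  have hd0 : 1 ≤ d0 := by
    refine kerD_pos K0 (u := cst κ M) sm_cst (G.sec_cst W) (fun y z => ?_) (a := none) (z := z0) ?_
    · rw [hA]
      exact G.A_cst y z
    · exact one_ne_zero
  have hrL : ∀ z, ∑ a, E0.p a a z = 12 ∧ ∑ a, E1.p a a z = 12 := by
    intro z
    obtain ⟨e, h, hve, -⟩ := key z
    exact L.rank h WL hve
  obtain ⟨e0, e1, KL0, KL1, hiL, hEqL⟩ := index_D HK286.chartStmt RL
    (WL.exists_ne0 z0 (by rw [(hrL z0).1]; norm_num))
    (by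
      obtain ⟨a, -, ha⟩ := Finset.exists_ne_zero_of_sum_ne_zero
        (show ∑ a, E1.p a a z0 ≠ 0 by rw [(hrL z0).2]; norm_num)
      exact ⟨z0, a, ha⟩)
    (fun z => by rw [(hrL z).1, (hrL z).2]) (fun z => by
      obtain ⟨e, h, hve, hF, hC, -⟩ := key z
      exact L.tr h WL hve hF hC)
  refine ⟨e0, ?_, ⟨KL0⟩⟩
  have hpi : 0 < Real.pi ^ 2 := by positivity
  refine count (v := (lam / 3) ^ 2 / (16 * Real.pi ^ 2)) hi
    (fL := fun z => dn E0 z - dn E1 z) ?_ ?_ hd0 ?_ hEqL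
  · intro z
    obtain ⟨e, h, hve, hF, hC, -⟩ := key z
    rw [L.dn_eq h WL hve hF hC, G.dn_eq h W hve hF hC]
    field_simp
    ring
  · intro z
    obtain ⟨e, h, hve, hF, hC, hA2⟩ := key z
    rw [G.dn_eq h W hve hF hC]
    have e1 : 14 * ((lam / 3) ^ 2 / (16 * Real.pi ^ 2)) -
        (12 * (lam / 3) ^ 2 / (32 * Real.pi ^ 2) +
          4 * (ev (AA2 h.frameOf) - 3 * (lam / 3) ^ 2) / (192 * Real.pi ^ 2)) =
        4 * (27 * (lam / 3) ^ 2 - ev (AA2 h.frameOf)) / (192 * Real.pi ^ 2) := by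
      field_simp
      ring
    have e2 : 0 ≤ 4 * (27 * (lam / 3) ^ 2 - ev (AA2 h.frameOf)) / (192 * Real.pi ^ 2) := by
      apply div_nonneg <;> nlinarith
    linarith
  · rw [← hEq, hd1]
    simp

end closed

end Crest.Agent.R249.Idx789
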