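import Crest.Agent.R249.Ker57f_57
import Crest.Agent.R249.Idx10_789
import Crest.Agent.R249.Tz6_805
import Crest.Agent.R249.WkD_352
import Crest.Agent.R249.TofM_352

/-!
# R249 part C, [KER] 7 (helper57): `KillStmt` and T-I.
-/

set_option autoImplicit false
set_option linter.unusedSectionVars false
set_option linter.unusedSimpArgs false
set_option maxSynthPendingDepth 3

open Filter Topology Set Bundle Manifold Matrix MeasureTheory
open scoped ContDiff ENNReal NNReal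
open Crest.GeometryTopology.CoordMetric Crest.GeometryTopology.ChartCurvature
  Crest.GeometryTopology.PointedLimit
open Crest.Agent.R202.Tens Crest.Agent.R247.Bo84 Crest.Agent.R249.FrmB_285 Crest.Agent.R249.Vf281
  Crest.Agent.R249.Tz1_805 Crest.Agent.R249.Tz2_805 Crest.Agent.R249.Tz805
open Crest.Agent.R249.Fr129 Crest.Agent.R249.C2_198
open Crest.Agent.R249.Sg129 (ONF SG ev ev_germ)
open Crest.Agent.R249.Tv57 Crest.Agent.R249.HK9_714 Crest.Agent.R249.OriD_285
open Crest.Agent.R249.Vol_285 Crest.Agent.R249.D1Def104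
open Crest.Agent.R249.FrmC_285 Crest.Agent.R249.FrmD_285 Crest.Agent.R249.Trw_285
open Crest.Agent.R249.Idx789

noncomputable section

namespace Crest.Agent.R249.Ker57

section pt

variable {M : Type*} [TopologicalSpace M] [ChartedSpace (EuclideanSpace ℝ (Fin 4)) M]
  [IsManifold 𝓘(ℝ, EuclideanSpace ℝ (Fin 4)) ∞ M]
  [RiemannianBundle (fun x : M => TangentSpace 𝓘(ℝ, EuclideanSpace ℝ (Fin 4)) x)]
  [IsContMDiffRiemannianBundle 𝓘(ℝ, EuclideanSpace ℝ (Fin 4)) ∞ (EuclideanSpace ℝ (Fin 4))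
      (fun x : M => TangentSpace 𝓘(ℝ, EuclideanSpace ℝ (Fin 4)) x)]

/-- frame data at a point of an Einstein manifold with `W⁻ = 0` -/
theorem exists_pos_pt (hO : Oriented 4 M) {lam : ℝ} (hE : IsEinsteinWith 4 M lam)
    {Ψ : T4 → ℝ} (hΨ : QF lam true Ψ)
    (hq : ∀ x : M, mInv Ψ x = 0) (z : M) :
    ∃ e, ∃ h : ONF (chartMetric 4 M z) (chartAt (EuclideanSpace ℝ (Fin 4)) z).target
      (chartCentre 4 M z) e,
      (∀ᶠ w in 𝓝 (chartCentre 4 M z), Orth (chartMetric 4 M z w) (fun i => e i w) ∧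
            0 < (mat fun i => e i w).det) ∧ VolAt vol4 z e ∧
      h.frameOf.Einstein (algebraMap ℝ _ lam) ∧
      CScal h.frameOf (algebraMap ℝ _ (lam / 3)) := by
  obtain ⟨e, h, hpos⟩ := exists_onf (n := 4) z (centre_mem (n := 4) z)
  have hF : h.frameOf.Einstein (algebraMap ℝ (SG _) lam) := by
    refine h.einstein ?_
    filter_upwards [(chartAt _ z).open_target.mem_nhds (centre_mem (n := 4) z)] with y hy
    exact fun i j => einstein_chart hE z hy i j
  have h0 : h.frameOf.flip.qq (algebraMap ℝ (SG _) lam) = 0 := by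
    have h1 := hΨ.eq h (Kg4_285.cd_Phi hΨ.smooth h)
    rw [Kg4_285.germ_const hO hΨ.inv hΨ.smooth h hpos hq, map_zero] at h1
    exact h1
  have h2 := WW_zero h.frameOf.flip _ h0
  have h4 := cscal_of_WW h.frameOf h2
  rw [third_map] at h4
  exact ⟨e, h, hpos, volAt_vol4 hO hpos, hF, h4⟩

variable {vol : (z : M) → (Fin 4 → TangentSpace 𝓘(ℝ, EuclideanSpace ℝ (Fin 4)) z) → ℝ}
variable {κ : Type} [Fintype κ] (s : PF 4 M κ) (hv : IsVol vol)
  {z : M} {e : Fin 4 → EuclideanSpace ℝ (Fin 4) → EuclideanSpace ℝ (Fin 4)}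
  (h : ONF (chartMetric 4 M z) (chartAt (EuclideanSpace ℝ (Fin 4)) z).target
      (chartCentre 4 M z) e)

theorem kerLoc_pairL (hz : VolAt vol z e) :
    KerLoc s vol (pairL s hv).D0 (pairL s hv).D1 h (lamJ s z e)
      (Matrix.kroneckerMap (· * ·) (Tt286.jopt (lamJ s z e)) (lamJ s z e))
      (Matrix.kroneckerMap (· * ·) (tanJ s z e) (lamJ s z e)) where
  jtj := lamJ_jtj s h
  sym := vg_ccR_some s hv h hz
  none_ y a b := frameL_none s y a b
  cl := cloc_L s hv h hz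

end pt

section closed

variable {M : Type} [MetricSpace M] [ChartedSpace (EuclideanSpace ℝ (Fin 4)) M]
  [IsManifold (𝓡 4) ∞ M]
  [RiemannianBundle (fun p : M => TangentSpace (𝓡 4) p)]
  [IsContMDiffRiemannianBundle (𝓡 4) ∞ (EuclideanSpace ℝ (Fin 4)) (fun p : M => TangentSpace (𝓡 4) p)]
  [IsRiemannianManifold (𝓡 4) M] [MeasurableSpace M] [BorelSpace M]
  [SecondCountableTopology M] [Nonempty M]

variable {κ : Type} [Fintype κ]

/-- the record of 789 for `G = ℝ` -/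
def grp (s : PF 4 M κ) {vol : (z : M) → (Fin 4 → TangentSpace (𝓡 4) z) → ℝ} (hv : IsVol vol) :
    GRP s vol where
  P := pairR s hv
  hs := rfl
  hD1 := rfl
  hcc := rfl
  hp0 _ := rfl
  hp1 _ _ := rfl
  hW0 x z := Tt286.bopt_W_n' _ x z
  cl _ _ h hz := ⟨_, cloc_R s hv h hz⟩

/-- the record of 789 for `G = Λ⁻` -/
def glp (s : PF 4 M κ) {vol : (z : M) → (Fin 4 → TangentSpace (𝓡 4) z) → ℝ} (hv : IsVol vol) :
    GLP κ vol where
  P := pairL s hv
  cl _ _ h hz := ⟨_, _, cloc_L s hv h hz⟩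

end closed

/-- **the Killing fields** -/
theorem killStmt : Kg4_285.KillStmt := by
  intro N _ _ _ _ _ _ _ _ hO c hc hE hK hq
  let _ : MeasurableSpace N := borel N
  have _ : BorelSpace N := ⟨rfl⟩
  have _ : Nonempty N := inferInstance
  have _ := Crest.Agent.R247.Ms322.isLocallyFiniteMeasure 4 N
  obtain ⟨m, ⟨s⟩⟩ := exists_PF (n := 4) (M := N)
  have hv : IsVol (vol4 (M := N)) := isVol_vol4 hO
  let T : ToF 4 N := Tof352.tof 4 N
  let PR := pairR s hv
  let PL := pairL s hv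
  have WR : WD T PR (Wk352.dat0 T PR) (Wk352.dat0 T (Wk352.swapP PR)) :=
    ⟨fun _ _ _ => rfl, rfl, rfl, fun _ _ _ => rfl, rfl, rfl⟩
  have WL : WD T PL (Wk352.dat0 T PL) (Wk352.dat0 T (Wk352.swapP PL)) :=
    ⟨fun _ _ _ => rfl, rfl, rfl, fun _ _ _ => rfl, rfl, rfl⟩
  obtain ⟨d, hd, ⟨K⟩⟩ := count_of hO hc hE hK (Qr_285.qfm c) hq (grp s hv) (glp s hv) WR
    (Wk352.dpair T PR) rfl WL (Wk352.dpair T PL)
  obtain ⟨V, hsm, hV, h5, hk⟩ := kill_of_ker (c := c / 3) (vol := vol4 (M := N)) WL rfl (by positivity)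
    (R := Wk352.dpair T PL) rfl (fun A y q => smc_ccR s hv A (some y) q)
    (fun z e => ∀ᶠ w in 𝓝 (chartCentre 4 N z), Orth (chartMetric 4 N z w) (fun i => e i w) ∧
            0 < (mat fun i => e i w).det) (fun z => by
      obtain ⟨e, h, hpos, hve, hF, hC⟩ := exists_pos_pt hO hE (Qr_285.qfm c) hq z
      exact ⟨e, h, hpos, ⟨_, hF⟩, hC, ⟨_, _, _, kerLoc_pairL s hv h hve⟩⟩)
    (by omega) K
  exact ⟨_, _, _, V, hsm, hV, h5, hk⟩

/-- **T-I** -/
theorem tI : Trx_285.TI Qr_285.Qp B2Fin_474.RS B2Fin_474.RC := Kg4_285.tI_of_killing killStmt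

end Crest.Agent.R249.Ker57
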