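import Crest.Agent.R249.B3f_40
import Crest.Agent.R249.Bc_285
import Crest.Agent.R249.Cov5_802
import Crest.Agent.R249.Cov9_802

/-!
Row 249 (helper40): final forms of S0383, S0384, S0385 from the two open inputs
`Top49.ST.{0}` (part A) and `Trx_285.TI Qp RS RC` (part C).
-/

set_option autoImplicit false
set_option maxSynthPendingDepth 3

open scoped ContDiff Manifold
open Bundle Crest.GeometryTopology.CoordMetric Crest.GeometryTopology.ChartCurvature
open Crest Crest.GeometryTopology
open Crest.Agent.R249 Crest.Agent.R249.OriE_285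

noncomputable section

namespace Crest.Agent.R249.Fin40

section

variable (M : Type*) [MetricSpace M] [ChartedSpace (EuclideanSpace ℝ (Fin 4)) M]
    [IsManifold 𝓘(ℝ, EuclideanSpace ℝ (Fin 4)) ∞ M] [CompactSpace M] [ConnectedSpace M]
    [RiemannianBundle (fun x : M => TangentSpace 𝓘(ℝ, EuclideanSpace ℝ (Fin 4)) x)]
    [IsContMDiffRiemannianBundle 𝓘(ℝ, EuclideanSpace ℝ (Fin 4)) ∞ (EuclideanSpace ℝ (Fin 4))
      (fun x : M => TangentSpace 𝓘(ℝ, EuclideanSpace ℝ (Fin 4)) x)]
    [IsRiemannianManifold 𝓘(ℝ, EuclideanSpace ℝ (Fin 4)) M]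

/-- S0384 from the oriented form of S0383. -/
theorem s0384_of (h : S0383Oriented) (c : ℝ) (hc : 0 < c) (hE : IsEinsteinWith 4 M c)
    (hK : HasNonnegSectionalCurvature 4 M)
    (h0 : ∃ x : M, ∃ u v : EuclideanSpace ℝ (Fin 4),
      0 < gramDet (chartMetric 4 M x) (chartCentre 4 M x) u v ∧
        secNumer (chartMetric 4 M x) (chartCentre 4 M x) u v = 0) :
    IsLocallyCoveredBySphereProduct M c :=
  B3f40.s384_of hE (s0383_of_oriented h M c hc hE hK) h0

/-- S0385 from the oriented form of S0383. -/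
theorem s0385_of (h : S0383Oriented) (hE : IsEinstein 4 M) (hK : HasPosSectionalCurvature 4 M) :
    ∃ a : ℝ, 0 < a ∧ (IsHomotheticToRoundSphere M 4 a ∨
      IsHomotheticToComplexProjective M 2 a ∨ IsHomotheticToRealProjective M 4 a) :=
  B3f40.s385_of hE hK (fun c hc h1 h2 => s0383_of_oriented h M c hc h1 h2)
    (fun a ha => Cov5_802.T1 M a ha) (fun a ha => Cov9_802.T2 M a ha)

end

end Crest.Agent.R249.Fin40

end
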