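import Crest.Agent.R249.Flat1_676
import Crest.Agent.R249.Flat2_676

/-!
# R249, leaf D2-FLATLOC, part 3: a flat metric is locally the pull back of the Euclidean one
-/

set_option autoImplicit false
set_option maxSynthPendingDepth 3

open Set Filter Topology Metric
open scoped ContDiff
open Crest.Agent.R244 Crest.Agent.R244.CF
open Crest.GeometryTopology.CoordMetric Crest.GeometryTopology.ChartCurvature

namespace Crest.Agent.R249.Flat676

noncomputable section

variable {n : ℕ}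

local notation "𝔼" => EuclideanSpace ℝ (Fin n)

/-- a positive definite form on `ℝⁿ` is the pull back of the Euclidean one -/
theorem exists_linear_isometry {b : EuclideanSpace ℝ (Fin n) →L[ℝ] EuclideanSpace ℝ (Fin n) →L[ℝ] ℝ}
    (hs : ∀ u v, b u v = b v u) (hp : ∀ v, v ≠ 0 → 0 < b v v) :
    ∃ P : EuclideanSpace ℝ (Fin n) →L[ℝ] EuclideanSpace ℝ (Fin n), ∀ u v,
      b u v = inner ℝ (P u) (P v) := by
  set G : Matrix (Fin n) (Fin n) ℝ := Matrix.of fun i j =>
    b (EuclideanSpace.single i 1) (EuclideanSpace.single j 1) with hG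
  have hbG : ∀ u v : 𝔼, b u v = u.ofLp ⬝ᵥ (G.mulVec v.ofLp) := by
    intro u v
    have hu : ∀ u : 𝔼, u = ∑ i, u i • EuclideanSpace.single i (1 : ℝ) := by
      intro u
      ext k
      simp [Pi.single_apply]
    conv_lhs => rw [hu u, hu v]
    simp only [map_sum, map_smul, sum_apply, smul_apply, smul_eq_mul, dotProduct, Matrix.mulVec,
      hG, Matrix.of_apply, Finset.mul_sum]
    rw [Finset.sum_comm]
    refine Finset.sum_congr rfl fun i _ => Finset.sum_congr rfl fun j _ => ?_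
    ring
  have hPD : G.PosDef := by
    refine Matrix.PosDef.of_dotProduct_mulVec_pos ?_ ?_
    · ext i j
      simp [hG, hs]
    · intro y hy
      have h1 := hbG (WithLp.toLp 2 y) (WithLp.toLp 2 y)
      have h2 := hp (WithLp.toLp 2 y) (by
        intro h0
        apply hy
        have := congrArg (fun z : 𝔼 => z.ofLp) h0
        simpa using this)
      rw [h1] at h2
      simpa using h2
  obtain ⟨B, hB, -⟩ := exists_factor hPD
  refine ⟨(Matrix.toEuclideanLin B).toContinuousLinearMap, fun u v => ?_⟩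
  rw [hbG, hB]
  simp only [LinearMap.coe_toContinuousLinearMap', Matrix.toLpLin_apply,
    EuclideanSpace.inner_eq_star_dotProduct, star_trivial]
  rw [← Matrix.mulVec_mulVec, Matrix.dotProduct_mulVec, Matrix.vecMul_transpose, dotProduct_comm]

/-- **A flat metric is locally the pull back of the Euclidean metric.** -/
theorem exists_flat_map {U : Set (EuclideanSpace ℝ (Fin n))}
    {g : EuclideanSpace ℝ (Fin n) → EuclideanSpace ℝ (Fin n) →L[ℝ] EuclideanSpace ℝ (Fin n) →L[ℝ] ℝ}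
    {Γ : EuclideanSpace ℝ (Fin n) → EuclideanSpace ℝ (Fin n) →L[ℝ] EuclideanSpace ℝ (Fin n) →L[ℝ]
      EuclideanSpace ℝ (Fin n)}
    (h : IsLC U g Γ) (hR : ∀ x ∈ U, ∀ u v w, curv Γ x u v w = 0)
    {x0 : EuclideanSpace ℝ (Fin n)} (hx0 : x0 ∈ U) :
    ∃ r > 0, ball x0 r ⊆ U ∧ ∃ Φ : EuclideanSpace ℝ (Fin n) → EuclideanSpace ℝ (Fin n),
      ContDiffOn ℝ ∞ Φ (ball x0 r) ∧
      ∀ x ∈ ball x0 r, ∀ u v, g x u v = inner ℝ (fderiv ℝ Φ x u) (fderiv ℝ Φ x v) := by
  have hflat : IsFlat U Γ := by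
    intro x hx u v
    ext1 w
    have := hR x hx u v w
    simpa [CF.curv, sub_eq_add_neg, add_assoc] using this
  obtain ⟨P0, hP0⟩ := exists_linear_isometry (b := g x0) (h.g_symm x0 hx0) (h.g_pos x0 hx0)
  obtain ⟨r, hr, hrU, P, hPs, hPx0, hP⟩ := exists_frobenius h.isOpen h.Γ_smooth hflat hx0 P0
  -- the metric is the pull back by `P`
  set I : 𝔼 →L[ℝ] 𝔼 →L[ℝ] ℝ := innerSL ℝ with hI
  set Q : 𝔼 → 𝔼 →L[ℝ] 𝔼 →L[ℝ] ℝ := fun x =>
    ((ContinuousLinearMap.compL ℝ 𝔼 𝔼 ℝ).flip (P x)).comp (I.comp (P x)) with hQ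
  have hQa : ∀ x u v, Q x u v = inner ℝ (P x u) (P x v) := by
    intro x u v
    simp only [hQ, hI, ContinuousLinearMap.comp_apply, ContinuousLinearMap.flip_apply,
      ContinuousLinearMap.compL_apply]
    rfl
  have hQd : ∀ x ∈ ball x0 r, ∃ Q' : 𝔼 →L[ℝ] 𝔼 →L[ℝ] 𝔼 →L[ℝ] ℝ, HasFDerivAt Q Q' x ∧
      ∀ u v w, Q' u v w = inner ℝ (P x (Γ x u v)) (P x w) + inner ℝ (P x v) (P x (Γ x u w)) := by
    intro x hx
    have h1 := ((ContinuousLinearMap.compL ℝ 𝔼 𝔼 ℝ).flip.hasFDerivAt).comp x (hP x hx)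
    have h2 := (ContinuousLinearMap.compL ℝ 𝔼 𝔼 (𝔼 →L[ℝ] ℝ) I).hasFDerivAt.comp x (hP x hx)
    have h3 := h1.clm_comp h2
    refine ⟨_, h3, fun u v w => ?_⟩
    have hIa : ∀ a b : 𝔼, I a b = inner ℝ a b := fun a b => rfl
    simp only [add_apply, ContinuousLinearMap.comp_apply, ContinuousLinearMap.flip_apply,
      ContinuousLinearMap.compL_apply, Function.comp_apply]
    rfl
  choose! Q' hQ1 hQ2 using hQd
  have hgQ : ∀ x ∈ ball x0 r, g x = Q x := by
    intro x hx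
    have h0 := eqOn_zero_of_norm_fderiv_le (H := fun x => g x - Q x)
      (H' := fun x => fderiv ℝ g x - Q' x) (K := fun x => 2 * ‖Γ x‖) (s := ball x0 r)
      (convex_ball x0 r)
      (continuousOn_const.mul ((h.Γ_smooth.continuousOn.mono hrU).norm))
      (fun y hy => (h.g_differentiableAt (hrU hy)).hasFDerivAt.sub (hQ1 y hy))
      (fun y hy => by
        refine ContinuousLinearMap.opNorm_le_bound _ (by positivity) fun u => ?_
        refine ContinuousLinearMap.opNorm_le_bound _ (by positivity) fun v => ?_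
        refine ContinuousLinearMap.opNorm_le_bound _ (by positivity) fun w => ?_
        have e : ((fderiv ℝ g y - Q' y) u) v w
            = (g y - Q y) (Γ y u v) w + (g y - Q y) v (Γ y u w) := by
          simp only [sub_apply]
          rw [h.compat y (hrU hy), hQ2 y hy, hQa, hQa]
          ring
        rw [e]
        have b1 : ‖(g y - Q y) (Γ y u v) w‖ ≤ ‖g y - Q y‖ * (‖Γ y‖ * ‖u‖ * ‖v‖) * ‖w‖ :=
          ((g y - Q y).le_opNorm₂ _ _).trans (by
            gcongr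
            exact (Γ y).le_opNorm₂ u v)
        have b2 : ‖(g y - Q y) v (Γ y u w)‖ ≤ ‖g y - Q y‖ * ‖v‖ * (‖Γ y‖ * ‖u‖ * ‖w‖) :=
          ((g y - Q y).le_opNorm₂ _ _).trans (by
            gcongr
            exact (Γ y).le_opNorm₂ u w)
        calc ‖(g y - Q y) (Γ y u v) w + (g y - Q y) v (Γ y u w)‖
            ≤ ‖(g y - Q y) (Γ y u v) w‖ + ‖(g y - Q y) v (Γ y u w)‖ := norm_add_le _ _
          _ ≤ ‖g y - Q y‖ * (‖Γ y‖ * ‖u‖ * ‖v‖) * ‖w‖
              + ‖g y - Q y‖ * ‖v‖ * (‖Γ y‖ * ‖u‖ * ‖w‖) := add_le_add b1 b2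
          _ = 2 * ‖Γ y‖ * ‖g y - Q y‖ * ‖u‖ * ‖v‖ * ‖w‖ := by ring)
      (x0 := x0) (mem_ball_self hr) (by
        ext u v
        simp only [sub_apply, hQa, hPx0, hP0, sub_self, zero_apply]) x hx
    exact sub_eq_zero.1 h0
  -- the primitive of `P`
  have hPdiff : DifferentiableOn ℝ P (ball x0 r) := fun x hx =>
    (hP x hx).differentiableAt.differentiableWithinAt
  obtain ⟨Φ, hΦ⟩ := (convex_ball x0 r).exists_forall_hasFDerivAt_of_fderiv_symmetric isOpen_ball
    hPdiff (fun x hx u v => by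
      rw [(hP x hx).fderiv]
      simp only [ContinuousLinearMap.comp_apply, ContinuousLinearMap.compL_apply]
      rw [h.Γ_symm x (hrU hx)])
  refine ⟨r, hr, hrU, Φ, ?_, ?_⟩
  · refine (contDiffOn_infty_iff_fderiv_of_isOpen isOpen_ball).2
      ⟨fun x hx => (hΦ x hx).differentiableAt.differentiableWithinAt, ?_⟩
    exact hPs.congr fun x hx => (hΦ x hx).fderiv
  · intro x hx u v
    rw [(hΦ x hx).fderiv, hgQ x hx, hQa]

/-- **A flat metric is locally Euclidean**: there is a diffeomorphism onto an open set which pulls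
back the Euclidean metric to the given one. -/
theorem exists_flat_chart {U : Set (EuclideanSpace ℝ (Fin n))}
    {g : EuclideanSpace ℝ (Fin n) → EuclideanSpace ℝ (Fin n) →L[ℝ] EuclideanSpace ℝ (Fin n) →L[ℝ] ℝ}
    {Γ : EuclideanSpace ℝ (Fin n) → EuclideanSpace ℝ (Fin n) →L[ℝ] EuclideanSpace ℝ (Fin n) →L[ℝ]
      EuclideanSpace ℝ (Fin n)}
    (h : IsLC U g Γ) (hR : ∀ x ∈ U, ∀ u v w, curv Γ x u v w = 0)
    {x0 : EuclideanSpace ℝ (Fin n)} (hx0 : x0 ∈ U) :
    ∃ e : OpenPartialHomeomorph (EuclideanSpace ℝ (Fin n)) (EuclideanSpace ℝ (Fin n)),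
      x0 ∈ e.source ∧ e.source ⊆ U ∧ ContDiffOn ℝ ∞ e e.source ∧
      ContDiffOn ℝ ∞ e.symm e.target ∧
      ∀ x ∈ e.source, ∀ u v, g x u v = inner ℝ (fderiv ℝ e x u) (fderiv ℝ e x v) := by
  obtain ⟨r, hr, hrU, Φ, hΦs, hΦ⟩ := exists_flat_map h hR hx0
  have hCA : ∀ x ∈ ball x0 r, ContDiffAt ℝ ∞ Φ x := fun x hx =>
    hΦs.contDiffAt (isOpen_ball.mem_nhds hx)
  have hinj : ∀ x ∈ ball x0 r, Function.Injective (fderiv ℝ Φ x) := by
    intro x hx
    rw [injective_iff_map_eq_zero]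
    intro v hv
    by_contra hne
    have h1 := h.g_pos x (hrU hx) v hne
    rw [hΦ x hx, hv, inner_zero_left] at h1
    exact lt_irrefl _ h1
  have heq : ∀ x ∈ ball x0 r, ∃ L : 𝔼 ≃L[ℝ] 𝔼, (L : 𝔼 →L[ℝ] 𝔼) = fderiv ℝ Φ x := by
    intro x hx
    refine ⟨(LinearEquiv.ofInjectiveEndo (fderiv ℝ Φ x : 𝔼 →ₗ[ℝ] 𝔼)
      (hinj x hx)).toContinuousLinearEquiv, ?_⟩
    ext v
    rfl
  have hx0r : x0 ∈ ball x0 r := mem_ball_self hr
  obtain ⟨L, hL⟩ := heq x0 hx0r
  have hder : HasFDerivAt Φ (L : 𝔼 →L[ℝ] 𝔼) x0 := by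
    rw [hL]
    exact ((hCA x0 hx0r).differentiableAt (by simp)).hasFDerivAt
  set e0 := (hCA x0 hx0r).toOpenPartialHomeomorph Φ hder (by simp) with he0
  have he0c : ∀ x, e0 x = Φ x := fun x => rfl
  set e := e0.restrOpen (ball x0 r) isOpen_ball with he
  have hec : ∀ x, e x = Φ x := fun x => rfl
  have hsrc : e.source = e0.source ∩ ball x0 r := e0.restrOpen_source _ _
  have hecf : (e : 𝔼 → 𝔼) = Φ := rfl
  refine ⟨e, ?_, ?_, ?_, ?_, ?_⟩
  · rw [hsrc]
    exact ⟨ContDiffAt.mem_toOpenPartialHomeomorph_source _ _ _, hx0r⟩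
  · rw [hsrc]
    exact inter_subset_right.trans hrU
  · rw [hsrc, hecf]
    exact hΦs.mono inter_subset_right
  · intro y hy
    have hys : e.symm y ∈ e.source := e.map_target hy
    have hyr : e.symm y ∈ ball x0 r := by
      rw [hsrc] at hys
      exact hys.2
    obtain ⟨L', hL'⟩ := heq _ hyr
    refine (e.contDiffAt_symm hy (f₀' := L') ?_ ?_).contDiffWithinAt
    · rw [hecf, hL']
      exact ((hCA _ hyr).differentiableAt (by simp)).hasFDerivAt
    · exact hCA _ hyr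
  · intro x hx u v
    rw [hsrc] at hx
    exact hΦ x hx.2 u v

end

end Crest.Agent.R249.Flat676
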