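import Crest.Agent.R249.Flat3_676

/-!
# R249, leaf D2-FLATLOC, part 4: the distance of a flat metric is locally Euclidean

`riemDist_eq_dist` : if the diffeomorphism `e` pulls back the Euclidean metric to `g` near `x0`, then
`riemDist g U y z = dist (e y) (e z)` for `y, z` near `x0` (for the full domain `U`).
-/

set_option autoImplicit false
set_option maxSynthPendingDepth 3

open Set Filter Topology Metric MeasureTheory
open scoped ContDiff
open Crest.Agent.R244 Crest.Agent.R244.CF
open Crest.GeometryTopology.CoordMetric Crest.GeometryTopology.ChartCurvature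

namespace Crest.Agent.R249.Flat676

noncomputable section

variable {n : ℕ}

local notation "𝔼" => EuclideanSpace ℝ (Fin n)

/-- `e` is a diffeomorphism from an open subset of `U` onto an open subset of `ℝⁿ` which pulls the
Euclidean metric back to `g`. -/
structure IsFlatChart (U : Set (EuclideanSpace ℝ (Fin n))) (g : MetricField n)
    (e : OpenPartialHomeomorph (EuclideanSpace ℝ (Fin n)) (EuclideanSpace ℝ (Fin n))) : Prop where
  source_subset : e.source ⊆ U
  smooth : ContDiffOn ℝ ∞ e e.source
  smooth_symm : ContDiffOn ℝ ∞ e.symm e.target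
  isom : ∀ x ∈ e.source, ∀ u v, gB g x u v = inner ℝ (fderiv ℝ e x u) (fderiv ℝ e x v)

variable {U : Set (EuclideanSpace ℝ (Fin n))} {g : MetricField n}
  {e : OpenPartialHomeomorph (EuclideanSpace ℝ (Fin n)) (EuclideanSpace ℝ (Fin n))}

theorem exists_isFlatChart (h : IsRiemannianOn g U)
    (hR : ∀ x ∈ U, ∀ u v w, curv (Gam g) x u v w = 0) {x0 : 𝔼} (hx0 : x0 ∈ U) :
    ∃ e : OpenPartialHomeomorph (EuclideanSpace ℝ (Fin n)) (EuclideanSpace ℝ (Fin n)),
      IsFlatChart U g e ∧ x0 ∈ e.source := by
  obtain ⟨e, h1, h2, h3, h4, h5⟩ := exists_flat_chart (isLC_of_isRiemannianOn h) hR hx0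
  exact ⟨e, ⟨h2, h3, h4, h5⟩, h1⟩

theorem IsFlatChart.sqrt_quadForm (he : IsFlatChart U g e) {x : 𝔼} (hx : x ∈ e.source) (v : 𝔼) :
    Real.sqrt (quadForm g x v) = ‖fderiv ℝ e x v‖ := by
  rw [← gB_self, he.isom x hx, real_inner_self_eq_norm_sq, Real.sqrt_sq (norm_nonneg _)]

theorem continuousOn_speed (h : IsRiemannianOn g U) {γ : ℝ → 𝔼} (hγ : ContDiff ℝ 1 γ)
    {s : Set ℝ} (hs : ∀ t ∈ s, γ t ∈ U) :
    ContinuousOn (fun t => Real.sqrt (quadForm g (γ t) (deriv γ t))) s := by
  have h1 : ContinuousOn (fun t => gB g (γ t)) s :=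
    (contDiffOn_gB h).continuousOn.comp hγ.continuous.continuousOn hs
  have h2 : Continuous (deriv γ) := hγ.continuous_deriv le_rfl
  have h3 : ContinuousOn (fun t => gB g (γ t) (deriv γ t) (deriv γ t)) s :=
    (h1.clm_apply h2.continuousOn).clm_apply h2.continuousOn
  simp only [gB_self] at h3
  exact h3.sqrt

/-- length bound inside a flat chart -/
theorem IsFlatChart.dist_le_integral (he : IsFlatChart U g e)
    {γ : ℝ → 𝔼} (hγ : ContDiff ℝ 1 γ) {b : ℝ} (hb : 0 ≤ b)
    (hs : ∀ t ∈ Icc 0 b, γ t ∈ e.source) :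
    dist (e (γ 0)) (e (γ b)) ≤ ∫ t in (0 : ℝ)..b, Real.sqrt (quadForm g (γ t) (deriv γ t)) := by
  have hd : ∀ t ∈ Icc 0 b, HasDerivAt (fun t => e (γ t)) (fderiv ℝ e (γ t) (deriv γ t)) t := by
    intro t ht
    have h1 : DifferentiableAt ℝ e (γ t) :=
      (he.smooth.contDiffAt (e.open_source.mem_nhds (hs t ht))).differentiableAt (by simp)
    exact h1.hasFDerivAt.comp_hasDerivAt t
      (hγ.differentiable one_ne_zero t).hasDerivAt
  have hsp : ContinuousOn (fun t => fderiv ℝ e (γ t) (deriv γ t)) (Icc 0 b) := by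
    have h1 : ContinuousOn (fderiv ℝ e) e.source :=
      he.smooth.continuousOn_fderiv_of_isOpen e.open_source (by simp)
    have h2 : ContinuousOn (fun t => fderiv ℝ e (γ t)) (Icc 0 b) :=
      h1.comp hγ.continuous.continuousOn hs
    exact h2.clm_apply (hγ.continuous_deriv le_rfl).continuousOn
  have hint : IntervalIntegrable (fun t => fderiv ℝ e (γ t) (deriv γ t)) volume 0 b := by
    apply ContinuousOn.intervalIntegrable
    rwa [uIcc_of_le hb]
  have hftc := intervalIntegral.integral_eq_sub_of_hasDerivAt (a := 0) (b := b)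
    (fun t ht => hd t (by rwa [uIcc_of_le hb] at ht)) hint
  rw [dist_comm, dist_eq_norm, ← hftc]
  refine (intervalIntegral.norm_integral_le_integral_norm hb).trans_eq ?_
  refine intervalIntegral.integral_congr fun t ht => ?_
  rw [uIcc_of_le hb] at ht
  exact (he.sqrt_quadForm (hs t ht) _).symm

/-- the Euclidean lower bound for the length of ANY admissible path between nearby points -/
theorem IsFlatChart.dist_le_curveLength (h : IsRiemannianOn g U) (he : IsFlatChart U g e)
    {c : 𝔼} {R : ℝ} (hR : closedBall c (3 * R) ⊆ e.target)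
    {y z : 𝔼} (hy : y ∈ e.source) (hyR : dist (e y) c < R)
    (hzR : dist (e z) c < R) (γ : AdmissiblePath U y z) :
    dist (e y) (e z) ≤ curveLength g γ.1 := by
  obtain ⟨γ, hγ, h0, h1, hU⟩ := γ
  simp only
  set L := curveLength g γ with hL
  by_contra hlt
  push Not at hlt
  have hcont : ContinuousOn (fun t => Real.sqrt (quadForm g (γ t) (deriv γ t))) (Icc 0 1) :=
    continuousOn_speed h hγ hU
  have hmonoL : ∀ t ∈ Icc (0 : ℝ) 1,
      ∫ s in (0 : ℝ)..t, Real.sqrt (quadForm g (γ s) (deriv γ s)) ≤ L := by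
    intro t ht
    refine intervalIntegral.integral_mono_interval le_rfl ht.1 ht.2
      (Filter.Eventually.of_forall fun s => Real.sqrt_nonneg _) ?_
    apply ContinuousOn.intervalIntegrable
    rwa [uIcc_of_le zero_le_one]
  have hR0 : 0 < R := lt_of_le_of_lt dist_nonneg hyR
  have hL0 : 0 ≤ L := by
    have := hmonoL 0 (left_mem_Icc.2 zero_le_one)
    simpa using this
  have hL2 : L < 2 * R := by
    have := dist_triangle_right (e y) (e z) c
    linarith
  set K : Set 𝔼 := e.symm '' closedBall c (dist (e y) c + L) with hK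
  have hKb : closedBall c (dist (e y) c + L) ⊆ ball c (3 * R) := by
    intro p hp
    rw [mem_closedBall] at hp
    rw [mem_ball]
    linarith
  have hKt : closedBall c (dist (e y) c + L) ⊆ e.target :=
    (hKb.trans ball_subset_closedBall).trans hR
  have hKc : IsCompact K :=
    (isCompact_closedBall c _).image_of_continuousOn (e.continuousOn_symm.mono hKt)
  set O : Set 𝔼 := e.source ∩ e ⁻¹' ball c (3 * R) with hO
  have hOo : IsOpen O := e.isOpen_inter_preimage isOpen_ball
  have hKO : K ⊆ O := by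
    rintro _ ⟨p, hp, rfl⟩
    refine ⟨e.map_target (hKt hp), ?_⟩
    rw [mem_preimage, e.right_inv (hKt hp)]
    exact hKb hp
  -- the first exit time
  have hin : ∀ t ∈ Icc (0 : ℝ) 1, γ t ∈ O := by
    by_contra hne
    push Not at hne
    set A : Set ℝ := Icc (0 : ℝ) 1 ∩ γ ⁻¹' Oᶜ with hA
    have hAc : IsCompact A :=
      isCompact_Icc.inter_right (hOo.isClosed_compl.preimage hγ.continuous)
    have hAne : A.Nonempty := by
      obtain ⟨t, ht, ht'⟩ := hne
      exact ⟨t, ht, ht'⟩
    set T := sInf A with hT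
    have hTA : T ∈ A := hAc.sInf_mem hAne
    have hlow : ∀ t ∈ Icc (0 : ℝ) 1, t < T → γ t ∈ O := by
      intro t ht htT
      by_contra hno
      exact absurd (csInf_le hAc.bddBelow (show t ∈ A from ⟨ht, hno⟩)) (not_le.2 htT)
    have hyO : γ 0 ∈ O := by
      rw [h0]
      refine ⟨hy, ?_⟩
      rw [mem_preimage, mem_ball]
      linarith
    have hT0 : 0 < T := by
      rcases hTA.1.1.eq_or_lt with h | h
      · exact absurd (h ▸ hyO : γ T ∈ O) hTA.2
      · exact h
    have hK' : ∀ t ∈ Ico (0 : ℝ) T, γ t ∈ K := by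
      intro t ht
      have ht1 : t ∈ Icc (0 : ℝ) 1 := ⟨ht.1, ht.2.le.trans hTA.1.2⟩
      have hsub : ∀ s ∈ Icc 0 t, γ s ∈ e.source := fun s hs =>
        (hlow s ⟨hs.1, hs.2.trans ht1.2⟩ (hs.2.trans_lt ht.2)).1
      have h5 := (he.dist_le_integral hγ ht.1 hsub).trans (hmonoL t ht1)
      rw [h0] at h5
      refine ⟨e (γ t), ?_, e.left_inv (hlow t ht1 ht.2).1⟩
      rw [mem_closedBall]
      have := dist_triangle_left (e (γ t)) c (e y)
      linarith
    have hTK : γ T ∈ K := by
      have hcl : IsClosed (γ ⁻¹' K) := hKc.isClosed.preimage hγ.continuous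
      have h6 : Ico 0 T ⊆ γ ⁻¹' K := hK'
      have h7 := hcl.closure_subset_iff.2 h6
      rw [closure_Ico hT0.ne] at h7
      exact h7 ⟨hT0.le, le_rfl⟩
    exact hTA.2 (hKO hTK)
  have hfin := he.dist_le_integral hγ zero_le_one (fun t ht => (hin t ht).1)
  rw [h0, h1] at hfin
  exact absurd hfin (not_le.2 hlt)

/-- The Euclidean segment, read in a flat chart, has the Euclidean length. -/
theorem IsFlatChart.exists_path (he : IsFlatChart U g e)
    {c : 𝔼} {R : ℝ} (hR : ball c R ⊆ e.target)
    {y z : 𝔼} (hy : y ∈ e.source) (hz : z ∈ e.source) (hyR : dist (e y) c < R)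
    (hzR : dist (e z) c < R) :
    ∃ γ : AdmissiblePath U y z, curveLength g γ.1 = dist (e y) (e z) := by
  set l : ℝ → 𝔼 := fun t => e y + Real.smoothTransition t • (e z - e y) with hl
  have hls : ContDiff ℝ ∞ l :=
    contDiff_const.add (Real.smoothTransition.contDiff.smul contDiff_const)
  have hlm : ∀ t, l t ∈ ball c R := by
    intro t
    exact (convex_ball c R).add_smul_sub_mem (mem_ball.2 hyR) (mem_ball.2 hzR)
      ⟨Real.smoothTransition.nonneg t, Real.smoothTransition.le_one t⟩
  set γ : ℝ → 𝔼 := fun t => e.symm (l t) with hγ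
  have hγs : ContDiff ℝ ∞ γ := by
    rw [← contDiffOn_univ]
    exact he.smooth_symm.comp hls.contDiffOn (fun t _ => hR (hlm t))
  have hγ0 : γ 0 = y := by
    simp [hγ, hl, Real.smoothTransition.zero, e.left_inv hy]
  have hγ1 : γ 1 = z := by
    simp [hγ, hl, Real.smoothTransition.one, e.left_inv hz]
  have hγm : ∀ t, γ t ∈ e.source := fun t => e.map_target (hR (hlm t))
  refine ⟨⟨γ, hγs.of_le (by exact ENat.LEInfty.out), hγ0, hγ1,
    fun t _ => he.source_subset (hγm t)⟩, ?_⟩
  have hd : ∀ t, fderiv ℝ e (γ t) (deriv γ t) = deriv Real.smoothTransition t • (e z - e y) := by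
    intro t
    have h1 : DifferentiableAt ℝ e (γ t) :=
      (he.smooth.contDiffAt (e.open_source.mem_nhds (hγm t))).differentiableAt (by simp)
    have h2 : HasDerivAt (fun t => e (γ t)) (fderiv ℝ e (γ t) (deriv γ t)) t :=
      h1.hasFDerivAt.comp_hasDerivAt t (hγs.differentiable (by simp) t).hasDerivAt
    have h3 : (fun t => e (γ t)) = l := by
      funext t
      exact e.right_inv (hR (hlm t))
    rw [h3] at h2
    have h4 : HasDerivAt l (deriv Real.smoothTransition t • (e z - e y)) t :=
      (((Real.smoothTransition.contDiff (n := 1)).differentiable one_ne_zero t).hasDerivAt.smul_const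
        (e z - e y)).const_add (e y)
    exact h2.unique h4
  have hmono : ∀ t, 0 ≤ deriv Real.smoothTransition t := fun t =>
    Real.smoothTransition.monotone.deriv_nonneg
  unfold curveLength
  simp only
  have e1 : ∀ t, Real.sqrt (quadForm g (γ t) (deriv γ t))
      = deriv Real.smoothTransition t * dist (e y) (e z) := by
    intro t
    rw [he.sqrt_quadForm (hγm t), hd t, norm_smul, Real.norm_eq_abs, abs_of_nonneg (hmono t),
      dist_comm, dist_eq_norm]
  simp only [e1]
  have e2 : ∫ t in (0 : ℝ)..1, deriv Real.smoothTransition t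
      = Real.smoothTransition 1 - Real.smoothTransition 0 :=
    intervalIntegral.integral_deriv_eq_sub
      (fun t _ => (Real.smoothTransition.contDiff (n := 1)).differentiable one_ne_zero t)
      (((Real.smoothTransition.contDiff (n := 1)).continuous_deriv le_rfl).intervalIntegrable _ _)
  rw [intervalIntegral.integral_mul_const, e2]
  simp [Real.smoothTransition.zero, Real.smoothTransition.one]

/-- **The distance of a flat metric is locally Euclidean.** -/
theorem IsFlatChart.riemDist_eq (h : IsRiemannianOn g U) (he : IsFlatChart U g e)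
    {c : 𝔼} {R : ℝ} (hR : closedBall c (3 * R) ⊆ e.target)
    {y z : 𝔼} (hy : y ∈ e.source) (hz : z ∈ e.source) (hyR : dist (e y) c < R)
    (hzR : dist (e z) c < R) : riemDist g U y z = dist (e y) (e z) := by
  have hR0 : 0 < R := lt_of_le_of_lt dist_nonneg hyR
  have hball : ball c R ⊆ e.target :=
    ((ball_subset_ball (by linarith)).trans ball_subset_closedBall).trans hR
  obtain ⟨γ, hγ⟩ := he.exists_path hball hy hz hyR hzR
  have hlb : ∀ γ : AdmissiblePath U y z, dist (e y) (e z) ≤ curveLength g γ.1 := fun γ =>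
    he.dist_le_curveLength h hR hy hyR hzR γ
  have : Nonempty (AdmissiblePath U y z) := ⟨γ⟩
  refine le_antisymm ?_ (le_ciInf hlb)
  rw [← hγ]
  exact ciInf_le ⟨dist (e y) (e z), by rintro _ ⟨γ, rfl⟩; exact hlb γ⟩ γ

end

end Crest.Agent.R249.Flat676
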