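import Crest.Agent.R249.OriC_285
import Crest.Agent.R249.Loc2_285

/-!
# R249, leaf ORI (helper285), part D: the oriented cover

`exists_oriented_cover` : a compact connected Riemannian manifold has a compact connected oriented
Riemannian manifold (lowest universe, all template instances) which covers it locally
isometrically.
-/

set_option autoImplicit false
set_option maxSynthPendingDepth 3
set_option linter.unusedSectionVars false
set_option linter.style.haveILetI false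

open Bundle Set Filter Topology Bornology
open scoped ContDiff Manifold
open Crest.GeometryTopology.CoordMetric Crest.GeometryTopology.ChartCurvature
open Crest.Agent.R244.Man Crest.Agent.R247.Bo84 Crest.Agent.R202.Tens
open Crest.Agent.R249.OriA_285 Crest.Agent.R249.OriB_285 Crest.Agent.R249.OriC_285
open Crest.Agent.R249.Mk_285 Crest.Agent.R249.Loc1_285 Crest.Agent.R249.Loc2_285

noncomputable section

namespace Crest.Agent.R249.OriD_285

/-- all preferred charts are compatible with one orientation. -/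
def Oriented (n : ℕ) (N : Type*) [TopologicalSpace N]
    [ChartedSpace (EuclideanSpace ℝ (Fin n)) N] : Prop :=
  ∀ x x' : N, ∀ y ∈ tdom (n := n) x x', 0 < LinearMap.det
    (fderiv ℝ (R247.Bo84.trans x x') y : EuclideanSpace ℝ (Fin n) →ₗ[ℝ] EuclideanSpace ℝ (Fin n))

variable {n : ℕ} {M : Type*} [TopologicalSpace M]
  [ChartedSpace (EuclideanSpace ℝ (Fin n)) M]

local notation "𝔼" => EuclideanSpace ℝ (Fin n)
local notation "𝓘E" => 𝓘(ℝ, EuclideanSpace ℝ (Fin n))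

section

variable [NeZero n] [IsManifold 𝓘(ℝ, EuclideanSpace ℝ (Fin n)) ∞ M]
  {ι : Type} {c : ι → M} {a₀ : ι × Bool} {z₀ : Up (n := n) c a₀}
  {C : Set (glue c a₀ z₀).M} {hC : IsOpen C} {m₀ : (glue c a₀ z₀).M} {hm₀ : m₀ ∈ C}

theorem oriented_sub : Oriented n (sub (glue c a₀ z₀) C hC m₀ hm₀).M := by
  intro x x' y hy
  have hy1 : y ∈ (sub (glue c a₀ z₀) C hC m₀ hm₀).nb x := hy.1
  have h1 := Glue.trans_chartAt_F (sub (glue c a₀ z₀) C hC m₀ hm₀)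
    ((sub (glue c a₀ z₀) C hC m₀ hm₀).nb_subset x hy1) (m := x') hy.2
  exact det_pos_of_trans (trans_of_sub h1)

variable (c a₀ z₀ C hC m₀ hm₀) in
/-- the projection of an open part of the double cover. -/
def prS : (sub (glue c a₀ z₀) C hC m₀ hm₀).M → M :=
  fun x => pr c a₀ z₀ (subMap (glue c a₀ z₀) C hC m₀ hm₀ x)

theorem prS_F {a : ι × Bool} {z : 𝔼} (hz : z ∈ (sub (glue c a₀ z₀) C hC m₀ hm₀).U a) :
    prS c a₀ z₀ C hC m₀ hm₀ ((sub (glue c a₀ z₀) C hC m₀ hm₀).F a z) = Pp c a z := by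
  rw [prS, subMap_F hz, pr_F hz.1]

theorem prS_eventuallyEq (x : (sub (glue c a₀ z₀) C hC m₀ hm₀).M) :
    prS c a₀ z₀ C hC m₀ hm₀ =ᶠ[𝓝 x] fun x' =>
      (chartAt 𝔼 (c ((sub (glue c a₀ z₀) C hC m₀ hm₀).idx x).1)).symm
        (R n ((sub (glue c a₀ z₀) C hC m₀ hm₀).idx x).2 (chartAt 𝔼 x x')) := by
  filter_upwards [chart_source_mem_nhds 𝔼 x] with x' hx'
  have h1 := Glue.F_chartAt (sub (glue c a₀ z₀) C hC m₀ hm₀) hx'
  have h2 := Glue.chartAt_mem_nb (sub (glue c a₀ z₀) C hC m₀ hm₀) hx'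
  conv_lhs => rw [← h1]
  rw [prS_F ((sub (glue c a₀ z₀) C hC m₀ hm₀).nb_subset x h2)]
  rfl

theorem R_chart_mem (x : (sub (glue c a₀ z₀) C hC m₀ hm₀).M) :
    R n ((sub (glue c a₀ z₀) C hC m₀ hm₀).idx x).2 (chartAt 𝔼 x x) ∈
      (chartAt 𝔼 (c ((sub (glue c a₀ z₀) C hC m₀ hm₀).idx x).1)).target := by
  have h2 := Glue.chartAt_mem_nb (sub (glue c a₀ z₀) C hC m₀ hm₀) (mem_chart_source 𝔼 x)
  exact ((sub (glue c a₀ z₀) C hC m₀ hm₀).nb_subset x h2).1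

theorem contMDiff_prS : ContMDiff 𝓘E 𝓘E ∞ (prS c a₀ z₀ C hC m₀ hm₀) := by
  intro x
  refine ContMDiffAt.congr_of_eventuallyEq ?_ (prS_eventuallyEq x)
  have h1 : ContMDiffAt 𝓘E 𝓘E ∞ (chartAt 𝔼 x) x :=
    (contMDiffOn_chart (I := 𝓘E) (x := x)).contMDiffAt (chart_source_mem_nhds 𝔼 x)
  have h2 : ContMDiffAt 𝓘E 𝓘E ∞ (R n ((sub (glue c a₀ z₀) C hC m₀ hm₀).idx x).2)
      (chartAt 𝔼 x x) := (ContinuousLinearMap.contMDiff _).contMDiffAt
  have h3 : ContMDiffAt 𝓘E 𝓘E ∞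
      (chartAt 𝔼 (c ((sub (glue c a₀ z₀) C hC m₀ hm₀).idx x).1)).symm
      (R n ((sub (glue c a₀ z₀) C hC m₀ hm₀).idx x).2 (chartAt 𝔼 x x)) :=
    (contMDiffOn_chart_symm (I := 𝓘E)).contMDiffAt
      ((chartAt 𝔼 (c ((sub (glue c a₀ z₀) C hC m₀ hm₀).idx x).1)).open_target.mem_nhds
        (R_chart_mem x))
  exact h3.comp x (h2.comp x h1)

theorem mfderiv_prS (x : (sub (glue c a₀ z₀) C hC m₀ hm₀).M) (v : 𝔼) :
    mfderiv 𝓘E 𝓘E (prS c a₀ z₀ C hC m₀ hm₀) x v =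
      dSy (c ((sub (glue c a₀ z₀) C hC m₀ hm₀).idx x).1)
        (R n ((sub (glue c a₀ z₀) C hC m₀ hm₀).idx x).2 (chartAt 𝔼 x x))
        (R n ((sub (glue c a₀ z₀) C hC m₀ hm₀).idx x).2 (dCh x x v)) := by
  have e := prS_eventuallyEq (c := c) (a₀ := a₀) (z₀ := z₀) (C := C) (hC := hC) (m₀ := m₀)
    (hm₀ := hm₀) x
  have h1 : MDifferentiableAt 𝓘E 𝓘E (chartAt 𝔼 x) x :=
    (mdifferentiable_chart (I := 𝓘E) x).mdifferentiableAt (mem_chart_source 𝔼 x)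
  have h2 : MDifferentiableAt 𝓘E 𝓘E (R n (Glue.idx (sub (glue c a₀ z₀) C hC m₀ hm₀) x).2) (chartAt 𝔼 x x) :=
    (R n (Glue.idx (sub (glue c a₀ z₀) C hC m₀ hm₀) x).2).differentiableAt.mdifferentiableAt
  have h3 : MDifferentiableAt 𝓘E 𝓘E (chartAt 𝔼 (c (Glue.idx (sub (glue c a₀ z₀) C hC m₀ hm₀) x).1)).symm
      (R n (Glue.idx (sub (glue c a₀ z₀) C hC m₀ hm₀) x).2 (chartAt 𝔼 x x)) :=
    (mdifferentiable_chart (I := 𝓘E) (c (Glue.idx (sub (glue c a₀ z₀) C hC m₀ hm₀) x).1)).mdifferentiableAt_symm (R_chart_mem x)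
  have h4 : MDifferentiableAt 𝓘E 𝓘E (R n (Glue.idx (sub (glue c a₀ z₀) C hC m₀ hm₀) x).2 ∘ chartAt 𝔼 x) x := h2.comp x h1
  have h5 := mfderiv_comp x (g := R n (Glue.idx (sub (glue c a₀ z₀) C hC m₀ hm₀) x).2) (f := chartAt 𝔼 x) h2 h1
  have h6 := mfderiv_comp x (g := (chartAt 𝔼 (c (Glue.idx (sub (glue c a₀ z₀) C hC m₀ hm₀) x).1)).symm)
    (f := R n (Glue.idx (sub (glue c a₀ z₀) C hC m₀ hm₀) x).2 ∘ chartAt 𝔼 x) h3 h4
  have h7 : mfderiv 𝓘E 𝓘E (prS c a₀ z₀ C hC m₀ hm₀) x =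
      mfderiv 𝓘E 𝓘E ((chartAt 𝔼 (c (Glue.idx (sub (glue c a₀ z₀) C hC m₀ hm₀) x).1)).symm ∘ (R n (Glue.idx (sub (glue c a₀ z₀) C hC m₀ hm₀) x).2 ∘ chartAt 𝔼 x)) x :=
    e.mfderiv_eq
  have h8 : mfderiv 𝓘E 𝓘E (R n (Glue.idx (sub (glue c a₀ z₀) C hC m₀ hm₀) x).2) (chartAt 𝔼 x x) = R n (Glue.idx (sub (glue c a₀ z₀) C hC m₀ hm₀) x).2 := by
    rw [mfderiv_eq_fderiv]
    exact (R n (Glue.idx (sub (glue c a₀ z₀) C hC m₀ hm₀) x).2).fderiv
  rw [h7, h6, h5]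
  change (mfderiv 𝓘E 𝓘E (chartAt 𝔼 (c (Glue.idx (sub (glue c a₀ z₀) C hC m₀ hm₀) x).1)).symm (R n (Glue.idx (sub (glue c a₀ z₀) C hC m₀ hm₀) x).2 (chartAt 𝔼 x x)))
    (mfderiv 𝓘E 𝓘E (R n (Glue.idx (sub (glue c a₀ z₀) C hC m₀ hm₀) x).2) (chartAt 𝔼 x x) (mfderiv 𝓘E 𝓘E (chartAt 𝔼 x) x v)) = _
  rw [h8]
  rfl

end

section Metric

variable [NeZero n] [IsManifold 𝓘(ℝ, EuclideanSpace ℝ (Fin n)) ∞ M]
  [RiemannianBundle (fun x : M => TangentSpace 𝓘(ℝ, EuclideanSpace ℝ (Fin n)) x)]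
  [IsContMDiffRiemannianBundle 𝓘(ℝ, EuclideanSpace ℝ (Fin n)) ∞ (EuclideanSpace ℝ (Fin n))
      (fun x : M => TangentSpace 𝓘(ℝ, EuclideanSpace ℝ (Fin n)) x)]
  {ι : Type} {c : ι → M} {a₀ : ι × Bool} {z₀ : Up (n := n) c a₀}
  {C : Set (glue c a₀ z₀).M} {hC : IsOpen C} {m₀ : (glue c a₀ z₀).M} {hm₀ : m₀ ∈ C}

lemma bil_mat {G : Glue ι n} (D : G.MetricData) (i : ι) (z u v : 𝔼) :
    bil (D.mat i z) u v = D.g i z u v := by
  rw [bil_apply]
  conv_rhs => rw [eq_sum_single u, eq_sum_single v]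
  simp only [map_sum, sum_apply, map_smul, smul_apply, smul_eq_mul, Finset.mul_sum,
    Glue.MetricData.mat, Matrix.of_apply]
  rw [Finset.sum_comm]
  refine Finset.sum_congr rfl fun i _ => Finset.sum_congr rfl fun j _ => ?_
  ring

theorem locIso_prS :
    letI : RiemannianBundle (fun x : (sub (glue c a₀ z₀) C hC m₀ hm₀).M => TangentSpace 𝓘E x) :=
      ⟨(subMetric (mdat c)).toMetric.toRiemannianMetric⟩
    LocIso n (prS c a₀ z₀ C hC m₀ hm₀) := by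
  letI : RiemannianBundle (fun x : (sub (glue c a₀ z₀) C hC m₀ hm₀).M => TangentSpace 𝓘E x) :=
      ⟨(subMetric (mdat c)).toMetric.toRiemannianMetric⟩
  refine ⟨contMDiff_prS, ?_⟩
  intro x v w
  have h1 := inner_eq_bil x (mem_chart_source 𝔼 x) v w
  have hnb : chartAt 𝔼 x x ∈ Glue.nb (sub (glue c a₀ z₀) C hC m₀ hm₀) x := Glue.chartAt_mem_nb (sub (glue c a₀ z₀) C hC m₀ hm₀) (mem_chart_source 𝔼 x)
  have h2 : chartMetric n (Glue.M (sub (glue c a₀ z₀) C hC m₀ hm₀)) x (chartAt 𝔼 x x) =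
      (subMetric (mdat c) : Glue.MetricData (sub (glue c a₀ z₀) C hC m₀ hm₀)).mat (Glue.idx (sub (glue c a₀ z₀) C hC m₀ hm₀) x) (chartAt 𝔼 x x) :=
    Glue.MetricData.metricInChart_eq (subMetric (mdat c)) x hnb
  rw [h2, bil_mat] at h1
  have h3 : (subMetric (mdat c) : Glue.MetricData (sub (glue c a₀ z₀) C hC m₀ hm₀)).g (Glue.idx (sub (glue c a₀ z₀) C hC m₀ hm₀) x) (chartAt 𝔼 x x) (dCh x x v)
      (dCh x x w) = gp c (Glue.idx (sub (glue c a₀ z₀) C hC m₀ hm₀) x) (chartAt 𝔼 x x) (dCh x x v) (dCh x x w) := rfl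
  rw [h3, gp_apply, bil_chartMetric] at h1
  rw [h1]
  have h4 : prS c a₀ z₀ C hC m₀ hm₀ x =
      (chartAt 𝔼 (c (Glue.idx (sub (glue c a₀ z₀) C hC m₀ hm₀) x).1)).symm (R n (Glue.idx (sub (glue c a₀ z₀) C hC m₀ hm₀) x).2 (chartAt 𝔼 x x)) :=
    (prS_eventuallyEq x).self_of_nhds
  have h5 := inner_congr (n := n) h4
    (dSy (c (Glue.idx (sub (glue c a₀ z₀) C hC m₀ hm₀) x).1) (R n (Glue.idx (sub (glue c a₀ z₀) C hC m₀ hm₀) x).2 (chartAt 𝔼 x x)) (R n (Glue.idx (sub (glue c a₀ z₀) C hC m₀ hm₀) x).2 (dCh x x v)))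
    (dSy (c (Glue.idx (sub (glue c a₀ z₀) C hC m₀ hm₀) x).1) (R n (Glue.idx (sub (glue c a₀ z₀) C hC m₀ hm₀) x).2 (chartAt 𝔼 x x)) (R n (Glue.idx (sub (glue c a₀ z₀) C hC m₀ hm₀) x).2 (dCh x x w)))
  have h6 := mfderiv_prS (c := c) (a₀ := a₀) (z₀ := z₀) (C := C) (hC := hC) (m₀ := m₀)
    (hm₀ := hm₀) x v
  have h7 := mfderiv_prS (c := c) (a₀ := a₀) (z₀ := z₀) (C := C) (hC := hC) (m₀ := m₀)
    (hm₀ := hm₀) x w
  exact (congrArg₂ (fun a b : 𝔼 => @inner ℝ (TangentSpace 𝓘E (prS c a₀ z₀ C hC m₀ hm₀ x)) _ a b)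
    h6 h7).trans h5

variable (n M) in
/-- **the oriented cover.** -/
theorem exists_oriented_cover [T2Space M] [CompactSpace M] [ConnectedSpace M] :
    ∃ (G : Geo n) (ϖ : G.S → M), CompactSpace G.S ∧ Oriented n G.S ∧
      Function.Surjective ϖ ∧ LocIso n ϖ := by
  obtain ⟨k, c, K, hK, hKt, hc⟩ := exists_finite_cover n M
  obtain ⟨p⟩ : Nonempty M := inferInstance
  obtain ⟨i₀, y₀, hy₀, -⟩ := hc p
  let z₀ : Up (n := n) c (i₀, false) := ⟨y₀, hKt i₀ hy₀⟩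
  haveI : T2Space (glue c (i₀, false) z₀).M := t2Space_glue
  haveI : CompactSpace (glue c (i₀, false) z₀).M := compactSpace_glue K hK hKt hc
  haveI : LocallyConnectedSpace (glue c (i₀, false) z₀).M := ChartedSpace.locallyConnectedSpace 𝔼 _
  let m₀ : (glue c (i₀, false) z₀).M := (glue c (i₀, false) z₀).proj (glue c (i₀, false) z₀).base
  let C : Set (glue c (i₀, false) z₀).M := connectedComponent m₀
  have hC : IsOpen C := isOpen_connectedComponent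
  have hm₀ : m₀ ∈ C := mem_connectedComponent
  have hCc : IsCompact C := isClosed_connectedComponent.isCompact
  haveI : T2Space (sub (glue c (i₀, false) z₀) C hC m₀ hm₀).M := t2Space_sub
  haveI : CompactSpace (sub (glue c (i₀, false) z₀) C hC m₀ hm₀).M := compactSpace_sub hCc
  haveI : ConnectedSpace (sub (glue c (i₀, false) z₀) C hC m₀ hm₀).M :=
    connectedSpace_sub isConnected_connectedComponent
  let G : Geo n :=
    { X := (sub (glue c (i₀, false) z₀) C hC m₀ hm₀).M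
      top := inferInstance
      t3 := inferInstance
      conn := inferInstance
      chs := inferInstance
      mfd := inferInstance
      g := (subMetric (mdat c)).toMetric }
  refine ⟨G, prS c (i₀, false) z₀ C hC m₀ hm₀, ?_, ?_, ?_, ?_⟩
  · exact (inferInstance : CompactSpace (sub (glue c (i₀, false) z₀) C hC m₀ hm₀).M)
  · exact oriented_sub
  · have h1 : range (prS c (i₀, false) z₀ C hC m₀ hm₀) =
        pr c (i₀, false) z₀ '' C := by
      have h0 : prS c (i₀, false) z₀ C hC m₀ hm₀ =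
        pr c (i₀, false) z₀ ∘ subMap (glue c (i₀, false) z₀) C hC m₀ hm₀ := rfl
      rw [h0, range_comp, range_subMap]
    have h2 : IsOpen (pr c (i₀, false) z₀ '' C) := isOpenMap_pr C hC
    have h3 : IsClosed (pr c (i₀, false) z₀ '' C) := (hCc.image continuous_pr).isClosed
    have h4 : pr c (i₀, false) z₀ '' C = univ :=
      IsClopen.eq_univ ⟨h3, h2⟩ ⟨_, ⟨m₀, hm₀, rfl⟩⟩
    exact range_eq_univ.1 (h1.trans h4)
  · exact locIso_prS

end Metric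

end Crest.Agent.R249.OriD_285
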