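import Crest.Agent.R249.HK8B_286

/-!
# Row 249, PART C, leaf HK8 (helper286), part C: the metric family and the connection family in the adapted gauge.
-/

set_option autoImplicit false
set_option linter.unusedSectionVars false
open scoped ContDiff Topology Matrix
open MeasureTheory Set Metric Filter

namespace Crest.Agent.R249.HK8_286
open Crest.Agent.R249.HK286 Crest.Agent.R249.HK352 Crest.Agent.R249.HK9_714

section met
variable {V C : Set E4} {R : ℝ} (G : Geo V C R) (m : CMet V)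

theorem ell_aux : ∃ c > 0, ∀ (y : C) (x : E4) (v : Fin 4 → ℝ),
    c * ∑ a, v a ^ 2 ≤ ∑ a, ∑ b, m.g a b (y.1 + Th G.pos x) * v a * v b := by
  have hcpt : IsCompact (((fun p : E4 × E4 => p.1 + p.2) '' (C ×ˢ closedBall (0 : E4) (2 * R))) ×ˢ
      (sphere (0 : E4) 1)) := G.cptK.prod (isCompact_sphere _ _)
  have hcont : ContinuousOn (fun u : E4 × E4 => ∑ a, ∑ b, m.g a b u.1 * u.2 a * u.2 b)
      (((fun p : E4 × E4 => p.1 + p.2) '' (C ×ˢ closedBall (0 : E4) (2 * R))) ×ˢ (sphere (0 : E4) 1)) := by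
    refine continuousOn_finsetSum _ fun a _ => continuousOn_finsetSum _ fun b _ => ?_
    refine ContinuousOn.mul (ContinuousOn.mul ?_ ?_) ?_
    · exact (m.smg a b).continuousOn.comp continuous_fst.continuousOn fun u hu => G.subK hu.1
    · exact Continuous.continuousOn (by fun_prop)
    · exact Continuous.continuousOn (by fun_prop)
  have hpos : ∀ u ∈ (((fun p : E4 × E4 => p.1 + p.2) '' (C ×ˢ closedBall (0 : E4) (2 * R))) ×ˢ
      (sphere (0 : E4) 1)), 0 < ∑ a, ∑ b, m.g a b u.1 * u.2 a * u.2 b := by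
    rintro ⟨z, v⟩ ⟨hz, hv⟩
    refine m.pos z (G.subK hz) (fun a => v a) fun h0 => ?_
    have : v = 0 := by
      ext a
      exact congrFun h0 a
    rw [this] at hv
    simp at hv
  obtain ⟨c, hc, hc2⟩ := hcpt.exists_forall_le' hcont hpos
  refine ⟨c, hc, fun y x v => ?_⟩
  by_cases hv : v = 0
  · subst hv; simp
  set s : ℝ := ∑ a, v a ^ 2 with hs
  have hs0 : 0 < s := by
    obtain ⟨a, ha⟩ := Function.ne_iff.1 hv
    have h1 : 0 < v a ^ 2 := by
      have : v a ≠ 0 := ha
      positivity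
    exact lt_of_lt_of_le h1 (Finset.single_le_sum (f := fun a => v a ^ 2) (fun b _ => sq_nonneg _) (Finset.mem_univ a))
  set r : ℝ := Real.sqrt s with hr
  have hr0 : 0 < r := Real.sqrt_pos.2 hs0
  have hrr : r ^ 2 = s := Real.sq_sqrt hs0.le
  set e : E4 := WithLp.toLp 2 (fun a => v a / r) with he
  have hen : ‖e‖ = 1 := by
    rw [EuclideanSpace.norm_eq]
    have : ∑ a, ‖e a‖ ^ 2 = 1 := by
      have h1 : ∀ a, ‖e a‖ ^ 2 = v a ^ 2 / s := fun a => by
        rw [Real.norm_eq_abs, sq_abs]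
        show (v a / r) ^ 2 = _
        rw [div_pow, hrr]
      simp only [h1]
      rw [← Finset.sum_div, ← hs, div_self hs0.ne']
    rw [this, Real.sqrt_one]
  have h2 := hc2 (y.1 + Th G.pos x, e) ⟨G.memK y x, by rw [mem_sphere_zero_iff_norm]; exact hen⟩
  have h3 : ∑ a, ∑ b, m.g a b (y.1 + Th G.pos x) * e a * e b
      = (∑ a, ∑ b, m.g a b (y.1 + Th G.pos x) * v a * v b) / s := by
    rw [Finset.sum_div]
    refine Finset.sum_congr rfl fun a _ => ?_
    rw [Finset.sum_div]
    refine Finset.sum_congr rfl fun b _ => ?_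
    show m.g a b (y.1 + Th G.pos x) * (v a / r) * (v b / r) = _
    rw [← hrr]
    field_simp
  have h4 : c ≤ (∑ a, ∑ b, m.g a b (y.1 + Th G.pos x) * v a * v b) / s := by
    rw [← h3]; exact h2
  rwa [le_div_iff₀ hs0] at h4

theorem wpos_aux : ∃ c > 0, ∀ (y : C) (x : E4), c ≤ m.w (y.1 + Th G.pos x) := by
  obtain ⟨c, hc, hc2⟩ := G.cptK.exists_forall_le' (m.smw.continuousOn.mono G.subK)
    (fun z hz => m.wpos z (G.subK hz))
  exact ⟨c, hc, fun y x => hc2 _ (G.memK y x)⟩

/-- the family of metrics `g(y + Θ x)` -/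
noncomputable def mkM : Met C where
  g y a b x := m.g a b (y.1 + Th G.pos x)
  h y a b x := m.h a b (y.1 + Th G.pos x)
  w y x := m.w (y.1 + Th G.pos x)
  ubg a b := G.ub (m.smg a b)
  ubh a b := G.ub (m.smh a b)
  ubw := G.ub m.smw
  gsymm y a b x := m.gsymm a b _ (G.memTh y x)
  hsymm y a b x := m.hsymm a b _ (G.memTh y x)
  inv y a b x := m.inv a b _ (G.memTh y x)
  ell := ell_aux G m
  wpos := wpos_aux G m
  wdet y x := m.wdet _ (G.memTh y x)

end met

/-! ### shifted derivatives -/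

theorem pd_shift (l : Fin 4) (f : E4 → ℝ) (y x : E4) : pd l (fun z => f (y + z)) x = pd l f (y + x) := by
  rw [pd, pd, fderiv_comp_add_left]

theorem Th_evx {R : ℝ} (hR : 0 < R) {x : E4} (hx : ‖x‖ < R) : ∀ᶠ z in 𝓝 x, Th hR z = z := by
  have : ball (0 : E4) R ∈ 𝓝 x := isOpen_ball.mem_nhds (by rwa [mem_ball_zero_iff])
  filter_upwards [this] with z hz
  rw [mem_ball_zero_iff] at hz
  exact Th_eq hR hz.le

theorem pd_Th {R : ℝ} (hR : 0 < R) (l : Fin 4) (f : E4 → ℝ) (y : E4) {x : E4} (hx : ‖x‖ < R) :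
    pd l (fun z => f (y + Th hR z)) x = pd l f (y + x) := by
  rw [← pd_shift]
  exact pd_congr ((Th_evx hR hx).mono fun z hz => by rw [hz]) l

section con
variable {κ : Type} [Fintype κ] [DecidableEq κ] {V C : Set E4} {R : ℝ} (G : Geo V C R) (A : CCon V κ)

/-- the connection matrices -/
noncomputable def Am (j : Fin 4) (z : E4) : Matrix κ κ ℝ := Matrix.of fun p q => A.a j p q z
noncomputable def Pm (z : E4) : Matrix κ κ ℝ := Matrix.of fun p q => A.P p q z
noncomputable def Fm (j l : Fin 4) (z : E4) : Matrix κ κ ℝ := Matrix.of fun p q => A.F j l p q z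

theorem Am_skew (j : Fin 4) {z : E4} (hz : z ∈ V) : (Am A j z)ᵀ = -Am A j z := by
  ext p q
  simp only [Am, Matrix.transpose_apply, Matrix.of_apply, Matrix.neg_apply]
  exact A.askew j q p z hz

theorem Pm_symm {z : E4} (hz : z ∈ V) : (Pm A z)ᵀ = Pm A z := by
  ext p q
  simp only [Pm, Matrix.transpose_apply, Matrix.of_apply]
  exact A.Psymm q p z hz

theorem Fm_eq (j l : Fin 4) (z : E4) :
    Fm A j l z = dM j (Am A l) z - dM l (Am A j) z + (Am A j z * Am A l z - Am A l z * Am A j z) := by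
  ext p q
  simp only [Fm, Am, dM, Matrix.of_apply, Matrix.add_apply, Matrix.sub_apply, Matrix.mul_apply, CCon.F,
    ← Finset.sum_sub_distrib]

theorem Fm_anti (j l : Fin 4) (z : E4) : Fm A j l z = -Fm A l j z := by
  rw [Fm_eq, Fm_eq]; abel

/-- gauge transformed connection matrices -/
noncomputable def ac (y : C) (j : Fin 4) (x : E4) : Matrix κ κ ℝ :=
  (Tm G A y x)ᵀ * dM j (Tm G A y) x + (Tm G A y x)ᵀ * (Am A j (y.1 + Th G.pos x) * Tm G A y x)

noncomputable def Pc (y : C) (x : E4) : Matrix κ κ ℝ :=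
  (Tm G A y x)ᵀ * (Pm A (y.1 + Th G.pos x) * Tm G A y x)

theorem sm_AmTh (y : C) (j : Fin 4) : SM (fun x => Am A j (y.1 + Th G.pos x)) := fun p q => G.sm (A.sma j p q) y

theorem ub_ac (j : Fin 4) (p q : κ) : UB (fun (y : C) x => ac G A y j x p q) := by
  have h1 : ∀ p q, UB (fun (y : C) x => (Tm G A y x)ᵀ p q) := fun p q => ub_Tm G A q p
  have h2 : ∀ p q, UB (fun (y : C) x => dM j (Tm G A y) x p q) := fun p q => UB.pd (ub_Tm G A p q) j
  have h3 : ∀ p q, UB (fun (y : C) x => Am A j (y.1 + Th G.pos x) p q) := fun p q => G.ub (A.sma j p q)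
  exact UB.add (UB_mmul h1 h2 p q) (UB_mmul h1 (fun p q => UB_mmul h3 (ub_Tm G A) p q) p q)

theorem ub_Pc (p q : κ) : UB (fun (y : C) x => Pc G A y x p q) := by
  have h1 : ∀ p q, UB (fun (y : C) x => (Tm G A y x)ᵀ p q) := fun p q => ub_Tm G A q p
  have h3 : ∀ p q, UB (fun (y : C) x => Pm A (y.1 + Th G.pos x) p q) := fun p q => G.ub (A.smP p q)
  exact UB_mmul h1 (fun p q => UB_mmul h3 (ub_Tm G A) p q) p q

/-- `(∂_j T)ᵀ T = - Tᵀ ∂_j T` -/
theorem dT_orth (y : C) (j : Fin 4) (x : E4) :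
    (dM j (Tm G A y) x)ᵀ * Tm G A y x = -((Tm G A y x)ᵀ * dM j (Tm G A y) x) := by
  have hT := sm_Tm G A y
  have h : dM j (fun x => (Tm G A y x)ᵀ * Tm G A y x) x = 0 := by
    have : (fun x => (Tm G A y x)ᵀ * Tm G A y x) = fun _ => 1 := by
      funext z; exact Tm_orth G A y z
    rw [this, dM_const]
  rw [dM_mul (hT.t.dx x) (hT.dx x), dM_transpose] at h
  exact eq_neg_of_add_eq_zero_left h

theorem ac_skew (y : C) (j : Fin 4) (x : E4) : (ac G A y j x)ᵀ = -ac G A y j x := by
  rw [ac, Matrix.transpose_add, Matrix.transpose_mul, Matrix.transpose_mul, Matrix.transpose_mul,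
    Matrix.transpose_transpose, dT_orth, Am_skew A j (G.memTh y x)]
  rw [neg_add, Matrix.mul_neg, Matrix.neg_mul, Matrix.mul_assoc]

theorem Pc_symm (y : C) (x : E4) : (Pc G A y x)ᵀ = Pc G A y x := by
  rw [Pc, Matrix.transpose_mul, Matrix.transpose_mul, Matrix.transpose_transpose, Pm_symm A (G.memTh y x),
    Matrix.mul_assoc]

theorem Pc_trace (y : C) (x : E4) : (Pc G A y x).trace = (Pm A (y.1 + Th G.pos x)).trace := by
  rw [Pc, Matrix.trace_mul_comm, Matrix.mul_assoc, Tm_orth', Matrix.mul_one]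

include G in
theorem y_mem (y : C) : y.1 ∈ V := by
  have := G.memTh y 0
  rwa [Th_zero, add_zero] at this

/-- first derivative of `B` near the origin -/
theorem dBm_near (y : C) (l : Fin 4) : ∀ᶠ x in 𝓝 (0 : E4), dM l (Bm G A y) x
    = (-(1 / 2) : ℝ) • ((∑ j, x j • dM l (fun z => Am A j (y.1 + Th G.pos z)) x)
      + (Am A l (y.1 + Th G.pos x) + Am A l y.1)) := by
  have h0 : ∀ᶠ x in 𝓝 (0 : E4), ‖x‖ < R := by
    have : ball (0 : E4) R ∈ 𝓝 (0 : E4) := ball_mem_nhds _ G.pos
    filter_upwards [this] with x hx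
    rwa [mem_ball_zero_iff] at hx
  filter_upwards [h0] with x hx
  ext p q
  have e1 : (fun z => Bm G A y z p q) =ᶠ[𝓝 x]
      fun z => -(1 / 2) * ∑ j, (A.a j p q (y.1 + Th G.pos z) + A.a j p q y.1) * z j := by
    filter_upwards [Th_evx G.pos hx] with z hz
    simp only [Bm, Bt, Matrix.of_apply, hz]
  have hd : ∀ j, DifferentiableAt ℝ (fun z => A.a j p q (y.1 + Th G.pos z)) x := fun j =>
    ((G.sm (A.sma j p q) y).differentiable (by simp)) x
  have hz : ∀ j : Fin 4, DifferentiableAt ℝ (fun z : E4 => z j) x := fun j => by fun_prop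
  have hpz : ∀ j : Fin 4, pd l (fun z : E4 => z j) x = if j = l then 1 else 0 := by
    intro j
    have h1 : HasFDerivAt (fun z : E4 => z j) (EuclideanSpace.proj j : E4 →L[ℝ] ℝ) x :=
      (EuclideanSpace.proj j : E4 →L[ℝ] ℝ).hasFDerivAt
    rw [pd, h1.fderiv]
    simp
  rw [dM, Matrix.of_apply, pd_congr e1 l]
  rw [pd_const_mul (f := fun z => ∑ j, (A.a j p q (y.1 + Th G.pos z) + A.a j p q y.1) * z j)
    (DifferentiableAt.fun_sum fun j _ => ((hd j).add_const _).mul (hz j))]
  rw [pd_sum (f := fun j z => (A.a j p q (y.1 + Th G.pos z) + A.a j p q y.1) * z j) Finset.univ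
    (fun j _ => ((hd j).add_const _).mul (hz j))]
  have e2 : ∀ j, pd l (fun z => (A.a j p q (y.1 + Th G.pos z) + A.a j p q y.1) * z j) x
      = x j * pd l (fun z => A.a j p q (y.1 + Th G.pos z)) x
        + (A.a j p q (y.1 + Th G.pos x) + A.a j p q y.1) * (if j = l then 1 else 0) := by
    intro j
    rw [pd_mul (f := fun z => A.a j p q (y.1 + Th G.pos z) + A.a j p q y.1) ((hd j).add_const _) (hz j) l, hpz,
      pd_add (hd j) (differentiableAt_const _), pd_const]
    ring
  simp only [e2, Finset.sum_add_distrib, mul_ite, mul_one, mul_zero, Finset.sum_ite_eq', Finset.mem_univ, if_true]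
  simp only [Matrix.smul_apply, Matrix.add_apply, smul_eq_mul, Matrix.sum_apply, dM, Am, Matrix.of_apply]

theorem dBm_zero (y : C) (l : Fin 4) : dM l (Bm G A y) 0 = -Am A l y.1 := by
  have h := (dBm_near G A y l).self_of_nhds
  rw [h]
  ext p q
  simp only [PiLp.zero_apply, zero_smul, Finset.sum_const_zero, zero_add, Th_zero, add_zero, Matrix.smul_apply,
    Matrix.add_apply, Matrix.neg_apply, smul_eq_mul]
  ring

theorem ddBm_zero (y : C) (m l : Fin 4) : dM m (dM l (Bm G A y)) 0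
    = (-(1 / 2) : ℝ) • (dM l (Am A m) y.1 + dM m (Am A l) y.1) := by
  have h : dM l (Bm G A y) =ᶠ[𝓝 0] _ := dBm_near G A y l
  rw [dM_congr h m]
  ext p q
  have hd : ∀ j, DifferentiableAt ℝ (fun z => A.a j p q (y.1 + Th G.pos z)) (0:E4) := fun j =>
    ((G.sm (A.sma j p q) y).differentiable (by simp)) 0
  have hdd : ∀ j, DifferentiableAt ℝ (fun x => pd l (fun z => A.a j p q (y.1 + Th G.pos z)) x) (0:E4) := fun j =>
    ((contDiff_pd (G.sm (A.sma j p q) y) l).differentiable (by simp)) 0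
  have hz : ∀ j : Fin 4, DifferentiableAt ℝ (fun z : E4 => z j) (0:E4) := fun j => by fun_prop
  have hpz : ∀ j : Fin 4, pd m (fun z : E4 => z j) (0:E4) = if j = m then 1 else 0 := by
    intro j
    have h1 : HasFDerivAt (fun z : E4 => z j) (EuclideanSpace.proj j : E4 →L[ℝ] ℝ) (0:E4) :=
      (EuclideanSpace.proj j : E4 →L[ℝ] ℝ).hasFDerivAt
    rw [pd, h1.fderiv]
    simp
  have hR : ‖(0:E4)‖ < R := by rw [norm_zero]; exact G.pos
  simp only [dM, Am, Matrix.of_apply, Matrix.smul_apply, Matrix.add_apply, Matrix.sum_apply, smul_eq_mul]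
  rw [pd_const_mul (f := fun x : E4 => (∑ j, x j * pd l (fun z => A.a j p q (y.1 + Th G.pos z)) x)
      + (A.a l p q (y.1 + Th G.pos x) + A.a l p q y.1))
    ((DifferentiableAt.fun_sum fun j _ => (hz j).mul (hdd j)).add ((hd l).add_const _))]
  rw [pd_add (f := fun x : E4 => (∑ j, x j * pd l (fun z => A.a j p q (y.1 + Th G.pos z)) x))
    (DifferentiableAt.fun_sum fun j _ => (hz j).mul (hdd j)) ((hd l).add_const _),
    pd_add (hd l) (differentiableAt_const _), pd_const,
    pd_sum (f := fun j (x : E4) => x j * pd l (fun z => A.a j p q (y.1 + Th G.pos z)) x) Finset.univ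
      (fun j _ => (hz j).mul (hdd j))]
  have e2 : ∀ j : Fin 4, pd m (fun x : E4 => x j * pd l (fun z => A.a j p q (y.1 + Th G.pos z)) x) 0
      = (if j = m then 1 else 0) * pd l (A.a j p q) y.1 := by
    intro j
    rw [pd_mul (f := fun x : E4 => x j) (hz j) (hdd j) m, hpz, pd_Th G.pos l _ _ hR]
    simp
  simp only [e2, ite_mul, one_mul, zero_mul, Finset.sum_ite_eq', Finset.mem_univ, if_true]
  rw [pd_Th G.pos m _ _ hR, add_zero, add_zero]

/-- `a_j = 0` at the origin -/
theorem ac_zero (y : C) (j : Fin 4) : ac G A y j 0 = 0 := by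
  rw [ac, Tm_zero, dTm_zero, dBm_zero, Th_zero, add_zero, Matrix.mul_one, Matrix.transpose_one, Matrix.one_mul,
    Matrix.one_mul, neg_add_cancel]

/-- `∂_l a_j (0) = (1/2) F_{lj}(y)` -/
theorem dac_zero (y : C) (l j : Fin 4) : dM l (ac G A y j) 0 = (1 / 2 : ℝ) • Fm A l j y.1 := by
  have hT := sm_Tm G A y
  have hA := sm_AmTh G A y j
  have hR : ‖(0:E4)‖ < R := by rw [norm_zero]; exact G.pos
  have hdA : dM l (fun x => Am A j (y.1 + Th G.pos x)) 0 = dM l (Am A j) y.1 := by
    ext p q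
    simp only [dM, Am, Matrix.of_apply]
    rw [pd_Th G.pos l _ _ hR, add_zero]
  have h1 : dM l (ac G A y j) 0 = dM l (fun x => (Tm G A y x)ᵀ * dM j (Tm G A y) x
      + (Tm G A y x)ᵀ * (Am A j (y.1 + Th G.pos x) * Tm G A y x)) 0 := rfl
  rw [h1, dM_add ((hT.t.mul (hT.d j)).dx 0) ((hT.t.mul (hA.mul hT)).dx 0), dM_mul (hT.t.dx 0) ((hT.d j).dx 0),
    dM_mul (hT.t.dx 0) ((hA.mul hT).dx 0), dM_mul (hA.dx 0) (hT.dx 0), dM_transpose, Tm_zero, ddTm_zero,
    ddBm_zero, dTm_zero, dTm_zero, dBm_zero, dBm_zero, hdA, Th_zero, add_zero, Fm_eq,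
    Matrix.transpose_neg, Am_skew A l (y_mem G y)]
  simp only [Matrix.mul_one, Matrix.transpose_one, Matrix.one_mul, neg_neg, Matrix.mul_neg, Matrix.neg_mul]
  ext p q
  simp only [Matrix.sub_apply, Matrix.add_apply, Matrix.smul_apply, Matrix.neg_apply, smul_eq_mul]
  ring

/-- the connection family in the adapted gauge -/
noncomputable def mkC (m : CMet V) : Con (mkM G m) κ where
  a y j p q x := ac G A y j x p q
  P y p q x := Pc G A y x p q
  uba j p q := ub_ac G A j p q
  ubP p q := ub_Pc G A p q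
  askew y j p q x := by
    have := congrFun (congrFun (ac_skew G A y j x) q) p
    rw [Matrix.transpose_apply, Matrix.neg_apply] at this
    exact this
  Psymm y p q x := by
    have := congrFun (congrFun (Pc_symm G A y x) q) p
    rw [Matrix.transpose_apply] at this
    exact this
  azero y j p q := by
    show ac G A y j 0 p q = 0
    rw [ac_zero]; rfl
  arad y j l p q := by
    have h1 := congrFun (congrFun (dac_zero G A y l j) p) q
    have h2 := congrFun (congrFun (dac_zero G A y j l) p) q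
    rw [Fm_anti] at h1
    simp only [dM, Matrix.of_apply, Matrix.smul_apply, Matrix.neg_apply, smul_eq_mul] at h1 h2
    show pd l (fun x => ac G A y j x p q) 0 = -pd j (fun x => ac G A y l x p q) 0
    rw [h1, h2]; ring

theorem mkC_dens (m : CMet V) (y : C) : (mkC G A m).dens y = A.dens m.h y.1 := by
  have hP : ∀ p q, (mkC G A m).P y p q 0 = A.P p q y.1 := fun p q => by
    show Pc G A y 0 p q = _
    rw [Pc, Tm_zero, Th_zero, add_zero, Matrix.mul_one, Matrix.transpose_one, Matrix.one_mul]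
    rfl
  have hh : ∀ a b, (mkM G m).h y a b 0 = m.h a b y.1 := fun a b => by
    show m.h a b (y.1 + Th G.pos 0) = _
    rw [Th_zero, add_zero]
  have ha : ∀ l j p q, pd l ((mkC G A m).a y j p q) 0 = -(1 / 2) * A.F j l p q y.1 := fun l j p q => by
    have h1 := congrFun (congrFun (dac_zero G A y l j) p) q
    rw [Fm_anti] at h1
    simp only [dM, Matrix.of_apply, Matrix.smul_apply, Matrix.neg_apply, smul_eq_mul, Fm] at h1
    show pd l (fun x => ac G A y j x p q) 0 = _
    rw [h1]; ring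
  simp only [Con.dens, CCon.dens, hP, hh, ha]
  congr 1
  simp only [Finset.mul_sum]
  refine Finset.sum_congr rfl fun j _ => Finset.sum_congr rfl fun k _ => Finset.sum_congr rfl fun l _ =>
    Finset.sum_congr rfl fun n _ => Finset.sum_congr rfl fun p _ => Finset.sum_congr rfl fun q _ => ?_
  have hpi : Real.pi ≠ 0 := Real.pi_ne_zero
  field_simp
  ring

end con

end Crest.Agent.R249.HK8_286
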