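import Crest.Agent.R244.CF

/-!
# R249 (S0386), leaf T4, part 1: the Riccati identity for the gradient of an energy function

`nab Γ Y y u = D Y u + Γ(u, Y)` is the covariant derivative of the field `Y`.  If `∇_Y Y = Y` near
`y` (gradient of `d²/2`), then
`R(u,Y)Y = A u - A² u - (D_Y A) u - Γ(Y, A u) + A Γ(u, Y)`, `A = nab Γ Y`.
Consequence (`curv_nonneg_core`): if the Hessian of `d(p,·)²/2` is at most the metric near `p`, then
`⟨R(u,w)w,u⟩ ≥ 0` at `p`.
-/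

set_option autoImplicit false
set_option maxSynthPendingDepth 3

open Set Filter Topology
open scoped ContDiff
open Crest.Agent.R244.CF

namespace Crest.Agent.R249.Hin1_615

variable {E : Type*} [NormedAddCommGroup E] [NormedSpace ℝ E]

/-- `∇_u Y = D Y u + Γ(u, Y)` -/
noncomputable def nab (Γ : E → E →L[ℝ] E →L[ℝ] E) (Y : E → E) (y : E) : E →L[ℝ] E :=
  fderiv ℝ Y y + (Γ y).flip (Y y)

theorem nab_apply (Γ : E → E →L[ℝ] E →L[ℝ] E) (Y : E → E) (y u : E) :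
    nab Γ Y y u = fderiv ℝ Y y u + Γ y u (Y y) := rfl

section Ident

variable {U : Set E} {g : E → E →L[ℝ] E →L[ℝ] ℝ} {Γ : E → E →L[ℝ] E →L[ℝ] E}

theorem tendsto_clm {ι F G : Type*} [NormedAddCommGroup F] [NormedSpace ℝ F]
    [NormedAddCommGroup G] [NormedSpace ℝ G] {l : Filter ι} {f : ι → F →L[ℝ] G} {x : ι → F}
    {a : F →L[ℝ] G} {b : F} (hf : Tendsto f l (𝓝 a)) (hx : Tendsto x l (𝓝 b)) :
    Tendsto (fun i => f i (x i)) l (𝓝 (a b)) :=
  (isBoundedBilinearMap_apply (𝕜 := ℝ) (E := F) (F := G)).continuous.continuousAt.tendsto.comp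
    (hf.prodMk_nhds hx)

theorem two_le_inf : (2 : WithTop ℕ∞) ≤ ∞ := ENat.LEInfty.out

/-- derivative of the endomorphism field `nab Γ Y` -/
theorem hasFDerivAt_nab {Y : E → E} {y : E} (hY : ContDiffAt ℝ 2 Y y) (hΓ : DifferentiableAt ℝ Γ y)
    (a u : E) :
    HasFDerivAt (nab Γ Y) (fderiv ℝ (nab Γ Y) y) y ∧
    fderiv ℝ (nab Γ Y) y a u =
      fderiv ℝ (fderiv ℝ Y) y a u + fderiv ℝ Γ y a u (Y y) + Γ y u (fderiv ℝ Y y a) := by
  have hdY : DifferentiableAt ℝ (fderiv ℝ Y) y :=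
    (hY.fderiv_right (m := 1) (by norm_num)).differentiableAt (by simp)
  have hYd : DifferentiableAt ℝ Y y := hY.differentiableAt (by simp)
  have hfl : DifferentiableAt ℝ (fun z => (Γ z).flip (Y z)) y := by
    have h1 : DifferentiableAt ℝ (fun z => (Γ z).flip) y :=
      (ContinuousLinearMap.flipₗᵢ ℝ E E E).toContinuousLinearEquiv.toContinuousLinearMap.differentiableAt.comp
        y hΓ
    exact h1.clm_apply hYd
  have hd : DifferentiableAt ℝ (nab Γ Y) y := hdY.add hfl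
  refine ⟨hd.hasFDerivAt, ?_⟩
  -- evaluate at `u`
  have e1 : fderiv ℝ (fun z => nab Γ Y z u) y a = fderiv ℝ (nab Γ Y) y a u := by
    have := (hd.hasFDerivAt.clm_apply (hasFDerivAt_const u y)).fderiv
    rw [this]; simp
  have e2 : fderiv ℝ (fun z => nab Γ Y z u) y a =
      fderiv ℝ (fderiv ℝ Y) y a u + fderiv ℝ Γ y a u (Y y) + Γ y u (fderiv ℝ Y y a) := by
    have h1 := (hdY.hasFDerivAt.clm_apply (hasFDerivAt_const u y))
    have h2 := ((hΓ.hasFDerivAt.clm_apply (hasFDerivAt_const u y)).clm_apply hYd.hasFDerivAt)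
    have h3 := (h1.add h2).fderiv
    have h4 : (fun z => nab Γ Y z u) = (fun z => fderiv ℝ Y z u) + fun z => Γ z u (Y z) := by
      funext z; simp [nab_apply]
    rw [h4]
    erw [h3]
    simp
    abel
  rw [← e1, e2]

/-- the Riccati identity -/
theorem riccati {Y : E → E} {y : E} (hY : ContDiffAt ℝ 2 Y y) (hΓ : DifferentiableAt ℝ Γ y)
    (hAY : ∀ᶠ z in 𝓝 y, nab Γ Y z (Y z) = Y z) (u : E) :
    curv Γ y u (Y y) (Y y) = nab Γ Y y u - nab Γ Y y (nab Γ Y y u) - fderiv ℝ (nab Γ Y) y (Y y) u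
      - Γ y (Y y) (nab Γ Y y u) + nab Γ Y y (Γ y u (Y y)) := by
  have hYd : DifferentiableAt ℝ Y y := hY.differentiableAt (by simp)
  have hn := (hasFDerivAt_nab (Γ := Γ) hY hΓ u u).1
  -- differentiate `nab Y (Y) = Y`
  have h1 : fderiv ℝ (nab Γ Y) y u (Y y) + nab Γ Y y (fderiv ℝ Y y u) = fderiv ℝ Y y u := by
    have h := (hn.clm_apply hYd.hasFDerivAt).fderiv
    have h' := (show (fun z => nab Γ Y z (Y z)) =ᶠ[𝓝 y] Y from hAY).fderiv_eq (𝕜 := ℝ)
    rw [h] at h'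
    have := DFunLike.congr_fun h' u
    simp at this
    rw [add_comm]; exact this
  have h2 := (hasFDerivAt_nab (Γ := Γ) hY hΓ u (Y y)).2
  have h3 := (hasFDerivAt_nab (Γ := Γ) hY hΓ (Y y) u).2
  have hs : fderiv ℝ (fderiv ℝ Y) y u (Y y) = fderiv ℝ (fderiv ℝ Y) y (Y y) u := by
    have := (hY.isSymmSndFDerivAt (by
      simp only [minSmoothness_of_isRCLikeNormedField]; exact le_rfl)) u (Y y)
    exact this
  have hYY := hAY.self_of_nhds
  rw [nab_apply] at hYY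
  unfold curv
  rw [h3]
  rw [h2] at h1
  have hYY' : Γ y (Y y) (Y y) = Y y - fderiv ℝ Y y (Y y) := eq_sub_of_add_eq' hYY
  rw [hYY']
  rw [hs] at h1
  simp only [nab_apply, map_add, map_sub] at h1 ⊢
  linear_combination (norm := module) h1

/-- continuity of the curvature -/
theorem continuousAt_curv (h : IsLC U g Γ) {σ σ' : ℝ → E} {s₀ : ℝ} (hp : σ s₀ ∈ U)
    (hσ : ContinuousAt σ s₀) (hσ' : ContinuousAt σ' s₀) (u : E) :
    ContinuousAt (fun s => g (σ s) (curv Γ (σ s) u (σ' s) (σ' s)) u) s₀ := by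
  have hg : ContinuousAt (fun s => g (σ s)) s₀ :=
    ContinuousAt.comp (f := σ) (x := s₀) (h.g_differentiableAt hp).continuousAt hσ
  have hΓ : ContinuousAt (fun s => Γ (σ s)) s₀ :=
    ContinuousAt.comp (f := σ) (x := s₀) (h.Γ_differentiableAt hp).continuousAt hσ
  have hdΓc : ContinuousAt (fderiv ℝ Γ) (σ s₀) :=
    ((h.Γ_contDiffAt hp).fderiv_right (m := ∞) (by simp)).continuousAt
  have hdΓ : ContinuousAt (fun s => fderiv ℝ Γ (σ s)) s₀ :=
    ContinuousAt.comp (f := σ) (x := s₀) hdΓc hσ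
  have hu : ContinuousAt (fun _ : ℝ => u) s₀ := continuousAt_const
  have h1 := ((hdΓ.clm_apply hu).clm_apply hσ').clm_apply hσ'
  have h2 := ((hdΓ.clm_apply hσ').clm_apply hu).clm_apply hσ'
  have h3 := (hΓ.clm_apply hu).clm_apply ((hΓ.clm_apply hσ').clm_apply hσ')
  have h4 := (hΓ.clm_apply hσ').clm_apply ((hΓ.clm_apply hu).clm_apply hσ')
  exact (hg.clm_apply (((h1.sub h2).add h3).sub h4)).clm_apply hu

/-- one-variable derivative formula behind both directions of the Hessian comparison -/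
theorem hasDerivAt_defect (h : IsLC U g Γ) {Y : E → E} {σ σ' : ℝ → E} {s : ℝ} (hU : σ s ∈ U)
    (hσ : HasDerivAt σ (σ' s) s) (hY : ContDiffAt ℝ 2 Y (σ s)) (hYσ : Y (σ s) = s • σ' s)
    (hAY : ∀ᶠ y in 𝓝 (σ s), nab Γ Y y (Y y) = Y y)
    (hsym : ∀ u v, g (σ s) (nab Γ Y (σ s) u) v = g (σ s) u (nab Γ Y (σ s) v)) (u : E) :
    HasDerivAt (fun s => s * g (σ s) (nab Γ Y (σ s) u - u) u)
      (-(g (σ s) (nab Γ Y (σ s) u - u) (nab Γ Y (σ s) u - u))
        + 2 * s * g (σ s) (nab Γ Y (σ s) u - u) (Γ (σ s) (σ' s) u)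
        - s ^ 2 * g (σ s) (curv Γ (σ s) u (σ' s) (σ' s)) u) s := by
  have hΓd := h.Γ_differentiableAt hU
  have hgd := h.g_differentiableAt hU
  have hn := (hasFDerivAt_nab (Γ := Γ) hY hΓd u u).1
  have hA : HasDerivAt (fun s => nab Γ Y (σ s) u - u) (fderiv ℝ (nab Γ Y) (σ s) (σ' s) u) s := by
    have h1 : HasDerivAt (fun s => nab Γ Y (σ s)) (fderiv ℝ (nab Γ Y) (σ s) (σ' s)) s :=
      hn.comp_hasDerivAt s hσ
    have h2 := h1.clm_apply (hasDerivAt_const s u)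
    simpa using h2.sub_const u
  have hgs : HasDerivAt (fun s => g (σ s)) (fderiv ℝ g (σ s) (σ' s)) s :=
    hgd.hasFDerivAt.comp_hasDerivAt s hσ
  have he := hasDerivAt_apply2 hgs hA (hasDerivAt_const s u)
  have hS := (hasDerivAt_id s).mul he
  refine HasDerivAt.congr_deriv hS ?_
  have hric := riccati hY hΓd hAY u
  have hcurv : curv Γ (σ s) u (Y (σ s)) (Y (σ s)) = s ^ 2 • curv Γ (σ s) u (σ' s) (σ' s) := by
    rw [hYσ]; unfold curv
    simp only [map_smul, smul_apply]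
    module
  have hfd : s • fderiv ℝ (nab Γ Y) (σ s) (σ' s) u = fderiv ℝ (nab Γ Y) (σ s) (Y (σ s)) u := by
    rw [hYσ]; simp
  have hΓY : ∀ v, s • Γ (σ s) (σ' s) v = Γ (σ s) (Y (σ s)) v := fun v => by rw [hYσ]; simp
  have hcomp := h.compat (σ s) hU (Y (σ s)) (nab Γ Y (σ s) u - u) u
  have hcomp' : s * fderiv ℝ g (σ s) (σ' s) (nab Γ Y (σ s) u - u) u =
      fderiv ℝ g (σ s) (Y (σ s)) (nab Γ Y (σ s) u - u) u := by
    rw [hYσ]; simp
  set A : E →L[ℝ] E := nab Γ Y (σ s) with hAdef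
  set G := g (σ s) with hG
  set Yv := Y (σ s) with hYv
  have hGs : ∀ a b, G a b = G b a := fun a b => h.g_symm (σ s) hU a b
  have hkey : s * (G (fderiv ℝ (nab Γ Y) (σ s) (σ' s) u)) u
      = G (A u - A (A u) - Γ (σ s) Yv (A u) + A (Γ (σ s) u Yv)) u
        - s ^ 2 * G (curv Γ (σ s) u (σ' s) (σ' s)) u := by
    have h1 : s • fderiv ℝ (nab Γ Y) (σ s) (σ' s) u
        = A u - A (A u) - Γ (σ s) Yv (A u) + A (Γ (σ s) u Yv)
          - s ^ 2 • curv Γ (σ s) u (σ' s) (σ' s) := by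
      rw [hfd, ← hcurv, hric]; abel
    have h2 := congrArg (fun z => G z u) h1
    simpa only [map_smul, smul_apply, smul_eq_mul, map_sub, sub_apply] using h2
  have e1 : s * G (A u - u) (Γ (σ s) (σ' s) u) = G (A u - u) (Γ (σ s) Yv u) := by
    rw [← hΓY]; simp
  have e2 : G (A (Γ (σ s) u Yv)) u = G (Γ (σ s) Yv u) (A u) := by
    rw [hsym, h.Γ_symm (σ s) hU u Yv]
  have e3 : G (A (A u)) u = G (A u) (A u) := hsym _ _
  simp only [id, one_mul]
  rw [mul_add, mul_add, hcomp', hcomp, hkey]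
  simp only [map_sub, map_add, sub_apply, add_apply, map_zero, mul_zero] at e1 e2 e3 ⊢
  have e4 := hGs (A u) u
  have e5 := hGs (Γ (σ s) Yv u) (A u)
  have e6 := hGs (Γ (σ s) Yv u) u
  linear_combination (-2) * e1 + e2 - e3 + e4 + e5 - e6

/-- **T4 core**: if `∇Y ≤ g` near `p` for the gradient field `Y` of `d(p,·)²/2`, then the curvature
is nonnegative at `p`. -/
theorem curv_nonneg_core (h : IsLC U g Γ) {p : E} (hp : p ∈ U) {Y : E → E}
    (hY : ContDiffAt ℝ 2 Y p) {σ σ' : ℝ → E} (hσ0 : σ 0 = p)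
    (hσ : ∀ᶠ s in 𝓝 (0 : ℝ), HasDerivAt σ (σ' s) s) (hσ' : ContinuousAt σ' 0)
    (hYσ : ∀ᶠ s in 𝓝 (0 : ℝ), Y (σ s) = s • σ' s)
    (hAY : ∀ᶠ y in 𝓝 p, nab Γ Y y (Y y) = Y y)
    (hsym : ∀ᶠ y in 𝓝 p, ∀ u v, g y (nab Γ Y y u) v = g y u (nab Γ Y y v))
    (hid : ∀ u, nab Γ Y p u = u)
    (hle : ∀ᶠ y in 𝓝 p, ∀ u, g y (nab Γ Y y u) u ≤ g y u u) (u : E) :
    0 ≤ g p (curv Γ p u (σ' 0) (σ' 0)) u := by
  by_contra hneg
  push Not at hneg
  have hσc : ContinuousAt σ 0 := hσ.self_of_nhds.continuousAt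
  have hσt : Tendsto σ (𝓝 0) (𝓝 p) := by simpa [hσ0] using hσc.tendsto
  -- everything holds for `s` near `0`
  have evU : ∀ᶠ s in 𝓝 (0 : ℝ), σ s ∈ U := hσt.eventually (h.isOpen.mem_nhds hp)
  have evY : ∀ᶠ s in 𝓝 (0 : ℝ), ContDiffAt ℝ 2 Y (σ s) :=
    hσt.eventually (hY.eventually (by simp))
  have evAY : ∀ᶠ s in 𝓝 (0 : ℝ), ∀ᶠ y in 𝓝 (σ s), nab Γ Y y (Y y) = Y y :=
    hσt.eventually (eventually_eventually_nhds.2 hAY)
  have evsym := hσt.eventually hsym
  have evle := hσt.eventually hle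
  -- the defect `D v s = A v - v` and its derivative at `0`
  have hn := (hasFDerivAt_nab (Γ := Γ) hY (h.Γ_differentiableAt hp) u u).1
  set T : E →L[ℝ] E := fderiv ℝ (nab Γ Y) p (σ' 0) with hT
  have hD : ∀ v, HasDerivAt (fun s => nab Γ Y (σ s) v - v) (T v) 0 := by
    intro v
    have h1 : HasDerivAt (fun s => nab Γ Y (σ s)) (fderiv ℝ (nab Γ Y) p (σ' 0)) 0 := by
      rw [← hσ0] at hn
      have := hn.comp_hasDerivAt 0 hσ.self_of_nhds
      rwa [hσ0] at this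
    have h2 := h1.clm_apply (hasDerivAt_const (0 : ℝ) v)
    simpa using h2.sub_const v
  have hD0 : ∀ v, nab Γ Y (σ 0) v - v = 0 := fun v => by rw [hσ0, hid, sub_self]
  have hgs : HasDerivAt (fun s => g (σ s)) (fderiv ℝ g p (σ' 0)) 0 := by
    have hgd := (h.g_differentiableAt hp).hasFDerivAt
    rw [← hσ0] at hgd
    have := hgd.comp_hasDerivAt 0 hσ.self_of_nhds
    rwa [hσ0] at this
  have he : ∀ v w, HasDerivAt (fun s => g (σ s) (nab Γ Y (σ s) v - v) w) (g p (T v) w) 0 := by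
    intro v w
    have := hasDerivAt_apply2 hgs (hD v) (hasDerivAt_const (0 : ℝ) w)
    rw [hD0, hσ0] at this
    simpa using this
  have hTvv : ∀ v, g p (T v) v = 0 := by
    intro v
    refine IsLocalMax.hasDerivAt_eq_zero ?_ (he v v)
    show ∀ᶠ s in 𝓝 (0 : ℝ), g (σ s) (nab Γ Y (σ s) v - v) v ≤ g (σ 0) (nab Γ Y (σ 0) v - v) v
    filter_upwards [evle] with s hs
    rw [hD0]
    simp only [map_zero, zero_apply, map_sub, sub_apply]
    linarith [hs v]
  have hTsym : ∀ v w, g p (T v) w = g p (T w) v := by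
    intro v w
    refine (he v w).unique (HasDerivAt.congr_of_eventuallyEq (he w v) ?_)
    filter_upwards [evsym, evU] with s hs hU
    simp only [map_sub, sub_apply]
    rw [hs v w, h.g_symm _ hU v (nab Γ Y (σ s) w), h.g_symm _ hU v w]
  have hT0 : ∀ v, T v = 0 := by
    intro v
    refine h.eq_of_forall hp fun w => ?_
    have h1 := hTvv (v + w)
    simp only [map_add, add_apply] at h1
    have h2 := hTsym v w
    have h3 := hTvv v
    have h4 := hTvv w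
    simp only [map_zero, zero_apply]
    linarith
  -- `D u s = o(s)`
  set D : ℝ → E := fun s => nab Γ Y (σ s) u - u with hDdef
  have hDu : Tendsto (fun s => s⁻¹ • D s) (𝓝[≠] 0) (𝓝 0) := by
    have h1 := (hD u).tendsto_slope
    rw [hT0] at h1
    refine h1.congr' ?_
    filter_upwards [self_mem_nhdsWithin] with s hs
    simp only [slope, sub_zero, vsub_eq_sub, hDdef]
    rw [hD0, sub_zero]
  -- derivative of `S s = s * g (D s) u`
  set S' : ℝ → ℝ := fun s => -(g (σ s) (D s) (D s)) + 2 * s * g (σ s) (D s) (Γ (σ s) (σ' s) u)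
    - s ^ 2 * g (σ s) (curv Γ (σ s) u (σ' s) (σ' s)) u with hS'
  have evS : ∀ᶠ s in 𝓝 (0 : ℝ), HasDerivAt (fun s => s * g (σ s) (D s) u) (S' s) s := by
    filter_upwards [evU, evY, evAY, evsym, hσ, hYσ] with s h1 h2 h3 h4 h5 h6
    exact hasDerivAt_defect h h1 h5 h2 h6 h3 h4 u
  -- `S' s / s² → - κ > 0`
  have hgc : ContinuousAt (fun s => g (σ s)) 0 := hgs.continuousAt
  have hΓc : ContinuousAt (fun s => Γ (σ s)) 0 := by
    have : ContinuousAt Γ (σ 0) := by rw [hσ0]; exact (h.Γ_differentiableAt hp).continuousAt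
    exact ContinuousAt.comp (f := σ) this hσc
  have hlim : Tendsto (fun s => (s ^ 2)⁻¹ * S' s) (𝓝[≠] 0)
      (𝓝 (-(g p (curv Γ p u (σ' 0) (σ' 0)) u))) := by
    have hcv := continuousAt_curv h (σ := σ) (σ' := σ') (s₀ := 0) (by rwa [hσ0]) hσc hσ' u
    have hcv' : Tendsto (fun s => g (σ s) (curv Γ (σ s) u (σ' s) (σ' s)) u) (𝓝[≠] 0)
        (𝓝 (g p (curv Γ p u (σ' 0) (σ' 0)) u)) := by
      have := hcv.tendsto.mono_left (nhdsWithin_le_nhds (s := {0}ᶜ))
      simpa only [hσ0] using this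
    have hg' : Tendsto (fun s => g (σ s)) (𝓝[≠] 0) (𝓝 (g (σ 0))) :=
      hgc.tendsto.mono_left nhdsWithin_le_nhds
    have hG' : Tendsto (fun s => Γ (σ s) (σ' s) u) (𝓝[≠] 0) (𝓝 (Γ (σ 0) (σ' 0) u)) :=
      ((hΓc.clm_apply hσ').clm_apply continuousAt_const).tendsto.mono_left nhdsWithin_le_nhds
    have t1 : Tendsto (fun s => g (σ s) (s⁻¹ • D s) (s⁻¹ • D s)) (𝓝[≠] 0)
        (𝓝 (g (σ 0) 0 0)) := by
      have := tendsto_clm hg' hDu
      exact tendsto_clm this hDu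
    have t2 : Tendsto (fun s => g (σ s) (s⁻¹ • D s) (Γ (σ s) (σ' s) u)) (𝓝[≠] 0)
        (𝓝 (g (σ 0) 0 (Γ (σ 0) (σ' 0) u))) := by
      have := tendsto_clm hg' hDu
      exact tendsto_clm this hG'
    have t3 := (t1.neg.add (t2.const_mul 2)).sub hcv'
    simp only [map_zero, zero_apply, mul_zero, neg_zero, add_zero, zero_sub] at t3
    refine t3.congr' ?_
    filter_upwards [self_mem_nhdsWithin] with s hs
    have hs0 : s ≠ 0 := hs
    simp only [hS', map_smul, smul_apply, smul_eq_mul]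
    field_simp
  have hpos : ∀ᶠ s in 𝓝[≠] (0 : ℝ), 0 < S' s := by
    have h1 : ∀ᶠ s in 𝓝[≠] (0 : ℝ), 0 < (s ^ 2)⁻¹ * S' s :=
      hlim.eventually (lt_mem_nhds (by linarith))
    filter_upwards [h1, self_mem_nhdsWithin] with s hs hs0
    have : 0 < (s ^ 2)⁻¹ := by
      have : s ≠ 0 := hs0
      positivity
    exact (pos_iff_pos_of_mul_pos hs).1 this
  obtain ⟨δ, hδ, hall⟩ : ∃ δ > 0, ∀ s : ℝ, |s| < δ → (HasDerivAt (fun s => s * g (σ s) (D s) u) (S' s) s ∧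
      (s ≠ 0 → 0 < S' s) ∧ ∀ v, g (σ s) (nab Γ Y (σ s) v) v ≤ g (σ s) v v) := by
    have h1 := eventually_nhdsWithin_iff.1 hpos
    obtain ⟨δ, hδ, hb⟩ := Metric.eventually_nhds_iff.1 (evS.and (h1.and evle))
    refine ⟨δ, hδ, fun s hs => ?_⟩
    have := hb (y := s) (by simpa [Real.dist_eq] using hs)
    exact ⟨this.1, fun h => this.2.1 h, this.2.2⟩
  set s₁ := δ / 2 with hs₁
  have hs₁pos : 0 < s₁ := by positivity
  have hmv := exists_hasDerivAt_eq_slope (fun s => s * g (σ s) (D s) u) S' hs₁pos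
    (fun s hs => by
      have : |s| < δ := by rw [abs_of_nonneg hs.1]; linarith [hs.2]
      exact (hall s this).1.continuousAt.continuousWithinAt)
    (fun s hs => (hall s (by rw [abs_of_pos hs.1]; linarith [hs.2])).1)
  obtain ⟨c, hc, hc'⟩ := hmv
  have hcpos : 0 < S' c := (hall c (by rw [abs_of_pos hc.1]; linarith [hc.2])).2.1 hc.1.ne'
  rw [hc'] at hcpos
  have h2 := (hall s₁ (by rw [abs_of_pos hs₁pos]; linarith)).2.2 u
  have h3 : g (σ s₁) (D s₁) u ≤ 0 := by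
    simp only [hDdef, map_sub, sub_apply]
    linarith
  have h4 : s₁ * g (σ s₁) (D s₁) u - 0 * g (σ 0) (D 0) u ≤ 0 := by
    nlinarith
  have h5 : (s₁ * g (σ s₁) (D s₁) u - 0 * g (σ 0) (D 0) u) / (s₁ - 0) ≤ 0 :=
    div_nonpos_of_nonpos_of_nonneg h4 (by linarith)
  linarith

end Ident

end Crest.Agent.R249.Hin1_615
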