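import Crest.Agent.R249.Hin1_615
import Crest.Agent.R226.GeoLoc_577
import Crest.Agent.R226.Calc2_347

/-!
# R249 (S0386), leaf T4, part 2: local energy functions and curvature

`curv_nonneg_of_midpoint`: if the local energy `h(p,·) = d(p,·)²/2` satisfies the midpoint inequality
`h(p, exp_y tξ) + h(p, exp_y (-tξ)) ≤ 2 h(p,y) + t²|ξ|²` near `p`, `t → 0`, then the curvature at `p` is
nonnegative.
-/

set_option autoImplicit false
set_option maxSynthPendingDepth 3
set_option linter.unusedSectionVars false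
set_option linter.unusedSimpArgs false
set_option linter.unusedVariables false

open Set Filter Topology
open scoped ContDiff
open Crest.Agent.R244.CF
open Crest.Agent.R226.GeoLoc577 (LocGeo)
open Crest.Agent.R226.Calc347 (Sec)

namespace Crest.Agent.R249.Hin2_615

open Crest.Agent.R249.Hin1_615

variable {E : Type*} [NormedAddCommGroup E] [NormedSpace ℝ E]
variable {U : Set E} {g : E → E →L[ℝ] E →L[ℝ] ℝ} {Γ : E → E →L[ℝ] E →L[ℝ] E}

theorem nat_le_inf (k : ℕ) : ((k : ℕ) : WithTop ℕ∞) ≤ ∞ := by exact_mod_cast le_top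

/-! ### gradients -/

section Grad

variable [FiniteDimensional ℝ E]

/-- the metric as an isomorphism onto the dual -/
theorem exists_equiv (h : IsLC U g Γ) {y : E} (hy : y ∈ U) :
    ∃ e : E ≃L[ℝ] (E →L[ℝ] ℝ), (e : E →L[ℝ] (E →L[ℝ] ℝ)) = g y := by
  have hinj : Function.Injective (g y) := by
    intro u v huv
    exact h.eq_of_forall hy fun w => by rw [huv]
  have hfr : Module.finrank ℝ E = Module.finrank ℝ (E →L[ℝ] ℝ) := by
    have h1 : Module.finrank ℝ (E →L[ℝ] ℝ) = Module.finrank ℝ (Module.Dual ℝ E) :=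
      (LinearMap.toContinuousLinearMap (𝕜 := ℝ) (E := E) (F' := ℝ)).finrank_eq.symm
    rw [h1, Subspace.dual_finrank_eq]
  let e' : E ≃ₗ[ℝ] (E →L[ℝ] ℝ) := LinearEquiv.ofInjectiveOfFinrankEq (g y : E →ₗ[ℝ] _) hinj hfr
  refine ⟨e'.toContinuousLinearEquiv, ?_⟩
  ext u v
  rfl

/-- the gradient of `f` -/
noncomputable def grad (g : E → E →L[ℝ] E →L[ℝ] ℝ) (f : E → ℝ) (y : E) : E :=
  ContinuousLinearMap.inverse (g y) (fderiv ℝ f y)

theorem g_grad (h : IsLC U g Γ) {y : E} (hy : y ∈ U) (f : E → ℝ) (v : E) :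
    g y (grad g f y) v = fderiv ℝ f y v := by
  obtain ⟨e, he⟩ := exists_equiv h hy
  unfold grad
  rw [← he, ContinuousLinearMap.inverse_equiv]
  simp

theorem contDiffAt_grad (h : IsLC U g Γ) {y : E} (hy : y ∈ U) {f : E → ℝ} {k : ℕ}
    (hf : ContDiffAt ℝ (k + 1 : ℕ) f y) : ContDiffAt ℝ (k : ℕ) (grad g f) y := by
  have : CompleteSpace E := FiniteDimensional.complete ℝ E
  obtain ⟨e, he⟩ := exists_equiv h hy
  have h1 : ContDiffAt ℝ (k : ℕ) (fun z => ContinuousLinearMap.inverse (g z)) y := by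
    have h2 := contDiffAt_map_inverse (𝕜 := ℝ) (n := ((k : ℕ) : WithTop ℕ∞)) e
    rw [he] at h2
    exact h2.comp y ((h.g_contDiffAt hy).of_le (by exact_mod_cast le_top))
  have h3 : ContDiffAt ℝ (k : ℕ) (fderiv ℝ f) y := hf.fderiv_right (by exact_mod_cast le_rfl)
  exact h1.clm_apply h3

/-- `g(∇_u ∇f, v) = D²f(u,v) - g(∇f, Γ(u,v))` -/
theorem g_nab_grad (h : IsLC U g Γ) {y : E} (hy : y ∈ U) {f : E → ℝ} (hf : ContDiffAt ℝ 2 f y)
    (u v : E) :
    g y (nab Γ (grad g f) y u) v =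
      fderiv ℝ (fderiv ℝ f) y u v - g y (grad g f y) (Γ y u v) := by
  have hY : DifferentiableAt ℝ (grad g f) y :=
    (contDiffAt_grad h hy (k := 1) (by exact_mod_cast hf)).differentiableAt (by simp)
  have hdf : DifferentiableAt ℝ (fderiv ℝ f) y :=
    (hf.fderiv_right (m := 1) (by norm_num)).differentiableAt (by simp)
  have e : (fun z => g z (grad g f z) v) =ᶠ[𝓝 y] fun z => fderiv ℝ f z v := by
    filter_upwards [h.isOpen.mem_nhds hy] with z hz using g_grad h hz f v
  have e1 := DFunLike.congr_fun (e.fderiv_eq (𝕜 := ℝ)) u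
  rw [hasFDerivAt_apply2 (h.g_differentiableAt hy).hasFDerivAt hY.hasFDerivAt
    (hasFDerivAt_const v y)] at e1
  have e2 : fderiv ℝ (fun z => fderiv ℝ f z v) y u = fderiv ℝ (fderiv ℝ f) y u v := by
    rw [(hdf.hasFDerivAt.clm_apply (hasFDerivAt_const v y)).fderiv]; simp
  rw [e2, h.compat y hy] at e1
  rw [nab_apply, map_add, add_apply]
  simp only [zero_apply, map_zero, add_zero] at e1
  linarith

theorem nab_symm (h : IsLC U g Γ) {y : E} (hy : y ∈ U) {f : E → ℝ} (hf : ContDiffAt ℝ 2 f y)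
    (u v : E) :
    g y (nab Γ (grad g f) y u) v = g y u (nab Γ (grad g f) y v) := by
  rw [h.g_symm y hy u, g_nab_grad h hy hf, g_nab_grad h hy hf, h.Γ_symm y hy u v]
  have := (hf.isSymmSndFDerivAt (by
      simp only [minSmoothness_of_isRCLikeNormedField]; exact le_rfl)) u v
  rw [this]

/-- the eikonal equation `|∇f|² = 2f` gives `∇_{∇f}∇f = ∇f` -/
theorem nab_grad_self (h : IsLC U g Γ) {y : E} (hy : y ∈ U) {f : E → ℝ} (hf : ContDiffAt ℝ 2 f y)
    (heik : ∀ᶠ z in 𝓝 y, g z (grad g f z) (grad g f z) = 2 * f z) :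
    nab Γ (grad g f) y (grad g f y) = grad g f y := by
  have hY : DifferentiableAt ℝ (grad g f) y :=
    (contDiffAt_grad h hy (k := 1) (by exact_mod_cast hf)).differentiableAt (by simp)
  refine h.eq_of_forall hy fun v => ?_
  have e1 := DFunLike.congr_fun
    ((show (fun z => g z (grad g f z) (grad g f z)) =ᶠ[𝓝 y] fun z => 2 * f z from heik).fderiv_eq
      (𝕜 := ℝ)) v
  rw [hasFDerivAt_apply2 (h.g_differentiableAt hy).hasFDerivAt hY.hasFDerivAt
    hY.hasFDerivAt, h.compat y hy] at e1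
  have e2 : fderiv ℝ (fun z => 2 * f z) y v = 2 * fderiv ℝ f y v := by
    rw [fderiv_const_mul (hf.differentiableAt (by simp))]; simp
  rw [e2, ← g_grad h hy f v] at e1
  rw [nab_symm h hy hf, nab_apply, map_add]
  have e3 := h.g_symm y hy (Γ y v (grad g f y)) (grad g f y)
  have e4 := h.g_symm y hy (fderiv ℝ (grad g f) y v) (grad g f y)
  linarith

end Grad

/-! ### the local energy -/

section Energy

variable [FiniteDimensional ℝ E]

variable {p : E} (L : LocGeo U g Γ p)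

/-- `h(p, ·)` near `p` -/
noncomputable def en (y : E) : ℝ := L.h (p, y)

theorem en_contDiffAt {v : E} (hv : g p v v < L.ρ ^ 2) : ContDiffAt ℝ ∞ (en L) (L.Ex (p, v)) := by
  have h1 := L.h_smooth p L.mem_W v hv
  exact h1.comp (L.Ex (p, v)) (contDiffAt_const.prodMk contDiffAt_id)

theorem fderiv_en {v : E} (hv : g p v v < L.ρ ^ 2) (η : E) :
    fderiv ℝ (en L) (L.Ex (p, v)) η = g (L.Ex (p, v)) (L.vel 1 (p, v)) η := by
  have h1 : HasFDerivAt L.h (fderiv ℝ L.h (p, L.Ex (p, v))) (p, L.Ex (p, v)) :=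
    ((L.h_smooth p L.mem_W v hv).differentiableAt (by simp)).hasFDerivAt
  have h2 : HasFDerivAt (fun y : E => (p, y)) ((0 : E →L[ℝ] E).prod (ContinuousLinearMap.id ℝ E))
      (L.Ex (p, v)) := (hasFDerivAt_const p _).prodMk (hasFDerivAt_id _)
  have h3 := (h1.comp (L.Ex (p, v)) h2).fderiv
  have h4 : (L.h ∘ fun y : E => (p, y)) = en L := rfl
  rw [h4] at h3
  rw [h3]
  simp only [ContinuousLinearMap.comp_apply, ContinuousLinearMap.prod_apply,
    zero_apply, ContinuousLinearMap.id_apply]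
  rw [L.h_fderiv p L.mem_W v hv 0 η]
  simp

theorem grad_en (h : IsLC U g Γ) {v : E} (hv : g p v v < L.ρ ^ 2) :
    grad g (en L) (L.Ex (p, v)) = L.vel 1 (p, v) := by
  have hU := L.Ex_mem p L.mem_W v hv
  refine h.eq_of_forall hU fun w => ?_
  rw [g_grad h hU, fderiv_en L hv]

/-- radial geodesics: `vel 1 (p, s v) = s vel s (p, v)` -/
theorem vel_one_smul (h : IsLC U g Γ) {v : E} (hv : g p v v < L.ρ ^ 2) {s : ℝ} (hs : |s| < 1) :
    L.vel 1 (p, s • v) = s • L.vel s (p, v) := by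
  have hp : p ∈ U := L.W_sub L.mem_W
  have hsv : g p (s • v) (s • v) < L.ρ ^ 2 := by
    have h0 := h.nonneg hp v
    simp only [map_smul, smul_apply, smul_eq_mul]
    have hs2 : s * s ≤ 1 := by nlinarith [abs_nonneg s, abs_mul_abs_self s]
    nlinarith [mul_nonneg (sub_nonneg.2 hs2) h0]
  have h1 := L.hasDerivAt_Ex p L.mem_W (s • v) hsv 1 (by simp)
  have h2 := L.hasDerivAt_Ex p L.mem_W v hv s hs.le
  have h3 : HasDerivAt (fun t : ℝ => L.Ex (p, (t * s) • v)) (s • L.vel s (p, v)) 1 := by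
    have h4 : HasDerivAt (fun t : ℝ => t * s) s 1 := by
      simpa using (hasDerivAt_id (1 : ℝ)).mul_const s
    have h2' : HasDerivAt (fun t : ℝ => L.Ex (p, t • v)) (L.vel s (p, v)) ((fun t : ℝ => t * s) 1) := by
      simpa using h2
    exact h2'.scomp (1 : ℝ) h4
  have h5 : (fun t : ℝ => L.Ex (p, t • s • v)) = fun t : ℝ => L.Ex (p, (t * s) • v) := by
    funext t; rw [smul_smul]
  rw [h5] at h1
  exact h1.unique h3

/-- eikonal equation on the ball -/
theorem eikonal (h : IsLC U g Γ) {v : E} (hv : g p v v < L.ρ ^ 2) :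
    g (L.Ex (p, v)) (grad g (en L) (L.Ex (p, v))) (grad g (en L) (L.Ex (p, v))) =
      2 * en L (L.Ex (p, v)) := by
  have h1 := L.speed p L.mem_W v hv 1 (by simp)
  rw [one_smul] at h1
  rw [grad_en L h hv, h1]
  unfold en
  rw [L.h_eq p L.mem_W v hv]
  ring

/-- the ball is a neighbourhood of `p` -/
theorem ball_mem (h : IsLC U g Γ) :
    ∀ᶠ y in 𝓝 p, ∃ v, g p v v < L.ρ ^ 2 ∧ L.Ex (p, v) = y := by
  have h1 := L.isOpen_ball p L.mem_W L.ρ L.ρ_pos le_rfl
  have h2 : p ∈ (fun v => L.Ex (p, v)) '' {v | g p v v < L.ρ ^ 2} := by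
    refine ⟨0, ?_, L.Ex_zero p L.mem_W⟩
    have := L.ρ_pos
    simp only [Set.mem_ofPred_eq, map_zero, zero_apply]
    positivity
  filter_upwards [h1.mem_nhds h2] with y hy
  obtain ⟨v, hv, rfl⟩ := hy
  exact ⟨v, hv, rfl⟩

/-- properties of the gradient field near `p` -/
theorem grad_props (h : IsLC U g Γ) :
    ContDiffAt ℝ 2 (grad g (en L)) p ∧
    (∀ᶠ y in 𝓝 p, nab Γ (grad g (en L)) y (grad g (en L) y) = grad g (en L) y) ∧
    (∀ᶠ y in 𝓝 p, ∀ u v, g y (nab Γ (grad g (en L)) y u) v = g y u (nab Γ (grad g (en L)) y v)) ∧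
    (∀ᶠ y in 𝓝 p, y ∈ U ∧ ContDiffAt ℝ ∞ (en L) y) := by
  have hp : p ∈ U := L.W_sub L.mem_W
  have hb := ball_mem L h
  have h0 : g p (0 : E) 0 < L.ρ ^ 2 := by
    have := L.ρ_pos
    simp only [map_zero, zero_apply]; positivity
  have hen : ∀ᶠ y in 𝓝 p, y ∈ U ∧ ContDiffAt ℝ ∞ (en L) y := by
    filter_upwards [hb, h.isOpen.mem_nhds hp] with y hy hyU
    obtain ⟨v, hv, rfl⟩ := hy
    exact ⟨hyU, en_contDiffAt L hv⟩
  refine ⟨?_, ?_, ?_, hen⟩
  · have := contDiffAt_grad h hp (k := 2) (f := en L)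
      (hen.self_of_nhds.2.of_le (nat_le_inf 3))
    exact_mod_cast this
  · filter_upwards [hen, eventually_eventually_nhds.2 hb] with y hy hyb
    refine nab_grad_self h hy.1 (hy.2.of_le two_le_inf) ?_
    filter_upwards [hyb] with z hz
    obtain ⟨v, hv, rfl⟩ := hz
    exact eikonal L h hv
  · filter_upwards [hen] with y hy u v
    exact nab_symm h hy.1 (hy.2.of_le two_le_inf) u v

/-- `∇Y = id` at `p` -/
theorem nab_base (h : IsLC U g Γ) (u : E) : nab Γ (grad g (en L)) p u = u := by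
  have hp : p ∈ U := L.W_sub L.mem_W
  obtain ⟨hY, hAY, -, -⟩ := grad_props L h
  -- it suffices to treat small vectors
  have hsmall : ∀ w : E, g p w w < L.ρ ^ 2 → nab Γ (grad g (en L)) p w = w := by
    intro w hw
    have hσ : ∀ s : ℝ, |s| ≤ 1 → HasDerivAt (fun s : ℝ => L.Ex (p, s • w)) (L.vel s (p, w)) s :=
      fun s hs => L.hasDerivAt_Ex p L.mem_W w hw s hs
    have hσ0 : L.Ex (p, (0 : ℝ) • w) = p := by rw [zero_smul]; exact L.Ex_zero p L.mem_W
    have hc : ContinuousAt (fun s : ℝ => L.Ex (p, s • w)) 0 := (hσ 0 (by simp)).continuousAt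
    have hv : ContinuousAt (fun s : ℝ => L.vel s (p, w)) 0 := by
      have := (L.vel_smooth p L.mem_W w hw 0 (by simp)).continuousAt
      exact ContinuousAt.comp (f := fun s : ℝ => (s, (p, w))) this
        (continuousAt_id.prodMk continuousAt_const)
    have hnabd := (hasFDerivAt_nab (Γ := Γ) hY (h.Γ_differentiableAt hp) w w).1
    have hnc : ContinuousAt (fun s : ℝ => nab Γ (grad g (en L)) (L.Ex (p, s • w))) 0 := by
      have h1 : ContinuousAt (nab Γ (grad g (en L))) (L.Ex (p, (0 : ℝ) • w)) := by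
        rw [hσ0]; exact hnabd.continuousAt
      exact ContinuousAt.comp (f := fun s : ℝ => L.Ex (p, s • w)) h1 hc
    have hlim1 : Tendsto (fun s : ℝ => nab Γ (grad g (en L)) (L.Ex (p, s • w)) (L.vel s (p, w)))
        (𝓝[≠] 0) (𝓝 (nab Γ (grad g (en L)) p w)) := by
      have := (hnc.clm_apply hv).tendsto
      rw [hσ0, L.vel_zero p L.mem_W w hw] at this
      exact this.mono_left nhdsWithin_le_nhds
    have hlim2 : Tendsto (fun s : ℝ => L.vel s (p, w)) (𝓝[≠] 0) (𝓝 w) := by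
      have := hv.tendsto
      rw [L.vel_zero p L.mem_W w hw] at this
      exact this.mono_left nhdsWithin_le_nhds
    refine tendsto_nhds_unique hlim1 (hlim2.congr' ?_)
    have ht : Tendsto (fun s : ℝ => L.Ex (p, s • w)) (𝓝[≠] 0) (𝓝 p) := by
      have := hc.tendsto
      rw [hσ0] at this
      exact this.mono_left nhdsWithin_le_nhds
    have habs : ∀ᶠ s : ℝ in 𝓝[≠] 0, |s| < 1 := by
      have : ∀ᶠ s : ℝ in 𝓝 0, |s| < 1 := by
        have := Metric.ball_mem_nhds (0 : ℝ) one_pos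
        filter_upwards [this] with s hs
        simpa [Real.dist_eq] using hs
      exact this.filter_mono nhdsWithin_le_nhds
    filter_upwards [ht.eventually hAY, self_mem_nhdsWithin, habs] with s hs hs0 hs1
    have hs0' : s ≠ 0 := hs0
    have hsw : g p (s • w) (s • w) < L.ρ ^ 2 := by
      have h0 := h.nonneg hp w
      simp only [map_smul, smul_apply, smul_eq_mul]
      have hs2 : s * s ≤ 1 := by nlinarith [abs_nonneg s, abs_mul_abs_self s]
      nlinarith [mul_nonneg (sub_nonneg.2 hs2) h0]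
    rw [grad_en L h hsw, vel_one_smul L h hw hs1, map_smul] at hs
    exact (smul_right_injective E hs0' hs).symm
  -- scaling
  have h0 := h.nonneg hp u
  obtain ⟨c, hc, hcu⟩ : ∃ c : ℝ, c ≠ 0 ∧ g p (c • u) (c • u) < L.ρ ^ 2 := by
    have hρ := L.ρ_pos
    refine ⟨L.ρ / (1 + g p u u + L.ρ), by positivity, ?_⟩
    simp only [map_smul, smul_apply, smul_eq_mul]
    have hden : 0 < 1 + g p u u + L.ρ := by positivity
    rw [← mul_assoc, div_mul_div_comm, div_mul_eq_mul_div, div_lt_iff₀ (by positivity)]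
    have : g p u u < (1 + g p u u + L.ρ) * (1 + g p u u + L.ρ) := by nlinarith
    nlinarith [mul_pos hρ hρ]
  have h1 := hsmall _ hcu
  rw [map_smul] at h1
  exact smul_right_injective E hc h1

/-- second derivative of `h(p, ·)` along geodesics is the Hessian -/
theorem sec_geo (h : IsLC U g Γ) {y : E} (hyW : y ∈ L.W) (hyU : y ∈ U)
    (hen : ContDiffAt ℝ ∞ (en L) y) {ξ : E} (hξ : g y ξ ξ < L.ρ ^ 2) :
    Sec (fun t : ℝ => en L (L.Ex (y, t • ξ))) (g y (nab Γ (grad g (en L)) y ξ) ξ) := by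
  have hρ := L.ρ_pos
  set c : ℝ → E := fun t => L.Ex (y, t • ξ) with hcdef
  have hc0 : c 0 = y := by simp only [hcdef, zero_smul]; exact L.Ex_zero y hyW
  have hcd : ContDiffAt ℝ ∞ c 0 := by
    have h1 := L.Ex_smooth y hyW ((0 : ℝ) • ξ) (by
      simp only [zero_smul, map_zero, zero_apply]; positivity)
    have h2 : ContDiffAt ℝ ∞ (fun t : ℝ => ((y, t • ξ) : E × E)) 0 :=
      contDiffAt_const.prodMk (contDiffAt_id.smul contDiffAt_const)
    exact h1.comp (0 : ℝ) h2
  have hder : ∀ᶠ t in 𝓝 (0 : ℝ), HasDerivAt c (L.vel t (y, ξ)) t := by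
    filter_upwards [Metric.ball_mem_nhds (0 : ℝ) one_pos] with t ht
    have ht' : |t| < 1 := by simpa [Real.dist_eq] using ht
    exact L.hasDerivAt_Ex y hyW ξ hξ t ht'.le
  have hd1 : deriv c =ᶠ[𝓝 0] fun t => L.vel t (y, ξ) := by
    filter_upwards [hder] with t ht using ht.deriv
  have hd2 : deriv (deriv c) 0 = -(Γ y ξ ξ) := by
    rw [hd1.deriv_eq, (L.hasDerivAt_vel y hyW ξ hξ 0 (by simp)).deriv, zero_smul,
      L.Ex_zero y hyW, L.vel_zero y hyW ξ hξ]
  have hd0 : deriv c 0 = ξ := by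
    rw [hd1.self_of_nhds]; exact L.vel_zero y hyW ξ hξ
  -- second derivative of `en L ∘ c`
  have hsec := Crest.Agent.R226.Calc347.Sec.comp_curve (g := en L) (γ := c) (a := y)
    (hen.of_le two_le_inf) (hcd.of_le two_le_inf) hc0
  rw [hd0, hd2] at hsec
  rw [g_nab_grad h hyU (hen.of_le two_le_inf), g_grad h hyU]
  rw [map_neg] at hsec
  exact hsec

theorem hess_le_of_midpoint (h : IsLC U g Γ) {y : E} (hyW : y ∈ L.W) (hyU : y ∈ U)
    (hen : ContDiffAt ℝ ∞ (en L) y)
    (hmid : ∀ ξ, ∀ᶠ t : ℝ in 𝓝 0,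
      en L (L.Ex (y, t • ξ)) + en L (L.Ex (y, -(t • ξ))) ≤ 2 * en L y + t ^ 2 * g y ξ ξ) (u : E) :
    g y (nab Γ (grad g (en L)) y u) u ≤ g y u u := by
  have hρ := L.ρ_pos
  have hyn := h.nonneg hyU
  -- small vectors
  have hsmall : ∀ ξ, g y ξ ξ < L.ρ ^ 2 →
      g y (nab Γ (grad g (en L)) y ξ) ξ ≤ g y ξ ξ := by
    intro ξ hξ
    have hξ' : g y (-ξ) (-ξ) < L.ρ ^ 2 := by simpa using hξ
    have s1 := sec_geo L h hyW hyU hen hξ
    have s2 := sec_geo L h hyW hyU hen hξ'
    have e2 : g y (nab Γ (grad g (en L)) y (-ξ)) (-ξ) = g y (nab Γ (grad g (en L)) y ξ) ξ := by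
      simp
    rw [e2] at s2
    have s3 : Sec (fun t : ℝ => 2 * en L y + t ^ 2 * g y ξ ξ) (2 * g y ξ ξ) := by
      refine ⟨by fun_prop, ?_⟩
      rw [Crest.Agent.R226.Calc347.iteratedDeriv_two_eq]
      have hd : deriv (fun t : ℝ => 2 * en L y + t ^ 2 * g y ξ ξ) = fun t => 2 * t * g y ξ ξ := by
        funext t
        have := (((hasDerivAt_pow 2 t).mul_const (g y ξ ξ)).const_add (2 * en L y)).deriv
        simpa using this
      rw [hd]
      have := (((hasDerivAt_id (0 : ℝ)).const_mul 2).mul_const (g y ξ ξ)).deriv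
      simpa using this
    have hle := Crest.Agent.R226.Calc347.Sec.le (s1.add s2) s3
      (by simp only [zero_smul, neg_zero, smul_zero, L.Ex_zero y hyW]; ring) ?_
    · linarith
    · filter_upwards [hmid ξ] with t ht
      simpa only [smul_neg] using ht
  -- scaling
  have h0 := hyn u
  obtain ⟨c, hc, hcu⟩ : ∃ c : ℝ, c ≠ 0 ∧ g y (c • u) (c • u) < L.ρ ^ 2 := by
    refine ⟨L.ρ / (1 + g y u u + L.ρ), by positivity, ?_⟩
    simp only [map_smul, smul_apply, smul_eq_mul]
    have hden : 0 < 1 + g y u u + L.ρ := by positivity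
    rw [← mul_assoc, div_mul_div_comm, div_mul_eq_mul_div, div_lt_iff₀ (by positivity)]
    have : g y u u < (1 + g y u u + L.ρ) * (1 + g y u u + L.ρ) := by nlinarith
    nlinarith [mul_pos hρ hρ]
  have h1 := hsmall _ hcu
  simp only [map_smul, smul_apply, smul_eq_mul] at h1
  have hc2 : 0 < c * c := mul_self_pos.2 hc
  rw [← mul_assoc, ← mul_assoc] at h1
  exact le_of_mul_le_mul_left h1 hc2

/-- **T4, local form**: midpoint inequality of the local energy near `p` implies nonnegative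
curvature at `p`. -/
theorem curv_nonneg_of_midpoint (h : IsLC U g Γ)
    (hmid : ∀ᶠ y in 𝓝 p, ∀ ξ, ∀ᶠ t : ℝ in 𝓝 0,
      L.h (p, L.Ex (y, t • ξ)) + L.h (p, L.Ex (y, -(t • ξ))) ≤
        2 * L.h (p, y) + t ^ 2 * g y ξ ξ) (u w : E) :
    0 ≤ g p (curv Γ p u w w) u := by
  have hp : p ∈ U := L.W_sub L.mem_W
  have hρ := L.ρ_pos
  obtain ⟨hY, hAY, hsym, hU⟩ := grad_props L h
  -- small `w`
  have hsmall : ∀ w, g p w w < L.ρ ^ 2 → 0 ≤ g p (curv Γ p u w w) u := by
    intro w hw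
    have hσ : ∀ᶠ s in 𝓝 (0 : ℝ), |s| < 1 := by
      filter_upwards [Metric.ball_mem_nhds (0 : ℝ) one_pos] with t ht
      simpa [Real.dist_eq] using ht
    have hv : ContinuousAt (fun s : ℝ => L.vel s (p, w)) 0 := by
      have := (L.vel_smooth p L.mem_W w hw 0 (by simp)).continuousAt
      exact ContinuousAt.comp (f := fun s : ℝ => (s, (p, w))) this
        (continuousAt_id.prodMk continuousAt_const)
    have key := curv_nonneg_core h hp hY (σ := fun s : ℝ => L.Ex (p, s • w))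
      (σ' := fun s : ℝ => L.vel s (p, w)) (by rw [zero_smul]; exact L.Ex_zero p L.mem_W)
      (by
        filter_upwards [hσ] with s hs
        exact L.hasDerivAt_Ex p L.mem_W w hw s hs.le) hv
      (by
        filter_upwards [hσ] with s hs
        have hsw : g p (s • w) (s • w) < L.ρ ^ 2 := by
          have h0 := h.nonneg hp w
          simp only [map_smul, smul_apply, smul_eq_mul]
          have hs2 : s * s ≤ 1 := by nlinarith [abs_nonneg s, abs_mul_abs_self s]
          nlinarith [mul_nonneg (sub_nonneg.2 hs2) h0]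
        rw [grad_en L h hsw, vel_one_smul L h hw hs])
      hAY hsym (nab_base L h)
      (by
        filter_upwards [hmid, hU, L.isOpen_W.mem_nhds L.mem_W] with y hy hyU hyW v
        exact hess_le_of_midpoint L h hyW hyU.1 hyU.2 hy v) u
    simpa only [L.vel_zero p L.mem_W w hw] using key
  have h0 := h.nonneg hp w
  obtain ⟨c, hc, hcu⟩ : ∃ c : ℝ, c ≠ 0 ∧ g p (c • w) (c • w) < L.ρ ^ 2 := by
    refine ⟨L.ρ / (1 + g p w w + L.ρ), by positivity, ?_⟩
    simp only [map_smul, smul_apply, smul_eq_mul]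
    have hden : 0 < 1 + g p w w + L.ρ := by positivity
    rw [← mul_assoc, div_mul_div_comm, div_mul_eq_mul_div, div_lt_iff₀ (by positivity)]
    have : g p w w < (1 + g p w w + L.ρ) * (1 + g p w w + L.ρ) := by nlinarith
    nlinarith [mul_pos hρ hρ]
  have h1 := hsmall _ hcu
  have e : curv Γ p u (c • w) (c • w) = (c * c) • curv Γ p u w w := by
    unfold curv
    simp only [map_smul, smul_apply]
    module
  rw [e] at h1
  simp only [map_smul, smul_apply, smul_eq_mul] at h1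
  have hc2 : 0 < c * c := mul_self_pos.2 hc
  exact nonneg_of_mul_nonneg_right h1 hc2

end Energy

end Crest.Agent.R249.Hin2_615
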