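import Crest.Agent.R249.Idx11_789

/-!
# R249, COUNT (helper789), part 12: `7 ≤ dim ker` for 805's pair `pairL`
-/

set_option autoImplicit false
set_option maxSynthPendingDepth 3
set_option linter.unusedSectionVars false

open Filter Topology Set Bundle Manifold Matrix MeasureTheory
open scoped ContDiff ENNReal NNReal
open Crest.GeometryTopology.CoordMetric Crest.GeometryTopology.ChartCurvature
  Crest.GeometryTopology.PointedLimit
open Crest.Agent.R202.Tens Crest.Agent.R247.Bo84 Crest.Agent.R249.FrmB_285 Crest.Agent.R249.Vf281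
  Crest.Agent.R249.Tz1_805 Crest.Agent.R249.Tz2_805 Crest.Agent.R249.Tz805
open Crest.Agent.R249.Fr129 Crest.Agent.R249.C2_198
open Crest.Agent.R249.Tv57 Crest.Agent.R249.HK9_714 Crest.Agent.R249.OriD_285
open Crest.Agent.R249.Vol_285 Crest.Agent.R249.Tt286
open Crest.Agent.R249.FrmC_285 Crest.Agent.R249.FrmD_285 Crest.Agent.R249.Trw_285

noncomputable section

namespace Crest.Agent.R249.Idx789

variable {M : Type} [MetricSpace M] [ChartedSpace (EuclideanSpace ℝ (Fin 4)) M]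
  [IsManifold (𝓡 4) ∞ M]
  [RiemannianBundle (fun p : M => TangentSpace (𝓡 4) p)]
  [IsContMDiffRiemannianBundle (𝓡 4) ∞ (EuclideanSpace ℝ (Fin 4)) (fun p : M => TangentSpace (𝓡 4) p)]
  [IsRiemannianManifold (𝓡 4) M] [MeasurableSpace M] [BorelSpace M]
  [SecondCountableTopology M] [Nonempty M]

variable {κ0 κ1 κ : Type} [Fintype κ] [Fintype κ0] [Fintype κ1]

/-- the `Dat`s of 352's `dpair` -/
theorem wd (T : ToF 4 M) (P : CPair 4 M κ κ0 κ1) :
    WD T P (Wk352.dat0 T P) (Wk352.dat0 T (Wk352.swapP P)) where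
  X0 _ _ _ := rfl
  p0 := rfl
  Q0 := rfl
  X1 _ _ _ := rfl
  p1 := rfl
  Q1 := rfl

/-- **COUNT** for the pair `pairL` -/
theorem count7 [CompactSpace M] [ConnectedSpace M] (hO : Oriented 4 M) {lam : ℝ}
    (hlam : 0 < lam) (hE : IsEinsteinWith 4 M lam) (hK : HasNonnegSectionalCurvature 4 M)
    {Ψ : T4 → ℝ} (hΨ : QF lam true Ψ) (hq : ∀ x : M, mInv Ψ x = 0) (s : PF 4 M κ)
    (hv : IsVol (vol4 (M := M))) (T : ToF 4 M) :
    ∃ N, 7 ≤ N ∧ Nonempty (KerD (Wk352.dat0 T (pairL s hv)) (Wk352.dpair T (pairL s hv)).A N) :=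
  count_of hO hlam hE hK hΨ hq (grp s hv) (glp s hv) (wd T (grp s hv).P)
    (Wk352.dpair T (grp s hv).P) rfl (wd T (glp s hv).P) (Wk352.dpair T (glp s hv).P)

end Crest.Agent.R249.Idx789
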