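import Crest.Agent.R249.OriD_285
import Crest.Agent.R249.Alg1_104
import Crest.Agent.R249.D1Def_104

/-!
# R249, IDX (helper789), part 2: reduction of `IdxStmt` to oriented manifolds

* `isometry_of_bij` : a bijective local isometry (`LocIso`) is an isometry;
* `injective_of_sc` : a surjective local isometry of a connected closed manifold onto a simply connected
  one is injective;
* `IdxOr`, `idxStmt_of_or` : `IdxStmt` from its oriented version.
-/

set_option autoImplicit false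
set_option maxSynthPendingDepth 3
set_option linter.unusedSectionVars false

open Bundle Set Filter Topology Bornology MeasureTheory Manifold
open scoped ContDiff Manifold ENNReal
open Crest.GeometryTopology.CoordMetric Crest.GeometryTopology.ChartCurvature
open Crest.Agent.R247.Bo84 Crest.Agent.R202.Tens
open Crest.Agent.R249.Loc1_285 Crest.Agent.R249.Loc2_285 Crest.Agent.R249.OriD_285
open Crest.Agent.R249.Mk_285 Crest.Agent.R249.D1Def104

noncomputable section

namespace Crest.Agent.R249.Idx789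

section iso

variable {n : ℕ}

local notation "𝔼" => EuclideanSpace ℝ (Fin n)
local notation "𝓘E" => 𝓘(ℝ, EuclideanSpace ℝ (Fin n))

variable {N M : Type*}
  [MetricSpace N] [ChartedSpace (EuclideanSpace ℝ (Fin n)) N]
  [IsManifold 𝓘(ℝ, EuclideanSpace ℝ (Fin n)) ∞ N]
  [RiemannianBundle (fun x : N => TangentSpace 𝓘(ℝ, EuclideanSpace ℝ (Fin n)) x)]
  [IsContMDiffRiemannianBundle 𝓘(ℝ, EuclideanSpace ℝ (Fin n)) ∞
      (EuclideanSpace ℝ (Fin n)) (fun x : N => TangentSpace 𝓘(ℝ, EuclideanSpace ℝ (Fin n)) x)]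
  [IsRiemannianManifold 𝓘(ℝ, EuclideanSpace ℝ (Fin n)) N]
  [MetricSpace M] [ChartedSpace (EuclideanSpace ℝ (Fin n)) M]
  [IsManifold 𝓘(ℝ, EuclideanSpace ℝ (Fin n)) ∞ M]
  [RiemannianBundle (fun x : M => TangentSpace 𝓘(ℝ, EuclideanSpace ℝ (Fin n)) x)]
  [IsContMDiffRiemannianBundle 𝓘(ℝ, EuclideanSpace ℝ (Fin n)) ∞
      (EuclideanSpace ℝ (Fin n)) (fun x : M => TangentSpace 𝓘(ℝ, EuclideanSpace ℝ (Fin n)) x)]
  [IsRiemannianManifold 𝓘(ℝ, EuclideanSpace ℝ (Fin n)) M]
  {ϖ : N → M}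

theorem edist_ge (h : LocIso n ϖ) (hb : Function.Bijective ϖ) (x y : N) :
    edist x y ≤ edist (ϖ x) (ϖ y) := by
  obtain ⟨σ, hl, hr⟩ := Function.bijective_iff_has_inverse.1 hb
  have hσ : ContMDiff 𝓘E 𝓘E 1 σ := by
    intro m
    obtain ⟨W, τ, hW, hxW, hτ, hτr, -⟩ := exists_localInverse h (σ m)
    rw [hr m] at hxW
    have h1 : ContMDiffAt 𝓘E 𝓘E 1 τ m := hτ.contMDiffAt (hW.mem_nhds hxW)
    refine h1.congr_of_eventuallyEq ?_
    filter_upwards [hW.mem_nhds hxW] with m' hm'
    apply hb.1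
    rw [hr m', hτr m' hm']
  rw [IsRiemannianManifold.out (I := 𝓘E) x y, IsRiemannianManifold.out (I := 𝓘E) (ϖ x) (ϖ y)]
  refine le_of_forall_gt fun r hr0 => ?_
  obtain ⟨γ, h0, h1, h2, h3⟩ := exists_lt_of_riemannianEDist_lt hr0
  refine lt_of_le_of_lt ?_ h3
  have h4 : ϖ ∘ (σ ∘ γ) = γ := by
    funext t
    exact hr (γ t)
  have h5 : ContMDiffOn 𝓘(ℝ, ℝ) 𝓘E 1 (σ ∘ γ) (Icc 0 1) := hσ.comp_contMDiffOn h2
  have h6 := pathELength_comp h (h5.mdifferentiableOn one_ne_zero)
  rw [h4] at h6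
  rw [h6]
  refine riemannianEDist_le_pathELength h5 ?_ ?_ zero_le_one
  · simp [h0, hl x]
  · simp [h1, hl y]

/-- **a bijective local isometry is an isometry** -/
theorem isometry_of_bij (h : LocIso n ϖ) (hb : Function.Bijective ϖ) : Isometry ϖ := fun x y =>
  le_antisymm (edist_le h x y) (edist_ge h hb x y)

theorem isLocalHomeomorph (h : LocIso n ϖ) : IsLocalHomeomorph ϖ := by
  refine IsLocalHomeomorph.mk ϖ fun x => ?_
  obtain ⟨W, σ, hW, hxW, hσ, hr, hl⟩ := exists_localInverse h x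
  obtain ⟨V, hV, hVo, hxV⟩ := eventually_nhds_iff.1 hl
  let V' : Set N := V ∩ ϖ ⁻¹' W
  have hV'o : IsOpen V' := hVo.inter (hW.preimage h.continuous)
  let W' : Set M := W ∩ σ ⁻¹' V'
  have hW'o : IsOpen W' := hσ.continuousOn.isOpen_inter_preimage hW hV'o
  refine ⟨{ toFun := ϖ
            invFun := σ
            source := V'
            target := W'
            map_source' := ?_
            map_target' := fun m hm => hm.2
            left_inv' := fun y hy => hV y hy.1
            right_inv' := fun m hm => hr m hm.1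
            open_source := hV'o
            open_target := hW'o
            continuousOn_toFun := h.continuous.continuousOn
            continuousOn_invFun := hσ.continuousOn.mono inter_subset_left }, ⟨hxV, hxW⟩, ?_⟩
  · intro y hy
    refine ⟨hy.2, ?_⟩
    rw [mem_preimage, hV y hy.1]
    exact hy
  · exact fun y _ => rfl

/-- a surjective local isometry of a closed connected manifold onto a simply connected manifold is
injective. -/
theorem injective_of_sc [CompactSpace N] [ConnectedSpace N] [SimplyConnectedSpace M]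
    (h : LocIso n ϖ) : Function.Injective ϖ := by
  have hc : IsCoveringMap ϖ := isLocalHomeomorph_iff_isCoveringMap.1 (isLocalHomeomorph h)
  have : LocallyPathConnectedSpace M := ChartedSpace.locallyPathConnectedSpace 𝔼 M
  obtain ⟨x₀⟩ : Nonempty N := inferInstance
  obtain ⟨s, ⟨hs0, hs1⟩, -⟩ := hc.existsUnique_continuousMap_lifts (ContinuousMap.id M) (ϖ x₀) x₀
    rfl
  have h1 : (fun y => s (ϖ y)) = fun y => y := by
    refine hc.eq_of_comp_eq (s.continuous.comp h.continuous) continuous_id ?_ x₀ hs0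
    funext y
    exact congrFun hs1 (ϖ y)
  intro a b hab
  have h2 := congrFun h1 a
  have h3 := congrFun h1 b
  have h4 : s (ϖ a) = a := h2
  have h5 : s (ϖ b) = b := h3
  rw [← h4, hab, h5]

end iso

/-- the oriented version of `IdxStmt` -/
def IdxOr : Prop :=
  ∃ C : ℝ, 0 < C ∧
    ∀ (M : Type) [MetricSpace M] [ChartedSpace (EuclideanSpace ℝ (Fin 4)) M]
      [IsManifold 𝓘(ℝ, EuclideanSpace ℝ (Fin 4)) ∞ M] [CompactSpace M] [SimplyConnectedSpace M]
      [RiemannianBundle (fun x : M => TangentSpace 𝓘(ℝ, EuclideanSpace ℝ (Fin 4)) x)]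
      [IsContMDiffRiemannianBundle 𝓘(ℝ, EuclideanSpace ℝ (Fin 4)) ∞ (EuclideanSpace ℝ (Fin 4))
        (fun x : M => TangentSpace 𝓘(ℝ, EuclideanSpace ℝ (Fin 4)) x)]
      [IsRiemannianManifold 𝓘(ℝ, EuclideanSpace ℝ (Fin 4)) M]
      [MeasurableSpace M] [BorelSpace M] (B : M → ℝ), Oriented 4 M → Continuous B →
      (∀ p : M, ∀ u v w z : EuclideanSpace ℝ (Fin 4),
        |Alg1_104.Rm (chartMetric 4 M p) (chartCentre 4 M p) u v w z| ≤
          B p * Real.sqrt (bil (chartMetric 4 M p (chartCentre 4 M p)) u u) *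
            Real.sqrt (bil (chartMetric 4 M p (chartCentre 4 M p)) v v) *
            Real.sqrt (bil (chartMetric 4 M p (chartCentre 4 M p)) w w) *
            Real.sqrt (bil (chartMetric 4 M p (chartCentre 4 M p)) z z)) →
        1 ≤ ENNReal.ofReal C * ∫⁻ p, ENNReal.ofReal (B p ^ 2) ∂(μHE[4] : Measure M)

/-- **reduction to oriented manifolds** -/
theorem idxStmt_of_or (hO : IdxOr) : IdxStmt := by
  obtain ⟨C, hC, H⟩ := hO
  refine ⟨C, hC, ?_⟩
  intro M i1 i2 i3 i4 i5 i6 i7 i8 i9 i10 B hB hbd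
  obtain ⟨G, ϖ, hcp, hor, hs, hl⟩ := exists_oriented_cover 4 M
  have hinj : Function.Injective ϖ := injective_of_sc hl
  have hbij : Function.Bijective ϖ := ⟨hinj, hs⟩
  have hiso : Isometry ϖ := isometry_of_bij hl hbij
  let e : G.S ≃ᵢ M := IsometryEquiv.mk' ϖ (Function.surjInv hs) (Function.surjInv_eq hs) hiso
  have : SimplyConnectedSpace G.S := e.toHomeomorph.toHomotopyEquiv.simplyConnectedSpace
  let : MeasurableSpace G.S := borel G.S
  have : BorelSpace G.S := ⟨rfl⟩
  have h2 := H G.S (fun x => B (ϖ x)) hor (hB.comp hl.continuous) ?_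
  · have h3 : MeasurePreserving e (μHE[4] : Measure G.S) (μHE[4] : Measure M) :=
      e.measurePreserving_euclideanHausdorffMeasure 4
    have h4 : ∫⁻ p, ENNReal.ofReal (B p ^ 2) ∂(μHE[4] : Measure M) =
        ∫⁻ x, ENNReal.ofReal (B (ϖ x) ^ 2) ∂(μHE[4] : Measure G.S) := by
      have h5 : Measurable fun p => ENNReal.ofReal (B p ^ 2) :=
        (hB.pow 2).measurable.ennreal_ofReal
      exact (h3.lintegral_comp h5).symm
    rw [h4]
    exact h2
  · intro x u v w z
    have hp := hl.pull x (ϖ x)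
    have hx := hl.centre_mem x
    have hc := hl.lmap_centre x
    have hR : Alg1_104.Rm (chartMetric 4 G.S x) (chartCentre 4 G.S x) u v w z =
        Alg1_104.Rm (chartMetric 4 M (ϖ x)) (chartCentre 4 M (ϖ x))
          (fderiv ℝ (lmap 4 ϖ x (ϖ x)) (chartCentre 4 G.S x) u)
          (fderiv ℝ (lmap 4 ϖ x (ϖ x)) (chartCentre 4 G.S x) v)
          (fderiv ℝ (lmap 4 ϖ x (ϖ x)) (chartCentre 4 G.S x) w)
          (fderiv ℝ (lmap 4 ϖ x (ϖ x)) (chartCentre 4 G.S x) z) := by
      rw [Alg1_104.Rm, hp.bil_eq hx, hp.curv_eq hx, hc, Alg1_104.Rm]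
    have hbil : ∀ u, bil (chartMetric 4 G.S x (chartCentre 4 G.S x)) u u =
        bil (chartMetric 4 M (ϖ x) (chartCentre 4 M (ϖ x)))
          (fderiv ℝ (lmap 4 ϖ x (ϖ x)) (chartCentre 4 G.S x) u)
          (fderiv ℝ (lmap 4 ϖ x (ϖ x)) (chartCentre 4 G.S x) u) := fun u => by
      rw [hp.bil_eq hx, hc]
    rw [hR, hbil u, hbil v, hbil w, hbil z]
    have h6 := hbd (ϖ x) (fderiv ℝ (lmap 4 ϖ x (ϖ x)) (chartCentre 4 G.S x) u)
          (fderiv ℝ (lmap 4 ϖ x (ϖ x)) (chartCentre 4 G.S x) v)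
          (fderiv ℝ (lmap 4 ϖ x (ϖ x)) (chartCentre 4 G.S x) w)
          (fderiv ℝ (lmap 4 ϖ x (ϖ x)) (chartCentre 4 G.S x) z)
    simp only [quadForm_eq] at h6
    refine le_trans (le_of_eq ?_) h6
    congr 1
    rw [Alg1_104.Rm, bil_apply]
    refine Finset.sum_congr rfl fun l _ => Finset.sum_congr rfl fun m _ => ?_
    rw [curv_apply fun k i j => differentiableAt_christoffel
      (isRiemannianOn_chartMetric (n := 4) (ϖ x)) (centre_mem (ϖ x)) k i j]

end Crest.Agent.R249.Idx789
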