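import Crest.Agent.R249.FrmD_285
import Crest.Agent.R249.SgD_129
import Crest.Agent.R249.FrP_129
import Crest.Agent.R249.Top1_49

/-!
# R249, T-RW (helper285): the functions `|W⁺|²`, `|W⁻|²` on an oriented Einstein 4-manifold

`QF lam Φ k` : the algebraic function `Φ` of the curvature components gives the ring element
`k F : SG x` for the frame `F` of every orthonormal frame germ (`k = qq` or `flip.qq`);
`stHyp_of` : then `mInv Φ` satisfies `STHyp`.
-/

set_option autoImplicit false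
set_option maxSynthPendingDepth 3

open Filter Topology Set Bundle
open scoped ContDiff Manifold
open Crest.GeometryTopology.CoordMetric Crest.GeometryTopology.ChartCurvature
  Crest.GeometryTopology.PointedLimit
open Crest.Agent.R202.Tens Crest.Agent.R247.Bo84 Crest.Agent.R249.FrmB_285
open Crest.Agent.R249.FrmC_285 Crest.Agent.R249.FrmD_285 Crest.Agent.R249.OriD_285
open Crest.Agent.R249.Fr129 Crest.Agent.R249.Sg129 Crest.Agent.R249.Top49

noncomputable section

namespace Crest.Agent.R249.Trw_285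

section Gen

variable {n : ℕ}

local notation "𝔼" => EuclideanSpace ℝ (Fin n)

variable {M : Type*} [TopologicalSpace M] [ChartedSpace (EuclideanSpace ℝ (Fin n)) M]
  [IsManifold 𝓘(ℝ, EuclideanSpace ℝ (Fin n)) ∞ M]
  [RiemannianBundle (fun x : M => TangentSpace 𝓘(ℝ, EuclideanSpace ℝ (Fin n)) x)]
  [IsContMDiffRiemannianBundle 𝓘(ℝ, EuclideanSpace ℝ (Fin n)) ∞ (EuclideanSpace ℝ (Fin n))
      (fun x : M => TangentSpace 𝓘(ℝ, EuclideanSpace ℝ (Fin n)) x)]

/-- the Einstein condition in every chart. -/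
theorem einstein_chart {c : ℝ} (hE : IsEinsteinWith n M c) (x₀ : M) {y : 𝔼}
    (hy : y ∈ (chartAt 𝔼 x₀).target) (i j : Fin n) :
    ricci (chartMetric n M x₀) y i j = c * chartMetric n M x₀ y i j := by
  set q := (chartAt 𝔼 x₀).symm y with hq
  have hyd : y ∈ tdom x₀ q := mem_tdom_self hy
  have hP := pull_trans (n := n) x₀ q
  have hc : R247.Bo84.trans x₀ q y = chartCentre n M q := rfl
  have h1 := hP.ricci_pull hyd (EuclideanSpace.single i 1) (EuclideanSpace.single j 1)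
  have h2 := hP.bil_eq hyd (EuclideanSpace.single i 1) (EuclideanSpace.single j 1)
  rw [hc] at h1 h2
  have h3 : ∀ a b : Fin n, ricci (chartMetric n M q) (chartCentre n M q) a b =
      c * chartMetric n M q (chartCentre n M q) a b := hE q
  simp only [h3] at h1
  have h4 : ∀ A : Matrix (Fin n) (Fin n) ℝ, ∑ a, ∑ b, A a b *
      (EuclideanSpace.single i (1:ℝ) : 𝔼) a * (EuclideanSpace.single j (1:ℝ) : 𝔼) b = A i j := by
    intro A
    simp [PiLp.single_apply, Finset.sum_ite_eq']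
  have h5 := h4 fun a b => ricci (chartMetric n M x₀) y a b
  have h6 := h4 (chartMetric n M x₀ y)
  rw [bil_apply, bil_apply] at h2
  rw [← h5, h1, ← h6, h2, Finset.mul_sum]
  refine Finset.sum_congr rfl fun a _ => ?_
  rw [Finset.mul_sum]
  exact Finset.sum_congr rfl fun b _ => by ring

/-- a positively oriented orthonormal frame germ in every chart. -/
theorem exists_onf (x₀ : M) {y : 𝔼} (hy : y ∈ (chartAt 𝔼 x₀).target) :
    ∃ e : Fin n → 𝔼 → 𝔼, ONF (chartMetric n M x₀) (chartAt 𝔼 x₀).target y e ∧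
      ∀ᶠ z in 𝓝 y, Orth (chartMetric n M x₀ z) (fun i => e i z) ∧
        0 < (mat fun i => e i z).det := by
  obtain ⟨e, h1, h2⟩ := FrmB_285.exists_frame (isRiemannianOn_chartMetric (n := n) x₀) hy
  refine ⟨e, ⟨isRiemannianOn_chartMetric x₀, hy, h1, ?_⟩, h2⟩
  filter_upwards [h2] with z hz using hz.1

end Gen

local notation "𝔼" => EuclideanSpace ℝ (Fin 4)
local notation "𝓘E" => 𝓘(ℝ, EuclideanSpace ℝ (Fin 4))

/-- algebraic tensors on `ℝ⁴`. -/
abbrev T4 : Type := Fin 4 → Fin 4 → Fin 4 → Fin 4 → ℝ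

/-- `Φ` computes `|W⁺|²` (`b = false`) or `|W⁻|²` (`b = true`) for the Einstein constant `lam`. -/
structure QF (lam : ℝ) (b : Bool) (Φ : T4 → ℝ) : Prop where
  inv : Inv Φ
  smooth : ContDiff ℝ ∞ Φ
  eq : ∀ {g : MetricField 4} {U : Set 𝔼} {x : 𝔼} {e : Fin 4 → 𝔼 → 𝔼} (h : ONF g U x e)
    (hs : ContDiffAt ℝ ∞ (fun y => Φ (Rc g y fun i => e i y)) x),
    (cond b h.frameOf.flip h.frameOf).qq (algebraMap ℝ (SG x) lam) =
      germ (fun y => Φ (Rc g y fun i => e i y)) hs

section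

variable {lam : ℝ} {b : Bool} {Φ : T4 → ℝ}

theorem cond_einstein {S : Type*} [CommRing S] [Algebra ℝ S] {F : Frame 4 S} {c : S}
    (hE : F.Einstein c) (b : Bool) : (cond b F.flip F).Einstein c := by
  cases b
  · exact hE
  · exact F.Einstein_flip hE

theorem cond_lap0 {S : Type*} [CommRing S] [Algebra ℝ S] (F : Frame 4 S) (b : Bool) (f : S) :
    (cond b F.flip F).lap0 f = F.lap0 f := by
  cases b
  · rfl
  · exact F.flip_lap0 f

theorem cond_gam {S : Type*} [CommRing S] [Algebra ℝ S] (F : Frame 4 S) (b : Bool) (f : S) :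
    (cond b F.flip F).gam f f = F.gam f f := by
  cases b
  · rfl
  · simp only [cond_true, Frame.gam, Frame.flip_D]
    refine Finset.sum_congr rfl fun k _ => ?_
    have h := Frame.cast_sq (S := S) Frame.e3_sq k
    linear_combination (F.D k f * F.D k f) * h

theorem QF.contDiffAt (hΦ : QF lam b Φ) {g : MetricField 4} {U : Set 𝔼} {x : 𝔼}
    {e : Fin 4 → 𝔼 → 𝔼} (h : ONF g U x e) :
    ContDiffAt ℝ ∞ (fun y => Φ (Rc g y fun i => e i y)) x := by
  refine hΦ.smooth.contDiffAt.comp _ ?_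
  refine contDiffAt_pi.2 fun i => contDiffAt_pi.2 fun j => contDiffAt_pi.2 fun k =>
    contDiffAt_pi.2 fun l => ?_
  exact contDiffAt_Rc h.riem h.mem h.smooth i j k l

variable {M : Type*} [TopologicalSpace M] [ChartedSpace (EuclideanSpace ℝ (Fin 4)) M]
  [IsManifold 𝓘(ℝ, EuclideanSpace ℝ (Fin 4)) ∞ M]
  [RiemannianBundle (fun x : M => TangentSpace 𝓘(ℝ, EuclideanSpace ℝ (Fin 4)) x)]
  [IsContMDiffRiemannianBundle 𝓘(ℝ, EuclideanSpace ℝ (Fin 4)) ∞ (EuclideanSpace ℝ (Fin 4))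
      (fun x : M => TangentSpace 𝓘(ℝ, EuclideanSpace ℝ (Fin 4)) x)]

/-- dictionary between `mInv Φ` near `p` and the ring of germs. -/
theorem dict (hO : Oriented 4 M) (hΦ : QF lam b Φ) (p : M) {e : Fin 4 → 𝔼 → 𝔼}
    (h : ONF (chartMetric 4 M p) (chartAt 𝔼 p).target (chartCentre 4 M p) e)
    (hpos : ∀ᶠ z in 𝓝 (chartCentre 4 M p), Orth (chartMetric 4 M p z) (fun i => e i z) ∧
      0 < (mat fun i => e i z).det) :
    ev ((cond b h.frameOf.flip h.frameOf).qq (algebraMap ℝ (SG _) lam)) = mInv Φ p ∧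
    ev ((cond b h.frameOf.flip h.frameOf).lap0
      ((cond b h.frameOf.flip h.frameOf).qq (algebraMap ℝ (SG _) lam))) = mLap 4 (mInv Φ) p ∧
    ev ((cond b h.frameOf.flip h.frameOf).gam
      ((cond b h.frameOf.flip h.frameOf).qq (algebraMap ℝ (SG _) lam))
      ((cond b h.frameOf.flip h.frameOf).qq (algebraMap ℝ (SG _) lam))) =
        mGam 4 (mInv Φ) (mInv Φ) p := by
  have hc : chartCentre 4 M p ∈ (chartAt 𝔼 p).target := centre_mem p
  have hs := hΦ.contDiffAt h
  have hg := mInv_germ hO hΦ.inv hc hpos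
  have hs' : ContDiffAt ℝ ∞ (inCh 4 p (mInv Φ)) (chartCentre 4 M p) :=
    hs.congr_of_eventuallyEq hg
  have e1 : (cond b h.frameOf.flip h.frameOf).qq (algebraMap ℝ (SG _) lam) =
      germ (inCh 4 p (mInv Φ)) hs' := by
    rw [hΦ.eq h hs]
    exact germ_eq hg.symm
  refine ⟨?_, ?_, ?_⟩
  · rw [e1, ev_germ]
    change mInv Φ ((chartAt 𝔼 p).symm (chartAt 𝔼 p p)) = _
    rw [(chartAt 𝔼 p).left_inv (mem_chart_source 𝔼 p)]
  · rw [cond_lap0, e1, h.lap0_germ, ev_germ]
    rfl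
  · rw [cond_gam, e1, h.gam_germ, ev_germ]
    rfl

/-- **`STHyp` for `|W^±|²`.** -/
theorem stHyp_of (hO : Oriented 4 M) (hE : IsEinsteinWith 4 M lam) (hΦ : QF lam b Φ) :
    STHyp M lam (mInv Φ) := by
  have key : ∀ p : M, ∃ e : Fin 4 → 𝔼 → 𝔼,
      ∃ h : ONF (chartMetric 4 M p) (chartAt 𝔼 p).target (chartCentre 4 M p) e,
      (cond b h.frameOf.flip h.frameOf).Einstein (algebraMap ℝ (SG _) lam) ∧
      ∀ᶠ z in 𝓝 (chartCentre 4 M p), Orth (chartMetric 4 M p z) (fun i => e i z) ∧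
        0 < (mat fun i => e i z).det := by
    intro p
    obtain ⟨e, h, hpos⟩ := exists_onf (n := 4) p (centre_mem (n := 4) p)
    refine ⟨e, h, cond_einstein (h.einstein ?_) b, hpos⟩
    filter_upwards [(chartAt 𝔼 p).open_target.mem_nhds (centre_mem (n := 4) p)] with y hy
    exact fun i j => einstein_chart hE p hy i j
  refine ⟨contMDiff_mInv hO hΦ.inv hΦ.smooth, fun p => ?_, fun p hp => ?_⟩
  · obtain ⟨e, h, hF, hpos⟩ := key p
    obtain ⟨h1, -, -⟩ := dict hO hΦ p h hpos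
    rw [← h1, Frame.ev_qq]
    exact Finset.sum_nonneg fun i _ => Finset.sum_nonneg fun j _ => by positivity
  · obtain ⟨e, h, hF, hpos⟩ := key p
    obtain ⟨h1, h2, h3⟩ := dict hO hΦ p h hpos
    have h4 := Frame.bochner_pt (cond b h.frameOf.flip h.frameOf) ev hF 0
    rw [h1, h2, h3] at h4
    have h5 : Real.sqrt (mInv Φ p) ^ 3 = mInv Φ p * Real.sqrt (mInv Φ p) := by
      have := Real.mul_self_sqrt hp.le
      calc Real.sqrt (mInv Φ p) ^ 3 =
          (Real.sqrt (mInv Φ p) * Real.sqrt (mInv Φ p)) * Real.sqrt (mInv Φ p) := by ring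
        _ = _ := by rw [this]
    have h6 : 5 / 6 * mGam 4 (mInv Φ) (mInv Φ) p / (mInv Φ p + 0 ^ 2) =
        5 / 6 * (mGam 4 (mInv Φ) (mInv Φ) p / mInv Φ p) := by
      rw [zero_pow two_ne_zero, add_zero, mul_div_assoc]
    rw [h5, h6] at h4
    linarith

end

end Crest.Agent.R249.Trw_285
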