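import Crest.Agent.R249.Tz0_805
import Crest.Agent.R249.FrmD_285
import Crest.Agent.R249.Trw_285

/-!
# R249, [VOL] (helper285): the volume form of an oriented Riemannian 4-manifold

`vol4 z v`; `vol4_eq` (value in every chart and every positive orthonormal basis);
`volAt_vol4` (positive frames), `volAt_neg` (negative frames, `-vol4`), `isVol_vol4`, `isVol_neg`;
smoothness `contMDiff_vol`, germs `fg_vol` for every `vol` with `VolAt vol z e`.
-/

set_option autoImplicit false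
set_option maxSynthPendingDepth 3
set_option linter.unusedSectionVars false

open Filter Topology Set Bundle Manifold
open scoped ContDiff
open Crest.GeometryTopology.CoordMetric Crest.GeometryTopology.ChartCurvature
  Crest.GeometryTopology.PointedLimit
open Crest.Agent.R202.Tens Crest.Agent.R247.Bo84 Crest.Agent.R249.FrmB_285
open Crest.Agent.R249.FrmC_285 Crest.Agent.R249.FrmD_285 Crest.Agent.R249.OriD_285
open Crest.Agent.R249.Vf281 Crest.Agent.R249.Tz805
open Crest.Agent.R249.Fr129 Crest.Agent.R249.Sg129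

noncomputable section

namespace Crest.Agent.R249.Vol_285

local notation "𝔼" => EuclideanSpace ℝ (Fin 4)
local notation "𝓘E" => 𝓘(ℝ, EuclideanSpace ℝ (Fin 4))

/-- determinant of the components of four vectors in four vectors. -/
def dt (A : Matrix (Fin 4) (Fin 4) ℝ) (v e : Fin 4 → EuclideanSpace ℝ (Fin 4)) : ℝ :=
  (Matrix.of fun i j => bil A (v i) (e j)).det

theorem dt_change (A : Matrix (Fin 4) (Fin 4) ℝ) (v e : Fin 4 → 𝔼)
    (O : Matrix (Fin 4) (Fin 4) ℝ) :
    dt A v (fun i => ∑ a, O i a • e a) = O.det * dt A v e := by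
  have h : (Matrix.of fun i j => bil A (v i) (∑ a, O j a • e a)) =
      (Matrix.of fun i j => bil A (v i) (e j)) * O.transpose := by
    ext i j
    rw [Matrix.mul_apply, Matrix.of_apply, map_sum]
    refine Finset.sum_congr rfl fun a _ => ?_
    rw [map_smul, smul_eq_mul, Matrix.transpose_apply, Matrix.of_apply, mul_comm]
  rw [dt, h, Matrix.det_mul, Matrix.det_transpose, mul_comm]
  rfl

variable {M : Type*} [TopologicalSpace M] [ChartedSpace (EuclideanSpace ℝ (Fin 4)) M]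
  [IsManifold 𝓘(ℝ, EuclideanSpace ℝ (Fin 4)) ∞ M]
  [RiemannianBundle (fun x : M => TangentSpace 𝓘(ℝ, EuclideanSpace ℝ (Fin 4)) x)]
  [IsContMDiffRiemannianBundle 𝓘(ℝ, EuclideanSpace ℝ (Fin 4)) ∞ (EuclideanSpace ℝ (Fin 4))
      (fun x : M => TangentSpace 𝓘(ℝ, EuclideanSpace ℝ (Fin 4)) x)]

/-- **the volume form.** -/
def vol4 (z : M) (v : Fin 4 → TangentSpace 𝓘(ℝ, EuclideanSpace ℝ (Fin 4)) z) : ℝ :=
  dt (chartMetric 4 M z (chartCentre 4 M z)) (fun i => dCh z z (v i)) (bas (n := 4) z)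

/-- the volume form in every chart and every positive orthonormal basis. -/
theorem vol4_eq (hO : Oriented 4 M) {z₀ z : M} (hz : z ∈ (chartAt 𝔼 z₀).source)
    {e : Fin 4 → 𝔼} (he : Orth (chartMetric 4 M z₀ (chartAt 𝔼 z₀ z)) e) (hd : 0 < (mat e).det)
    (v : Fin 4 → TangentSpace 𝓘E z) :
    vol4 z v = dt (chartMetric 4 M z₀ (chartAt 𝔼 z₀ z)) (fun i => dCh z₀ z (v i)) e := by
  set y := chartAt 𝔼 z₀ z with hy
  have hyt : y ∈ (chartAt 𝔼 z₀).target := (chartAt 𝔼 z₀).map_source hz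
  have hsy : (chartAt 𝔼 z₀).symm y = z := (chartAt 𝔼 z₀).left_inv hz
  have hyd : y ∈ tdom z₀ z := by
    refine ⟨hyt, ?_⟩
    rw [mem_preimage, hsy]
    exact mem_chart_source 𝔼 z
  have hP := pull_trans (n := 4) z₀ z
  have hpos := hO z₀ z y hyd
  have hc : R247.Bo84.trans z₀ z y = chartCentre 4 M z := by
    rw [R247.Bo84.trans, hsy]; rfl
  have h1 := orth_pull hP hyd he
  have h3 : 0 < (mat fun i => fderiv ℝ (R247.Bo84.trans z₀ z) y (e i)).det := by
    rw [det_map]; exact mul_pos hpos hd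
  rw [hc] at h1
  obtain ⟨O, -, hdet, hOe⟩ := exists_change h1 (bas_orth (n := 4) z) (mul_pos h3 (bas_det z))
  have h4 : ∀ w : TangentSpace 𝓘E z, dCh z z w =
      fderiv ℝ (R247.Bo84.trans z₀ z) y (dCh z₀ z w) := by
    intro w
    rw [fderiv_trans hyd, hsy]
    congr 1
    exact (dSy_dCh z₀ hz w).symm
  rw [vol4, hOe, dt_change, hdet, one_mul, dt, dt]
  congr 1
  ext i j
  rw [Matrix.of_apply, Matrix.of_apply, h4, ← hc, ← hP.bil_eq hyd]

/-- **positive frames are positive for `vol4`.** -/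
theorem volAt_vol4 (hO : Oriented 4 M) {z : M} {e : Fin 4 → 𝔼 → 𝔼}
    (hpos : ∀ᶠ y in 𝓝 (chartCentre 4 M z), Orth (chartMetric 4 M z y) (fun i => e i y) ∧
      0 < (mat fun i => e i y).det) : VolAt (vol4 (M := M)) z e := by
  filter_upwards [hpos, (chartAt 𝔼 z).open_target.mem_nhds (centre_mem (n := 4) z)] with y hy hyt
  intro X
  have hs := (chartAt 𝔼 z).map_target hyt
  have hr := (chartAt 𝔼 z).right_inv hyt
  have h := vol4_eq hO hs (e := fun i => e i y) (by rw [hr]; exact hy.1) hy.2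
    (fun i => X i ((chartAt 𝔼 z).symm y))
  rw [hr] at h
  exact h

/-- change of sign of the last vector. -/
def neg3 (e : Fin 4 → 𝔼 → 𝔼) (i : Fin 4) (y : 𝔼) : 𝔼 :=
  ∑ a, Trx_D4 i a • e a y
where
  /-- the reflection -/
  Trx_D4 : Matrix (Fin 4) (Fin 4) ℝ := Matrix.diagonal ![1, 1, 1, -1]

theorem D4_orth : neg3.Trx_D4 * neg3.Trx_D4.transpose = 1 := by
  rw [neg3.Trx_D4, Matrix.diagonal_transpose, Matrix.diagonal_mul_diagonal,
    ← Matrix.diagonal_one]
  congr 1
  funext i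
  fin_cases i <;> simp

theorem D4_det : neg3.Trx_D4.det = -1 := by
  rw [neg3.Trx_D4, Matrix.det_diagonal, Fin.prod_univ_four]
  simp

theorem neg3_apply (e : Fin 4 → 𝔼 → 𝔼) (i : Fin 4) (y : 𝔼) :
    neg3 e i y = (![1, 1, 1, -1] : Fin 4 → ℝ) i • e i y := by
  rw [neg3, Finset.sum_eq_single i]
  · rw [neg3.Trx_D4, Matrix.diagonal_apply_eq]
  · intro b _ hb
    rw [neg3.Trx_D4, Matrix.diagonal_apply_ne _ hb.symm, zero_smul]
  · simp

theorem dt_neg3 (A : Matrix (Fin 4) (Fin 4) ℝ) (v : Fin 4 → 𝔼) (e : Fin 4 → 𝔼 → 𝔼) (y : 𝔼) :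
    dt A v (fun i => neg3 e i y) = - dt A v fun i => e i y := by
  have h := dt_change A v (fun i => e i y) neg3.Trx_D4
  rw [D4_det, neg_one_mul] at h
  exact h

theorem orth_neg3 {A : Matrix (Fin 4) (Fin 4) ℝ} {e : Fin 4 → 𝔼 → 𝔼} {y : 𝔼}
    (h : Orth A fun i => e i y) : Orth A fun i => neg3 e i y :=
  orth_change h D4_orth

theorem det_neg3 (e : Fin 4 → 𝔼 → 𝔼) (y : 𝔼) :
    (mat fun i => neg3 e i y).det = - (mat fun i => e i y).det := by
  have h := det_change (fun i => e i y) neg3.Trx_D4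
  rw [D4_det, neg_one_mul] at h
  exact h

/-- **negative frames are positive for `-vol4`.** -/
theorem volAt_neg (hO : Oriented 4 M) {z : M} {e : Fin 4 → 𝔼 → 𝔼}
    (hneg : ∀ᶠ y in 𝓝 (chartCentre 4 M z), Orth (chartMetric 4 M z y) (fun i => e i y) ∧
      (mat fun i => e i y).det < 0) : VolAt (fun (q : M) v => - vol4 q v) z e := by
  have h := volAt_vol4 hO (e := neg3 e) (z := z) (by
    filter_upwards [hneg] with y hy
    refine ⟨orth_neg3 hy.1, ?_⟩
    rw [det_neg3]; linarith [hy.2])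
  filter_upwards [h] with y hy
  intro X
  have h2 := hy X
  have h3 := dt_neg3 (chartMetric 4 M z y) (fun i => vCh 4 z (X i) y) e y
  change vol4 _ _ = dt _ _ _ at h2
  rw [h2, h3, neg_neg]
  rfl

theorem exists_onf_neg (z : M) : ∃ e : Fin 4 → 𝔼 → 𝔼,
    ONF (chartMetric 4 M z) (chartAt 𝔼 z).target (chartCentre 4 M z) e ∧
      ∀ᶠ y in 𝓝 (chartCentre 4 M z), Orth (chartMetric 4 M z y) (fun i => e i y) ∧
        (mat fun i => e i y).det < 0 := by
  obtain ⟨e, h, hpos⟩ := Trw_285.exists_onf (n := 4) z (centre_mem (n := 4) z)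
  refine ⟨neg3 e, ⟨h.riem, h.mem, fun i => ?_, ?_⟩, ?_⟩
  · have : neg3 e i = fun y => (![1, 1, 1, -1] : Fin 4 → ℝ) i • e i y := by
      funext y; exact neg3_apply e i y
    rw [this]
    exact (h.smooth i).const_smul ((![1, 1, 1, -1] : Fin 4 → ℝ) i)
  · filter_upwards [hpos] with y hy using orth_neg3 hy.1
  · filter_upwards [hpos] with y hy
    refine ⟨orth_neg3 hy.1, ?_⟩
    rw [det_neg3]; linarith [hy.2]

theorem isVol_vol4 (hO : Oriented 4 M) : IsVol (vol4 (M := M)) := by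
  intro z
  obtain ⟨e, h, hpos⟩ := Trw_285.exists_onf (n := 4) z (centre_mem (n := 4) z)
  exact ⟨e, h, volAt_vol4 hO hpos⟩

theorem isVol_neg (hO : Oriented 4 M) : IsVol (fun (q : M) v => - vol4 q v) := by
  intro z
  obtain ⟨e, h, hneg⟩ := exists_onf_neg z
  exact ⟨e, h, volAt_neg hO hneg⟩

/-! ### smoothness and germs -/

section

variable {vol : (z : M) → (Fin 4 → TangentSpace 𝓘(ℝ, EuclideanSpace ℝ (Fin 4)) z) → ℝ}
  {z : M} {e : Fin 4 → EuclideanSpace ℝ (Fin 4) → EuclideanSpace ℝ (Fin 4)}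

/-- the components of a smooth field are smooth at the centre. -/
theorem cd_comp (h : ONF (chartMetric 4 M z) (chartAt 𝔼 z).target (chartCentre 4 M z) e)
    {X : (q : M) → TangentSpace 𝓘E q} (hX : VSm 4 ∞ X z) (j : Fin 4) :
    ContDiffAt ℝ ∞ (fun y => bil (chartMetric 4 M z y) (vCh 4 z X y) (e j y))
      (chartCentre 4 M z) := h.cd_bil hX (h.smooth j)

theorem cd_det {x : 𝔼} {N : Fin 4 → Fin 4 → 𝔼 → ℝ} (hN : ∀ i j, ContDiffAt ℝ ∞ (N i j) x) :
    ContDiffAt ℝ ∞ (fun y => (Matrix.of fun i j => N i j y).det) x := by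
  simp only [Matrix.det_apply, Matrix.of_apply]
  refine ContDiffAt.sum fun σ _ => ?_
  refine ContDiffAt.const_smul _ ?_
  exact contDiffAt_prod fun i _ => hN _ _

theorem germ_det {x : 𝔼} {N : Fin 4 → Fin 4 → 𝔼 → ℝ} (hN : ∀ i j, ContDiffAt ℝ ∞ (N i j) x) :
    germ (fun y => (Matrix.of fun i j => N i j y).det) (cd_det hN) =
      (Matrix.of fun i j => germ (N i j) (hN i j)).det := by
  let N' : Matrix (Fin 4) (Fin 4) (CF x) := Matrix.of fun i j => ⟨N i j, hN i j⟩
  have h1 : (Matrix.of fun i j => germ (N i j) (hN i j)) = N'.map gm := rfl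
  have h2 : (N'.map gm).det = gm N'.det := (AlgHom.map_det gm N').symm
  rw [h1, h2]
  change gm ⟨fun y => (Matrix.of fun i j => N i j y).det, cd_det hN⟩ = gm N'.det
  refine congrArg gm (Subtype.ext (funext fun y => ?_))
  let evy : CF x →ₐ[ℝ] ℝ :=
    (Pi.evalAlgHom ℝ (fun _ : EuclideanSpace ℝ (Fin 4) => ℝ) y).comp (CF x).val
  have h3 := AlgHom.map_det evy N'
  exact h3.symm

theorem inCh_vol (hv : VolAt vol z e) (X : Fin 4 → (q : M) → TangentSpace 𝓘E q) :
    inCh 4 z (fun q => vol q fun i => X i q) =ᶠ[𝓝 (chartCentre 4 M z)] fun y =>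
      (Matrix.of fun i j => bil (chartMetric 4 M z y) (vCh 4 z (X i) y) (e j y)).det := by
  filter_upwards [hv] with y hy using hy X

/-- the germ of `vol(X₀,…,X₃)`. -/
theorem fg_vol (h : ONF (chartMetric 4 M z) (chartAt 𝔼 z).target (chartCentre 4 M z) e)
    (hv : VolAt vol z e) {X : Fin 4 → (q : M) → TangentSpace 𝓘E q}
    (hX : ∀ i, VSm 4 ∞ (X i) z) :
    fg z (fun q => vol q fun i => X i q) = (Matrix.of fun i j => vg z e (X i) j).det := by
  have h1 := inCh_vol hv X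
  have h2 : ContDiffAt ℝ ∞ (inCh 4 z (fun q => vol q fun i => X i q)) (chartCentre 4 M z) :=
    (cd_det fun i j => cd_comp h (hX i) j).congr_of_eventuallyEq h1
  have h3 : fg z (fun q => vol q fun i => X i q) = germ _ h2 := dif_pos h2
  have h4 : ∀ i j, vg z e (X i) j = germ _ (cd_comp h (hX i) j) := fun i j =>
    dif_pos (cd_comp h (hX i) j)
  rw [h3]
  simp only [h4]
  rw [← germ_det]
  exact germ_eq h1

theorem contMDiffAt_vol (h : ONF (chartMetric 4 M z) (chartAt 𝔼 z).target (chartCentre 4 M z) e)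
    (hv : VolAt vol z e) {X : Fin 4 → (q : M) → TangentSpace 𝓘E q}
    (hX : ∀ i, VSm 4 ∞ (X i) z) :
    ContMDiffAt 𝓘E 𝓘(ℝ, ℝ) ∞ (fun q => vol q fun i => X i q) z :=
  contMDiffAt_of_inCh le_rfl (mem_chart_source 𝔼 z)
    ((cd_det fun i j => cd_comp h (hX i) j).congr_of_eventuallyEq (inCh_vol hv X))

/-- **smoothness of volume forms.** -/
theorem contMDiff_vol (hv : IsVol vol) {X : Fin 4 → (q : M) → TangentSpace 𝓘E q}
    (hX : ∀ i q, VSm 4 ∞ (X i) q) :
    ContMDiff 𝓘E 𝓘(ℝ, ℝ) ∞ (fun q => vol q fun i => X i q) := by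
  intro z
  obtain ⟨e, h, hve⟩ := hv z
  exact contMDiffAt_vol h hve fun i => hX i z

end

end Crest.Agent.R249.Vol_285
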