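import Crest.Agent.R249.Idx2_789
import Crest.Agent.R249.Idx3_789
import Crest.Agent.R249.Idx8_789
import Crest.Agent.R249.DenP_714
import Crest.Agent.R249.TofM_352
import Crest.Agent.R249.Vol_285
import Crest.Agent.R249.HKEnd_286

/-!
# R249, IDX (helper789), part 9: assembly of `IdxStmt`

`GRP s vol` : the Clifford pair of `D : ℝ ⊕ Λ⁻ → T` for the volume form `vol` (805);
`idxOr_of` : `WeakStmt` and the existence of the pairs give `IdxOr`.
-/

set_option autoImplicit false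
set_option maxSynthPendingDepth 3
set_option linter.unusedSectionVars false

open Filter Topology Set Bundle Manifold Matrix MeasureTheory
open scoped ContDiff ENNReal NNReal
open Crest.GeometryTopology.CoordMetric Crest.GeometryTopology.ChartCurvature
  Crest.GeometryTopology.PointedLimit
open Crest.Agent.R202.Tens Crest.Agent.R247.Bo84 Crest.Agent.R249.FrmB_285 Crest.Agent.R249.Vf281
  Crest.Agent.R249.Tz1_805 Crest.Agent.R249.Tz2_805 Crest.Agent.R249.Tz805
open Crest.Agent.R249.Fr129 Crest.Agent.R249.C2_198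
open Crest.Agent.R249.Sg129 (ONF SG ev ev_germ)
open Crest.Agent.R249.Tv57 Crest.Agent.R249.HK9_714 Crest.Agent.R249.OriD_285
open Crest.Agent.R249.Vol_285 Crest.Agent.R249.D1Def104

noncomputable section

namespace Crest.Agent.R249.Idx789

section grp

variable {M : Type*} [TopologicalSpace M] [ChartedSpace (EuclideanSpace ℝ (Fin 4)) M]
  [IsManifold 𝓘(ℝ, EuclideanSpace ℝ (Fin 4)) ∞ M]
  [RiemannianBundle (fun x : M => TangentSpace 𝓘(ℝ, EuclideanSpace ℝ (Fin 4)) x)]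
  [IsContMDiffRiemannianBundle 𝓘(ℝ, EuclideanSpace ℝ (Fin 4)) ∞ (EuclideanSpace ℝ (Fin 4))
      (fun x : M => TangentSpace 𝓘(ℝ, EuclideanSpace ℝ (Fin 4)) x)]

variable {κ : Type} [Fintype κ]

/-- the Clifford pair of `D : ℝ ⊕ Λ⁻ → T` -/
structure GRP (s : PF 4 M κ)
    (vol : (z : M) → (Fin 4 → TangentSpace 𝓘(ℝ, EuclideanSpace ℝ (Fin 4)) z) → ℝ) where
  P : CPair 4 M κ (Option (κ × κ)) κ
  hs : P.s = s
  hD1 : P.D1 = tanB s
  hcc : P.cc = ccR s vol
  hp0 : ∀ z, P.D0.p none none z = 1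
  hp1 : ∀ y z, P.D0.p (some y) none z = 0
  hW0 : ∀ x z, P.D0.W x none z = 0
  cl : ∀ (z : M) (e : Fin 4 → EuclideanSpace ℝ (Fin 4) → EuclideanSpace ℝ (Fin 4))
    (h : ONF (chartMetric 4 M z) (chartAt (EuclideanSpace ℝ (Fin 4)) z).target
      (chartCentre 4 M z) e), VolAt vol z e →
    ∃ j0, CLoc P.D0 P.D1 P.cc h (e0 h.frameOf) h.frameOf.tan (cK _) j0 (tanJ s z e)

end grp

section closed

variable {M : Type} [MetricSpace M] [ChartedSpace (EuclideanSpace ℝ (Fin 4)) M]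
  [IsManifold (𝓡 4) ∞ M]
  [RiemannianBundle (fun p : M => TangentSpace (𝓡 4) p)]
  [IsContMDiffRiemannianBundle (𝓡 4) ∞ (EuclideanSpace ℝ (Fin 4)) (fun p : M => TangentSpace (𝓡 4) p)]
  [IsRiemannianManifold (𝓡 4) M] [MeasurableSpace M] [BorelSpace M]
  [SecondCountableTopology M] [Nonempty M]

variable {κ : Type} [Fintype κ] {s : PF 4 M κ}
  {vol vol' : (z : M) → (Fin 4 → TangentSpace 𝓘(ℝ, EuclideanSpace ℝ (Fin 4)) z) → ℝ}
  (G : GRP s vol) {T : ToF 4 M} {D0 : Dat 4 M (Option (κ × κ))} {D1 : Dat 4 M κ}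
  (W : WD T G.P D0 D1)

namespace GRP

include W

theorem rank (hv : IsVol vol) (z : M) : ∑ a, D0.p a a z = 4 ∧ ∑ a, D1.p a a z = 4 := by
  obtain ⟨e, h, hve⟩ := hv z
  obtain ⟨j0, C⟩ := G.cl z e h hve
  have h0 := W.rank0 C
  have h1 := W.rank1 C
  simp only [Fintype.card_fin] at h0 h1
  exact ⟨by exact_mod_cast h0, by exact_mod_cast h1⟩

theorem tr (hv : IsVol vol) (z : M) : ∑ a, ∑ b, D0.Q a b z * D0.p a b z =
    ∑ a, ∑ b, D1.Q a b z * D1.p a b z := by
  obtain ⟨e, h, hve⟩ := hv z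
  obtain ⟨j0, C⟩ := G.cl z e h hve
  rw [W.tr0 C, W.tr1 C, trQ]

/-- the density is bounded by `6 |Rm|²` -/
theorem dn_le (hv : IsVol vol) (z : M) {b : ℝ}
    (hb : ∀ u v w y : EuclideanSpace ℝ (Fin 4),
        |Alg1_104.Rm (chartMetric 4 M z) (chartCentre 4 M z) u v w y| ≤
          b * Real.sqrt (bil (chartMetric 4 M z (chartCentre 4 M z)) u u) *
            Real.sqrt (bil (chartMetric 4 M z (chartCentre 4 M z)) v v) *
            Real.sqrt (bil (chartMetric 4 M z (chartCentre 4 M z)) w w) *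
            Real.sqrt (bil (chartMetric 4 M z (chartCentre 4 M z)) y y)) :
    |dn D0 z - dn D1 z| ≤ 6 * b ^ 2 := by
  obtain ⟨e, h, hve⟩ := hv z
  obtain ⟨j0, C⟩ := G.cl z e h hve
  rw [W.dn0 C, W.dn1 C]
  exact dens_le h.frameOf ev (ONF_Rm_le h hb)

/-- the potential of the tangent bundle is the Ricci form -/
theorem pot (hv : IsVol vol) (a b : κ) (z : M) : D1.Q a b z = mRic 4 z (s.s b z) (s.s a z) := by
  obtain ⟨e, h, hve⟩ := hv z
  obtain ⟨j0, C⟩ := G.cl z e h hve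
  refine pot_ric h s D1.smQ (R := Q h.frameOf h.frameOf.tan fun i => (cK _ i)ᵀ) (fun j k => ?_)
    (W.germ1 C) a b
  rw [Q1_val]
  rfl

theorem sec1 {w : κ → M → ℝ} (hs : D1.Sec w) (a : κ) (z : M) :
    ∑ b, tanP s a b z * w b z = w a z := by
  have h1 := hs a z
  rw [W.p1, G.hD1] at h1
  exact h1

theorem sec1' {w : κ → M → ℝ} (hs : ∀ a z, ∑ b, tanP s a b z * w b z = w a z) : D1.Sec w := by
  intro a z
  rw [W.p1, G.hD1]
  exact hs a z

end GRP

/-- **`ker B = 0`** on a closed simply connected manifold -/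
theorem kerB_eq_zero [CompactSpace M] [SimplyConnectedSpace M] (G : GRP s vol) (G' : GRP s vol')
    (hv : IsVol vol) (hv' : IsVol vol') (hvv : ∀ z X, vol' z X = - vol z X)
    {T : ToF 4 M} {D0 D0' : Dat 4 M (Option (κ × κ))} {D1 D1' : Dat 4 M κ}
    (W : WD T G.P D0 D1) (W' : WD T G'.P D0' D1') (R : DPair D0 D1) (R' : DPair D0' D1')
    (hR : R.B = opB G.P.D1 G.P.cc) (hR' : R'.B = opB G'.P.D1 G'.P.cc)
    (w : κ → M → ℝ) (hw : SmV (n := 4) w) (hs : D1.Sec w) (h0 : ∀ y z, R.B w y z = 0)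
    (a : κ) (z : M) : w a z = 0 := by
  have hs1 := G.sec1 W hs
  have hs' : D1'.Sec w := G'.sec1' W' hs1
  have hX : ∀ a b z, D1.X a b z = D1'.X a b z := by
    intro a b z
    rw [W.X1, W'.X1, G.hD1, G'.hD1]
  have hQ : ∀ a b z, D1.Q a b z = D1'.Q a b z := by
    intro a b z
    rw [G.pot W hv, G'.pot W' hv']
  have h1 := opB_other R R' hX hQ hw hs hs' h0
  rw [hR, G.hcc] at h0
  rw [hR', G'.hcc] at h1
  refine eq_zero_of_opB s hvv (D := G.P.D1) (D' := G'.P.D1) ?_ ?_ hw hs1 h0 h1 a z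
  · intro a b z
    rw [G.hD1]
    rfl
  · intro a b z
    rw [G'.hD1]
    rfl

/-- the constant section -/
def cst (κ : Type) (M : Type) (x : Option (κ × κ)) (_ : M) : ℝ :=
  match x with
  | none => 1
  | some _ => 0

theorem sm_cst : SmV (n := 4) (cst κ M) := by
  intro a
  have : cst κ M a = fun _ => cst κ M a (Classical.arbitrary M) := by
    funext z
    cases a <;> rfl
  rw [this]
  exact contMDiff_const

theorem sum_cst {f : Option (κ × κ) → ℝ} (z : M) : ∑ b, f b * cst κ M b z = f none := by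
  rw [Fintype.sum_option]
  simp [cst]

theorem GRP.sec_cst (W : WD T G.P D0 D1) : D0.Sec (cst κ M) := by
  intro a z
  rw [sum_cst z, W.p0]
  cases a with
  | none => exact G.hp0 z
  | some y => exact G.hp1 y z

theorem GRP.A_cst (x : κ) (z : M) : opA G.P.D0 G.P.cc (cst κ M) x z = 0 := by
  rw [opA]
  refine Finset.sum_eq_zero fun y _ => ?_
  have h1 : G.P.D0.cv (cst κ M) y z = 0 := by
    rw [Bun.cv]
    have e1 : mgrad 4 (cst κ M y) z = 0 := by
      have : cst κ M y = fun _ => cst κ M y z := by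
        funext q
        cases y <;> rfl
      rw [this]
      exact mgrad_const _
    have e2 : ∑ b, cst κ M b z • G.P.D0.W y b z = 0 := by
      rw [Fintype.sum_option]
      simp [cst, G.hW0]
    rw [e1, e2, add_zero]
  rw [h1, inner_zero_left]

/-- the index inequality -/
theorem idx_le [CompactSpace M] [SimplyConnectedSpace M] (G : GRP s vol) (G' : GRP s vol')
    (hv : IsVol vol) (hv' : IsVol vol') (hvv : ∀ z X, vol' z X = - vol z X)
    {T : ToF 4 M} {D0 D0' : Dat 4 M (Option (κ × κ))} {D1 D1' : Dat 4 M κ}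
    (W : WD T G.P D0 D1) (W' : WD T G'.P D0' D1') (R : DPair D0 D1) (R' : DPair D0' D1')
    (hA : R.A = opA G.P.D0 G.P.cc) (hR : R.B = opB G.P.D1 G.P.cc)
    (hR' : R'.B = opB G'.P.D1 G'.P.cc) {B : M → ℝ} (hB : Continuous B)
    (hb : ∀ z : M, ∀ u v w y : EuclideanSpace ℝ (Fin 4),
        |Alg1_104.Rm (chartMetric 4 M z) (chartCentre 4 M z) u v w y| ≤
          B z * Real.sqrt (bil (chartMetric 4 M z (chartCentre 4 M z)) u u) *
            Real.sqrt (bil (chartMetric 4 M z (chartCentre 4 M z)) v v) *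
            Real.sqrt (bil (chartMetric 4 M z (chartCentre 4 M z)) w w) *
            Real.sqrt (bil (chartMetric 4 M z (chartCentre 4 M z)) y y)) :
    1 ≤ ENNReal.ofReal 6 * ∫⁻ p, ENNReal.ofReal (B p ^ 2) ∂(μHE[4] : Measure M) := by
  have := Crest.Agent.R247.Ms322.isLocallyFiniteMeasure 4 M
  have z0 : M := Classical.arbitrary M
  have hr0 := G.rank W hv
  obtain ⟨d0, d1, K0, K1, hi, hE⟩ := index_D HK286.chartStmt R
    (W.exists_ne0 z0 (by rw [(hr0 z0).1]; norm_num))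
    (by
      obtain ⟨a, -, ha⟩ := Finset.exists_ne_zero_of_sum_ne_zero
        (show ∑ a, D1.p a a z0 ≠ 0 by rw [(hr0 z0).2]; norm_num)
      exact ⟨z0, a, ha⟩)
    (fun z => by rw [(hr0 z).1, (hr0 z).2]) (fun z => G.tr W hv z)
  have hd1 : d1 = 0 := kerD_zero K1 fun w hw hs h0 =>
    kerB_eq_zero G G' hv hv' hvv W W' R R' hR hR' w hw hs h0
  have hd0 : 1 ≤ d0 := by
    refine kerD_pos K0 (u := cst κ M) sm_cst (G.sec_cst W) (fun y z => ?_) (a := none) (z := z0) ?_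
    · rw [hA]
      exact G.A_cst y z
    · exact one_ne_zero
  have hd : (1:ℝ) ≤ ∫ z, (dn D0 z - dn D1 z) ∂(μHE[4] : Measure M) := by
    rw [← hE, hd1]
    have : (1:ℝ) ≤ d0 := by exact_mod_cast hd0
    simpa using this
  have hBi : Integrable (fun z => B z ^ 2) (μHE[4] : Measure M) :=
    (hB.pow 2).integrable_of_hasCompactSupport (HasCompactSupport.of_compactSpace _)
  have h2 : (1:ℝ) ≤ 6 * ∫ z, B z ^ 2 ∂(μHE[4] : Measure M) := by
    refine hd.trans ?_
    rw [← integral_const_mul]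
    exact integral_mono hi (hBi.const_mul 6) fun z => (le_abs_self _).trans
      (G.dn_le W hv z (hb z))
  rw [← ofReal_integral_eq_lintegral_ofReal hBi (Eventually.of_forall fun z => sq_nonneg _),
    ← ENNReal.ofReal_mul (by norm_num), ← ENNReal.ofReal_one]
  exact ENNReal.ofReal_le_ofReal h2

end closed

/-- existence of the pair (805) -/
def GRPStmt : Prop :=
  ∀ (M : Type) [MetricSpace M] [ChartedSpace (EuclideanSpace ℝ (Fin 4)) M]
    [IsManifold 𝓘(ℝ, EuclideanSpace ℝ (Fin 4)) ∞ M] [CompactSpace M] [SimplyConnectedSpace M]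
    [RiemannianBundle (fun x : M => TangentSpace 𝓘(ℝ, EuclideanSpace ℝ (Fin 4)) x)]
    [IsContMDiffRiemannianBundle 𝓘(ℝ, EuclideanSpace ℝ (Fin 4)) ∞ (EuclideanSpace ℝ (Fin 4))
      (fun x : M => TangentSpace 𝓘(ℝ, EuclideanSpace ℝ (Fin 4)) x)]
    [IsRiemannianManifold 𝓘(ℝ, EuclideanSpace ℝ (Fin 4)) M]
    (κ : Type) [Fintype κ] (s : PF 4 M κ)
    (vol : (z : M) → (Fin 4 → TangentSpace 𝓘(ℝ, EuclideanSpace ℝ (Fin 4)) z) → ℝ),
    IsVol vol → Nonempty (GRP s vol)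

/-- **`IdxStmt` from `WeakStmt` and the pairs** -/
theorem idxOr_of (hW : ∀ (M : Type) [MetricSpace M] [ChartedSpace (EuclideanSpace ℝ (Fin 4)) M]
    [IsManifold (𝓡 4) ∞ M] [RiemannianBundle (fun p : M => TangentSpace (𝓡 4) p)]
    [IsContMDiffRiemannianBundle (𝓡 4) ∞ (EuclideanSpace ℝ (Fin 4))
      (fun p : M => TangentSpace (𝓡 4) p)]
    [IsRiemannianManifold (𝓡 4) M] [MeasurableSpace M] [BorelSpace M]
    [SecondCountableTopology M] [Nonempty M] [CompactSpace M], WeakStmt 4 M)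
    (hG : GRPStmt) : IdxOr := by
  refine ⟨6, by norm_num, ?_⟩
  intro M i1 i2 i3 i4 i5 i6 i7 i8 i9 i10 B hO hB hb
  have : Nonempty M := inferInstance
  have : SecondCountableTopology M := inferInstance
  obtain ⟨m, ⟨s⟩⟩ := exists_PF (n := 4) (M := M)
  obtain ⟨G⟩ := hG M (Fin m × Fin 4) s vol4 (isVol_vol4 hO)
  obtain ⟨G'⟩ := hG M (Fin m × Fin 4) s (fun q v => - vol4 q v) (isVol_neg hO)
  obtain ⟨D0, D1, R, a1, a2, a3, a4, a5, a6, a7, a8⟩ := hW M (Tof352.tof 4 M) _ _ _ G.P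
  obtain ⟨D0', D1', R', b1, b2, b3, b4, b5, b6, b7, b8⟩ := hW M (Tof352.tof 4 M) _ _ _ G'.P
  exact idx_le G G' (isVol_vol4 hO) (isVol_neg hO) (fun _ _ => rfl)
    ⟨a1, a2, a3, a4, a5, a6⟩ ⟨b1, b2, b3, b4, b5, b6⟩ R R' a7 a8 b8 hB hb

theorem idxStmt_of (hW : ∀ (M : Type) [MetricSpace M] [ChartedSpace (EuclideanSpace ℝ (Fin 4)) M]
    [IsManifold (𝓡 4) ∞ M] [RiemannianBundle (fun p : M => TangentSpace (𝓡 4) p)]
    [IsContMDiffRiemannianBundle (𝓡 4) ∞ (EuclideanSpace ℝ (Fin 4))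
      (fun p : M => TangentSpace (𝓡 4) p)]
    [IsRiemannianManifold (𝓡 4) M] [MeasurableSpace M] [BorelSpace M]
    [SecondCountableTopology M] [Nonempty M] [CompactSpace M], WeakStmt 4 M)
    (hG : GRPStmt) : IdxStmt := idxStmt_of_or (idxOr_of hW hG)

end Crest.Agent.R249.Idx789
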