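/-
R249 PART E1 (helper274): inventory of R247 (S0381), calculus on M, gradient structures, Bochner, resolvents. All with the template instances; n arbitrary. Automatic extract: signatures may be cut (…).

==================== CALCULUS IN CHARTS AND ON M

### R247/Bo1_84 [ns Crest.Agent.R247.Bo84] Row 247, block (6-B), file 1 (helper84): coordinate Riemannian calculus on an open subset of Euclidean space. Gradient, covariant derivative of vector fields, Hessian, divergence, metric compatibility, Ricci identity, Bochner formula, for the literal terms of `Def_CoordMetric`.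
* def grad (g : MetricField n) (f : EuclideanSpace ℝ (Fin n) → ℝ) (x : EuclideanSpace ℝ (Fin n)) : EuclideanSpace ℝ (Fin n)  -- the gradient of `f` for the metric field `g`, in coordinates.
* def gam (g : MetricField n) (f h : EuclideanSpace ℝ (Fin n) → ℝ) (x : EuclideanSpace ℝ (Fin n)) : ℝ  -- the inner product `⟨df, dh⟩` of two differentials.
* def hess (g : MetricField n) (f : EuclideanSpace ℝ (Fin n) → ℝ) (x : EuclideanSpace ℝ (Fin n)) : EuclideanSpace ℝ (Fin n) →L[ℝ] EuclideanSpace ℝ (Fin n) →L[ℝ] ℝ  -- the Hessian of `f` as a bilinear form, in coordinates.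
* def cov (g : MetricField n) (V : EuclideanSpace ℝ (Fin n) → EuclideanSpace ℝ (Fin n)) (x : EuclideanSpace ℝ (Fin n)) : EuclideanSpace ℝ (Fin n) →L[ℝ] EuclideanSpace ℝ (Fin n)  -- the covariant derivative of a vector field.
* def hessE (g : MetricField n) (f : EuclideanSpace ℝ (Fin n) → ℝ) (x : EuclideanSpace ℝ (Fin n)) : EuclideanSpace ℝ (Fin n) →L[ℝ] EuclideanSpace ℝ (Fin n)  -- the Hessian endomorphism (covariant derivative of the gradient).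
* def trL : (EuclideanSpace ℝ (Fin n) →L[ℝ] EuclideanSpace ℝ (Fin n)) →L[ℝ] ℝ  -- trace of a continuous endomorphism.
* def hessSq (g : MetricField n) (f : EuclideanSpace ℝ (Fin n) → ℝ) (x : EuclideanSpace ℝ (Fin n)) : ℝ  -- squared norm of the Hessian.
* def divg (g : MetricField n) (V : EuclideanSpace ℝ (Fin n) → EuclideanSpace ℝ (Fin n)) (x : EuclideanSpace ℝ (Fin n)) : ℝ  -- the divergence of a vector field, in the form used by `laplaceBeltrami`.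
* theorem hasFDerivAt_det {V : Type*} [NormedAddCommGroup V] [NormedSpace ℝ V] {A : V → Matrix (Fin n) (Fin n) ℝ} {A' : Fin n → Fin n → V →L[ℝ] ℝ} {x : V} (hA : ∀ i j, HasFDerivAt (fun y => A y i j) (A' i j) x) : HasFDerivAt (fun y => (A y).det) (∑ i, ∑ j, (A x).adjugate i j • A' j i) x  -- Jacobi's formula.
* theorem divg_eq_trL (hg : IsRiemannianOn g U) (hx : x ∈ U) {V : 𝔼 → 𝔼} (hV : DifferentiableAt ℝ V x) : divg g V x = trL (cov g V x)  -- the divergence is the trace of the covariant derivative.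
* theorem lap_eq_trL (hg : IsRiemannianOn g U) (hx : x ∈ U) {f : 𝔼 → ℝ} (hf : ContDiffAt ℝ 2 f x) : laplaceBeltrami g f x = trL (hessE g f x)  -- the Laplacian is the trace of the Hessian.
* theorem bochner' (hg : IsRiemannianOn g U) (hx : x ∈ U) {f : 𝔼 → ℝ} (hf : ContDiffAt ℝ 3 f x) : (1 / 2) * laplaceBeltrami g (gam g f f) x = hessSq g f x + gam g f (laplaceBeltrami g f) x + ∑ i, ∑ j, ricci g x i j * grad g f x i * grad g f x j  -- Bochner's formula, endomorphism form.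

### R247/Bo2_84 [ns Crest.Agent.R247.Bo84] Row 247, block (6-B), file 2 (helper84): orthonormal frames, inequalities for the Hessian, the Bochner inequality, and the sum / product / chain rules.
* structure IsFrame (A : Matrix (Fin n) (Fin n) ℝ) (ξ : Fin n → EuclideanSpace ℝ (Fin n)) : Prop where orth : ∀ a b, bil A (ξ a) (ξ b) = if a = b then 1 else 0 inv : ∀ i j, A⁻¹ i j = ∑ a, ξ a i * ξ a j  -- an orthonormal frame at a point.
* theorem bochner_ineq (hg : IsRiemannianOn g U) (hx : x ∈ U) {f : 𝔼 → ℝ} (hf : ContDiffAt ℝ 3 f x) {K : ℝ} (hK : ∀ v : 𝔼, K * quadForm g x v ≤ ∑ i, ∑ j, ricci g x i j * v i * v j) : hessSq g f x + gam g f (laplaceBeltrami g f) x + K * gam g f f x ≤ (1 / 2) * laplaceBeltrami g (gam g f f) x  -- Bochner's inequality: if `Ric ≥ K` at `x` then `½ Δ|∇f|² ≥ |Hess f|² + ⟨∇f, ∇Δf⟩ + K |∇f|²`.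

### R247/Bo3_84 [ns Crest.Agent.R247.Bo84] Row 247, block (6-B), file 3 (helper84): sum, product and chain rules for the gradient, the inner product of differentials, the Hessian, the divergence and the Laplacian.
* def sharp (g : MetricField n) (x : EuclideanSpace ℝ (Fin n)) : (EuclideanSpace ℝ (Fin n) →L[ℝ] ℝ) →ₗ[ℝ] EuclideanSpace ℝ (Fin n)  -- the gradient as a linear function of the differential.

### R247/Bo4_84 [ns Crest.Agent.R247.Bo84] Row 247, block (6-B), file 4 (helper84): invariance of the gradient, the inner product of differentials, the covariant derivative, the Hessian, the divergence and the Laplacian under local isometries (`Pull`), in particular under transition maps.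
* theorem grad_pull (p : Pull g' g Φ V W) (hy : y ∈ V) (hf : DifferentiableAt ℝ f (Φ y)) : fderiv ℝ Φ y (grad g' (fun z => f (Φ z)) y) = grad g f (Φ y)  -- transformation of the gradient.
* theorem gam_pull (p : Pull g' g Φ V W) (hy : y ∈ V) (hf : DifferentiableAt ℝ f (Φ y)) (hh : DifferentiableAt ℝ h (Φ y)) : gam g' (fun z => f (Φ z)) (fun z => h (Φ z)) y = gam g f h (Φ y)  -- invariance of `⟨df, dh⟩`.
* theorem cov_pull (p : Pull g' g Φ V W) (hy : y ∈ V) {A' A : 𝔼 → 𝔼} (hA' : DifferentiableAt ℝ A' y) (hA : DifferentiableAt ℝ A (Φ y)) (hAA : ∀ᶠ z in 𝓝 y, fderiv ℝ Φ z (A' z) = A (Φ z)) (X : 𝔼) : fderiv ℝ Φ y (cov g' A' y X) = cov g A (Φ y) (fderiv ℝ Φ y X)  -- transformation of the covariant derivative.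
* theorem divg_pull (p : Pull g' g Φ V W) (hy : y ∈ V) {A' A : 𝔼 → 𝔼} (hA' : DifferentiableAt ℝ A' y) (hA : DifferentiableAt ℝ A (Φ y)) (hAA : ∀ᶠ z in 𝓝 y, fderiv ℝ Φ z (A' z) = A (Φ z)) : divg g' A' y = divg g A (Φ y)  -- invariance of the divergence.
* theorem hessE_pull (p : Pull g' g Φ V W) (hy : y ∈ V) (hf : ContDiffAt ℝ 2 f (Φ y)) (X : 𝔼) : fderiv ℝ Φ y (hessE g' (fun z => f (Φ z)) y X) = hessE g f (Φ y) (fderiv ℝ Φ y X)  -- transformation of the Hessian endomorphism.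
* theorem hess_pull (p : Pull g' g Φ V W) (hy : y ∈ V) (hf : ContDiffAt ℝ 2 f (Φ y)) (X Y : 𝔼) : hess g' (fun z => f (Φ z)) y X Y = hess g f (Φ y) (fderiv ℝ Φ y X) (fderiv ℝ Φ y Y)  -- transformation of the Hessian.
* theorem lap_pull (p : Pull g' g Φ V W) (hy : y ∈ V) (hf : ContDiffAt ℝ 2 f (Φ y)) : laplaceBeltrami g' (fun z => f (Φ z)) y = laplaceBeltrami g f (Φ y)  -- invariance of the Laplacian.
* theorem hessSq_pull (p : Pull g' g Φ V W) (hy : y ∈ V) (hf : ContDiffAt ℝ 2 f (Φ y)) : hessSq g' (fun z => f (Φ z)) y = hessSq g f (Φ y)  -- invariance of the squared norm of the Hessian.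
* theorem frame_pull (p : Pull g' g Φ V W) (hy : y ∈ V) {ξ : Fin n → 𝔼} (hξ : IsFrame (g' y) ξ) (a b : Fin n) : bil (g (Φ y)) (fderiv ℝ Φ y (ξ a)) (fderiv ℝ Φ y (ξ b)) = if a = b then 1 else 0  -- orthonormal frames are transported.
* theorem isFrame_of_orth {x : EuclideanSpace ℝ (Fin n)} {ξ : Fin n → 𝔼} (h : ∀ a b, bil (g x) (ξ a) (ξ b) = if a = b then 1 else 0) : IsFrame (g x) ξ  -- an orthonormal family of `n` vectors is a frame.

### R247/Bo5_84 [ns Crest.Agent.R247.Bo84] Row 247, block (6-B), file 5 (helper84): the metric of a Riemannian manifold in a chart is smooth, and the transition maps between charts are local isometries (`Pull`).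
* def dSy (x₀ : M) (y : EuclideanSpace ℝ (Fin n)) : EuclideanSpace ℝ (Fin n) →L[ℝ] EuclideanSpace ℝ (Fin n)  -- derivative of the chart inverse, as a map of the model space.
* def dCh (x₀ p : M) : EuclideanSpace ℝ (Fin n) →L[ℝ] EuclideanSpace ℝ (Fin n)  -- derivative of the chart, as a map of the model space.
* def trans (x₀ x₁ : M) (y : EuclideanSpace ℝ (Fin n)) : EuclideanSpace ℝ (Fin n)  -- transition map from the chart at `x₀` to the chart at `x₁`.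
* def tdom (x₀ x₁ : M) : Set (EuclideanSpace ℝ (Fin n))  -- domain of the transition map.
* theorem dSy_trans {x₀ x₁ : M} {y : 𝔼} (hy : y ∈ tdom x₀ x₁) (u : 𝔼) : dSy x₁ (trans x₀ x₁ y) (fderiv ℝ (trans x₀ x₁) y u) = dSy x₀ y u  -- chain rule for the chart inverse.
* theorem bil_chartMetric (x₀ : M) (y u v : 𝔼) : bil (chartMetric n M x₀ y) u v = @inner ℝ (TangentSpace 𝓘E ((chartAt 𝔼 x₀).symm y)) _ (dSy x₀ y u) (dSy x₀ y v)  -- the chart metric as a bilinear form.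
* theorem inner_eq_bil (x₀ : M) {p : M} (hp : p ∈ (chartAt 𝔼 x₀).source) (v w : 𝔼) : @inner ℝ (TangentSpace 𝓘E p) _ v w = bil (chartMetric n M x₀ (chartAt 𝔼 x₀ p)) (dCh x₀ p v) (dCh x₀ p w)  -- the inner product of a tangent space in a chart.
* theorem isRiemannianOn_chartMetric (x₀ : M) : IsRiemannianOn (chartMetric n M x₀) (chartAt 𝔼 x₀).target  -- the chart metric is Riemannian on the target of the chart.
* theorem pull_trans (x₀ x₁ : M) : Pull (chartMetric n M x₀) (chartMetric n M x₁) (trans x₀ x₁) (tdom x₀ x₁) (chartAt 𝔼 x₁).target  -- the transition maps are local isometries.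
* theorem ricci_chart {K : ℝ} (hK : HasRicciLowerBound n M K) (x₀ : M) {y : 𝔼} (hy : y ∈ (chartAt 𝔼 x₀).target) (v : 𝔼) : K * quadForm (chartMetric n M x₀) y v ≤ ∑ i, ∑ j, ricci (chartMetric n M x₀) y i j * v i * v j  -- the lower Ricci bound at every point of every chart.

### R247/Bo6_84 [ns Crest.Agent.R247.Bo84] Row 247, block (6-B), file 6 (helper84): calculus on the manifold. `mGam n f h`, `mLap n f`, `mHess n f`, `mHessSq n f`, `mgrad n f` as functions on `M`, their expression in every chart, and Bochner's formula and inequality on `M`.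
* def inCh (x₀ : M) (f : M → ℝ) (y : EuclideanSpace ℝ (Fin n)) : ℝ  -- a function read in the chart at `x₀`.
* def mGam (f h : M → ℝ) (p : M) : ℝ  -- `⟨df, dh⟩` on the manifold.
* def mLap (f : M → ℝ) (p : M) : ℝ  -- the Laplacian on the manifold.
* def mHessSq (f : M → ℝ) (p : M) : ℝ  -- the squared norm of the Hessian on the manifold.
* def mgrad (f : M → ℝ) (p : M) : TangentSpace 𝓘(ℝ, EuclideanSpace ℝ (Fin n)) p  -- the gradient on the manifold, an element of the tangent space.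
* def mHess (f : M → ℝ) (p : M) (v w : TangentSpace 𝓘(ℝ, EuclideanSpace ℝ (Fin n)) p) : ℝ  -- the Hessian on the manifold.
* def mHessE (f : M → ℝ) (p : M) (v : TangentSpace 𝓘(ℝ, EuclideanSpace ℝ (Fin n)) p) : TangentSpace 𝓘(ℝ, EuclideanSpace ℝ (Fin n)) p  -- the Hessian endomorphism on the manifold.
* def mRic (p : M) (v w : TangentSpace 𝓘(ℝ, EuclideanSpace ℝ (Fin n)) p) : ℝ  -- the Ricci form on the manifold.
* theorem mGam_chart (hy : y ∈ (chartAt 𝔼 x₀).target) (f h : M → ℝ) : mGam n f h ((chartAt 𝔼 x₀).symm y) = gam (chartMetric n M x₀) (inCh n x₀ f) (inCh n x₀ h) y  -- `⟨df, dh⟩` in every chart (no differentiability needed).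

### R247/Bo7_84 [ns Crest.Agent.R247.Bo84] Row 247, block (6-B), file 7 (helper84): second order calculus on the manifold: the Laplacian, the Hessian, their expression in every chart, Bochner's formula and inequality on `M`.
* theorem mRic_chart (hy : y ∈ (chartAt 𝔼 x₀).target) (u v : 𝔼) : mRic n ((chartAt 𝔼 x₀).symm y) (dSy x₀ y u) (dSy x₀ y v) = ∑ i, ∑ j, ricci (chartMetric n M x₀) y i j * u i * v j  -- the Ricci form in every chart.
* theorem mfderiv_mGam (hf : ContMDiffAt 𝓘E 𝓘(ℝ, ℝ) 2 f p) (hh : ContMDiffAt 𝓘E 𝓘(ℝ, ℝ) 2 h p) (v : TangentSpace 𝓘E p) : mfderiv 𝓘E 𝓘(ℝ, ℝ) (mGam n f h) p v = mHess n f p v (mgrad n h p) + mHess n h p v (mgrad n f p)  -- derivative of `⟨df, dh⟩`.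
* theorem mgrad_mGam (hf : ContMDiffAt 𝓘E 𝓘(ℝ, ℝ) 2 f p) (hh : ContMDiffAt 𝓘E 𝓘(ℝ, ℝ) 2 h p) : mgrad n (mGam n f h) p = mHessE n f p (mgrad n h p) + mHessE n h p (mgrad n f p)  -- the gradient of `⟨df, dh⟩`.
* theorem mHessSq_frame (hf : ContMDiffAt 𝓘E 𝓘(ℝ, ℝ) 2 f p) {e : Fin n → TangentSpace 𝓘E p} (he : ∀ a b, inner ℝ (e a) (e b) = if a = b then (1:ℝ) else 0) : mHessSq n f p = ∑ a, ∑ b, mHess n f p (e a) (e b) ^ 2  -- the squared norm of the Hessian in an orthonormal frame.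
* theorem mLap_frame (hf : ContMDiffAt 𝓘E 𝓘(ℝ, ℝ) 2 f p) {e : Fin n → TangentSpace 𝓘E p} (he : ∀ a b, inner ℝ (e a) (e b) = if a = b then (1:ℝ) else 0) : mLap n f p = ∑ a, mHess n f p (e a) (e a)  -- the Laplacian in an orthonormal frame.
* theorem inner_frame {e : Fin n → TangentSpace 𝓘E p} (he : ∀ a b, inner ℝ (e a) (e b) = if a = b then (1:ℝ) else 0) (v w : TangentSpace 𝓘E p) : inner ℝ v w = ∑ a, (inner ℝ v (e a) : ℝ) * inner ℝ w (e a)  -- Parseval in an orthonormal frame.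
* def dM (n : ℕ) {M : Type*} [TopologicalSpace M] [ChartedSpace (EuclideanSpace ℝ (Fin n)) M] (f : M → ℝ) (p : M) (v : TangentSpace 𝓘(ℝ, EuclideanSpace ℝ (Fin n)) p) : ℝ  -- the differential as a real valued function on the tangent space.
* theorem mGam_frame {e : Fin n → TangentSpace 𝓘E p} (he : ∀ a b, inner ℝ (e a) (e b) = if a = b then (1:ℝ) else 0) (f h : M → ℝ) : mGam n f h p = ∑ a, dM n f p (e a) * dM n h p (e a)  -- `⟨df, dh⟩` in an orthonormal frame.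
* theorem mgrad_frame {e : Fin n → TangentSpace 𝓘E p} (he : ∀ a b, inner ℝ (e a) (e b) = if a = b then (1:ℝ) else 0) (v : TangentSpace 𝓘E p) : v = ∑ a, (inner ℝ v (e a) : ℝ) • e a  -- the gradient in an orthonormal frame.
* theorem mBochner (hf : ContMDiffAt 𝓘E 𝓘(ℝ, ℝ) 3 f p) : (1 / 2) * mLap n (mGam n f f) p = mHessSq n f p + mGam n f (mLap n f) p + mRic n p (mgrad n f p) (mgrad n f p)  -- Bochner's formula on the manifold.
* theorem mRic_ge {K : ℝ} (hK : HasRicciLowerBound n M K) (p : M) (v : TangentSpace 𝓘E p) : K * ‖v‖ ^ 2 ≤ mRic n p v v  -- the lower Ricci bound in terms of `mRic`.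
* theorem mBochner_ineq {K : ℝ} (hK : HasRicciLowerBound n M K) (hf : ContMDiffAt 𝓘E 𝓘(ℝ, ℝ) 3 f p) : mHessSq n f p + mGam n f (mLap n f) p + K * mGam n f f p ≤ (1 / 2) * mLap n (mGam n f f) p  -- Bochner's inequality on the manifold.

### R247/Bo8_84 [ns Crest.Agent.R247.Bo84] Row 247, block (6-B), file 8 (helper84): sum, product and chain rules on the manifold for the gradient, `⟨df, dh⟩`, the Laplacian and the Hessian; locality.

==================== FRAME, DENSITY, INTEGRATION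

### R247/Ms10_322 [ns Crest.Agent.R247.Ms322] R247, block (0) (helper322), part 10: local finiteness and positivity of the measure, the link with 84's `mGam`, the chart frame `Ef x₀ i z` (= `∂_i` of the chart at `x₀`, written in the frame at `z`).
* theorem isLocallyFiniteMeasure : IsLocallyFiniteMeasure (μHE[n] : Measure M)  -- the Hausdorff measure is locally finite.
* theorem isOpenPosMeasure : (μHE[n] : Measure M).IsOpenPosMeasure  -- the Hausdorff measure charges open sets.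
* theorem inner_Gr_eq_mGam (f g : M → ℝ) (z : M) : inner ℝ (Gr (n := n) f z) (Gr (n := n) g z) = Bo84.mGam n f g z  -- link with 84: `⟪Gr f, Gr g⟫ = mGam f g`.
* def cdf (x₀ : M) (k : Fin n) (z : M) : ℝ  -- the `k`-th coordinate of the chart at `x₀`
* def Ef (x₀ : M) (i : Fin n) (z : M) : 𝔼  -- The coordinate vector `∂_i` of the chart at `x₀`, written in the orthonormal frame at `z`.
* theorem inner_Ef (x₀ : M) (i : Fin n) {z : M} (hz : z ∈ (chartAt 𝔼 x₀).source) (f : M → ℝ) : inner ℝ (Ef x₀ i z) (Gr (n := n) f z) = pderiv i (fun b => f ((chartAt 𝔼 x₀).symm b)) (chartAt 𝔼 x₀ z)  -- (e1') `∂_i f = ⟪Ef i, Gr f⟫`, for EVERY function, at every point of the source.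
* theorem inner_Ef_Ef (x₀ : M) (i j : Fin n) {z : M} (hz : z ∈ (chartAt 𝔼 x₀).source) : inner ℝ (Ef x₀ i z) (Ef x₀ j z) = chartMetric n M x₀ (chartAt 𝔼 x₀ z) i j  -- (e2) `⟪Ef i, Ef j⟫ = g_ij`.
* theorem eq_zero_of_inner_Ef (x₀ : M) {z : M} (hz : z ∈ (chartAt 𝔼 x₀).source) {v : 𝔼} (h : ∀ i, inner ℝ (Ef x₀ i z) v = 0) : v = 0  -- the chart vectors span.
* theorem measurable_Ef (x₀ : M) (i : Fin n) : Measurable (Ef (n := n) x₀ i)  -- (e0) the chart frame is measurable.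

### R247/Ms11_322 [ns Crest.Agent.R247.Ms322] R247, block (0d) (helper322), part 11: integration by parts on `M`: `∫ ⟪Gr f, Gr φ⟫ = - ∫ φ mLap f` for `f` of class `C²` on the open set `U`, `φ` locally Lipschitz with compact support in `U`.
* def pll (x₀ : M) (φ : M → ℝ) : EuclideanSpace ℝ (Fin n) → ℝ  -- A function read in the chart at `x₀`, extended by zero.
* theorem exists_lipschitz_chartAt (x : M) {z : M} (hz : z ∈ (chartAt 𝔼 x).source) : ∃ K : ℝ≥0, ∃ t ∈ 𝓝 z, LipschitzOnWith K (chartAt 𝔼 x) t  -- the chart is Lipschitz near every point of its source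
* theorem LLo.of_contMDiffAt {U : Set M} {f : M → ℝ} (hf : ∀ z ∈ U, ContMDiffAt (𝓡 n) 𝓘(ℝ, ℝ) 1 f z) : LLo U f  -- `C¹` functions are locally Lipschitz.
* theorem ibp_mLap_chart (x₀ : M) {U : Set M} (hU : IsOpen U) {f φ : M → ℝ} (hf : ∀ z ∈ U, ContMDiffAt (𝓡 n) 𝓘(ℝ, ℝ) 2 f z) (hφ : LocallyLipschitz φ) (hc : HasCompactSupport φ) (hs : tsupport φ ⊆ U) (hsx : tsupport φ ⊆ (chartAt 𝔼 x₀).source) : ∫ z, inner ℝ (Gr (n := n) f z) (Gr (n := n) φ z) ∂(μHE[n] : Measure M) = - ∫ z, φ z * Bo84.mLap n f z ∂(μHE[n] : Measure M)  -- chart case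
* def IbpOn (f : M → ℝ) (V : Set M) : Prop  -- The integral identity for all test functions supported in `V`.
* theorem ibp_mLap {U : Set M} (hU : IsOpen U) {f φ : M → ℝ} (hf : ∀ z ∈ U, ContMDiffAt (𝓡 n) 𝓘(ℝ, ℝ) 2 f z) (hφ : LocallyLipschitz φ) (hc : HasCompactSupport φ) (hs : tsupport φ ⊆ U) : ∫ z, inner ℝ (Gr (n := n) f z) (Gr (n := n) φ z) ∂(μHE[n] : Measure M) = - ∫ z, φ z * Bo84.mLap n f z ∂(μHE[n] : Measure M)  -- Integration by parts on `M`.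

### R247/Ms12_322 [ns Crest.Agent.R247.Ms322] R247, block (0c) (helper322), part 12: closability of the gradient, the term `gradS n M` of 593's structure `GradS M 𝔼 (μHE[n])`, with `(gradS n M).G = Gr` definitionally.
* structure `GradS M 𝔼 (μHE[n])`, with `(gradS n M).G = Gr` definitionally. - / set_option autoImplicit false set_option maxSynthPendingDepth 3 set_option linter.unusedSectionVars false set_option linter.unusedVariables false open Bundle Bornology Set MeasureTheory Manifold Filter Metric open scoped ENNReal ContDiff Topology NNReal open Crest.GeometryTopology.CoordMetric Crest.GeometryTopology.ChartCurvature open Crest.GeometryTopology.Geodesic open Crest.Agent.R226.ChartMet842 namespace Crest.Agent.R247.Ms322 noncomputable section section L2 variable {X :  …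
* def dvi (x₀ : M) (i : Fin n) (φ : M → ℝ) (z : M) : ℝ  -- adjoint of `f ↦ ⟪Ef i, Gr f⟫`
* theorem integral_inner_Ef {f : M → ℝ} (hf : LocallyLipschitz f) (i : Fin n) (hφ : LocallyLipschitz φ) (hc : HasCompactSupport φ) (hs : tsupport φ ⊆ (chartAt 𝔼 x₀).source) : ∫ z, inner ℝ (φ z • Ef x₀ i z) (Gr (n := n) f z) ∂(μHE[n] : Measure M) = - ∫ z, inner ℝ (dvi x₀ i φ z) (f z) ∂(μHE[n] : Measure M)  -- integration by parts against a chart vector field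
* def gradS : Dir593.GradS M (EuclideanSpace ℝ (Fin n)) (μHE[n] : Measure M)  -- (0c): the gradient structure of `M`. `(gradS n M).G = Gr`.

### R247/Ms1_322 [ns Crest.Agent.R247.Ms322] R247, block (0) (helper322), part 1: `C¹` maps between normed spaces and Riemannian manifolds with a pointwise bound of the derivative are Lipschitz with the SAME constant (locally).
* theorem edist_le_of_convex [IsRiemannianManifold I M] {f : F → M} {s : Set F} (hs : Convex ℝ s) (hso : IsOpen s) (hf : ContMDiffOn 𝓘(ℝ, F) I 1 f s) {C : ℝ≥0} (hC : ∀ y ∈ s, ∀ v : F, ‖(mfderiv 𝓘(ℝ, F) I f y v : TangentSpace I (f y))‖ₑ ≤ C * ‖v‖ₑ) {a b : F} (ha : a ∈ s) (hb : b ∈ s) : edist (f a) (f b) ≤ C * edist a b  -- A `C¹` map from an open convex subset of a normed space to a Riemannian manifold whose derivative is bounded by `C` is `C`-Lipschitz there.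
* theorem edist_le_of_path [IsManifold I 1 M] {f : M → F} {C : ℝ≥0} {u : Set M} (huo : IsOpen u) (hf : ContMDiffOn I 𝓘(ℝ, F) 1 f u) (hC : ∀ y ∈ u, ∀ v : TangentSpace I y, ‖(mfderiv I 𝓘(ℝ, F) f y v : F)‖ₑ ≤ C * ‖v‖ₑ) {γ : ℝ → M} (γ_smooth : CMDiff[Icc 0 1] 1 γ) (hγu : ∀ t ∈ Icc (0 : ℝ) 1, γ t ∈ u) : edist (f (γ 0)) (f (γ 1)) ≤ C * pathELength I γ 0 1  -- Along a path staying in an open set where `f` is `C¹` with derivative bounded by `C`, the distance of the values at the endpoints is at most `C` times the lengt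
* theorem exists_lipschitzOnWith_of_bound [IsManifold I 1 M] [IsRiemannianManifold I M] {f : M → F} {C : ℝ≥0} (C_pos : 0 < C) {u : Set M} (huo : IsOpen u) (hf : ContMDiffOn I 𝓘(ℝ, F) 1 f u) (hC : ∀ y ∈ u, ∀ v : TangentSpace I y, ‖(mfderiv I 𝓘(ℝ, F) f y v : F)‖ₑ ≤ C * ‖v‖ₑ) {x : M} (hx : x ∈ u) : ∃ V ∈ 𝓝 x, V ⊆ u ∧ LipschitzOnWith C f V  -- A `C¹` map from a Riemannian manifold to a normed space with derivative bounded by `C > 0` on an open set is `C`-Lipschitz near every point of that set.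
* theorem exists_lipschitzOnWith_of_bound' [IsManifold I 1 M] [IsRiemannianManifold I M] {f : M → F} {C : ℝ≥0} (C_pos : 0 < C) {u : Set M} (huo : IsOpen u) (hf : ContMDiffOn I 𝓘(ℝ, F) 1 f u) (hC : ∀ y ∈ u, ∀ v : TangentSpace I y, ∀ w : F, mfderiv I 𝓘(ℝ, F) f y v = w → ‖w‖ₑ ≤ C * ‖v‖ₑ) {x : M} (hx : x ∈ u) : ∃ V ∈ 𝓝 x, V ⊆ u ∧ LipschitzOnWith C f V  -- Variant of `exists_lipschitzOnWith_of_bound` with the norm of `F` made explicit.

### R247/Ms2_322 [ns Crest.Agent.R247.Ms322] R247, block (0) (helper322), part 2: the metric in a chart; near a point `a₀` of the target the chart composed with an isometry `A : (ℝⁿ, gm a₀) → ℝⁿ` is `(1+η)`-bi-Lipschitz.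
* theorem chartMetric_eq (x : M) : chartMetric n M x = metricInChart (gR n M) x  -- The Prelude's coordinate metric field of the bundle metric.
* def dSe (x : M) {a : 𝔼} (ha : a ∈ (chartAt 𝔼 x).target) : 𝔼 ≃ₗ[ℝ] TangentSpace (𝓡 n) ((chartAt 𝔼 x).symm a)  -- the derivative of the inverse chart as a continuous linear equivalence.
* theorem exists_isometry (x : M) {a : 𝔼} (ha : a ∈ (chartAt 𝔼 x).target) : ∃ A : 𝔼 ≃L[ℝ] 𝔼, (∀ u v, inner ℝ (A u) (A v) = gm x a u v) ∧ |(A : 𝔼 →L[ℝ] 𝔼).det| = √(chartMetric n M x a).det  -- An isometry from `(ℝⁿ, gm x a)` to `ℝⁿ`.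
* theorem eventually_gm_le (x : M) {a : 𝔼} (ha : a ∈ (chartAt 𝔼 x).target) {A : 𝔼 ≃L[ℝ] 𝔼} (hA : ∀ u v, inner ℝ (A u) (A v) = gm x a u v) {η : ℝ} (hη : 0 < η) : ∀ᶠ b in 𝓝 a, ∀ v, gm x b v v ≤ ((1 + η) * ‖A v‖) ^ 2 ∧ ‖A v‖ ^ 2 ≤ (1 + η) ^ 2 * gm x b v v  -- Near `a` the quadratic form `gm x b` is within a factor `(1+η)²` of `‖A ·‖²`.
* theorem exists_bilip [IsRiemannianManifold (𝓡 n) M] (x : M) {a : 𝔼} (ha : a ∈ (chartAt 𝔼 x).target) {A : 𝔼 ≃L[ℝ] 𝔼} (hA : ∀ u v, inner ℝ (A u) (A v) = gm x a u v) {η : ℝ≥0} (hη : 0 < η) : ∃ r : ℝ, 0 < r ∧ ball a r ⊆ (chartAt 𝔼 x).target ∧ LipschitzOnWith (1 + η) (fun w => (chartAt 𝔼 x).symm (A.symm w)) (A '' ball a r) ∧ LipschitzOnWith (1 + η) (fun z => A (chartAt 𝔼 x z)) ((chartAt 𝔼 x).symm '' ball a r)  -- The chart at `x`, composed with the isometry `A` of `gm x a`, is `(1+η)`-bi-Lipschitz near `a`.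

### R247/Ms3_322 [ns Crest.Agent.R247.Ms322] R247, block (0) (helper322), part 3: EXACT CHART FORMULA. `muHE[n] (φ⁻¹ B) = ∫_B √(det g)`, `φ = chartAt x`, `g = chartMetric n M x`.
* theorem muHE_image_le {X Y : Type*} [MetricSpace X] [MeasurableSpace X] [BorelSpace X] [MetricSpace Y] [MeasurableSpace Y] [BorelSpace Y] {f : X → Y} {s : Set X} {K : ℝ≥0} {n : ℕ} (h : LipschitzOnWith K f s) : μHE[n] (f '' s) ≤ (K : ℝ≥0∞) ^ n * μHE[n] s  -- Lipschitz maps and the Euclidean Hausdorff measure.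
* def dens (x : M) (a : 𝔼) : ℝ  -- the volume density in the chart at `x`.
* theorem muHE_symm_image (x : M) {B : Set 𝔼} (hB : B ⊆ (chartAt 𝔼 x).target) (hBm : MeasurableSet B) : μHE[n] ((chartAt 𝔼 x).symm '' B) = ∫⁻ b in B, ENNReal.ofReal (dens x b)  -- Exact chart formula, set form.

### R247/Ms4_322 [ns Crest.Agent.R247.Ms322] R247, block (0) (helper322), part 4: integral forms of the exact chart formula.
* def cvol (x : M) : Measure 𝔼  -- The chart-side volume measure: `√(det g) · Lebesgue` on the target.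
* theorem restrict_source_eq (x : M) : (μHE[n] : Measure M).restrict (chartAt 𝔼 x).source = Measure.map (fun a : (chartAt 𝔼 x).target => (chartAt 𝔼 x).symm a) (Measure.comap Subtype.val (cvol x))  -- Exact chart formula, measure form.
* theorem lintegral_source (x : M) (f : M → ℝ≥0∞) : ∫⁻ z in (chartAt 𝔼 x).source, f z ∂μHE[n] = ∫⁻ a in (chartAt 𝔼 x).target, ENNReal.ofReal (dens x a) * f ((chartAt 𝔼 x).symm a)  -- Exact chart formula, `lintegral` form (no measurability of `f` is needed).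
* theorem integral_source {G : Type*} [NormedAddCommGroup G] [NormedSpace ℝ G] (x : M) (f : M → G) : ∫ z in (chartAt 𝔼 x).source, f z ∂μHE[n] = ∫ a in (chartAt 𝔼 x).target, dens x a • f ((chartAt 𝔼 x).symm a)  -- Exact chart formula, Bochner integral form (no measurability of `f` is needed).
* theorem integral_eq_of_support {G : Type*} [NormedAddCommGroup G] [NormedSpace ℝ G] (x : M) (f : M → G) (hf : ∀ z, z ∉ (chartAt 𝔼 x).source → f z = 0) : ∫ z, f z ∂μHE[n] = ∫ a in (chartAt 𝔼 x).target, dens x a • f ((chartAt 𝔼 x).symm a)  -- A function supported in the source of the chart at `x`.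

### R247/Ms5_322 [ns Crest.Agent.R247.Ms322] R247, block (0) (helper322), part 5: a measurable orthonormal frame `fr z j` of `M` and the gradient in this frame, `G f z = (df (fr z j))_j`.
* def isq (g : Matrix (Fin n) (Fin n) ℝ) : Matrix (Fin n) (Fin n) ℝ  -- the inverse square root of a positive definite matrix
* def colv (x : M) (a : 𝔼) (j : Fin n) : 𝔼  -- the columns of the inverse square root of the metric in the chart at `x`.
* theorem mfderiv_eq_fderiv (x : M) {z : M} (hz : z ∈ (chartAt 𝔼 x).source) (f : M → ℝ) (v : TangentSpace (𝓡 n) z) : mfderiv (𝓡 n) 𝓘(ℝ) f z v = fderiv ℝ (fun b => f ((chartAt 𝔼 x).symm b)) (chartAt 𝔼 x z) (dC x z v)  -- the derivative in the manifold, read in a chart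

### R247/Ms6_322 [ns Crest.Agent.R247.Ms322] R247, block (0) (helper322), part 6: the measurable orthonormal frame `fr z j` of `M` and the gradient in this frame, `Gr f z = (df (fr z j))_j : EuclideanSpace ℝ (Fin n)`.
* def df (f : M → ℝ) (z : M) : TangentSpace (𝓡 n) z →L[ℝ] ℝ  -- the derivative of a real function, typed as a covector.
* def cen : ℕ → M  -- a countable family of chart centres
* def idx (z : M) : ℕ  -- index of the first chart containing `z`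
* def sel (z : M) : M  -- centre of the selected chart at `z`
* def crd (z : M) : 𝔼  -- coordinates of `z` in the selected chart
* def fr (z : M) (j : Fin n) : TangentSpace (𝓡 n) z  -- The measurable orthonormal frame.
* def Gr (f : M → ℝ) (z : M) : 𝔼  -- The gradient of `f` in the frame: the `j`-th component is `df (fr z j)` (`0` where `f` is not differentiable).
* theorem Gr_apply_chart (f : M → ℝ) (z : M) (j : Fin n) : Gr (n := n) f z j = fderiv ℝ (fun b => f ((chartAt 𝔼 (sel n z)).symm b)) (crd n z) (colv (sel n z) (crd n z) j)  -- in the selected chart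
* def frB (z : M) : OrthonormalBasis (Fin n) ℝ (TangentSpace (𝓡 n) z)  -- the frame is an orthonormal basis
* theorem norm_Gr_sq (f : M → ℝ) (z : M) : ‖Gr (n := n) f z‖ ^ 2 = ∑ j : Fin n, (df (n := n) f z (fr z j)) ^ 2  -- Parseval for linear functionals.
* theorem abs_df_le (f : M → ℝ) (z : M) (v : TangentSpace (𝓡 n) z) : |df f z v| ≤ ‖Gr (n := n) f z‖ * ‖v‖  -- `df z v = ⟪Gr f z, v in the frame⟫`, hence `|df z v| ≤ ‖Gr f z‖ ‖v‖`.
* theorem norm_Gr_le {f : M → ℝ} {z : M} {K : ℝ} (hK : 0 ≤ K) (h : ∀ v : TangentSpace (𝓡 n) z, |df f z v| ≤ K * ‖v‖) : ‖Gr (n := n) f z‖ ≤ K  -- if `|df z v| ≤ K ‖v‖` for all `v` then `‖Gr f z‖ ≤ K`.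

### R247/Ms7_322 [ns Crest.Agent.R247.Ms322] R247, block (0) (helper322), part 7: properties of the frame gradient: chart formula in every chart, measurability, Rademacher, the Lipschitz bound, sum / product / chain rules.
* theorem inner_Gr_chart (x : M) {z : M} (hz : z ∈ (chartAt 𝔼 x).source) (f g : M → ℝ) : inner ℝ (Gr (n := n) f z) (Gr (n := n) g z) = Bo84.gam (chartMetric n M x) (fun b => f ((chartAt 𝔼 x).symm b)) (fun b => g ((chartAt 𝔼 x).symm b)) (chartAt 𝔼 x z)  -- Chart formula of the pairing of the gradients, in EVERY chart.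
* theorem norm_Gr_le_of_lipschitzOn [IsRiemannianManifold (𝓡 n) M] {f : M → ℝ} {z : M} {K : ℝ≥0} {U : Set M} (hU : U ∈ 𝓝 z) (hf : LipschitzOnWith K f U) : ‖Gr (n := n) f z‖ ≤ K  -- `‖Gr f z‖ ≤ K` if `f` is `K`-Lipschitz near `z`.

### R247/Ms8_322 [ns Crest.Agent.R247.Ms322] R247, block (0) (helper322), part 8: Rademacher's theorem on `M`, measurability of the frame gradient.
* theorem exists_lipschitz_symm (x : M) {a : 𝔼} (ha : a ∈ (chartAt 𝔼 x).target) : ∃ K : ℝ≥0, ∃ r : ℝ, 0 < r ∧ ball a r ⊆ (chartAt 𝔼 x).target ∧ LipschitzOnWith K (chartAt 𝔼 x).symm (ball a r)  -- The inverse chart is Lipschitz near every point of the target.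
* theorem exists_lipschitz_chart (x : M) {f : M → ℝ} {a : 𝔼} (ha : a ∈ (chartAt 𝔼 x).target) (hf : ∃ K : ℝ≥0, ∃ t ∈ 𝓝 ((chartAt 𝔼 x).symm a), LipschitzOnWith K f t) : ∃ K : ℝ≥0, ∃ r : ℝ, 0 < r ∧ ball a r ⊆ (chartAt 𝔼 x).target ∧ LipschitzOnWith K (fun b => f ((chartAt 𝔼 x).symm b)) (ball a r)  -- A function which is Lipschitz near `z` is Lipschitz near `φ z` in the chart.
* theorem ae_mdifferentiableAt_of_mem {f : M → ℝ} {U : Set M} (hf : ∀ z ∈ U, ∃ K : ℝ≥0, ∃ t ∈ 𝓝 z, LipschitzOnWith K f t) : ∀ᵐ z ∂(μHE[n] : Measure M), z ∈ U → MDifferentiableAt (𝓡 n) 𝓘(ℝ) f z  -- Rademacher's theorem on an open (or any) set.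
* theorem ae_mdifferentiableAt {f : M → ℝ} (hf : LocallyLipschitz f) : ∀ᵐ z ∂(μHE[n] : Measure M), MDifferentiableAt (𝓡 n) 𝓘(ℝ) f z  -- Rademacher's theorem on `M`.
* theorem measurable_Gr (f : M → ℝ) : Measurable (Gr (n := n) f)  -- The frame gradient of ANY function is measurable.

### R247/Ms9_322 [ns Crest.Agent.R247.Ms322] R247, block (0) (helper322), part 9: locally Lipschitz functions near a set, Lipschitz cut-offs, integration by parts on `ℝⁿ` for locally Lipschitz functions.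
* def LLo (U : Set X) (f : X → ℝ) : Prop  -- `f` is Lipschitz near every point of `U`.
* theorem LLo.comp₂ {U : Set X} {f g : X → ℝ} (hf : LLo U f) (hg : LLo U g) {h : ℝ × ℝ → ℝ} (hh : LocallyLipschitz h) : LLo U (fun z => h (f z, g z))  -- composition with a locally Lipschitz function of two variables
* theorem LLo.mul_supp {U : Set X} {φ w : X → ℝ} (hφ : LocallyLipschitz φ) (hw : LLo U w) (hs : tsupport φ ⊆ U) : LocallyLipschitz (fun z => φ z * w z)  -- extension by zero: `φ w` is locally Lipschitz if `w` is so near `tsupport φ`.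
* theorem exists_lipschitzWith [LocallyCompactSpace X] {f : X → ℝ} (hf : LocallyLipschitz f) (hc : HasCompactSupport f) : ∃ K : ℝ≥0, LipschitzWith K f  -- A compactly supported locally Lipschitz function is Lipschitz.
* theorem exists_lip_cutoff [LocallyCompactSpace X] {K U : Set X} (hK : IsCompact K) (hU : IsOpen U) (hKU : K ⊆ U) : ∃ χ : X → ℝ, (∃ L : ℝ≥0, LipschitzWith L χ) ∧ HasCompactSupport χ ∧ tsupport χ ⊆ U ∧ (∃ V, IsOpen V ∧ K ⊆ V ∧ ∀ z ∈ V, χ z = 1) ∧ ∀ z, χ z ∈ Icc (0:ℝ) 1  -- Lipschitz cut-offs.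
* theorem ibp_euclid {U : Set 𝔼} {w φ : 𝔼 → ℝ} (hU : IsOpen U) (hw : LLo U w) (hφ : LocallyLipschitz φ) (hc : HasCompactSupport φ) (hs : tsupport φ ⊆ U) (v : 𝔼) : ∫ b, w b * fderiv ℝ φ b v = - ∫ b, fderiv ℝ w b v * φ b  -- Integration by parts on an open subset of `ℝⁿ`.

### R247/N0_322 [ns Crest.Agent.R247.N0322] R247, the case `n = 0` (helper322): `M` is one point.
* theorem vc_zero : Asm951.VC.{u} 0  -- volume convergence for `n = 0`.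
* theorem glueDataT_zero (T : ℝ) : GluM923.GlueDataT.{u} T 0  -- the gluing data for `n = 0`.

### R247/Bs1_84 [ns Crest.Agent.R247.Bs84] Row 247, block (5-B), pointwise part 1 (helper84): the Hessian and the Ricci form in the measurable orthonormal frame `fr` of helper322, in the matrix form used by helper124.
* def Ricf (z : M) : S n  -- the Ricci form in the frame
* def vf (z : M) (v : F n) : TangentSpace (𝓡 n) z  -- the vector with given coordinates in the frame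
* theorem tr_Hf (hu : ContMDiffAt (𝓡 n) 𝓘(ℝ, ℝ) 2 u z) : tr (Hf (n := n) u z) = mLap n u z  -- the trace of the Hessian is the Laplacian.
* theorem norm_Hf_sq (hu : ContMDiffAt (𝓡 n) 𝓘(ℝ, ℝ) 2 u z) : ‖Hf (n := n) u z‖ ^ 2 = mHessSq n u z  -- the norm of the Hessian.
* theorem vf_Gr (f : M → ℝ) (z : M) : vf z (Gr (n := n) f z) = mgrad n f z  -- the frame gradient is the gradient.
* theorem inner_Gr_eq (f h : M → ℝ) (z : M) : inner ℝ (Gr (n := n) f z) (Gr (n := n) h z) = mGam n f h z  -- `⟨Gr f, Gr h⟩ = mGam`.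
* theorem inner_mv_Hf (hu : ContMDiffAt (𝓡 n) 𝓘(ℝ, ℝ) 2 u z) (v w : F n) : ⟪mv (Hf u z) v, w⟫ = mHess n u z (vf z v) (vf z w)  -- the Hessian matrix applied to vectors.
* def hsq (n : ℕ) {M : Type*} [TopologicalSpace M] [ChartedSpace (EuclideanSpace ℝ (Fin n)) M] [RiemannianBundle (fun p : M => TangentSpace (𝓡 n) p)] (u : M → ℝ) (z : M) : ℝ  -- the potential `½ |∇u|²`.
* theorem Gr_hsq (hu : ContMDiffAt (𝓡 n) 𝓘(ℝ, ℝ) 2 u z) : Gr (n := n) (hsq n u) z = mv (Hf u z) (Gr u z)  -- gradient of `½ |∇u|²`.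
* theorem inner_mv_Ricf (z : M) (v : F n) : ⟪mv (Ricf z) v, v⟫ = mRic n z (vf z v) (vf z v)  -- the Ricci matrix applied to a vector.
* theorem Ricf_lb {K : ℝ} (hK : HasRicciLowerBound n M K) (z : M) (v : F n) : K * ‖v‖ ^ 2 ≤ ⟪mv (Ricf z) v, v⟫  -- lower bound for the Ricci matrix.
* theorem bochner_pt (hu : ContMDiffAt (𝓡 n) 𝓘(ℝ, ℝ) 3 u z) : mLap n (hsq n u) z = ‖Hf (n := n) u z‖ ^ 2 + inner ℝ (Gr (n := n) u z) (Gr (n := n) (mLap n u) z) + ⟪mv (Ricf (n := n) z) (Gr (n := n) u z), Gr (n := n) u z⟫  -- pointwise Bochner identity in frame form.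

### R247/Bs2_84 [ns Crest.Agent.R247.Bs84] Row 247, block (5-B), pointwise part 2 (helper84): regularity, boundedness and measurability of the frame Hessian and of the frame Ricci form; the smooth core of compactly supported functions.
* theorem exists_lipschitzOnWith_of_contMDiffAt [IsRiemannianManifold (𝓡 n) M] {f : M → ℝ} {z : M} (hf : ContMDiffAt (𝓡 n) 𝓘(ℝ, ℝ) 1 f z) : ∃ K : ℝ≥0, ∃ t ∈ 𝓝 z, LipschitzOnWith K f t  -- a function `C¹` near `z` is Lipschitz near `z`.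
* theorem locallyLipschitz_of_contMDiff [IsRiemannianManifold (𝓡 n) M] {f : M → ℝ} (hf : ContMDiff (𝓡 n) 𝓘(ℝ, ℝ) 1 f) : LocallyLipschitz f  -- a `C¹` function is locally Lipschitz.
* def core (n : ℕ) (M : Type*) [TopologicalSpace M] [ChartedSpace (EuclideanSpace ℝ (Fin n)) M] : Set (M → ℝ)  -- smooth functions with compact support
* theorem mRic_chart' {p : M} (hp : p ∈ (chartAt 𝔼 x₀).source) (v w : TangentSpace (𝓡 n) p) : mRic n p v w = ∑ i, ∑ j, ricci (chartMetric n M x₀) (chartAt 𝔼 x₀ p) i j * (dCh x₀ p v) i * (dCh x₀ p w) j  -- the Ricci form in every chart, from a point of the source.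
* theorem measurable_Hf [MeasurableSpace M] [BorelSpace M] (hu : ContMDiff (𝓡 n) 𝓘(ℝ, ℝ) 2 u) : Measurable (Hf (n := n) u)  -- the frame Hessian is a measurable function.
* theorem measurable_Ricf [MeasurableSpace M] [BorelSpace M] : Measurable (Ricf (n := n) (M := M))  -- the frame Ricci form is a measurable function.

### R247/Bs3_84 [ns Crest.Agent.R247.Bs84] Row 247, block (5-B) (helper84): the `BochS` term from a gradient structure with gradient `Gr` and the integration by parts formula `Div`: all measurability / boundedness inputs of helper939's `mkBochS`.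
* def bochS {κ : ℝ} [IsFiniteMeasureOnCompacts (μHE[n] : Measure M)] (S : GradS M 𝔼 (μHE[n] : Measure M)) (hS : S.G = Gr (n := n)) (hdiv : Ib939.Div n M) (hκ : HasRicciLowerBound n M (-κ)) : Hes124.BochS n κ M (μHE[n] : Measure M)  -- The Bochner structure of the manifold, from the gradient structure and `Div`.

### R247/Ib1_939 [ns Crest.Agent.R247.Ib939] R247, leaf (5-B) (helper939), part 1: the Hessian `Hf u z : S n` and the Ricci form `Rf z : S n` in the measurable orthonormal frame of `Ms6_322`; pointwise identities in the form of `Hes2_124`.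
* theorem inner_Gr_mGam (f h : M → ℝ) (z : M) : inner ℝ (Gr (n := n) f z) (Gr (n := n) h z) = mGam n f h z  -- `⟪Gr f, Gr h⟫ = ⟨df, dh⟩` everywhere.
* def vf (z : M) (v : EuclideanSpace ℝ (Fin n)) : TangentSpace (𝓡 n) z  -- a frame vector
* def Hf (u : M → ℝ) (z : M) : Hes124.S n  -- the Hessian of `u` in the frame at `z`
* theorem inner_mv_Hf {u : M → ℝ} {z : M} (v w : 𝔼) : inner ℝ (mv (Hf u z) v) w = mHess n u z (vf z w) (vf z v)  -- `⟪Hf u z v, w⟫ = Hess u (vf v, vf w)`.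
* theorem Gr_mGam {z : M} {u h : M → ℝ} (hu : ContMDiffAt (𝓡 n) 𝓘(ℝ) 2 u z) (hh : ContMDiffAt (𝓡 n) 𝓘(ℝ) 2 h z) : Gr (n := n) (mGam n u h) z = mv (Hf u z) (Gr (n := n) h z) + mv (Hf h z) (Gr (n := n) u z)  -- gradient of `⟨du, dh⟩` in the frame
* def Rf (z : M) : Hes124.S n  -- the Ricci form in the frame
* theorem bochner_frame {u : M → ℝ} {z : M} (hu : ContMDiffAt (𝓡 n) 𝓘(ℝ) 3 u z) : (1 / 2) * mLap n (mGam n u u) z = ‖Hf (n := n) u z‖ ^ 2 + inner ℝ (Gr (n := n) u z) (Gr (n := n) (mLap n u) z) + inner ℝ (mv (Rf (n := n) z) (Gr (n := n) u z)) (Gr (n := n) u z)  -- Bochner's formula in the frame.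

### R247/Ib2_939 [ns Crest.Agent.R247.Ib939] R247, leaf (5-B) (helper939), part 2: the integrated Bochner identity on `M` from the pointwise one and the divergence identity for smooth functions against Lipschitz test functions; the constructor of `BochS` from the fields.
* def Core (n : ℕ) (M : Type*) [MetricSpace M] [ChartedSpace (EuclideanSpace ℝ (Fin n)) M] : Set (M → ℝ)  -- smooth functions with compact support
* theorem mGam_supp {u v : M → ℝ} {z : M} (hz : z ∉ tsupport u) : mGam n u v z = 0  -- `mGam u v` vanishes off the support of `u`.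
* def Div (n : ℕ) (M : Type*) [MetricSpace M] [ChartedSpace (EuclideanSpace ℝ (Fin n)) M] [IsManifold (𝓡 n) ∞ M] [RiemannianBundle (fun p : M => TangentSpace (𝓡 n) p)] [IsContMDiffRiemannianBundle (𝓡 n) ∞ (EuclideanSpace ℝ (Fin n)) (fun p : M => TangentSpace (𝓡 n) p)] [MeasurableSpace M] [BorelSpace M] [SecondCountableTopology M] [Nonempty M] : Prop  -- the divergence identity
* theorem Gr_mul_ae {p L : M → ℝ} (hp : LocallyLipschitz p) (hL : ContMDiff (𝓡 n) 𝓘(ℝ) ∞ L) : ∀ᵐ x ∂(μHE[n] : Measure M), Gr (n := n) (fun y => p y * L y) x = p x • Gr (n := n) L x + L x • Gr (n := n) p x  -- a.e. product rule with one smooth factor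
* theorem Gr_bdd {u : M → ℝ} (hu : u ∈ Core n M) : ∃ C : ℝ, ∀ x, ‖Gr (n := n) u x‖ ≤ C  -- `Gr u` is bounded for `u` in the core
* theorem bochner_int [IsFiniteMeasureOnCompacts (μHE[n] : Measure M)] (S : GradS M 𝔼 (μHE[n] : Measure M)) (hS : S.G = Gr (n := n)) (htest : ∀ {u : M → ℝ}, u ∈ Core n M → LocallyLipschitz u) {u p : M → ℝ} (hu : u ∈ Core n M) (hp : IsT p) : ∫ x, p x * (‖Hf (n := n) u x‖ ^ 2 + inner ℝ (mv (Rf (n := n) x) (Gr (n := n) u x)) (Gr (n := n) u x)) ∂(μHE[n] : Measure M) = - ∫ x, inner ℝ (Gr (n := n) p x) (mv (Hf (n := n) u x) (Gr (n := n) u x)) ∂(μHE[n] : Measure M) + ∫ x, tr (Hf (n := n) u x) * (p x * tr (Hf (n := n) u x) + inner ℝ (Gr (n := n) p x) (Gr (n := n)  …  -- integrated Bochner identity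
* def mkBochS {κ : ℝ} [IsFiniteMeasureOnCompacts (μHE[n] : Measure M)] (S : GradS M 𝔼 (μHE[n] : Measure M)) (hS : S.G = Gr (n := n)) (hdiv : Div n M) (hκ : HasRicciLowerBound n M (-κ)) (htest : ∀ {u : M → ℝ}, u ∈ Core n M → LocallyLipschitz u) (hHm : ∀ {u : M → ℝ}, u ∈ Core n M → AEStronglyMeasurable (Hf (n := n) u) (μHE[n] : Measure M)) (hHb : ∀ {u : M → ℝ}, u ∈ Core n M → ∃ C : ℝ, ∀ x, ‖Hf (n := n) u x‖ ≤ C) (hRm : AEStronglyMeasurable (Rf (n := n) (M := M)) (μHE[n] : Measure M)) (hRb : ∀ K : Set M, IsCompact K → ∃ C : ℝ, ∀ x ∈ K, ‖Rf (n := n) x‖ ≤ C) :  …  -- constructor of `BochS` on the manifold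

### R247/Gs1_939 [ns Crest.Agent.R247.Gs939] R247, block (0) (helper939): the gradient structure `gradS n M : GradS M 𝔼 μHE[n]` with `G = Gr` (helper322's frame gradient), including closability.
* theorem Gr_supp {f : M → ℝ} {z : M} (hz : z ∉ tsupport f) : Gr (n := n) f z = 0  -- the frame gradient vanishes off the support
* theorem memLp_Gr {f : M → ℝ} (hf : LocallyLipschitz f) (hc : HasCompactSupport f) : MemLp (Gr (n := n) f) 2 (μHE[n] : Measure M)  -- the frame gradient of a test function is square integrable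
* def Th (φ : M → ℝ) : 𝔼 → ℝ  -- the weighted test function in the chart
* theorem ibp_Ef (i : Fin n) {φ f : M → ℝ} (hφ : LocallyLipschitz φ) (hc : HasCompactSupport φ) (hs : tsupport φ ⊆ (chartAt 𝔼 x₀).source) (hf : LocallyLipschitz f) : ∫ z, inner ℝ (Gr (n := n) f z) (φ z • Ef x₀ i z) ∂(μHE[n] : Measure M) = - ∫ b, f ((chartAt 𝔼 x₀).symm b) * fderiv ℝ (Th (n := n) x₀ φ) b (EuclideanSpace.single i (1:ℝ))  -- integration by parts against `∂_i` in the chart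
* theorem rhs_tendsto (i : Fin n) {φ : M → ℝ} {f : ℕ → M → ℝ} (hφ : LocallyLipschitz φ) (hc : HasCompactSupport φ) (hs : tsupport φ ⊆ (chartAt 𝔼 x₀).source) (hf : ∀ k, LocallyLipschitz (f k)) (h0 : L2To (μHE[n] : Measure M) f (fun _ => 0)) : Tendsto (fun k => - ∫ b, f k ((chartAt 𝔼 x₀).symm b) * fderiv ℝ (Th (n := n) x₀ φ) b (EuclideanSpace.single i (1:ℝ))) atTop (𝓝 0)  -- the right-hand side of `ibp_Ef` tends to `0` if `f k → 0` in `L²`.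
* theorem Ef_bdd (i : Fin n) {K : Set M} (hK : IsCompact K) (hKs : K ⊆ (chartAt 𝔼 x₀).source) : ∃ C : ℝ, 0 ≤ C ∧ ∀ z ∈ K, ‖Ef x₀ i z‖ ≤ C  -- `Ef x₀ i` is bounded on compact subsets of the source
* theorem integral_eq_zero (i : Fin n) {φ : M → ℝ} {f : ℕ → M → ℝ} {g : M → 𝔼} (hφ : LocallyLipschitz φ) (hc : HasCompactSupport φ) (hs : tsupport φ ⊆ (chartAt 𝔼 x₀).source) (hf : ∀ k, LocallyLipschitz (f k)) (h0 : L2To (μHE[n] : Measure M) f (fun _ => 0)) (hg : L2To (μHE[n] : Measure M) (fun k => Gr (n := n) (f k)) g) : ∫ z, φ z • inner ℝ (g z) (Ef x₀ i z) ∂(μHE[n] : Measure M) = 0  -- the limit gradient is orthogonal to the chart vectors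
* theorem closable_Gr (f : ℕ → M → ℝ) (g : M → 𝔼) (hf : ∀ k, LocallyLipschitz (f k) ∧ HasCompactSupport (f k)) (h0 : Tendsto (fun k => eLpNorm (f k) 2 (μHE[n] : Measure M)) atTop (𝓝 0)) (hg : MemLp g 2 (μHE[n] : Measure M)) (hG : Tendsto (fun k => eLpNorm (fun x => Gr (n := n) (f k) x - g x) 2 (μHE[n] : Measure M)) atTop (𝓝 0)) : g =ᵐ[(μHE[n] : Measure M)] 0  -- closability
* def gradS : GradS M 𝔼 (μHE[n] : Measure M)  -- the gradient structure of the manifold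

### R247/Gs2_939 [ns Crest.Agent.R247.Gs939] R247, leaf (5-B) / P3 (helper939, helper84, helper322): the `BochS` structure of a complete (or any) Riemannian manifold with `Ric ≥ -κ`, unconditionally.
* theorem div_holds : Ib939.Div n M  -- the divergence identity holds
* theorem finOnCompacts : IsFiniteMeasureOnCompacts (μHE[n] : Measure M)  -- the measure is finite on compact sets
* def boch {κ : ℝ} (hκ : HasRicciLowerBound n M (-κ)) : Hes124.BochS n κ M (μHE[n] : Measure M)  -- `BochS` of the manifold.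

==================== ABSTRACT GRADIENT STRUCTURES, FORMS, RESOLVENTS

### R247/Dir0_593 [ns Crest.Agent.R247.Dir593 / GradS] R247, block (5) abstract half (helper593): the interface `GradS` (gradient of locally Lipschitz functions in a measurable orthonormal frame), the space `V = W^{1,2}_0` as closure of the compactly supported (locally) Lipschitz functions, gradient `D : V → L²(μ; F)`, the closed form.
* structure GradS (X : Type*) [MetricSpace X] [MeasurableSpace X] (F : Type*) [NormedAddCommGroup F] [InnerProductSpace ℝ F] (μ : Measure X) where G : (X → ℝ) → X → F meas : ∀ {f : X → ℝ}, LocallyLipschitz f → AEStronglyMeasurable (G f) μ add : ∀ {f g : X → ℝ}, LocallyLipschitz f → LocallyLipschitz g → ∀ᵐ x ∂μ, G (fun y => f y + g y) x = G f x + G g x smul : ∀ (c : ℝ) {f : X → ℝ}, LocallyLipschitz f → ∀ᵐ x ∂μ, G (fun y => c * f y) x = c • G f x mul : ∀ {f g : X → ℝ}, LocallyLipschitz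 f → LocallyLipschitz g → ∀ᵐ x ∂μ, G (fun y => f y * g y) x = f x • G g x  …  -- Gradient structure: `G f x` is the gradient of `f` at `x` in a measurable orthonormal frame.
* theorem loc {f g : X → ℝ} {U : Set X} (hf : LocallyLipschitz f) (hg : LocallyLipschitz g) (hU : IsOpen U) (h : EqOn f g U) : ∀ᵐ x ∂μ, x ∈ U → S.G f x = S.G g x  -- locality on open sets
* theorem bound_compact {f : X → ℝ} (hf : LocallyLipschitz f) {K : Set X} (hK : IsCompact K) : ∃ C : ℝ, 0 ≤ C ∧ ∀ᵐ x ∂μ, x ∈ K → ‖S.G f x‖ ≤ C  -- local bound on compact sets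
* def graph : Submodule ℝ (Lp ℝ 2 μ × Lp F 2 μ)  -- graph of the gradient on test functions
* def graphC : Submodule ℝ (Lp ℝ 2 μ × Lp F 2 μ)  -- closure of the graph
* theorem mem_graphC_iff {p : Lp ℝ 2 μ × Lp F 2 μ} : p ∈ S.graphC ↔ ∃ (f : ℕ → X → ℝ) (hf : ∀ k, IsT (f k)), Tendsto (fun k => (hf k).memLp.toLp (f k)) atTop (𝓝 p.1) ∧ Tendsto (fun k => ((hf k).memLpG S).toLp (S.G (f k))) atTop (𝓝 p.2)  -- sequences of test functions approximating an element of the closed graph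
* def V : Submodule ℝ (Lp ℝ 2 μ)  -- the space `W^{1,2}_0`
* def D (u : Lp ℝ 2 μ) : Lp F 2 μ  -- the closed gradient (zero off `V`)
* theorem D_closed {u : ℕ → Lp ℝ 2 μ} {w : Lp ℝ 2 μ} {g : Lp F 2 μ} (hu : ∀ k, u k ∈ S.V) (h1 : Tendsto u atTop (𝓝 w)) (h2 : Tendsto (fun k => S.D (u k)) atTop (𝓝 g)) : w ∈ S.V ∧ S.D w = g  -- closedness of the gradient
* def tL {f : X → ℝ} (hf : IsT f) : Lp ℝ 2 μ  -- the class of a test function
* theorem exists_seq {u : Lp ℝ 2 μ} (hu : u ∈ S.V) : ∃ (f : ℕ → X → ℝ) (hf : ∀ k, IsT (f k)), Tendsto (fun k => (tL (hf k) : Lp ℝ 2 μ)) atTop (𝓝 u) ∧ Tendsto (fun k => S.D (tL (hf k))) atTop (𝓝 (S.D u))  -- density of test functions in `V`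
* theorem weak_closed [CompleteSpace F] {u : ℕ → Lp ℝ 2 μ} {w : Lp ℝ 2 μ} {C : ℝ} (hu : ∀ k, u k ∈ S.V) (h1 : Tendsto u atTop (𝓝 w)) (h2 : ∀ k, ‖S.D (u k)‖ ≤ C) : w ∈ S.V ∧ ‖S.D w‖ ≤ C ∧ ∀ g : Lp F 2 μ, ∀ a : ℝ, (∀ᶠ k in atTop, ⟪S.D (u k), g⟫ ≤ a) → ⟪S.D w, g⟫ ≤ a  -- weak closedness: bounded gradients

### R247/Dir1_593 [ns Crest.Agent.R247.Dir593 / SymMarkov] R247, block (5) abstract half (helper593): symmetric sub-Markov operators on `L²(μ)`; `L¹` contraction, Hopf's maximal lemma, the weak `(1,1)` maximal inequality, Abel means.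
* structure SymMarkov (T : Lp ℝ 2 μ →L[ℝ] Lp ℝ 2 μ) : Prop where symm : ∀ f g : Lp ℝ 2 μ, ⟪T f, g⟫ = ⟪f, T g⟫ pos : ∀ f : Lp ℝ 2 μ, 0 ≤ᵐ[μ] f → 0 ≤ᵐ[μ] T f le_one : ∀ f : Lp ℝ 2 μ, (∀ᵐ x ∂μ, f x ≤ 1) → ∀ᵐ x ∂μ, T f x ≤ 1  -- symmetric sub-Markov operator on `L²`
* def ind {B : Set X} (hB : MeasurableSet B) (hμ : μ B ≠ ∞) : Lp ℝ 2 μ  -- the indicator of a set of finite measure
* theorem setIntegral_le {f : Lp ℝ 2 μ} (hf : 0 ≤ᵐ[μ] f) (hfi : Integrable f μ) {B : Set X} (hT : SymMarkov T) (hB : MeasurableSet B) (hμ : μ B ≠ ∞) : ∫ x in B, T f x ∂μ ≤ ∫ x, f x ∂μ  -- `∫_B T f ≤ ∫ f`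
* theorem lintegral_le {f : Lp ℝ 2 μ} (hT : SymMarkov T) (hf : 0 ≤ᵐ[μ] f) (hfi : Integrable f μ) : ∫⁻ x, ENNReal.ofReal (T f x) ∂μ ≤ ENNReal.ofReal (∫ x, f x ∂μ)  -- `L¹` contraction, `lintegral` form
* theorem integrable_of {f : Lp ℝ 2 μ} (hT : SymMarkov T) (hfi : Integrable f μ) : Integrable (T f) μ  -- positive part in `L²`
* def P (T : Lp ℝ 2 μ →L[ℝ] Lp ℝ 2 μ) (f : Lp ℝ 2 μ) : ℕ → Lp ℝ 2 μ | 0 => 0 | N + 1 => Lp.posPart (f + T (P T f N)) / -- partial sums - / def S (T : Lp ℝ 2 μ →L[ℝ] Lp ℝ 2 μ) (f : Lp ℝ 2 μ) (N : ℕ) : Lp ℝ 2 μ  -- the upper envelope `P_{N+1} = (f + T P_N)⁺`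
* def S (T : Lp ℝ 2 μ →L[ℝ] Lp ℝ 2 μ) (f : Lp ℝ 2 μ) (N : ℕ) : Lp ℝ 2 μ  -- partial sums
* theorem hopf (hT : SymMarkov T) {f : Lp ℝ 2 μ} (hf : Integrable f μ) (N : ℕ) : 0 ≤ ∫ x in {x | 0 < P T f N x}, f x ∂μ  -- Hopf's maximal lemma.
* def exc (T : Lp ℝ 2 μ →L[ℝ] Lp ℝ 2 μ) (g : Lp ℝ 2 μ) (t : ℝ) : Set X  -- the exceedance set of the Cesaro means
* theorem weak11 (hT : SymMarkov T) {g : Lp ℝ 2 μ} (hg : 0 ≤ᵐ[μ] g) (hgi : Integrable g μ) {t : ℝ} (ht : 0 < t) : μ (exc T g t) ≤ ENNReal.ofReal ((∫ x, g x ∂μ) / t)  -- weak (1,1) maximal inequality, constant one.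
* theorem abel_le {a : ℕ → ℝ} {t r : ℝ} (hr0 : 0 ≤ r) (hr1 : r ≤ 1) (h : ∀ N : ℕ, 1 ≤ N → ∑ j ∈ Finset.range N, a j ≤ t * N) (M : ℕ) : ∑ j ∈ Finset.range M, r ^ j * a j ≤ t * ∑ j ∈ Finset.range M, r ^ j  -- Abel means are bounded by Cesaro means.

### R247/Dir2_593 [ns Crest.Agent.R247.Dir593 / Fnl / Markov] R247, block (5) abstract half (helper593): Markov forms, resolvents on the dual of the form domain, maximal inequality over all resolvent scales.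
* structure Fnl (Q : CForm H) where f : H → ℝ add' : ∀ {u v : H}, u ∈ Q.dom → v ∈ Q.dom → f (u + v) = f u + f v smul' : ∀ (c : ℝ) {u : H}, u ∈ Q.dom → f (c • u) = c * f u C : ℝ C0 : 0 ≤ C bound : ∀ {u : H}, u ∈ Q.dom → |f u| ≤ C * Real.sqrt (‖u‖ ^ 2 + Q.E u u)  -- a linear functional on the form domain, bounded in the form norm
* def Fnl.ofInner (Q : CForm H) (g : H) : Fnl Q  -- the functional `p ↦ ⟪g, p⟫`
* theorem exists_resD [CompleteSpace H] {h : ℝ} (hh : 0 < h) (l : Fnl Q) : ∃ u ∈ Q.dom, ∀ v ∈ Q.dom, h * Q.E u v + ⟪u, v⟫ = l.f v  -- Riesz for the form: solution of `h E(u,v) + ⟪u,v⟫ = l v`.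
* def resD [CompleteSpace H] (h : ℝ) (l : Fnl Q) : H  -- The resolvent `(1 + h L)⁻¹` on functionals.
* theorem family_weak11 [SigmaFinite μ] {T : Lp ℝ 2 μ →L[ℝ] Lp ℝ 2 μ} (hT : SymMarkov T) (hn : ‖T‖ ≤ 1) {u0 : Lp ℝ 2 μ} (h0 : 0 ≤ᵐ[μ] u0) (hi : Integrable u0 μ) {t : ℝ} (ht : 0 < t) : ∃ B : Set X, MeasurableSet B ∧ μ B ≤ ENNReal.ofReal ((∫ x, u0 x ∂μ) / t) ∧ ∀ (k : ℝ) (u : Lp ℝ 2 μ), 1 ≤ k → u = (1 / k) • u0 + (1 - 1 / k) • T u → ∀ᵐ x ∂μ, x ∉ B → u x ≤ t  -- maximal inequality for a resolvent family: one exceptional set for all `k ≥ 1`.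
* structure Markov (Q : CForm (Lp ℝ 2 μ)) : Prop where cut : ∀ (a : ℝ), 0 ≤ a → ∀ u w : Lp ℝ 2 μ, u ∈ Q.dom → ((w : X → ℝ) =ᵐ[μ] fun x => max (u x - a) 0) → w ∈ Q.dom ∧ Q.E w w ≤ Q.E u w  -- The form is Markovian: cut-offs `(u - a)⁺`, `a ≥ 0`, operate.
* def cutL (u : Lp ℝ 2 μ) (a : ℝ) (ha : 0 ≤ a) : Lp ℝ 2 μ  -- the cut-off `(u - a)⁺`
* theorem resD_nonneg {h : ℝ} (hh : 0 < h) {l : Fnl Q} (hl : ∀ w ∈ Q.dom, 0 ≤ᵐ[μ] (w : X → ℝ) → 0 ≤ l.f w) : 0 ≤ᵐ[μ] ((resD Q h l : Lp ℝ 2 μ) : X → ℝ)  -- positivity on functionals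
* theorem setIntegral_resD_le {h : ℝ} (hh : 0 < h) {l : Fnl Q} {m : ℝ} (hm : ∀ w ∈ Q.dom, 0 ≤ᵐ[μ] (w : X → ℝ) → (∀ᵐ x ∂μ, w x ≤ 1) → l.f w ≤ m) {B : Set X} (hB : MeasurableSet B) (hμ : μ B ≠ ∞) : ∫ x in B, resD Q h l x ∂μ ≤ m  -- mass bound, on sets
* theorem integral_resD_le [SigmaFinite μ] {h : ℝ} (hh : 0 < h) {l : Fnl Q} {m : ℝ} (hl : ∀ w ∈ Q.dom, 0 ≤ᵐ[μ] (w : X → ℝ) → 0 ≤ l.f w) (hm : ∀ w ∈ Q.dom, 0 ≤ᵐ[μ] (w : X → ℝ) → (∀ᵐ x ∂μ, w x ≤ 1) → l.f w ≤ m) : Integrable ((resD Q h l : Lp ℝ 2 μ) : X → ℝ) μ ∧ ∫ x, resD Q h l x ∂μ ≤ m  -- mass bound: `R l` is integrable with `∫ R l ≤ m`.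
* theorem weak11_resD [SigmaFinite μ] {h0 : ℝ} (hh0 : 0 < h0) {l : Fnl Q} {m : ℝ} (hl : ∀ w ∈ Q.dom, 0 ≤ᵐ[μ] (w : X → ℝ) → 0 ≤ l.f w) (hm : ∀ w ∈ Q.dom, 0 ≤ᵐ[μ] (w : X → ℝ) → (∀ᵐ x ∂μ, w x ≤ 1) → l.f w ≤ m) {t : ℝ} (ht : 0 < t) : ∃ B : Set X, MeasurableSet B ∧ μ B ≤ ENNReal.ofReal (m / t) ∧ ∀ h, h0 ≤ h → ∀ᵐ x ∂μ, x ∉ B → resD Q h l x ≤ t  -- weak (1,1) for `sup_{h ≥ h0} R_h l`, `l` a nonnegative functional of mass `≤ m` (for instance a measure of finite energy): one exceptional set for all scale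
* theorem weak11_resD_all [SigmaFinite μ] (hQ : Markov Q) {l : Fnl Q} {m : ℝ} (hl : ∀ w ∈ Q.dom, 0 ≤ᵐ[μ] (w : X → ℝ) → 0 ≤ l.f w) (hm : ∀ w ∈ Q.dom, 0 ≤ᵐ[μ] (w : X → ℝ) → (∀ᵐ x ∂μ, w x ≤ 1) → l.f w ≤ m) {t : ℝ} (ht : 0 < t) (h : ℕ → ℝ) (hh : ∀ i, 0 < h i) : μ {x | ∃ i, t < resD Q (h i) l x} ≤ ENNReal.ofReal (m / t)  -- a countable family of sets, increasing union form: weak (1,1) over all `h > 0`.

### R247/Dir3_593 [ns Crest.Agent.R247.Dir593 / GradS] R247, block (5) abstract half (helper593): calculus in `V`: chain rule, truncation, products, bounded approximation, the Markov form.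
* theorem memLp_smul {a : X → ℝ} {C : ℝ} (ha : AEStronglyMeasurable a μ) (hb : ∀ᵐ x ∂μ, |a x| ≤ C) (g : Lp E 2 μ) : MemLp (fun x => a x • g x) 2 μ  -- multiplication by a bounded function
* theorem smul_tendsto {a : ℕ → X → ℝ} {a' : X → ℝ} {C : ℝ} (hC0 : 0 ≤ C) (ham : ∀ k, AEStronglyMeasurable (a k) μ) (hb : ∀ k, ∀ᵐ x ∂μ, |a k x| ≤ C) {g : ℕ → Lp E 2 μ} {g' : Lp E 2 μ} (hg : Tendsto g atTop (𝓝 g')) (hlim : ∀ᵐ x ∂μ, g' x = 0 ∨ Tendsto (fun k => a k x) atTop (𝓝 (a' x))) {H : ℕ → Lp E 2 μ} {H' : Lp E 2 μ} (hH : ∀ k, (H k : X → E) =ᵐ[μ] fun x => a k x • g k x) (hH' : (H' : X → E) =ᵐ[μ] fun x => a' x • g' x) : Tendsto H atTop (𝓝 H')  -- product of a bounded a.e. convergent sequence and an `L²`-convergent one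
* theorem exists_subseq_ae {E' : Type*} [NormedAddCommGroup E'] {f : ℕ → Lp E 2 μ} {f' : Lp E 2 μ} (hf : Tendsto f atTop (𝓝 f')) {g : ℕ → Lp E' 2 μ} {g' : Lp E' 2 μ} (hg : Tendsto g atTop (𝓝 g')) : ∃ ns : ℕ → ℕ, StrictMono ns ∧ (∀ᵐ x ∂μ, Tendsto (fun k => f (ns k) x) atTop (𝓝 (f' x))) ∧ ∀ᵐ x ∂μ, Tendsto (fun k => g (ns k) x) atTop (𝓝 (g' x))  -- a.e. convergent subsequence for two sequences
* theorem exists_seq_ae {u : Lp ℝ 2 μ} (hu : u ∈ S.V) : ∃ (f : ℕ → X → ℝ) (hf : ∀ k, IsT (f k)), Tendsto (fun k => (tL (hf k) : Lp ℝ 2 μ)) atTop (𝓝 u) ∧ Tendsto (fun k => S.D (tL (hf k))) atTop (𝓝 (S.D u)) ∧ (∀ᵐ x ∂μ, Tendsto (fun k => f k x) atTop (𝓝 (u x))) ∧ ∀ᵐ x ∂μ, Tendsto (fun k => S.G (f k) x) atTop (𝓝 (S.D u x))  -- density of test functions in `V`, with a.e. convergence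
* def Chain (χ φ : ℝ → ℝ) : Prop  -- `(χ, φ)` is a chain rule pair: `D (χ ∘ u) = φ(u) D u` for every `u ∈ V`.
* theorem Chain.lim {χ φ : ℕ → ℝ → ℝ} {χ' φ' : ℝ → ℝ} {C : ℝ} (hC : 0 ≤ C) (h : ∀ k, S.Chain (χ k) (φ k)) (hφm : ∀ k, Measurable (φ k)) (hχb : ∀ k s, |χ k s| ≤ C * |s|) (hφb : ∀ k s, |φ k s| ≤ C) (hχm : ∀ k, Measurable (χ k)) (hχ : ∀ s, Tendsto (fun k => χ k s) atTop (𝓝 (χ' s))) (hφ : ∀ s, Tendsto (fun k => φ k s) atTop (𝓝 (φ' s))) : S.Chain χ' φ'  -- bounded pointwise limits of chain rule pairs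
* def rmp (a ε s : ℝ) : ℝ  -- smoothed ramp
* def rmp' (a ε s : ℝ) : ℝ  -- derivative of the smoothed ramp
* def ramp (a s : ℝ) : ℝ  -- the ramp `(s - a)⁺ - (-a)⁺`
* theorem chain_point (a : ℝ) : S.Chain (fun _ => 0) (({a} : Set ℝ).indicator fun _ => 1)  -- `D u = 0` a.e. on level sets
* theorem D_cut {u w : Lp ℝ 2 μ} (hu : u ∈ S.V) {a : ℝ} (ha : 0 ≤ a) (hw : (w : X → ℝ) =ᵐ[μ] fun x => max (u x - a) 0) : w ∈ S.V ∧ (S.D w : X → F) =ᵐ[μ] fun x => (Ioi a).indicator (fun _ => (1:ℝ)) (u x) • S.D u x  -- truncation above `a ≥ 0`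
* theorem D_clamp {u w : Lp ℝ 2 μ} (hu : u ∈ S.V) {a b : ℝ} (ha : a ≤ 0) (hb : 0 ≤ b) (hw : (w : X → ℝ) =ᵐ[μ] fun x => max a (min (u x) b)) : w ∈ S.V ∧ (S.D w : X → F) =ᵐ[μ] fun x => (Ioc a b).indicator (fun _ => (1:ℝ)) (u x) • S.D u x  -- truncation between `a ≤ 0 ≤ b`

### R247/Dir4_593 [ns Crest.Agent.R247.Dir593 / GradS] R247, block (5) abstract half (helper593): bounded approximation, products, locally Lipschitz functions in `V`, density, the Markov form and its resolvent.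
* theorem tendsto_of_comp {u : Lp ℝ 2 μ} {f : ℕ → X → ℝ} (hf : ∀ k, IsT (f k)) (h1 : Tendsto (fun k => (tL (hf k) : Lp ℝ 2 μ)) atTop (𝓝 u)) {χ : ℝ → ℝ} {C : ℝ} (hC : 0 ≤ C) (hχ : ∀ s t, |χ s - χ t| ≤ C * |s - t|) (hT : ∀ k, IsT fun y => χ (f k y)) {w : Lp ℝ 2 μ} (hw : (w : X → ℝ) =ᵐ[μ] fun x => χ (u x)) : Tendsto (fun k => (tL (hT k) : Lp ℝ 2 μ)) atTop (𝓝 w)  -- `L²` convergence from pointwise a.e. contraction and limit
* theorem abs_clamp_sub (a b s t : ℝ) : |max a (min s b) - max a (min t b)| ≤ 1 * |s - t|  -- the clamp `max a (min s b)`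
* theorem exists_seq_Icc {u : Lp ℝ 2 μ} (hu : u ∈ S.V) {a b : ℝ} (ha : a ≤ 0) (hb : 0 ≤ b) (h1 : ∀ᵐ x ∂μ, a ≤ u x) (h2 : ∀ᵐ x ∂μ, u x ≤ b) : ∃ (f : ℕ → X → ℝ) (hf : ∀ k, IsT (f k)), (∀ k x, a ≤ f k x ∧ f k x ≤ b) ∧ Tendsto (fun k => (tL (hf k) : Lp ℝ 2 μ)) atTop (𝓝 u) ∧ Tendsto (fun k => S.D (tL (hf k))) atTop (𝓝 (S.D u)) ∧ (∀ᵐ x ∂μ, Tendsto (fun k => f k x) atTop (𝓝 (u x)))  -- bounded approximation : `a ≤ u ≤ b` a.e., `a ≤ 0 ≤ b`, gives test functions with values in `[a, b]`.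
* theorem exists_seq_nonneg {u : Lp ℝ 2 μ} (hu : u ∈ S.V) (h1 : ∀ᵐ x ∂μ, 0 ≤ u x) : ∃ (f : ℕ → X → ℝ) (hf : ∀ k, IsT (f k)), (∀ k x, 0 ≤ f k x) ∧ Tendsto (fun k => (tL (hf k) : Lp ℝ 2 μ)) atTop (𝓝 u) ∧ Tendsto (fun k => S.D (tL (hf k))) atTop (𝓝 (S.D u)) ∧ (∀ᵐ x ∂μ, Tendsto (fun k => f k x) atTop (𝓝 (u x)))  -- nonnegative approximation
* theorem D_mul {u v w : Lp ℝ 2 μ} (hu : u ∈ S.V) (hv : v ∈ S.V) {C : ℝ} (hC : 0 ≤ C) (hub : ∀ᵐ x ∂μ, |u x| ≤ C) (hvb : ∀ᵐ x ∂μ, |v x| ≤ C) (hw : (w : X → ℝ) =ᵐ[μ] fun x => u x * v x) : w ∈ S.V ∧ (S.D w : X → F) =ᵐ[μ] fun x => u x • S.D v x + v x • S.D u x  -- product of bounded elements of `V`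
* theorem D_mul_lip {u w : Lp ℝ 2 μ} (hu : u ∈ S.V) {p : X → ℝ} (hp : LocallyLipschitz p) {C : ℝ} (hC : 0 ≤ C) (hpb : ∀ᵐ x ∂μ, |p x| ≤ C) (hGb : ∀ᵐ x ∂μ, ‖S.G p x‖ ≤ C) (hw : (w : X → ℝ) =ᵐ[μ] fun x => p x * u x) : w ∈ S.V ∧ (S.D w : X → F) =ᵐ[μ] fun x => p x • S.D u x + u x • S.G p x  -- product of `u ∈ V` with a bounded locally Lipschitz function with bounded gradient
* theorem D_mul_test {u w : Lp ℝ 2 μ} (hu : u ∈ S.V) {p : X → ℝ} (hp : IsT p) (hw : (w : X → ℝ) =ᵐ[μ] fun x => p x * u x) : w ∈ S.V ∧ (S.D w : X → F) =ᵐ[μ] fun x => p x • S.D u x + u x • S.G p x  -- product of `u ∈ V` with a test function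

### R247/Dir5_593 [ns Crest.Agent.R247.Dir593 / GradS] R247, block (5) abstract half (helper593): density of `V`, the Dirichlet form `S.form`, the Markov property, functionals `∫ a p + ∫ ⟪g, D p⟫`, localisation of functionals, positivity on test functions.
* theorem ind_compact_mem [ProperSpace X] {K : Set X} (hK : IsCompact K) (hKm : MeasurableSet K) (hμ : μ K ≠ ∞) : ind hKm hμ ∈ closure (S.V : Set (Lp ℝ 2 μ))  -- indicator of a compact set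
* def form [CompleteSpace F] (hd : Dense (S.V : Set (Lp ℝ 2 μ))) : CForm (Lp ℝ 2 μ)  -- the Dirichlet form `∫ ⟪D u, D v⟫`
* def fnl (a : Lp ℝ 2 μ) (g : Lp F 2 μ) : Fnl (S.form hd)  -- the functional `p ↦ ∫ a p + ∫ ⟪g, D p⟫`
* theorem _root_.Crest.Agent.R247.Dir593.Fnl.tendsto (l : Fnl (S.form hd)) {u : ℕ → Lp ℝ 2 μ} {w : Lp ℝ 2 μ} (hu : ∀ k, u k ∈ S.V) (hw : w ∈ S.V) (h1 : Tendsto u atTop (𝓝 w)) (h2 : Tendsto (fun k => S.D (u k)) atTop (𝓝 (S.D w))) : Tendsto (fun k => l.f (u k)) atTop (𝓝 (l.f w))  -- continuity of functionals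
* theorem _root_.Crest.Agent.R247.Dir593.Fnl.nonneg_of_test {l : Fnl (S.form hd)} (h : ∀ (p : X → ℝ) (hp : IsT p), (∀ x, 0 ≤ p x) → 0 ≤ l.f (tL hp)) {w : Lp ℝ 2 μ} (hw : w ∈ S.V) (hw0 : ∀ᵐ x ∂μ, 0 ≤ w x) : 0 ≤ l.f w  -- positivity from test functions
* theorem _root_.Crest.Agent.R247.Dir593.Fnl.le_of_test {l : Fnl (S.form hd)} {m : ℝ} (h : ∀ (p : X → ℝ) (hp : IsT p), (∀ x, 0 ≤ p x ∧ p x ≤ 1) → l.f (tL hp) ≤ m) {w : Lp ℝ 2 μ} (hw : w ∈ S.V) (hw0 : ∀ᵐ x ∂μ, 0 ≤ w x) (hw1 : ∀ᵐ x ∂μ, w x ≤ 1) : l.f w ≤ m  -- mass bound from test functions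
* structure Mult (p : X → ℝ) (C : ℝ) : Prop where ll : LocallyLipschitz p C0 : 0 ≤ C bd : ∀ᵐ x ∂μ, |p x| ≤ C gd : ∀ᵐ x ∂μ, ‖S.G p x‖ ≤ C  -- multiplier: locally Lipschitz, bounded with bounded gradient
* theorem mult_of_lip {p : X → ℝ} {K : ℝ≥0} (hp : LipschitzWith K p) {C : ℝ} (hb : ∀ x, |p x| ≤ C) : S.Mult p (max C K)  -- Lipschitz bounded functions are multipliers
* def Mult.mul {p : X → ℝ} {C : ℝ} (hp : S.Mult p C) (u : Lp ℝ 2 μ) : Lp ℝ 2 μ  -- the product `p u`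
* def Mult.fnl {p : X → ℝ} {C : ℝ} (hp : S.Mult p C) {hd : Dense (S.V : Set (Lp ℝ 2 μ))} (l : Fnl (S.form hd)) : Fnl (S.form hd)  -- localised functional `w ↦ l (p w)`

### R247/Dir6_593 [ns Crest.Agent.R247.Dir593 / Markov] R247, block (5) abstract half (helper593): order properties of the resolvent family (comparison principle, supersolutions, `R_{h/4} l ≤ 4 R_h l`, `R_{h/4} v ≤ (4/3) v`, `R_h R_h l ≤ (16/3) R_{4h} l`).
* theorem resD_self {h : ℝ} (hh : 0 < h) {v : H} (hv : v ∈ Q.dom) : v = resD Q h (((Fnl.ofE Q hv).smul h).add (Fnl.ofInner Q v))  -- `v` is the resolvent of its own functional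
* theorem resD_congr {h : ℝ} (hh : 0 < h) {l l' : Fnl Q} (e : ∀ p ∈ Q.dom, l.f p = l'.f p) : resD Q h l = resD Q h l'  -- functionals that agree on the domain
* theorem resD_mono {h : ℝ} (hh : 0 < h) {l l' : Fnl Q} (hl : ∀ w ∈ Q.dom, 0 ≤ᵐ[μ] (w : X → ℝ) → l.f w ≤ l'.f w) : ∀ᵐ x ∂μ, (resD Q h l : Lp ℝ 2 μ) x ≤ (resD Q h l' : Lp ℝ 2 μ) x  -- monotonicity of the resolvent on functionals
* theorem resD_le_super {h : ℝ} (hh : 0 < h) {l : Fnl Q} {v : Lp ℝ 2 μ} (hv : v ∈ Q.dom) (hs : ∀ w ∈ Q.dom, 0 ≤ᵐ[μ] (w : X → ℝ) → l.f w ≤ h * Q.E v w + ⟪v, w⟫) : ∀ᵐ x ∂μ, (resD Q h l : Lp ℝ 2 μ) x ≤ v x  -- comparison: `v` a supersolution of `(1 + h L) v ≥ l` dominates the resolvent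
* theorem le_resD_sub {h : ℝ} (hh : 0 < h) {l : Fnl Q} {v : Lp ℝ 2 μ} (hv : v ∈ Q.dom) (hs : ∀ w ∈ Q.dom, 0 ≤ᵐ[μ] (w : X → ℝ) → h * Q.E v w + ⟪v, w⟫ ≤ l.f w) : ∀ᵐ x ∂μ, v x ≤ (resD Q h l : Lp ℝ 2 μ) x  -- comparison: subsolutions are dominated by the resolvent
* theorem resD_le_scale {g h : ℝ} (hg : 0 < g) (hgh : g ≤ h) {l : Fnl Q} (hl : ∀ w ∈ Q.dom, 0 ≤ᵐ[μ] (w : X → ℝ) → 0 ≤ l.f w) : ∀ᵐ x ∂μ, (resD Q g l : Lp ℝ 2 μ) x ≤ (h / g) * (resD Q h l : Lp ℝ 2 μ) x  -- `R_g l ≤ (h/g) R_h l` for `g ≤ h`, `l ≥ 0`.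
* theorem res_le_super_scale {g h : ℝ} (hg : 0 < g) (hh : 0 < h) {v : Lp ℝ 2 μ} (hv : v ∈ Q.dom) (hs : ∀ w ∈ Q.dom, 0 ≤ᵐ[μ] (w : X → ℝ) → 0 ≤ h * Q.E v w + ⟪v, w⟫) : ∀ᵐ x ∂μ, (1 - g / h) * Q.res g v x ≤ v x  -- an `h`-supersolution `v` satisfies `(1 - g/h) R_g v ≤ v` for `g ≤ h`.
* theorem resD_super {h : ℝ} (hh : 0 < h) {l : Fnl Q} (hl : ∀ w ∈ Q.dom, 0 ≤ᵐ[μ] (w : X → ℝ) → 0 ≤ l.f w) : ∀ w ∈ Q.dom, 0 ≤ᵐ[μ] (w : X → ℝ) → 0 ≤ h * Q.E (resD Q h l) w + ⟪resD Q h l, w⟫  -- the resolvent of a positive functional is a supersolution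
* theorem super_nonneg {h : ℝ} (hh : 0 < h) {v : Lp ℝ 2 μ} (hv : v ∈ Q.dom) (hs : ∀ w ∈ Q.dom, 0 ≤ᵐ[μ] (w : X → ℝ) → 0 ≤ h * Q.E v w + ⟪v, w⟫) : ∀ᵐ x ∂μ, 0 ≤ v x  -- supersolutions are nonnegative
* theorem resD_quarter_le {h : ℝ} (hh : 0 < h) {l : Fnl Q} (hl : ∀ w ∈ Q.dom, 0 ≤ᵐ[μ] (w : X → ℝ) → 0 ≤ l.f w) : ∀ᵐ x ∂μ, (resD Q (h / 4) l : Lp ℝ 2 μ) x ≤ 4 * (resD Q h l : Lp ℝ 2 μ) x  -- (R4): `R_{h/4} l ≤ 4 R_h l`
* theorem res_quarter_super {h : ℝ} (hh : 0 < h) {v : Lp ℝ 2 μ} (hv : v ∈ Q.dom) (hs : ∀ w ∈ Q.dom, 0 ≤ᵐ[μ] (w : X → ℝ) → 0 ≤ h * Q.E v w + ⟪v, w⟫) : ∀ᵐ x ∂μ, Q.res (h / 4) v x ≤ (4 / 3) * v x  -- (R4): an `h`-supersolution satisfies `R_{h/4} v ≤ (4/3) v`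
* theorem res_resD_le {h : ℝ} (hh : 0 < h) {l : Fnl Q} (hl : ∀ w ∈ Q.dom, 0 ≤ᵐ[μ] (w : X → ℝ) → 0 ≤ l.f w) : ∀ᵐ x ∂μ, Q.res h (resD Q h l) x ≤ (16 / 3) * (resD Q (4 * h) l : Lp ℝ 2 μ) x  -- (R4): `R_h R_h l ≤ (16/3) R_{4h} l`

### R247/Hes1_124 [ns Crest.Agent.R247.Hes124] R247, block (5-H) (helper124), part 1: Hilbert–Schmidt algebra of `n × n` matrices written as `EuclideanSpace ℝ (Fin n × Fin n)`, and elementary `L²` lemmas in terms of real integrals.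
* abbrev F (n : ℕ)  -- vectors in the orthonormal frame
* abbrev S (n : ℕ)  -- matrices in the orthonormal frame, with the Hilbert–Schmidt norm
* def mv (A : S n) (v : F n) : F n  -- matrix times vector
* def tr (A : S n) : ℝ  -- trace
* def idm (n : ℕ) : S n  -- identity matrix
* structure L2To (μ : Measure X) (u : ℕ → X → E) (v : X → E) : Prop where mem : ∀ k, MemLp (u k) 2 μ mem' : MemLp v 2 μ lim : Tendsto (fun k => ∫ x, ‖u k x - v x‖ ^ 2 ∂μ) atTop (𝓝 0)  -- `L²` convergence in terms of real integrals.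

### R247/Hes2_124 [ns Crest.Agent.R247.Hes124 / BochS] R247, block (5-H) (helper124), part 2: the structure `BochS` = gradient structure of helper593 plus a core of smooth functions with Hessian (in the same frame), the Ricci endomorphism, the integrated Bochner identity and `L²` graph-norm approximation by the core. First consequences for core functions: Caccioppoli for the Hessian, interpolation for `|∇u|⁴`.
* structure BochS (n : ℕ) (κ : ℝ) (X : Type*) [MetricSpace X] [MeasurableSpace X] (μ : Measure X) extends GradS X (F n) μ where / -- smooth functions with compact support - / core : Set (X → ℝ) core_test : ∀ {u : X → ℝ}, u ∈ core → IsT u core_sub : ∀ {u v : X → ℝ}, u ∈ core → v ∈ core → (fun x => u x - v x) ∈ core / -- Hessian in the frame - / H : (X → ℝ) → X → S n H_meas : ∀ {u : X → ℝ}, u ∈ core → AEStronglyMeasurable (H u) μ H_bdd : ∀ {u : X → ℝ}, u ∈ core → ∃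 C : ℝ, ∀ᵐ x ∂μ, ‖H u x‖ ≤ C H_supp : ∀ {u : X → ℝ}, u ∈ core → ∀ᵐ x ∂μ, x ∉ tsupport u → H u x = 0 …  -- Gradient structure with a core of smooth functions, Hessian, Ricci and integrated Bochner.
* theorem cacc (hκ : 0 ≤ κ) {u χ : X → ℝ} (hu : u ∈ B.core) (hχ : IsT χ) (h0 : ∀ x, 0 ≤ χ x) (h1 : ∀ x, χ x ≤ 1) {c : ℝ} (hc : ∀ᵐ x ∂μ, ‖B.G χ x‖ ≤ c) : ∫ x, χ x ^ 2 * ‖B.H u x‖ ^ 2 ∂μ ≤ 4 * ∫ x in tsupport χ, tr (B.H u x) ^ 2 ∂μ + (2 * κ + 6 * c ^ 2) * ∫ x in tsupport χ, ‖B.G u x‖ ^ 2 ∂μ  -- Caccioppoli inequality for the Hessian of core functions.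
* theorem quart {u ζ : X → ℝ} (hu : u ∈ B.core) (hζ : IsT ζ) (h0 : ∀ x, 0 ≤ ζ x) (h1 : ∀ x, ζ x ≤ 1) {c : ℝ} (hc : ∀ᵐ x ∂μ, ‖B.G ζ x‖ ≤ c) {S0 : ℝ} (hS : ∀ x, |u x| ≤ S0) : ∫ x, ζ x ^ 2 * ‖B.G u x‖ ^ 4 ∂μ ≤ S0 ^ 2 * (2 * (√n + 2) ^ 2 * ∫ x, ζ x ^ 2 * ‖B.H u x‖ ^ 2 ∂μ + 8 * c ^ 2 * ∫ x in tsupport ζ, ‖B.G u x‖ ^ 2 ∂μ)  -- Interpolation: `L⁴` bound of the gradient of a bounded core function.

### R247/Hes3_124 [ns Crest.Agent.R247.Hes124 / HD] R247, block (5-H) (helper124), part 3: the Hessian of the limit. `Appr` (smooth approximation in the graph norm of the Laplacian), `exists_HD` (existence of the `L²_loc` Hessian together with an a.e. convergent sequence of core functions), generalised dominated convergence `HD.lim`, Caccioppoli and the weak Bochner identity for the limit.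
* def cutf (x0 : X) (m : ℕ) (x : X) : ℝ  -- `1` on `closedBall x0 m`, `0` outside `ball x0 (m + 1)`, `1`-Lipschitz
* def Appr (B : BochS n κ X μ) : Prop  -- smooth approximation in the graph norm of the Laplacian, on compact sets
* structure HD (B : BochS n κ X μ) (u : Lp ℝ 2 μ) (S0 : ℝ) (w : ℕ → X → ℝ) (A : X → S n) : Prop where core : ∀ k, w k ∈ B.core bdd : ∀ k x, |w k x| ≤ S0 Am : AEStronglyMeasurable A μ toU : ∀ K : Set X, IsCompact K → L2To (μ.restrict K) w u toD : ∀ K : Set X, IsCompact K → L2To (μ.restrict K) (fun k => B.G (w k)) (B.D u) toA : ∀ K : Set X, IsCompact K → L2To (μ.restrict K) (fun k => B.H (w k)) A aeU : ∀ᵐ x ∂μ, Tendsto (fun k => w k x) atTop (𝓝 (u x)) aeD : ∀ᵐ x ∂μ, Tendsto (fun k => B.G (w k) x) atTop (𝓝 (B.D u x)) aeA : ∀ᵐ x ∂μ, Tendsto (fun k => B.H (w k) …  -- `A` is the Hessian of `u`, with a smooth approximating sequence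
* theorem lim (h : HD B u S0 w A) {K : Set X} (hK : IsCompact K) {T : ℕ → X → ℝ} {T' : X → ℝ} {C : ℝ} {b : X → ℝ} (hC : 0 ≤ C) (hbi : Integrable b μ) (hTm : ∀ k, AEStronglyMeasurable (T k) μ) (hb : ∀ k, ∀ᵐ x ∂μ, |T k x| ≤ C * (‖B.H (w k) x‖ ^ 2 + ‖B.G (w k) x‖ ^ 2 + 1) + b x) (hz : ∀ k, ∀ᵐ x ∂μ, x ∉ K → T k x = 0) (ht : ∀ᵐ x ∂μ, Tendsto (fun k => T k x) atTop (𝓝 (T' x))) : Integrable T' μ ∧ Tendsto (fun k => ∫ x, T k x ∂μ) atTop (𝓝 (∫ x, T' x ∂μ))  -- generalised dominated convergence along the approximating sequence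
* theorem boch (h : HD B u S0 w A) {p : X → ℝ} (hp : IsT p) : Integrable (fun x => p x * (‖A x‖ ^ 2 + ⟪mv (B.Ric x) (B.D u x), B.D u x⟫)) μ ∧ Integrable (fun x => ⟪B.G p x, mv (A x) (B.D u x)⟫) μ ∧ Integrable (fun x => tr (A x) * (p x * tr (A x) + ⟪B.G p x, B.D u x⟫)) μ ∧ ∫ x, p x * (‖A x‖ ^ 2 + ⟪mv (B.Ric x) (B.D u x), B.D u x⟫) ∂μ = - ∫ x, ⟪B.G p x, mv (A x) (B.D u x)⟫ ∂μ + ∫ x, tr (A x) * (p x * tr (A x) + ⟪B.G p x, B.D u x⟫) ∂μ  -- the weak Bochner identity for the limit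
* theorem cacc (h : HD B u S0 w A) (hκ : 0 ≤ κ) {χ : X → ℝ} (hχ : IsT χ) (h0 : ∀ x, 0 ≤ χ x) (h1 : ∀ x, χ x ≤ 1) {c : ℝ} (hc : ∀ᵐ x ∂μ, ‖B.G χ x‖ ≤ c) : Integrable (fun x => χ x ^ 2 * ‖A x‖ ^ 2) μ ∧ ∫ x, χ x ^ 2 * ‖A x‖ ^ 2 ∂μ ≤ 4 * ∫ x in tsupport χ, tr (A x) ^ 2 ∂μ + (2 * κ + 6 * c ^ 2) * ∫ x in tsupport χ, ‖B.D u x‖ ^ 2 ∂μ  -- Caccioppoli for the limit

### R247/Hes5_124 [ns Crest.Agent.R247.Hes124 / BW] R247, block (5-H) (helper124), part 5: algebra of the weak Bochner identity. `BW` = the complete analytic output (Hessian in `L²`, `|Du|²/2 ∈ V`, weak Bochner for bounded test functions in `V`); `keq` = the exact equation of `k = |Du|² - 2u - θ0`; `S'` and its lower bounds; `hf_ineq` = the integrated Hessian inequality for `φ = R Ψ`.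
* structure BW (B : BochS n κ X μ) (u g : Lp ℝ 2 μ) (A : X → S n) (P : Lp ℝ 2 μ) : Prop where u_mem : u ∈ B.V g_mem : g ∈ B.V weak : ∀ p ∈ B.V, (⟪B.D u, B.D p⟫ : ℝ) = -⟪g, p⟫ trA : ∀ᵐ x ∂μ, tr (A x) = g x A_memLp : MemLp A 2 μ P_mem : P ∈ B.V P_eq : ∀ᵐ x ∂μ, P x = ‖B.D u x‖ ^ 2 / 2 DP : ∀ᵐ x ∂μ, B.D P x = mv (A x) (B.D u x) bdd : ∃ C : ℝ, ∀ᵐ x ∂μ, ‖B.D u x‖ ≤ C int : Integrable (fun x => ‖A x‖ ^ 2 + ⟪mv (B.Ric x) (B.D u x), B.D u x⟫) μ boch : ∀ p ∈ B.V, (∃ C : ℝ, ∀ᵐ x ∂μ, |p x| ≤ C) → ∫ x, p x * (‖A x‖ ^ 2 + ⟪mv (B.Ric x) (B.D u x), B.D u x⟫) ∂μ + ∫ x, ⟪B. …  -- Hessian package: `Δ u = g`, `A` = Hessian, `P = |Du|²/2`, weak Bochner.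
* def Sp (B : BochS n κ X μ) (u q : Lp ℝ 2 μ) (A : X → S n) (N : X → ℝ) (ρ : ℝ) (x : X) : ℝ  -- the density `S' = 2|A - I|² + 2 Ric(Du,Du) + ρ²|Dq|² + 2⟨GN,Du⟩ + 2(N - n)`
* def kL (u P : Lp ℝ 2 μ) {θ0 : X → ℝ} (hθ : IsT θ0) : Lp ℝ 2 μ  -- the function `k = |Du|² - 2u - θ0`
* theorem keq (h : BW B u g A P) {f0 N θ0 : X → ℝ} (hf0 : IsT f0) (hN : IsT N) (hθ : IsT θ0) {q : Lp ℝ 2 μ} (hq : q ∈ B.V) {ρ : ℝ} (hu : u = tL hf0 - ρ ^ 2 • q) (hg : g = tL hN - q) (hθe : ∀ᵐ x ∂μ, θ0 x = ‖B.G f0 x‖ ^ 2 - 2 * f0 x) {p : Lp ℝ 2 μ} (hp : p ∈ B.V) (hpb : ∃ C : ℝ, ∀ᵐ x ∂μ, |p x| ≤ C) : ρ ^ 2 * ⟪B.D (kL u P hθ), B.D p⟫ + ⟪kL u P hθ, p⟫ = ρ ^ 2 * ∫ x, (4 * q x - Sp B u q A N ρ x) * p x ∂μ - ρ ^ 2 * ∫ x, ⟪B.G θ0 x, B.D p x⟫ ∂μ  -- the exact `k`-equation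
* theorem hf_ineq [ProperSpace X] (h : BW B u g A P) {f0 N θ0 : X → ℝ} (hf0 : IsT f0) (hN : IsT N) (hθ : IsT θ0) {q : Lp ℝ 2 μ} (hq : q ∈ B.V) {ρ : ℝ} (hρ : 0 < ρ) (hu : u = tL hf0 - ρ ^ 2 • q) (hg : g = tL hN - q) (hθe : ∀ᵐ x ∂μ, θ0 x = ‖B.G f0 x‖ ^ 2 - 2 * f0 x) {c : ℝ} (hc : 0 ≤ c) (hθc : ∀ x, θ0 x ≤ c) {Ψ : Lp ℝ 2 μ} (hΨ0 : 0 ≤ᵐ[μ] (Ψ : X → ℝ)) {CΨ : ℝ} (hC0 : 0 ≤ CΨ) (hΨC : ∀ᵐ x ∂μ, Ψ x ≤ CΨ) (hΨi : Integrable Ψ μ) (hΨθ : ∀ᵐ x ∂μ, Ψ x = 0 ∨ θ0 x = c) : ∫ x, (Sp B u q A N ρ x - 4 * q x) * ((B.form B.dense_V).res (ρ ^ 2) Ψ : Lp ℝ 2 μ) x ∂μ + ρ ^ 2 * ∫ x …  -- (HF): for `φ = R_ρ Ψ`, `Ψ ≥ 0` bounded integrable and supported where `θ0 = c`.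

### R247/Hes6_124 [ns Crest.Agent.R247.Hes124] R247, block (5-H) (helper124), part 6: instantiation of the Hessian algebra for helper554's objects `f0`, `N`, `q`, `u`: the function `θ0 = |G f0|² - 2 f0`, the pointwise bound `(|A - I| + ρ|Dq|)² ≤ 5 (S' + CE 1_{d_x > 32})`.
* def thf (s : ℝ) : ℝ  -- `θ0` as a function of `s`
* def th (x z : X) : ℝ  -- `θ0 = |G f0|² - 2 f0`
* def CE (n : ℕ) : ℝ  -- the constant of the outer region
* abbrev Spx (B : BochS n κ X μ) (x : X) (ρ : ℝ) (A : X → S n) : X → ℝ  -- `S'` for helper554's objects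
* def Fx (B : BochS n κ X μ) (x : X) (ρ : ℝ) (A : X → S n) (z : X) : ℝ  -- `F = |A - I| + ρ |Dq|`
* theorem Fx_sq_le (h : BW B (uL B.toGradS n κ x ρ) (gL B.toGradS n κ x ρ) A P) (W : WLap B.toGradS n κ) (hκ : 0 ≤ κ) (hκ1 : κ ≤ 1) (hρ : 0 < ρ) (hρ1 : ρ ≤ 1) (hκρ : 8 * κ * ρ ^ 2 ≤ 1) : ∀ᵐ z ∂μ, Fx B x ρ A z ^ 2 ≤ 5 * (Spx B x ρ A z + {z | 32 < dist x z}.indicator (fun _ => CE n) z)  -- `F² ≤ 5 (S' + CE 1_{d_x > 32})`
* theorem BW.of_reg {u f : Lp ℝ 2 μ} {R : ℝ} {A : X → S n} (h : Gb593.Reg B u f R A) : BW B u f A (h.P2.toLp (Gb593.P B u))  -- helper593's package gives `BW`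
* theorem exists_bw (hκ : 0 ≤ κ) (W : WLap B.toGradS n κ) (O : Fd656.HObj B x) (k : ℕ) (hk : 2 * κ * Far553.dy k ^ 2 < 1) : ∃ P : Lp ℝ 2 μ, BW B (Fd656.uk B x k) (gL B.toGradS n κ x (Far553.dy k)) (O.A k) P  -- the function `P_k = |D u_k|²/2 ∈ V`

### R247/Hes7_124 [ns Crest.Agent.R247.Hes124] R247, block (5-H) (helper124), part 7: the integrated Hessian inequality tested with `φ = R_ρ 1_E`, `E ⊆ closedBall x 16`, for the global function `F = |A - I| + ρ|Dq|`.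
* abbrev Rs (B : BochS n κ X μ) (ρ : ℝ) : Lp ℝ 2 μ →L[ℝ] Lp ℝ 2 μ  -- the resolvent of helper593's form
* def Din (B : BochS n κ X μ) (x : X) (ρ e : ℝ) : Prop  -- decay into the ball (helper939's `(R3in)`), with the number `e`
* theorem tail_le (hρ : 0 < ρ) (hD : Din B x ρ e) {E : Set X} (hE : MeasurableSet E) (hsub : E ⊆ Metric.closedBall x 16) (hμ : μ E ≠ ∞) : ∫ z in {z | 32 < dist x z}, Rs B ρ (ind hE hμ) z ∂μ ≤ e * μ.real E  -- `∫_{d_x > 32} R 1_E ≤ e μ(E)`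
* theorem hf_set (h : BW B (uL B.toGradS n κ x ρ) (gL B.toGradS n κ x ρ) A P) (W : WLap B.toGradS n κ) (hκ : 0 ≤ κ) (hκ1 : κ ≤ 1) (hρ : 0 < ρ) (hρ1 : ρ ≤ 1) (hκρ : 8 * κ * ρ ^ 2 ≤ 1) (hD : Din B x ρ e) {E : Set X} (hE : MeasurableSet E) (hsub : E ⊆ Metric.closedBall x 16) (hμ : μ E ≠ ∞) : Integrable (fun z => Fx B x ρ A z ^ 2 * Rs B ρ (ind hE hμ) z) μ ∧ ∫ z, Fx B x ρ A z ^ 2 * Rs B ρ (ind hE hμ) z ∂μ ≤ 10 * ∫ z in E, (⟪B.G (hf x) z, B.D (qL B.toGradS n κ x ρ) z⟫ - qL B.toGradS n κ x ρ z + (2 * Rs B ρ (qL B.toGradS n κ x ρ) z + CE n / 2 * e)) ∂μ  -- (HF) tested with `R 1_E`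
* theorem hHF (h : BW B (uL B.toGradS n κ x ρ) (gL B.toGradS n κ x ρ) A P) (W : WLap B.toGradS n κ) (hκ : 0 ≤ κ) (hκ1 : κ ≤ 1) (hρ : 0 < ρ) (hρ1 : ρ ≤ 1) (hκρ : 8 * κ * ρ ^ 2 ≤ 1) (hD : Din B x ρ e) {E : Set X} (hE : MeasurableSet E) (hsub : E ⊆ Metric.closedBall x 16) (hμ : μ E ≠ ∞) : ∫⁻ z, ENNReal.ofReal (Fx B x ρ A z ^ 2) * ENNReal.ofReal (Rs B ρ (ind hE hμ) z) ∂μ ≤ ENNReal.ofReal (10 * ∫ z in E, (⟪B.G (hf x) z, B.D (qL B.toGradS n κ x ρ) z⟫ - qL B.toGradS n κ x ρ z + (2 * Rs B ρ (qL B.toGradS n κ x ρ) z + CE n / 2 * e)) ∂μ) ∧ 0 ≤ ∫ z in E, (⟪B.G (hf x) …  -- (HF) in the form consumed by helper436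

### R247/Gb1_593 [ns Crest.Agent.R247.Gb593] R247, block (5-GB) (helper593), part 1: cut-offs, global `L²` bound of the Hessian, the truncation lemma `χ² θ(|Du|²/2) ∈ V`, Bochner tested with it, the gradient bound.
* structure Cut (c : ℕ → X → ℝ) : Prop where T : ∀ k, IsT (c k) nn : ∀ k x, 0 ≤ c k x le1 : ∀ k x, c k x ≤ 1 G1 : ∀ k, ∀ᵐ x ∂μ, ‖S.G (c k) x‖ ≤ 1 ev1 : ∀ x, ∀ᶠ k in atTop, c k x = 1 ev0 : ∀ᵐ x ∂μ, ∀ᶠ k in atTop, S.G (c k) x = 0  -- exhausting sequence of cut-offs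
* theorem memLp_A [ProperSpace X] (h : HD B u S0 w A) (hκ : 0 ≤ κ) {f : X → ℝ} (hf : MemLp f 2 μ) (htr : ∀ᵐ x ∂μ, tr (A x) = f x) : MemLp A 2 μ  -- (GB1): the Hessian is in `L²(M)`.
* structure Tr (θ : ℝ → ℝ) (Θ M : ℝ) : Prop where cd : ContDiff ℝ 1 θ Θ0 : 0 ≤ Θ M0 : 0 ≤ M b : ∀ s, 0 ≤ s → |θ s| ≤ Θ b' : ∀ s, 0 ≤ s → |deriv θ s| ≤ Θ z : ∀ s, M ≤ s → deriv θ s = 0  -- admissible truncation functions
* def P (B : BochS n κ X μ) (u : Lp ℝ 2 μ) (x : X) : ℝ  -- the half square of the gradient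
* def DP (B : BochS n κ X μ) (u : Lp ℝ 2 μ) (A : X → S n) (θ : ℝ → ℝ) (χ : X → ℝ) (x : X) : F n  -- the candidate gradient of `χ² θ(P)`
* structure Pk (B : BochS n κ X μ) (w : ℕ → X → ℝ) (Q : ℕ → X → ℝ) : Prop where T : ∀ k, IsT (Q k) eq : ∀ k, ∀ᵐ x ∂μ, Q k x = ‖B.G (w k) x‖ ^ 2 / 2 G : ∀ k, ∀ᵐ x ∂μ, B.G (Q k) x = mv (B.H (w k) x) (B.G (w k) x)  -- data for the truncated test functions
* def pk (θ : ℝ → ℝ) (χ : X → ℝ) (Q : ℕ → X → ℝ) (k : ℕ) (x : X) : ℝ  -- the test function `χ² θ(P_k)`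
* theorem norm_vec_le {θ : ℝ → ℝ} {Θ M : ℝ} (hθ : Tr θ Θ M) {c t : ℝ} (ht : |t| ≤ c) (Hm : S n) (g gx : F n) (hg : ‖gx‖ ≤ c) : ‖(t ^ 2 * deriv θ (‖g‖ ^ 2 / 2)) • mv Hm g + (2 * t * θ (‖g‖ ^ 2 / 2)) • gx‖ ^ 2 ≤ 2 * (c ^ 4 * (Θ * (Θ * (2 * M)))) * ‖Hm‖ ^ 2 + 2 * (2 * c ^ 2 * Θ) ^ 2  -- elementary bounds for the vector `α mv H G + β g`
* theorem memLp_p (hθ : Tr θ Θ M) {χ : X → ℝ} (hχ : IsT χ) : MemLp (fun x => χ x ^ 2 * θ (P B u x)) 2 μ  -- the truncated function is in `L²`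
* theorem cut_const (B : BochS n κ X μ) {χ : X → ℝ} (hχ : IsT χ) : ∃ c : ℝ, 0 ≤ c ∧ (∀ x, |χ x| ≤ c) ∧ (∀ᵐ x ∂μ, ‖B.G χ x‖ ≤ c) ∧ ∀ᵐ x ∂μ, x ∉ tsupport χ → B.G χ x = 0  -- constants for a cut-off
* theorem tendsto_G_pk (h : HD B u S0 w A) {Q : ℕ → X → ℝ} (hQ : Pk B w Q) (hθ : Tr θ Θ M) {χ : X → ℝ} (hχ : IsT χ) : ∀ᵐ x ∂μ, Tendsto (fun k => B.G (pk θ χ Q k) x) atTop (𝓝 (DP B u A θ χ x))  -- pointwise limit of the gradients of the truncated test functions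
* theorem trunc_mem (h : HD B u S0 w A) (hθ : Tr θ Θ M) {χ : X → ℝ} (hχ : IsT χ) : (memLp_p (B := B) (u := u) hθ hχ).toLp _ ∈ B.V ∧ (B.D ((memLp_p (B := B) (u := u) hθ hχ).toLp _) : X → F n) =ᵐ[μ] DP B u A θ χ  -- truncation lemma

### R247/Gb2_593 [ns Crest.Agent.R247.Gb593] R247, block (5-GB) (helper593), part 2: Bochner tested with `χ² θ(|Du|²/2)`, weak equation tested in `V`, the gradient bound (GB2).
* theorem pair_bounds (hθ : Tr θ Θ M) {c t : ℝ} (ht : |t| ≤ c) (Hm : S n) (g gx : F n) (hg : ‖gx‖ ≤ c) : |⟪(t ^ 2 * deriv θ (‖g‖ ^ 2 / 2)) • mv Hm g + (2 * t * θ (‖g‖ ^ 2 / 2)) • gx, mv Hm g⟫| ≤ (c ^ 2 * (Θ * (2 * M)) + c ^ 2 * Θ) * (‖Hm‖ ^ 2 + ‖g‖ ^ 2) ∧ ⟪(t ^ 2 * deriv θ (‖g‖ ^ 2 / 2)) • mv Hm g + (2 * t * θ (‖g‖ ^ 2 / 2)) • gx, g⟫ ^ 2 ≤ (2 * (c ^ 2 * (Θ * (2 * M))) ^ 2 + 2 * (2 * c ^ 2 * Θ) ^ 2) * (‖Hm‖ ^ 2 + ‖g‖ ^ 2)  -- scalar bounds for the pairings of `α mv H G +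 β g`
* def Tb (B : BochS n κ X μ) (H : X → S n) (G : X → F n) (p : X → ℝ) (v : X → F n) (x : X) : ℝ  -- the integrand of Bochner with a general test function `p` and its gradient `v`
* theorem boch_trunc (h : HD B u S0 w A) (hθ : Tr θ Θ M) {χ : X → ℝ} (hχ : IsT χ) : Integrable (Tb B A (B.D u) (fun x => χ x ^ 2 * θ (P B u x)) (DP B u A θ χ)) μ ∧ ∫ x, Tb B A (B.D u) (fun x => χ x ^ 2 * θ (P B u x)) (DP B u A θ χ) x ∂μ = 0  -- Bochner tested with the truncation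
* theorem weak_V {u f : Lp ℝ 2 μ} (hw : ∀ p, IsT p → ∫ x, ⟪B.D u x, B.G p x⟫ ∂μ = - ∫ x, f x * p x ∂μ) {p : Lp ℝ 2 μ} (hp : p ∈ B.V) : ∫ x, ⟪B.D u x, B.D p x⟫ ∂μ = - ∫ x, f x * p x ∂μ  -- the weak equation extends to `V`
* theorem weak_fp {u f : Lp ℝ 2 μ} (hf : f ∈ B.V) {C : ℝ} (hC : 0 ≤ C) (hfb : ∀ᵐ x ∂μ, |f x| ≤ C) (hw : ∀ p, IsT p → ∫ x, ⟪B.D u x, B.G p x⟫ ∂μ = - ∫ x, f x * p x ∂μ) {p : Lp ℝ 2 μ} (hp : p ∈ B.V) (hpb : ∀ᵐ x ∂μ, |p x| ≤ C) : Integrable (fun x => f x * (p x * f x + ⟪B.D p x, B.D u x⟫) + p x * ⟪B.D f x, B.D u x⟫) μ ∧ ∫ x, (f x * (p x * f x + ⟪B.D p x, B.D u x⟫) + p x * ⟪B.D f x, B.D u x⟫) ∂μ = 0  -- the weak equation tested with `f p`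

### R247/Gb3_593 [ns Crest.Agent.R247.Gb593] R247, block (5-GB) (helper593), part 3: the gradient bound (GB2), `|Du|²/2 ∈ V` (GB3).
* def st (a s : ℝ) : ℝ  -- smooth step starting at `a`
* def idt (b s : ℝ) : ℝ  -- bounded identity: `idt b s = s` for `s ≤ b`, constant for `s ≥ b + 1`
* structure Eqn (B : BochS n κ X μ) (u f : Lp ℝ 2 μ) (C : ℝ) (A : X → S n) : Prop where fV : f ∈ B.V C0 : 0 ≤ C fb : ∀ᵐ x ∂μ, |f x| ≤ C wk : ∀ p, IsT p → ∫ x, ⟪B.D u x, B.G p x⟫ ∂μ = - ∫ x, f x * p x ∂μ tr : ∀ᵐ x ∂μ, tr (A x) = f x  -- hypotheses on `u`: weak Laplacian `f ∈ V` bounded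
* theorem E2 (h : HD B u S0 w A) {f : Lp ℝ 2 μ} {C : ℝ} (hE : Eqn B u f C A) (hθ : Tr θ Θ M) {χ : X → ℝ} (hχ : IsT χ) : Integrable (fun x => χ x ^ 2 * θ (P B u x) * (‖A x‖ ^ 2 + ⟪mv (B.Ric x) (B.D u x), B.D u x⟫ + ⟪B.D f x, B.D u x⟫) + ⟪DP B u A θ χ x, mv (A x) (B.D u x)⟫) μ ∧ ∫ x, (χ x ^ 2 * θ (P B u x) * (‖A x‖ ^ 2 + ⟪mv (B.Ric x) (B.D u x), B.D u x⟫ + ⟪B.D f x, B.D u x⟫) + ⟪DP B u A θ χ x, mv (A x) (B.D u x)⟫) ∂μ = 0  -- combination of Bochner and the weak equation, truncated test function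
* theorem int_Du (u : Lp ℝ 2 μ) (B : BochS n κ X μ) : Integrable (fun x => ‖B.D u x‖ ^ 2) μ  -- `|D u|²` is integrable
* theorem grad_bound [ProperSpace X] (h : HD B u S0 w A) (hκ : 0 ≤ κ) {f : Lp ℝ 2 μ} {C : ℝ} (hE : Eqn B u f C A) {t : ℝ} (ht : 0 < t) (hκt : 2 * κ * t < 1) {A0 : ℝ} (hg : ∀ᵐ x ∂μ, ‖B.D u x - t • B.D f x‖ ≤ A0) : ∀ᵐ x ∂μ, ‖B.D u x‖ ^ 2 ≤ A0 ^ 2 / (1 - 2 * κ * t)  -- (GB2) gradient bound.

### R247/Gb4_593 [ns Crest.Agent.R247.Gb593] R247, block (5-GB) (helper593), part 4: `P = |Du|²/2 ∈ V` with `DP = mv A (Du)` (GB3) and the weak Bochner identity for all bounded `p ∈ V` (GB4).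
* theorem P_mem [ProperSpace X] (h : HD B u S0 w A) (hA : MemLp A 2 μ) (hR : ∀ᵐ x ∂μ, ‖B.D u x‖ ≤ R) : (memLp_P hR).toLp (P B u) ∈ B.V ∧ (B.D ((memLp_P hR).toLp (P B u)) : X → F n) =ᵐ[μ] fun x => mv (A x) (B.D u x)  -- (GB3)
* def bm (B : BochS n κ X μ) (u : Lp ℝ 2 μ) (A : X → S n) (x : X) : ℝ  -- density of the Bochner measure
* theorem bm_ge (B : BochS n κ X μ) (u : Lp ℝ 2 μ) (A : X → S n) : ∀ᵐ x ∂μ, ‖A x‖ ^ 2 - κ * ‖B.D u x‖ ^ 2 ≤ bm B u A x  -- the density is bounded below by `‖A‖² - κ |Du|²`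
* theorem integrable_of_cut {S : GradS X (F n) μ} {c : ℕ → X → ℝ} (hc : Cut S c) {g : X → ℝ} (hg : AEStronglyMeasurable g μ) (h0 : ∀ᵐ x ∂μ, 0 ≤ g x) (hi : ∀ k, Integrable (fun x => c k x ^ 2 * g x) μ) {C : ℝ} (hC : ∀ k, ∫ x, c k x ^ 2 * g x ∂μ ≤ C) : Integrable g μ  -- bounded exhausting integrals give integrability
* theorem int_bm [ProperSpace X] (h : HD B u S0 w A) (hκ : 0 ≤ κ) {f : Lp ℝ 2 μ} {C : ℝ} (hE : Eqn B u f C A) (hA : MemLp A 2 μ) : Integrable (bm B u A) μ  -- the Bochner density is integrable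
* theorem boch_test (h : HD B u S0 w A) {f : Lp ℝ 2 μ} {C : ℝ} (hE : Eqn B u f C A) {p : X → ℝ} (hp : IsT p) : ∫ x, p x * bm B u A x ∂μ + ∫ x, ⟪B.G p x, mv (A x) (B.D u x)⟫ ∂μ = - ∫ x, p x * ⟪B.D f x, B.D u x⟫ ∂μ  -- weak Bochner, test functions
* theorem boch_V (h : HD B u S0 w A) {f : Lp ℝ 2 μ} {C : ℝ} (hE : Eqn B u f C A) (hA : MemLp A 2 μ) (hb : Integrable (bm B u A) μ) (hR : ∀ᵐ x ∂μ, ‖B.D u x‖ ≤ R) {p : Lp ℝ 2 μ} (hp : p ∈ B.V) {C1 : ℝ} (hpb : ∀ᵐ x ∂μ, |p x| ≤ C1) : Integrable (fun x => p x * bm B u A x) μ ∧ Integrable (fun x => ⟪B.D p x, mv (A x) (B.D u x)⟫) μ ∧ Integrable (fun x => p x * ⟪B.D f x, B.D u x⟫) μ ∧ ∫ x, p x * bm B u A x ∂μ + ∫ x, ⟪B.D p x, mv (A x) (B.D u x)⟫ ∂μ = - ∫ x, p x * ⟪B.D f x, B.D u x⟫ ∂μ  -- (GB4) weak Bochner for bounded `p ∈ V`.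
* structure Reg (B : BochS n κ X μ) (u f : Lp ℝ 2 μ) (R : ℝ) (A : X → S n) : Prop where uV : u ∈ B.V fV : f ∈ B.V wk : ∀ p : Lp ℝ 2 μ, p ∈ B.V → ∫ x, ⟪B.D u x, B.D p x⟫ ∂μ = - ∫ x, f x * p x ∂μ A2 : MemLp A 2 μ tr : ∀ᵐ x ∂μ, tr (A x) = f x R0 : 0 ≤ R Du : ∀ᵐ x ∂μ, ‖B.D u x‖ ≤ R P2 : MemLp (P B u) 2 μ PV : P2.toLp (P B u) ∈ B.V DPV : (B.D (P2.toLp (P B u)) : X → F n) =ᵐ[μ] fun x => mv (A x) (B.D u x) bi : Integrable (bm B u A) μ boch : ∀ (p : Lp ℝ 2 μ) (C1 : ℝ), p ∈ B.V → (∀ᵐ x ∂μ, |p x| ≤ C1) → Integrable (fun x => p x * bm B u A x) μ ∧ Integrable (fun x = …  -- everything known about `u` with weak Laplacian `f`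
* theorem exists_reg [ProperSpace X] (x0 : X) (hAp : Appr B) (hκ : 0 ≤ κ) {u f : Lp ℝ 2 μ} (hu : u ∈ B.V) (hub : ∀ᵐ x ∂μ, |u x| ≤ S0) (hf : f ∈ B.V) {C : ℝ} (hC : 0 ≤ C) (hfb : ∀ᵐ x ∂μ, |f x| ≤ C) (hw : ∀ p : X → ℝ, IsT p → ∫ x, ⟪B.D u x, B.G p x⟫ ∂μ = - ∫ x, f x * p x ∂μ) {t : ℝ} (ht : 0 < t) (hκt : 2 * κ * t < 1) {A0 : ℝ} (hg : ∀ᵐ x ∂μ, ‖B.D u x - t • B.D f x‖ ≤ A0) : ∃ (w : ℕ → X → ℝ) (A : X → S n), HD B u (S0 + 1) w A ∧ (∀ᵐ x ∂μ, Tendsto (fun k => tr (B.H (w k) x)) atTop (𝓝 (f x))) ∧ Reg B u f (√(A0 ^ 2 / (1 - 2 * κ * t))) A  -- (5-GB), final form.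

### R247/Din_939 [ns Crest.Agent.R247.Din939] # R247, (R3in): exponential decay of resolvents INTO a ball (helper939) * `decay_in` : `(S.form hd).res (ρ²) f y ≤ 2 M exp (-(A - dist x y) / ((4 n + 6) ρ))` a.e., if `0 ≤ f ≤ M` and `f = 0` on `ball x A` (`κ ρ² ≤ 1`); * `r3in` : the case `A = 32`, `dist x y ≤ 16`.
* theorem decay_in {n : ℕ} {κ : ℝ} (hL : LapC S n κ) (hκ : 0 ≤ κ) {v : Lp ℝ 2 μ} (hv : v ∈ S.V) (h0 : ∀ᵐ y ∂μ, 0 ≤ v y) {M : ℝ} (hM0 : 0 ≤ M) (hM : ∀ᵐ y ∂μ, v y ≤ M) {x₀ : X} {a₀ ρ : ℝ} (hρ : 0 < ρ) (hκρ : κ * ρ ^ 2 ≤ 1) (hsub : ∀ w ∈ S.V, (∀ᵐ y ∂μ, 0 ≤ w y) → (∀ᵐ y ∂μ, a₀ ≤ dist x₀ y → w y = 0) → ρ ^ 2 * ⟪S.D v, S.D w⟫ + ⟪v, w⟫ ≤ 0) : ∀ᵐ y ∂μ, v y ≤ 2 * M * Real.exp (-((a₀ - dist x₀ y) / ((4 * n + 6) * ρ)))  -- exponential decay into a ball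
* theorem res_decay_in {n : ℕ} {κ : ℝ} (W : Smv126.WLap S n κ) (hκ : 0 ≤ κ) {f : Lp ℝ 2 μ} {M : ℝ} (hM0 : 0 ≤ M) (hf0 : ∀ᵐ y ∂μ, 0 ≤ f y) (hfM : ∀ᵐ y ∂μ, f y ≤ M) {x₀ : X} {a₀ ρ : ℝ} (hfs : ∀ᵐ y ∂μ, dist x₀ y < a₀ → f y = 0) (hρ : 0 < ρ) (hκρ : κ * ρ ^ 2 ≤ 1) : ∀ᵐ y ∂μ, (S.form hd).res (ρ ^ 2) f y ≤ 2 * M * Real.exp (-((a₀ - dist x₀ y) / ((4 * n + 6) * ρ)))  -- decay of the resolvent into a ball on which `f` vanishes
* theorem r3in {n : ℕ} {κ : ℝ} (W : Smv126.WLap S n κ) (hκ : 0 ≤ κ) {ρ : ℝ} (hρ : 0 < ρ) (hκρ : κ * ρ ^ 2 ≤ 1) (x : X) {f : Lp ℝ 2 μ} (hf0 : ∀ᵐ y ∂μ, 0 ≤ f y) (hf1 : ∀ᵐ y ∂μ, f y ≤ 1) (hfs : ∀ᵐ y ∂μ, dist x y < 32 → f y = 0) : ∀ᵐ y ∂μ, dist x y ≤ 16 → (S.form hd).res (ρ ^ 2) f y ≤ 2 * Real.exp (-(8 / (2 * n + 3)) / ρ)  -- (R3in) : decay into `closedBall x 16` for `f` supported off `ball x 32`.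

### R247/Dec1_386 [ns Crest.Agent.R247.Dec386] # R247, block (1) / (5-M): weak Laplacian comparison on `V`, local comparison (helper386) `S : GradS X F μ` gradient structure, `LapC S n κ` : `Δ (d_b² / 2) ≤ n + κ d_b²` weakly, tested with nonnegative test functions. * `lapC_V` : the same for `w ∈ V`, `w ≥ 0`, `w = 0` off a ball; * `local_comp` : if `v - ρ² Δ v ≤ 0` and `0 ≤ v ≤ M` on `ball b t`, then `v ≤ M (1 - a (1 - d_b² / t²))` on `ball b t`, `a (1 + 2 ρ² (n +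
* def hd (b : X) (z : X) : ℝ  -- half of the squared distance
* def LapC (n : ℕ) (κ : ℝ) : Prop  -- weak Laplacian comparison `Δ (d_b² / 2) ≤ n + κ d_b²` against nonnegative test functions
* def cut (b : X) (R : ℝ) (z : X) : ℝ  -- the cut-off `1` on `ball b R`, `0` off `ball b (R + 1)`
* theorem lapC_V {n : ℕ} {κ : ℝ} (hL : LapC S n κ) (hκ : 0 ≤ κ) {w : Lp ℝ 2 μ} (hw : w ∈ S.V) (h0 : ∀ᵐ y ∂μ, 0 ≤ w y) {b : X} {R : ℝ} (hR : ∀ᵐ y ∂μ, R ≤ dist b y → w y = 0) : 0 ≤ (∫ z, (⟪S.G (hd b) z, S.D w z⟫ : ℝ) ∂μ) + ∫ z, (n + κ * dist b z ^ 2) * w z ∂μ  -- weak Laplacian comparison on `V`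
* def psi (b : X) (t : ℝ) (z : X) : ℝ  -- the bump `(1 - d_b²/t²)⁺`
* theorem G_psi (b : X) {t : ℝ} (ht : 0 < t) : ∀ᵐ x ∂μ, dist b x < t → S.G (psi b t) x = (-(2 / t ^ 2)) • S.G (hd b) x  -- gradient of the bump on the ball
* theorem local_comp {n : ℕ} {κ : ℝ} (hL : LapC S n κ) (hκ : 0 ≤ κ) {v : Lp ℝ 2 μ} (hv : v ∈ S.V) (h0 : ∀ᵐ y ∂μ, 0 ≤ v y) {M : ℝ} (hM0 : 0 ≤ M) {b : X} {t ρ : ℝ} (ht : 0 < t) (hvM : ∀ᵐ y ∂μ, dist b y < t → v y ≤ M) (hsub : ∀ w ∈ S.V, (∀ᵐ y ∂μ, 0 ≤ w y) → (∀ᵐ y ∂μ, t ≤ dist b y → w y = 0) → ρ ^ 2 * ⟪S.D v, S.D w⟫ + ⟪v, w⟫ ≤ 0) {a : ℝ} (ha0 : 0 ≤ a) (ha : a * (1 + 2 * ρ ^ 2 * (n + κ * t ^ 2) / t ^ 2) ≤ 1) : ∀ᵐ y ∂μ, dist b y < t → v y ≤ M * (1 - a * (1 - dist b y ^ 2 / t ^ 2))  -- local comparison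

### R247/Dec2_386 [ns Crest.Agent.R247.Dec386] # R247, block (1) / (5-M): exponential decay of resolvents (R3) (helper386) * `decay_pow` : if `0 ≤ v ≤ M`, `v - ρ² Δ v ≤ 0` off `closedBall x₀ a₀`, `κ ρ² ≤ 1`, then `v ≤ M θⁿ` at distance `> a₀ + k (3/2) ρ`, `θ = 1 - (3/4)/(2n+3)`; * `decay` : `v y ≤ 2 M exp (-(dist x₀ y - a₀) / ((4 n + 6) ρ))` a.e.; * `decay_res` : the same for `v = Q.res (ρ²) f`, `0 ≤ f ≤ M` supported in `closedBall x₀ a₀`; * `decay_ind` : (R3) fo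
* theorem decay {n : ℕ} {κ : ℝ} (hL : LapC S n κ) (hκ : 0 ≤ κ) {v : Lp ℝ 2 μ} (hv : v ∈ S.V) (h0 : ∀ᵐ y ∂μ, 0 ≤ v y) {M : ℝ} (hM0 : 0 ≤ M) (hM : ∀ᵐ y ∂μ, v y ≤ M) {x₀ : X} {a₀ ρ : ℝ} (hρ : 0 < ρ) (hκρ : κ * ρ ^ 2 ≤ 1) (hsub : ∀ w ∈ S.V, (∀ᵐ y ∂μ, 0 ≤ w y) → (∀ᵐ y ∂μ, dist x₀ y ≤ a₀ → w y = 0) → ρ ^ 2 * ⟪S.D v, S.D w⟫ + ⟪v, w⟫ ≤ 0) : ∀ᵐ y ∂μ, v y ≤ 2 * M * Real.exp (-((dist x₀ y - a₀) / ((4 * n + 6) * ρ)))  -- exponential decay
* theorem decay_res {n : ℕ} {κ : ℝ} (hL : LapC S n κ) (hκ : 0 ≤ κ) {Q : CForm (Lp ℝ 2 μ)} (hQ : Markov Q) (hdom : Q.dom = S.V) (hE : ∀ u ∈ S.V, ∀ w ∈ S.V, Q.E u w = ⟪S.D u, S.D w⟫) {f : Lp ℝ 2 μ} {M : ℝ} (hM0 : 0 ≤ M) (hf0 : ∀ᵐ y ∂μ, 0 ≤ f y) (hfM : ∀ᵐ y ∂μ, f y ≤ M) {x₀ : X} {a₀ ρ : ℝ} (hfs : ∀ᵐ y ∂μ, a₀ < dist x₀ y → f y = 0) (hρ : 0 < ρ) (hκρ : κ * ρ ^ 2 ≤ 1) : ∀ᵐ y ∂μ, Q.res (ρ ^ 2) f y ≤ 2 * M * Real.exp (-((dist x₀ y - a₀) / ((4 * n + 6) * ρ)))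  -- decay of the resolvent of a bounded compactly supported function
* theorem decay_ind {n : ℕ} {κ : ℝ} (hL : LapC S n κ) (hκ : 0 ≤ κ) {Q : CForm (Lp ℝ 2 μ)} (hQ : Markov Q) (hdom : Q.dom = S.V) (hE : ∀ u ∈ S.V, ∀ w ∈ S.V, Q.E u w = ⟪S.D u, S.D w⟫) {B : Set X} (hB : MeasurableSet B) (hμ : μ B ≠ ∞) {x₀ : X} {a₀ ρ : ℝ} (hBa : B ⊆ Metric.closedBall x₀ a₀) (hρ : 0 < ρ) (hκρ : κ * ρ ^ 2 ≤ 1) : ∀ᵐ y ∂μ, Q.res (ρ ^ 2) (ind hB hμ) y ≤ 2 * Real.exp (-((dist x₀ y - a₀) / ((4 * n + 6) * ρ)))  -- (R3): decay of `R_ρ 1_B` off `closedBall x₀ a₀ ⊇ B`.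

### R247/Dec3_386 [ns Crest.Agent.R247.Dec386] # R247, block (1) / (5-M): (R3) for the Dirichlet form, from `WLap` (helper386) * `lapC_of_wlap` : `Smv126.WLap S n κ → LapC S n κ`; * `res_decay` : `(S.form hd).res (ρ²) f`, `0 ≤ f ≤ M`, `f = 0` off `closedBall x₀ a₀`; * `r3`, `r3_closed` : (R3) in the form consumed by `Max3_193`.
* theorem r3 {n : ℕ} {κ : ℝ} (W : Smv126.WLap S n κ) (hκ : 0 ≤ κ) {B : Set X} (hB : MeasurableSet B) (hμ : μ B ≠ ∞) {x₀ : X} {r ρ : ℝ} (hBr : B ⊆ Metric.closedBall x₀ r) (hρ : 0 < ρ) (hκρ : κ * ρ ^ 2 ≤ 1) : ∀ᵐ y ∂μ, 2 * r ≤ dist x₀ y → (S.form hd).res (ρ ^ 2) (ind hB hμ) y ≤ 2 * Real.exp (-(1 / (8 * n + 12)) * (dist x₀ y / ρ))  -- (R3)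

### R247/Smv0_126 [ns Crest.Agent.R247.Smv126] R247, block (5-M) (helper126): the interface `WLap` (weak Laplacian comparison `Δ (d_y²/2) ≤ n + κ d_y²` and `|∇ d_y| = 1` in the language of `GradS`), its extension to nonnegative functions of `V`, nonnegative approximation in `V`.
* def hf (y z : X) : ℝ  -- half squared distance to `y`
* structure WLap (S : GradS X F μ) (n : ℕ) (κ : ℝ) : Prop where lap : ∀ (y : X) {φ : X → ℝ}, IsT φ → (∀ z, 0 ≤ φ z) → 0 ≤ ∫ z, ((n + κ * dist y z ^ 2) * φ z + ⟪S.G (hf y) z, S.G φ z⟫) ∂μ unit : ∀ y : X, ∀ᵐ z ∂μ, ‖S.G (dist y) z‖ = 1  -- Weak Laplacian comparison `Δ (d_y²/2) ≤ n + κ d_y²` and `|∇ d_y| = 1` in the language of `GradS`.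
* theorem G_comp (y : X) {χ : ℝ → ℝ} (hχ : ContDiff ℝ 1 χ) : ∀ᵐ z ∂μ, S.G (fun z => χ (dist y z)) z = deriv χ (dist y z) • S.G (dist y) z  -- gradient of a function of the distance
* theorem exists_bound_cont {f : X → ℝ} (hf : Continuous f) {K : Set X} (hK : IsCompact K) : ∃ C : ℝ, 0 ≤ C ∧ ∀ z ∈ K, |f z| ≤ C  -- a locally Lipschitz function times a test function: bounded with compact support
* theorem exists_seq_nonneg {v : Lp ℝ 2 μ} (hv : v ∈ S.V) (h0 : 0 ≤ᵐ[μ] (v : X → ℝ)) : ∃ (f : ℕ → X → ℝ) (hf : ∀ k, IsT (f k)), (∀ k z, 0 ≤ f k z) ∧ Tendsto (fun k => (tL (hf k) : Lp ℝ 2 μ)) atTop (𝓝 v) ∧ Tendsto (fun k => S.D (tL (hf k))) atTop (𝓝 (S.D v))  -- nonnegative approximation in `V`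
* theorem WLap.lapV (W : WLap S n κ) (y : X) {v : Lp ℝ 2 μ} (hv : v ∈ S.V) (h0 : 0 ≤ᵐ[μ] (v : X → ℝ)) {ζ : X → ℝ} (hζ : IsT ζ) (hζ0 : ∀ z, 0 ≤ ζ z) : Integrable (fun z => ((n + κ * dist y z ^ 2) * ζ z + ⟪S.G (hf y) z, S.G ζ z⟫) * v z) μ ∧ Integrable (fun z => ζ z * ⟪S.G (hf y) z, S.D v z⟫) μ ∧ 0 ≤ ∫ z, (((n + κ * dist y z ^ 2) * ζ z + ⟪S.G (hf y) z, S.G ζ z⟫) * v z + ζ z * ⟪S.G (hf y) z, S.D v z⟫) ∂μ  -- the weak Laplacian comparison tested with `v ζ`, `v ∈ V` nonnegative, `ζ` a nonnegative test function.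

### R247/Smv1_126 [ns Crest.Agent.R247.Smv126] R247, block (5-M) (helper126): (SM) mean value inequality for nonnegative supersolutions `v - h Δ v ≥ 0`: radial test functions.
* def qb (ε τ : ℝ) : ℝ  -- bump
* def psi (ε s : ℝ) : ℝ  -- smooth step: `0` for `s ≤ ε/2`, `1` for `s ≥ ε`
* def ub (k : ℕ) (b s : ℝ) : ℝ  -- cut at `b`
* def Ab (m k : ℕ) (b s : ℝ) : ℝ  -- `A(s) = ∫_s^b τ^m u`
* def wb (m : ℕ) (κ s : ℝ) : ℝ  -- the Gaussian power weight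
* def zb (m k : ℕ) (κ ε b s : ℝ) : ℝ  -- the test profile
* theorem zb_key {m k : ℕ} {κ ε b s : ℝ} (hε : 0 < ε) (hs : 0 ≤ s) : ((m + 1 : ℕ) + κ * s ^ 2) * zb m k κ ε b s + s * deriv (zb m k κ ε b) s = s * wb m κ s * (qb ε s * Ab m k b s) - Real.exp (-(κ * s ^ 2 / 2)) * (psi ε s * ub k b s)  -- the key identity
* def eb (m k : ℕ) (κ ε b s : ℝ) : ℝ  -- the second profile
* def Sup (S : GradS X F μ) (h : ℝ) (v : Lp ℝ 2 μ) : Prop  -- weak supersolution `v - h Δ v ≥ 0`, `v ∈ V`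
* theorem radial_ineq [ProperSpace X] {n : ℕ} {κ : ℝ} (W : WLap S n κ) (y : X) {v : Lp ℝ 2 μ} (hv : v ∈ S.V) (h0 : 0 ≤ᵐ[μ] (v : X → ℝ)) {h : ℝ} (hh : 0 ≤ h) (hsup : Sup S h v) {ζ η : ℝ → ℝ} (hζ : ContDiff ℝ 1 ζ) (hη : ContDiff ℝ 1 η) (hd : ∀ s, deriv η s = -(s * ζ s)) (hζ0 : ∀ s, 0 ≤ s → 0 ≤ ζ s) (hη0 : ∀ s, 0 ≤ s → 0 ≤ η s) {b : ℝ} (hb1 : ∀ s, b ≤ s → ζ s = 0) (hb2 : ∀ s, b ≤ s → η s = 0) : 0 ≤ ∫ z, (η (dist y z) + h * ((n + κ * dist y z ^ 2) * ζ (dist y z) + dist y z * deriv ζ (dist y z))) * v z ∂μ  -- the radial inequality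

### R247/Smv2_126 [ns Crest.Agent.R247.Smv126] R247, block (5-M) (helper126): (SM) mean value inequality for nonnegative supersolutions `v - h Δ v ≥ 0` in `V`.
* def gw (κ : ℝ) (y z : X) : ℝ  -- Gaussian weight
* def NN (μ : Measure X) (κ : ℝ) (y : X) (v : X → ℝ) (τ : ℝ) : ℝ  -- weighted mass of the open ball
* def NC (μ : Measure X) (κ : ℝ) (y : X) (v : X → ℝ) (τ : ℝ) : ℝ  -- weighted mass of the closed ball
* theorem ineq_k {m k : ℕ} {κ : ℝ} (W : WLap S (m + 1) κ) (y : X) {v : Lp ℝ 2 μ} (hv : v ∈ S.V) (h0 : 0 ≤ᵐ[μ] (v : X → ℝ)) {h : ℝ} (hh : 0 ≤ h) (hsup : Sup S h v) {ε b : ℝ} (hε : 0 < ε) (hb : 0 ≤ b) : h * ∫ z, (gw κ y z * (psi ε (dist y z) * ub k b (dist y z))) * v z ∂μ ≤ h * ∫ z, (dist y z * wb m κ (dist y z) * (qb ε (dist y z) * Ab m k b (dist y z))) * v z ∂μ + ∫ z, eb m k κ ε b (dist y z) * v z ∂μ  -- the inequality for the explicit profiles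
* theorem X_le {m k : ℕ} {κ : ℝ} (y : X) {v : Lp ℝ 2 μ} (h0 : 0 ≤ᵐ[μ] (v : X → ℝ)) {ε b : ℝ} (hε : 0 < ε) (hb : 0 ≤ b) : ∫ z, (dist y z * wb m κ (dist y z) * (qb ε (dist y z) * Ab m k b (dist y z))) * v z ∂μ ≤ (3 * 2 ^ m / ε ^ (m + 1) * (b ^ (m + 1) / (m + 1))) * NC μ κ y v ε  -- bound of the first right hand side term
* theorem E_le [SFinite μ] {m k : ℕ} {κ : ℝ} (hκ : 0 ≤ κ) (y : X) {v : Lp ℝ 2 μ} (h0 : 0 ≤ᵐ[μ] (v : X → ℝ)) {h : ℝ} (hh : 0 < h) {ε b M : ℝ} (hε : 0 < ε) (hb : 0 ≤ b) (hM : 0 ≤ M) (hN : ∀ τ, ε / 2 ≤ τ → τ ≤ b → NN μ κ y v τ ≤ M * τ ^ (m + 1) * Real.exp (τ ^ 2 / h)) : ∫ z, eb m k κ ε b (dist y z) * v z ∂μ ≤ (b ^ (m + 1) / (m + 1)) * M * (h / 2) * Real.exp (b ^ 2 / h)  -- Tonelli bound of the second right hand side term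

### R247/Smv3_126 [ns Crest.Agent.R247.Smv126] R247, block (5-M) (helper126): (SM), final form, all centres; a.e. form.
* theorem sm_step [SFinite μ] {m : ℕ} {κ : ℝ} (W : WLap S (m + 1) κ) (hκ : 0 ≤ κ) (y : X) {v : Lp ℝ 2 μ} (hv : v ∈ S.V) (h0 : 0 ≤ᵐ[μ] (v : X → ℝ)) {h : ℝ} (hh : 0 < h) (hsup : Sup S h v) {ε b M : ℝ} (hε : 0 < ε) (hb : ε ≤ b) (hM : 0 ≤ M) (hN : ∀ τ, ε / 2 ≤ τ → τ ≤ b → NN μ κ y v τ ≤ M * τ ^ (m + 1) * Real.exp (τ ^ 2 / h)) : NN μ κ y v b ≤ b ^ (m + 1) * Real.exp (b ^ 2 / h) * (2 ^ (m + 2) * (NC μ κ y v ε / ε ^ (m + 1)) + M / 2)  -- one improvement step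
* theorem sm [SFinite μ] {n : ℕ} (hn : 1 ≤ n) {κ : ℝ} (W : WLap S n κ) (hκ : 0 ≤ κ) (y : X) {v : Lp ℝ 2 μ} (hv : v ∈ S.V) (h0 : 0 ≤ᵐ[μ] (v : X → ℝ)) {h : ℝ} (hh : 0 < h) (hsup : Sup S h v) {ε b : ℝ} (hε : 0 < ε) (hb : ε ≤ b) : NN μ κ y v b ≤ 2 ^ (n + 2) * Real.exp (b ^ 2 / h) * (b / ε) ^ n * NC μ κ y v ε  -- (SM): mean value inequality at every centre, for all radii.

### R247/Smv4_126 [ns Crest.Agent.R247.Smv126] R247, block (5-M) (helper126): (SM) almost everywhere, lower barrier for `R 1_B`, and (R2): `(R_h φ)(y) ≥ c b⁻ⁿ ∫_{B(y,b/2)} φ` for a.e. `y`.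
* theorem doubling_of_rad {n : ℕ} {κ : ℝ} {X : Type*} [MetricSpace X] [MeasurableSpace X] [BorelSpace X] {μ : Measure X} (C : Mcp688.Rad n κ X μ) (hκ : 0 ≤ κ) : IsUnifLocDoublingMeasure μ  -- doubling from a `Rad` structure
* theorem sup_of_form [CompleteSpace F] {hd : Dense (S.V : Set (Lp ℝ 2 μ))} {v : Lp ℝ 2 μ} {h : ℝ} (hs : ∀ w ∈ S.V, 0 ≤ᵐ[μ] (w : X → ℝ) → 0 ≤ h * (S.form hd).E v w + ⟪v, w⟫) : Sup S h v  -- supersolutions in the sense of the form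
* theorem sm_ae [SFinite μ] [IsUnifLocDoublingMeasure μ] {n : ℕ} (hn : 1 ≤ n) {κ : ℝ} (W : WLap S n κ) (hκ : 0 ≤ κ) {v : Lp ℝ 2 μ} (hv : v ∈ S.V) (h0 : 0 ≤ᵐ[μ] (v : X → ℝ)) {h : ℝ} (hh : 0 < h) (hsup : Sup S h v) : ∀ᵐ y ∂μ, ∀ v1 : ℝ, 0 ≤ v1 → (∀ᶠ ε in 𝓝[>] (0:ℝ), μ (Metric.closedBall y ε) ≤ ENNReal.ofReal (v1 * ε ^ n)) → ∀ b : ℝ, 0 < b → ∫ z in Metric.ball y b, v z ∂μ ≤ 2 ^ (n + 2) * Real.exp (b ^ 2 / h + κ * b ^ 2 / 2) * v1 * b ^ n * v y  -- (SM) at almost every point.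
* def r1 (b s : ℝ) : ℝ  -- `(1 - s²/b²)⁺`
* theorem barrier [CompleteSpace F] (hd : Dense (S.V : Set (Lp ℝ 2 μ))) {n : ℕ} {κ : ℝ} (W : WLap S n κ) (hκ : 0 ≤ κ) (y : X) {h b : ℝ} (hh : 0 < h) (hb : 0 < b) (hB : MeasurableSet (Metric.ball y b)) (hμ : μ (Metric.ball y b) ≠ ∞) : ∀ᵐ z ∂μ, r1 b (dist y z) ^ 3 ≤ (1 + 6 * h * (n + κ * b ^ 2) / b ^ 2) * (S.form hd).res h (ind hB hμ) z  -- lower barrier: `(1 - d_y²/b²)₊³ ≤ (1 + 6 h (n + κ b²)/b²) R_h 1_{B(y,b)}`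
* theorem r2 [SFinite μ] [IsUnifLocDoublingMeasure μ] [CompleteSpace F] (hd : Dense (S.V : Set (Lp ℝ 2 μ))) {n : ℕ} (hn : 1 ≤ n) {κ : ℝ} (W : WLap S n κ) (hκ : 0 ≤ κ) {φ : Lp ℝ 2 μ} (h0 : 0 ≤ᵐ[μ] (φ : X → ℝ)) {h : ℝ} (hh : 0 < h) : ∀ᵐ y ∂μ, ∀ v1 : ℝ, 0 ≤ v1 → (∀ᶠ ε in 𝓝[>] (0:ℝ), μ (Metric.closedBall y ε) ≤ ENNReal.ofReal (v1 * ε ^ n)) → ∀ b : ℝ, 0 < b → ∫ z in Metric.ball y (b / 2), φ z ∂μ ≤ 64 / 27 * (1 + 6 * h * (n + κ * b ^ 2) / b ^ 2) * (2 ^ (n + 2) * Real.exp (b ^ 2 / h + κ * b ^ 2 / 2) * v1 * b ^ n) * (S.form hd).res h φ y  -- (R2): lower bound of the resolvent by local means, at almost every point.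

### R247/Smv5_126 [ns Crest.Agent.R247.Smv126] R247, block (5-M) (helper126): compactly supported locally Lipschitz functions are Lipschitz; `WLap` from 688's `Rad` and the radial derivative identity; (R2) in the `loc` form of `Far0`.
* theorem isT_lip {X : Type*} [MetricSpace X] {f : X → ℝ} (hf : IsT f) : ∃ L : ℝ, 0 ≤ L ∧ ∀ y z, |f y - f z| ≤ L * dist y z  -- a locally Lipschitz function with compact support is Lipschitz
* theorem WLap.of_rad {n : ℕ} {κ : ℝ} (C : Mcp688.Rad n κ X μ) (hκ : 0 ≤ κ) (hRD : ∀ (y : X) {φ : X → ℝ}, IsT φ → Mcp688.RD C y φ fun z => ⟪S.G (hf y) z, S.G φ z⟫) (hunit : ∀ y : X, ∀ᵐ z ∂μ, ‖S.G (dist y) z‖ = 1) : WLap S n κ  -- `WLap` from `Rad`: the only manifold input is the identity `(radial derivative of φ w.r.t. y) = ⟪∇ (d_y²/2), ∇ φ⟫` and `|∇ d_y| = 1`.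
* def cR2 (n : ℕ) (K v1 : ℝ) : ℝ  -- the constant of (R2)
* theorem r2_loc [SFinite μ] [IsUnifLocDoublingMeasure μ] [CompleteSpace F] (hd : Dense (S.V : Set (Lp ℝ 2 μ))) {n : ℕ} (hn : 1 ≤ n) {κ : ℝ} (W : WLap S n κ) (hκ : 0 ≤ κ) {φ : Lp ℝ 2 μ} (h0 : 0 ≤ᵐ[μ] (φ : X → ℝ)) {ρ : ℝ} (hρ : 0 < ρ) (hκρ : κ * ρ ^ 2 ≤ 1) {K v1 : ℝ} (hK : 0 < K) (hv1 : 0 ≤ v1) : ∀ᵐ y ∂μ, (∀ᶠ ε in 𝓝[>] (0:ℝ), μ (Metric.closedBall y ε) ≤ ENNReal.ofReal (v1 * ε ^ n)) → Far553.loc μ n K ρ φ y ≤ ENNReal.ofReal (cR2 n K v1 * (S.form hd).res (ρ ^ 2) φ y)  -- (R2) in the `loc` form: `ρ⁻ⁿ ∫_{B(y,Kρ)} φ ≤ C R_ρ φ (y)` for a.e. `y`.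

==================== SMOOTH APPROXIMATION IN GRAPH NORM, WEAK EQUATION IN CHARTS

### R247/App1_470 [ns Crest.Agent.R247.App470] R247, block (5), leaf P4 (helper657 / helper470): patching of local smooth approximations. `ApprOn B O` = the statement `Appr B` of helper124 restricted to compact subsets of the open set `O`. With a partition of unity in the core and the product rule for the Laplacian on the core, local approximations give `Appr B`.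
* def ApprOn (B : BochS n κ X μ) (O : Set X) : Prop  -- smooth approximation in the graph norm of the Laplacian, on compact subsets of `O`
* def CoreMul (B : BochS n κ X μ) : Prop  -- the core is stable under products, with the product rule for the Laplacian
* def CorePU (B : BochS n κ X μ) : Prop  -- partitions of unity in the core
* def err (B : BochS n κ X μ) (u : Lp ℝ 2 μ) (f : X → ℝ) (w : X → ℝ) (x : X) : ℝ  -- error of an approximation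
* theorem appr_of_loc {B : BochS n κ X μ} (h0 : (fun _ : X => (0:ℝ)) ∈ B.core) (hm : CoreMul B) (hPU : CorePU B) (hloc : ∀ x₀ : X, ∃ O : Set X, IsOpen O ∧ x₀ ∈ O ∧ ApprOn B O) : Appr B  -- Patching: local approximations give `Appr`.

### R247/App2_470 [ns Crest.Agent.R247.App470] R247, block (5), leaf P4 (helper470), part 2: partition of unity by smooth functions with compact support on the manifold, product rule for the Laplacian on the core, and the passage from approximation in charts to `Appr` on the manifold.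
* theorem exists_pu {K : Set M} (hK : IsCompact K) {O : M → Set M} (hO : ∀ x, IsOpen (O x)) (hx : ∀ x, x ∈ O x) : ∃ (s : Finset M) (χ : M → M → ℝ), (∀ a ∈ s, χ a ∈ Core n M ∧ (∀ x, 0 ≤ χ a x) ∧ tsupport (χ a) ⊆ O a) ∧ (∀ x, ∑ a ∈ s, χ a x ≤ 1) ∧ ∃ W : Set M, IsOpen W ∧ K ⊆ W ∧ ∀ x ∈ W, ∑ a ∈ s, χ a x = 1  -- finite partitions of unity near a compact set, by smooth functions with compact support
* theorem appr_M (hG : B.G = Gr (n := n)) (hc : B.core = Core n M) (hT : ∀ w ∈ B.core, ∀ x, tr (B.H w x) = mLap n w x) (hloc : ∀ x₀ : M, ApprOn B (chartAt (EuclideanSpace ℝ (Fin n)) x₀).source) : Appr B  -- `Appr` on the manifold from approximation in charts.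

### R247/App3_470 [ns Crest.Agent.R247.App470] R247, block (5), leaf P4 (helper657, helper470): `Appr` holds on every Riemannian manifold (`Gs939.boch` = the Bochner structure of the manifold).
* theorem tr_boch {κ : ℝ} (hκ : HasRicciLowerBound n M (-κ)) {w : M → ℝ} (hw : w ∈ (Gs939.boch hκ).core) (x : M) : tr ((Gs939.boch hκ).H w x) = Bo84.mLap n w x  -- the Laplacian of the Bochner structure is the Laplacian of the manifold on the core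
* theorem appr_boch {κ : ℝ} (hκ : HasRicciLowerBound n M (-κ)) : haveI  -- P4: smooth approximation in the graph norm of the Laplacian, on every manifold.
* theorem appr_boch' [IsFiniteMeasureOnCompacts (μHE[n] : Measure M)] {κ : ℝ} (hκ : HasRicciLowerBound n M (-κ)) : Appr (Gs939.boch (n := n) (M := M) hκ)  -- the same, for any instance of finiteness on compact sets

### R247/Prt1_657 [ns Crest.Agent.R247.Frd657] R247, block (5), leaf (5-P), file 1: locally Lipschitz functions on an open subset of `ℝⁿ` are in `L²_loc`, their (a.e. defined) derivatives are in `L²_loc` and are weak derivatives. Closure of weak derivatives under `L²_loc` convergence. (helper657)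
* theorem exists_lipschitz {f : EE n → ℝ} (hf : LocallyLipschitz f) (hc : HasCompactSupport f) : ∃ C : ℝ≥0, LipschitzWith C f  -- a locally Lipschitz function with compact support is Lipschitz
* theorem locLip_cut (hΩ : IsOpen Ω) {f θ : EE n → ℝ} (hf : LocallyLipschitzOn Ω f) (hθ : IsTest θ) (hs : tsupport θ ⊆ Ω) : LocallyLipschitz (fun x => θ x * f x)  -- cutting off a function which is locally Lipschitz on `Ω`
* theorem pderiv_bdd (hΩ : IsOpen Ω) {f : EE n → ℝ} (hf : LocallyLipschitzOn Ω f) {K : Set (EE n)} (hK : IsCompact K) (hKΩ : K ⊆ Ω) (i : Fin n) : ∃ C : ℝ, ∀ x ∈ K, |pderiv i f x| ≤ C  -- bound of the derivative of a locally Lipschitz function on compact sets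
* theorem ae_diff (hΩ : IsOpen Ω) {f : EE n → ℝ} (hf : LocallyLipschitzOn Ω f) : ∀ᵐ x, x ∈ Ω → DifferentiableAt ℝ f x  -- a locally Lipschitz function is a.e. differentiable
* theorem WDOn.of_locLip (hΩ : IsOpen Ω) {f : EE n → ℝ} (hf : LocallyLipschitzOn Ω f) (i : Fin n) : WDOn Ω i f (pderiv i f)  -- a locally Lipschitz function has its a.e. derivative as weak derivative
* def TendL2 (Ω : Set (EE n)) (f : ℕ → EE n → ℝ) (g : EE n → ℝ) : Prop  -- `f k → g` in `L²_loc(Ω)`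
* theorem TendL2.tendsto_integral {f : ℕ → EE n → ℝ} {g : EE n → ℝ} (h : TendL2 Ω f g) (hf : ∀ k, L2On Ω (f k)) (hg : L2On Ω g) {ψ : EE n → ℝ} (hψ : Continuous ψ) (hc : HasCompactSupport ψ) (hs : tsupport ψ ⊆ Ω) : Tendsto (fun k => ∫ x, f k x * ψ x) atTop (𝓝 (∫ x, g x * ψ x))  -- pairing with a test function passes to the limit

### R247/Prt2_657 [ns Crest.Agent.R247.Frd657] R247, block (5), leaf (5-P), file 2: pull back of test functions of a chart to the manifold, comparison of `L²` norms on the manifold and in a chart. (helper657)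
* def pb (x₀ : M) (P : EuclideanSpace ℝ (Fin n) → ℝ) (z : M) : ℝ  -- pull back of a function on the chart, extended by zero
* theorem lintegral_chart (x₀ : M) {K : Set 𝔼} (hK : IsCompact K) (hKt : K ⊆ (chartAt 𝔼 x₀).target) {h : M → ℝ≥0∞} (h0 : ∀ z, z ∉ (chartAt 𝔼 x₀).symm '' K → h z = 0) : ∫⁻ z, h z ∂μHE[n] = ∫⁻ b in K, ENNReal.ofReal (dens x₀ b) * h ((chartAt 𝔼 x₀).symm b)  -- `∫_M ‖h‖²` for `h` vanishing off the image of a compact subset of the target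
* theorem eLpNorm_le_chart (x₀ : M) {K : Set 𝔼} (hK : IsCompact K) (hKt : K ⊆ (chartAt 𝔼 x₀).target) : ∃ C : ℝ, 0 < C ∧ ∀ {G : Type} [NormedAddCommGroup G] (h : M → G), (∀ z, z ∉ (chartAt 𝔼 x₀).symm '' K → h z = 0) → eLpNorm h 2 μHE[n] ≤ ENNReal.ofReal C * eLpNorm (fun b => h ((chartAt 𝔼 x₀).symm b)) 2 (volume.restrict K)  -- upper comparison
* theorem eLpNorm_chart_le (x₀ : M) {K : Set 𝔼} (hK : IsCompact K) (hKt : K ⊆ (chartAt 𝔼 x₀).target) : ∃ C : ℝ, 0 < C ∧ ∀ {G : Type} [NormedAddCommGroup G] (h : M → G), eLpNorm (fun b => h ((chartAt 𝔼 x₀).symm b)) 2 (volume.restrict K) ≤ ENNReal.ofReal C * eLpNorm h 2 (μHE[n].restrict ((chartAt 𝔼 x₀).symm '' K))  -- lower comparison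

### R247/Prt3_657 [ns Crest.Agent.R247.Frd657] R247, block (5), leaf (5-P), file 3: null sets, almost everywhere statements and measurability on the manifold and in a chart. (helper657)
* theorem ae_source_iff (x₀ : M) {p : M → Prop} : (∀ᵐ z ∂(μHE[n] : Measure M), z ∈ (chartAt 𝔼 x₀).source → p z) ↔ ∀ᵐ b : 𝔼, b ∈ (chartAt 𝔼 x₀).target → p ((chartAt 𝔼 x₀).symm b)  -- a.e. on the source = a.e. on the target
* theorem L2On_chart {x₀ : M} {h : M → ℝ} (hh : ∀ K : Set M, IsCompact K → MemLp h 2 ((μHE[n] : Measure M).restrict K)) : L2On (chartAt 𝔼 x₀).target (fun b => h ((chartAt 𝔼 x₀).symm b))  -- membership in `L²` in the chart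

### R247/Prt4_657 [ns Crest.Agent.R247.Frd657] R247, block (5), leaf (5-P), file 4: the coordinate frame of a chart written in the measurable orthonormal frame of helper322: `dxf x₀ i z` (= `dx^i` at `z`), `Ef x₀ i z` (= `∂_i` at `z`). (helper657)
* def dxf (x₀ : M) (i : Fin n) (z : M) : EuclideanSpace ℝ (Fin n)  -- `dx^i` at `z`, in the orthonormal frame
* def Ef (x₀ : M) (i : Fin n) (z : M) : EuclideanSpace ℝ (Fin n)  -- `∂_i` at `z`, in the orthonormal frame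
* theorem pderiv_coord (x₀ : M) {a : 𝔼} (ha : a ∈ (chartAt 𝔼 x₀).target) (i k : Fin n) : pderiv k (fun b => chartAt 𝔼 x₀ ((chartAt 𝔼 x₀).symm b) i) a = if k = i then 1 else 0  -- derivatives of the coordinate functions read in the chart
* theorem Gr_eq_sum (x₀ : M) {z : M} (hz : z ∈ (chartAt 𝔼 x₀).source) (f : M → ℝ) : Gr (n := n) f z = ∑ i, pderiv i (fun b => f ((chartAt 𝔼 x₀).symm b)) (chartAt 𝔼 x₀ z) • dxf x₀ i z  -- expansion of the gradient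
* def Wm (x₀ z : M) : Matrix (Fin n) (Fin n) ℝ  -- matrix of the `dx^i`
* theorem expand_dxf (x₀ : M) {z : M} (hz : z ∈ (chartAt 𝔼 x₀).source) (v : 𝔼) : v = ∑ i, inner ℝ (Ef x₀ i z) v • dxf x₀ i z  -- expansion of a vector in the frame `dx^i`, with coefficients `⟪∂_i, v⟫`
* theorem expand_Ef (x₀ : M) {z : M} (hz : z ∈ (chartAt 𝔼 x₀).source) (v : 𝔼) : v = ∑ i, inner ℝ (dxf x₀ i z) v • Ef x₀ i z  -- expansion of a vector in the frame `∂_i`, with coefficients `⟪dx^i, v⟫`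

### R247/Prt5_657 [ns Crest.Agent.R247.Frd657] R247, block (5), leaf (5-P), file 5: elements of `V = W^{1,2}_0(M)` read in a chart: they are in `L²_loc` with weak derivatives `⟪∂_i, D u⟫` in `L²_loc`. (helper657)
* theorem exists_lipschitz_chartMap (x₀ : M) {z : M} (hz : z ∈ (chartAt 𝔼 x₀).source) : ∃ K : ℝ≥0, ∃ t ∈ 𝓝 z, t ⊆ (chartAt 𝔼 x₀).source ∧ LipschitzOnWith K (chartAt 𝔼 x₀) t  -- the chart is Lipschitz near every point of its source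
* theorem locLip_of_contMDiff {f : M → ℝ} (hf : ContMDiff (𝓡 n) 𝓘(ℝ, ℝ) 1 f) : LocallyLipschitz f  -- a `C¹` function is locally Lipschitz
* def cf (x₀ : M) (i : Fin n) (F : M → EuclideanSpace ℝ (Fin n)) (b : EuclideanSpace ℝ (Fin n)) : ℝ  -- coordinates `⟪∂_i, F⟫` of a vector field
* theorem tendL2_of_lp (x₀ : M) {f : ℕ → M → ℝ} {g : M → ℝ} (h : Tendsto (fun k => eLpNorm (fun z => f k z - g z) 2 (μHE[n] : Measure M)) atTop (𝓝 0)) : TendL2 (chartAt 𝔼 x₀).target (fun k b => f k ((chartAt 𝔼 x₀).symm b)) (fun b => g ((chartAt 𝔼 x₀).symm b))  -- `L²(M)` convergence implies local convergence in the chart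
* theorem wdOn_cf (hS : ∀ f, S.G f = Gr (n := n) f) (x₀ : M) (i : Fin n) {u : Lp ℝ 2 (μHE[n] : Measure M)} (hu : u ∈ S.V) : WDOn (chartAt 𝔼 x₀).target i (fun b => u ((chartAt 𝔼 x₀).symm b)) (cf x₀ i (S.D u))  -- weak derivatives in the chart

### R247/Prt6_657 [ns Crest.Agent.R247.Frd657] R247, block (5), leaf (5-P), file 6: the weak equation in a chart. (helper657)
* theorem abs_cv_le_lip {n : ℕ} {g h : EE n → ℝ} {C : ℝ} (hC : 0 ≤ C) (hg : ∀ᵐ x, |g x| ≤ h x) (hh : ∀ x y, |h x - h y| ≤ C * ‖x - y‖) (k : ℕ) (x : EE n) : |cv (rho n k) g x| ≤ h x + C * (1 / ((k : ℝ) + 1))  -- local sup bound of the mollification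
* def pf (x₀ : M) (χ : M → ℝ) (b : EuclideanSpace ℝ (Fin n)) : ℝ  -- a function on `M` read in the chart, extended by zero
* def Ac (x₀ : M) (i j : Fin n) (b : EuclideanSpace ℝ (Fin n)) : ℝ  -- coefficients of the Laplacian in divergence form
* theorem expand_cf (x₀ : M) (F : M → 𝔼) {b : 𝔼} (hb : b ∈ (chartAt 𝔼 x₀).target) : F ((chartAt 𝔼 x₀).symm b) = ∑ i, cf x₀ i F b • dxf x₀ i ((chartAt 𝔼 x₀).symm b)  -- expansion in the chart
* theorem inner_cf (x₀ : M) (F F' : M → 𝔼) {b : 𝔼} (hb : b ∈ (chartAt 𝔼 x₀).target) : inner ℝ (F ((chartAt 𝔼 x₀).symm b)) (F' ((chartAt 𝔼 x₀).symm b)) = ∑ i, ∑ j, inverseField (chartMetric n M x₀) b i j * cf x₀ j F b * cf x₀ i F' b  -- inner product of two fields in the chart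
* theorem weak_eq_chart {F : M → 𝔼} {f : M → ℝ} (heq : ∀ p : M → ℝ, GradS.IsT p → ∫ z, inner ℝ (F z) (Gr p z) ∂(μHE[n] : Measure M) = - ∫ z, f z * p z ∂(μHE[n] : Measure M)) (x₀ : M) {P : 𝔼 → ℝ} (hP : IsTest P) (hs : tsupport P ⊆ (chartAt 𝔼 x₀).target) : ∫ b, ∑ i, ∑ j, Ac x₀ i j b * cf x₀ j F b * pderiv i P b = - ∫ b, (dens (n := n) x₀ b * f ((chartAt 𝔼 x₀).symm b)) * P b  -- the weak equation in the chart

### R247/Prt7_657 [ns Crest.Agent.R247.Frd657] R247, block (5), leaf (5-P), file 7: smooth approximation, in the graph norm of the Laplacian, on compact subsets of one chart. (helper657)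
* theorem tendsto_restrict (x₀ : M) {K : Set 𝔼} (hK : IsCompact K) (hKt : K ⊆ (chartAt 𝔼 x₀).target) {G : Type} [NormedAddCommGroup G] {h : ℕ → M → G} {q : ℕ → ℝ≥0∞} (hq : Tendsto q atTop (𝓝 0)) (D : ℝ≥0∞) (hD : D ≠ ⊤) (hb : ∀ k, eLpNorm (fun b => h k ((chartAt 𝔼 x₀).symm b)) 2 (volume.restrict K) ≤ D * q k) : Tendsto (fun k => eLpNorm (h k) 2 ((μHE[n] : Measure M).restrict ((chartAt 𝔼 x₀).symm '' K))) atTop (𝓝 0)  -- from the chart to a compact subset of the source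
* theorem locG_of_one {χ u : EE n → ℝ} {G : Fin n → EE n → ℝ} {b : EE n} (h : ∀ᶠ y in 𝓝 b, χ y = 1) (i : Fin n) : locG χ u G i b = G i b  -- near the set where `χ = 1` the localised gradient is the gradient
* theorem exists_near (hS : ∀ f, S.G f = Gr (n := n) f) (x₀ : M) {u : Lp ℝ 2 (μHE[n] : Measure M)} (hu : u ∈ S.V) {S0 : ℝ} (hb : ∀ᵐ z ∂(μHE[n] : Measure M), |u z| ≤ S0) {f : M → ℝ} (hf : MemLp f 2 (μHE[n] : Measure M)) (heq : ∀ p : M → ℝ, GradS.IsT p → ∫ z, inner ℝ (S.D u z) (S.G p z) ∂(μHE[n] : Measure M) = - ∫ z, f z * p z ∂(μHE[n] : Measure M)) {K : Set M} (hK : IsCompact K) (hKs : K ⊆ (chartAt 𝔼 x₀).source) {ε : ℝ} (hε : 0 < ε) : ∃ w : M → ℝ, ContMDiff (𝓡 n) 𝓘(ℝ, ℝ) ∞ w ∧ HasCompactSupport w ∧ (∀ z, |w z| ≤ S0) ∧ ∫ z in K, ((w z - u z) ^ 2 + ‖Gr (n :=  …  -- smooth approximation on a compact subset of a chart, in the graph norm of the Laplacian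

### R247/Prt8_657 [ns Crest.Agent.R247.Frd657] R247, block (5), leaf P4 (helper657), file 8: the local half of `Appr` for the manifold: `ApprOn B (chartAt 𝔼 x₀).source` for every `x₀`.
* theorem apprOn [IsFiniteMeasureOnCompacts (μHE[n] : Measure M)] {κ : ℝ} (B : BochS n κ M (μHE[n] : Measure M)) (hG : ∀ f, B.G f = Gr (n := n) f) (hcore : ∀ w : M → ℝ, ContMDiff (𝓡 n) 𝓘(ℝ, ℝ) ∞ w → HasCompactSupport w → w ∈ B.core) (htr : ∀ w ∈ B.core, ∀ x, tr (B.H w x) = mLap n w x) (x₀ : M) : ApprOn B (chartAt 𝔼 x₀).source  -- P4, local half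
* theorem apprOn_boch {κ : ℝ} (hκ : HasRicciLowerBound n M (-κ)) (x₀ : M) : haveI  -- the local half of `Appr` for the manifold

### R247/Frd1_657 [ns Crest.Agent.R247.Frd657] R247, block (5), leaf (5-F): Friedrichs mollification, file 1: `L²` convergence of mollifications, sup bound, supports, localised weak derivatives. (helper657)
* theorem exists_test_close {g : EE n → ℝ} (hg : MemLp g 2) {ε : ℝ} (hε : 0 < ε) : ∃ φ : EE n → ℝ, IsTest φ ∧ nm (fun x => g x - φ x) ≤ ε  -- test functions are dense in `L²`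
* theorem tendsto_nm_cv {g : EE n → ℝ} (hg : MemLp g 2) : Tendsto (fun k => nm (fun x => cv (rho n k) g x - g x)) atTop (𝓝 0)  -- `L²` convergence of mollifications
* theorem abs_cv_le {g : EE n → ℝ} {S : ℝ} (hg : ∀ᵐ x, |g x| ≤ S) (k : ℕ) (x : EE n) : |cv (rho n k) g x| ≤ S  -- sup bound of the mollification
* theorem cv_le {g : EE n → ℝ} (hgl : LocallyIntegrable g) {S : ℝ} (hg : ∀ᵐ x, g x ≤ S) (k : ℕ) (x : EE n) : cv (rho n k) g x ≤ S  -- one-sided sup bounds of the mollification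
* theorem cv_eq_zero {g : EE n → ℝ} {S : Set (EE n)} (hg : ∀ x, x ∉ S → g x = 0) (k : ℕ) (x : EE n) (hx : ∀ y ∈ S, 1 / ((k : ℝ) + 1) ≤ dist x y) : cv (rho n k) g x = 0  -- the mollification vanishes away from the support
* theorem tsupport_cv_subset {g : EE n → ℝ} {S : Set (EE n)} (hg : ∀ x, x ∉ S → g x = 0) (k : ℕ) : tsupport (cv (rho n k) g) ⊆ Metric.cthickening (1 / ((k : ℝ) + 1)) S  -- the support of the mollification

### R247/Frd2_657 [ns Crest.Agent.R247.Frd657] R247, block (5), leaf (5-F): Friedrichs mollification, file 2: local `L²` functions, local weak derivatives, cut-off, products with cut-offs, the localised weak equation. (helper657)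
* theorem exists_cutoff {K Ω : Set (EE n)} (hK : IsCompact K) (hΩ : IsOpen Ω) (hKΩ : K ⊆ Ω) : ∃ θ : EE n → ℝ, IsTest θ ∧ tsupport θ ⊆ Ω ∧ (∀ᶠ y in 𝓝ˢ K, θ y = 1) ∧ (∀ y ∈ K, θ y = 1) ∧ ∀ y, θ y ∈ Icc (0 : ℝ) 1  -- cut-off: `= 1` near `K`, supported in `Ω`.
* theorem test_mul_on {χ a : EE n → ℝ} {Ω : Set (EE n)} (hχ : IsTest χ) (hΩ : IsOpen Ω) (hs : tsupport χ ⊆ Ω) (ha : ContDiffOn ℝ ∞ a Ω) : IsTest (fun x => a x * χ x)  -- a smooth function on an open set, cut off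
* def L2On (Ω : Set (EE n)) (g : EE n → ℝ) : Prop  -- `g ∈ L²_loc(Ω)`
* theorem L2On.int_test {Ω : Set (EE n)} {g χ : EE n → ℝ} (hg : L2On Ω g) (hχ : Continuous χ) (hc : HasCompactSupport χ) (hs : tsupport χ ⊆ Ω) : Integrable (fun x => g x * χ x)  -- product of a local `L²` function with a test function is integrable
* def WDOn (Ω : Set (EE n)) (i : Fin n) (u g : EE n → ℝ) : Prop  -- `g` is a weak derivative of `u` in direction `i` on `Ω`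
* theorem WDOn.mul_test {Ω : Set (EE n)} {i : Fin n} {u g χ : EE n → ℝ} (hu : L2On Ω u) (hg : L2On Ω g) (h : WDOn Ω i u g) (hχ : IsTest χ) (hs : tsupport χ ⊆ Ω) : WD i (fun x => χ x * u x) (fun x => pderiv i χ x * u x + χ x * g x)  -- Product with a test function: the product is globally weakly differentiable.
* theorem WDOn.parts {Ω : Set (EE n)} {i : Fin n} {u g b : EE n → ℝ} (hu : L2On Ω u) (hg : L2On Ω g) (h : WDOn Ω i u g) (hb : IsTest b) (hs : tsupport b ⊆ Ω) {φ : EE n → ℝ} (hφ : IsTest φ) : ∫ x, b x * u x * pderiv i φ x = - ∫ x, (pderiv i b x * u x + b x * g x) * φ x  -- integration by parts of `u` against `b · ∂φ`, `b` a test function in `Ω`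
* structure CoefOn (Ω : Set (EE n)) (A : Fin n → Fin n → EE n → ℝ) : Prop where smooth : ∀ i j, ContDiffOn ℝ ∞ (A i j) Ω pos : ∀ x ∈ Ω, ∀ ξ : Fin n → ℝ, ξ ≠ 0 → 0 < ∑ i, ∑ j, A i j x * ξ j * ξ i  -- smooth positive coefficients on an open set
* theorem exists_lam {K : Set (EE n)} (hK : IsCompact K) {A : Fin n → Fin n → EE n → ℝ} (hA : ∀ i j, ContinuousOn (A i j) K) (hpos : ∀ x ∈ K, ∀ ξ : Fin n → ℝ, ξ ≠ 0 → 0 < ∑ i, ∑ j, A i j x * ξ j * ξ i) : ∃ lam : ℝ, 0 < lam ∧ ∀ x ∈ K, ∀ ξ : Fin n → ℝ, lam * ∑ i, ξ i ^ 2 ≤ ∑ i, ∑ j, A i j x * ξ j * ξ i  -- uniform ellipticity on compact sets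
* theorem test_bdd_lip {φ : EE n → ℝ} (h : IsTest φ) : ∃ C : ℝ, 0 ≤ C ∧ (∀ x, |φ x| ≤ C) ∧ ∀ x y, |φ x - φ y| ≤ C * ‖x - y‖  -- a test function is bounded and Lipschitz
* theorem exists_coef {Ω K : Set (EE n)} (hΩ : IsOpen Ω) (hK : IsCompact K) (hKΩ : K ⊆ Ω) {A : Fin n → Fin n → EE n → ℝ} (hA : CoefOn Ω A) : ∃ (B : Fin n → Fin n → EE n → ℝ) (lam M : ℝ), Coef n lam M B ∧ ∀ i j, ∀ x ∈ K, B i j x = A i j x  -- global extension of local coefficients, unchanged on a compact set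

### R247/Frd3_657 [ns Crest.Agent.R247.Frd657] R247, block (5), leaf (5-F): Friedrichs mollification, file 3: the localised weak equation, local `H²` regularity of weak solutions, `H²` approximation of a localised weak solution by test functions. (helper657)
* def locG (χ u : EE n → ℝ) (G : Fin n → EE n → ℝ) (i : Fin n) (x : EE n) : ℝ  -- gradient components of `χ u`
* def flx (A : Fin n → Fin n → EE n → ℝ) (χ : EE n → ℝ) (i : Fin n) (x : EE n) : ℝ  -- the flux of `χ`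
* def locF (A : Fin n → Fin n → EE n → ℝ) (χ u : EE n → ℝ) (G : Fin n → EE n → ℝ) (f : EE n → ℝ) (x : EE n) : ℝ  -- right hand side of the equation of `χ u`
* theorem loc_eq (hΩ : IsOpen Ω) (hA : CoefOn Ω A) (hu : L2On Ω u) (hG : ∀ i, L2On Ω (G i)) (hf : L2On Ω f) (hW : ∀ i, WDOn Ω i u (G i)) (heq : ∀ φ, IsTest φ → tsupport φ ⊆ Ω → ∫ x, ∑ i, ∑ j, A i j x * G j x * pderiv i φ x = - ∫ x, f x * φ x) (hχ : IsTest χ) (hs : tsupport χ ⊆ Ω) {φ : EE n → ℝ} (hφ : IsTest φ) : ∫ x, ∑ i, ∑ j, A i j x * locG χ u G j x * pderiv i φ x = - ∫ x, locF A χ u G f x * φ x  -- the localised weak equation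
* theorem wd_zero_off {S : Set (EE n)} (hS : IsClosed S) {i : Fin n} {v g : EE n → ℝ} (hg : LocallyIntegrable g) (h : WD i v g) (hv : ∀ x, x ∉ S → v x = 0) : ∀ᵐ x, x ∉ S → g x = 0  -- a global weak derivative of a function vanishing off a closed set vanishes a.e. off it
* theorem exists_h2 (hΩ : IsOpen Ω) (hA : CoefOn Ω A) (hu : L2On Ω u) (hG : ∀ i, L2On Ω (G i)) (hf : L2On Ω f) (hW : ∀ i, WDOn Ω i u (G i)) (heq : ∀ φ, IsTest φ → tsupport φ ⊆ Ω → ∫ x, ∑ i, ∑ j, A i j x * G j x * pderiv i φ x = - ∫ x, f x * φ x) (hχ : IsTest χ) (hs : tsupport χ ⊆ Ω) : ∃ H : Fin n → Fin n → EE n → ℝ, (∀ i j, MemLp (H i j) 2) ∧ (∀ i j x, x ∉ tsupport χ → H i j x = 0) ∧ (∀ i j, WD j (locG χ u G i) (H i j)) ∧ ∀ i j, H i j =ᵐ[volume] H j i  -- Local `H²` regularity: second weak derivatives of `χ u`, vanishing off the support of `χ`, symmetric.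

### R247/Frd4_657 [ns Crest.Agent.R247.Frd657] R247, block (5), leaf (5-F): Friedrichs mollification, file 4: `H²` approximation of a localised weak solution by test functions, convergence in the graph norm of `w⁻¹ div (A ∇ ·)` and of every second order operator with continuous coefficients. (helper657)
* structure H2App (K : Set (EE n)) (U : EE n → ℝ) (UG : Fin n → EE n → ℝ) (H : Fin n → Fin n → EE n → ℝ) (v : ℕ → EE n → ℝ) : Prop where cpt : IsCompact K test : ∀ k, IsTest (v k) supp : ∀ k, tsupport (v k) ⊆ K off0 : ∀ x, x ∉ K → U x = 0 off1 : ∀ i x, x ∉ K → UG i x = 0 off2 : ∀ i j x, x ∉ K → H i j x = 0 m0 : MemLp U 2 m1 : ∀ i, MemLp (UG i) 2 m2 : ∀ i j, MemLp (H i j) 2 h0 : Tendsto (fun k => eLpNorm (fun x => v k x - U x) 2 volume) atTop (𝓝 0) h1 : ∀ i, Tendsto (fun k => eLpNorm (fun x => pderiv i (v k) x - UG i x) 2 volume) atTop (𝓝 0) h2 : ∀ i j, Ten …  -- `v k → U`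 in `H²`, all `v k` test functions with support in the compact set `K`; `UG` the weak gradient of `U`, `H` the second weak derivatives.
* theorem tendsto_mul_loc {K Ω : Set (EE n)} (hK : IsCompact K) (hKΩ : K ⊆ Ω) {a : EE n → ℝ} (ha : ContinuousOn a Ω) {f : ℕ → EE n → ℝ} (hf : ∀ k x, x ∉ K → f k x = 0) (h : Tendsto (fun k => eLpNorm (f k) 2 volume) atTop (𝓝 0)) : Tendsto (fun k => eLpNorm (fun x => a x * f k x) 2 volume) atTop (𝓝 0)  -- multiplication by a locally bounded function preserves convergence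
* theorem H2App.op2 (h : H2App K U UG H v) (hKΩ : K ⊆ Ω) {a : Fin n → Fin n → EE n → ℝ} {b : Fin n → EE n → ℝ} {c : EE n → ℝ} (ha : ∀ i j, ContinuousOn (a i j) Ω) (hb : ∀ i, ContinuousOn (b i) Ω) (hc : ContinuousOn c Ω) : Tendsto (fun k => eLpNorm (fun x => ((∑ i, ∑ j, a i j x * pderiv j (pderiv i (v k)) x) + (∑ i, b i x * pderiv i (v k) x) + c x * v k x) - ((∑ i, ∑ j, a i j x * H i j x) + (∑ i, b i x * UG i x) + c x * U x)) 2 volume) atTop (𝓝 0)  -- every second order operator with continuous coefficients converges in `L²`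
* def lapW (A : Fin n → Fin n → EE n → ℝ) (w : EE n → ℝ) (v : EE n → ℝ) (x : EE n) : ℝ  -- `w⁻¹ div (A ∇ v)`
* theorem exists_approx (hΩ : IsOpen Ω) (hA : CoefOn Ω A) (hu : L2On Ω u) (hG : ∀ i, L2On Ω (G i)) (hf : L2On Ω f) (hW : ∀ i, WDOn Ω i u (G i)) (heq : ∀ φ, IsTest φ → tsupport φ ⊆ Ω → ∫ x, ∑ i, ∑ j, A i j x * G j x * pderiv i φ x = - ∫ x, f x * φ x) (hχ : IsTest χ) (hs : tsupport χ ⊆ Ω) : ∃ (K : Set (EE n)) (H : Fin n → Fin n → EE n → ℝ) (v : ℕ → EE n → ℝ), K ⊆ Ω ∧ tsupport χ ⊆ K ∧ H2App K (fun x => χ x * u x) (locG χ u G) H v ∧ (∀ i j, WD j (locG χ u G i) (H i j)) ∧ (∀ i j, H i j =ᵐ[volume] H j i) ∧ ∃ k0 : ℕ, ∀ k, v k = cv (rho n (k + k0)) (fun x => χ x * …  -- Friedrichs' theorem, `H²` form.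
* theorem exists_approx_graph (hΩ : IsOpen Ω) (hA : CoefOn Ω A) {w : EE n → ℝ} (hw : ContinuousOn w Ω) (hw0 : ∀ x ∈ Ω, w x ≠ 0) (hu : L2On Ω u) (hG : ∀ i, L2On Ω (G i)) (hf : L2On Ω f) (hW : ∀ i, WDOn Ω i u (G i)) (heq : ∀ φ, IsTest φ → tsupport φ ⊆ Ω → ∫ x, ∑ i, ∑ j, A i j x * G j x * pderiv i φ x = - ∫ x, f x * φ x) (hχ : IsTest χ) (hs : tsupport χ ⊆ Ω) : ∃ (K : Set (EE n)) (H : Fin n → Fin n → EE n → ℝ) (v : ℕ → EE n → ℝ), K ⊆ Ω ∧ tsupport χ ⊆ K ∧ H2App K (fun x => χ x * u x) (locG χ u G) H v ∧ (∀ i j, WD j (locG χ u G i) (H i j)) ∧ (∀ i j, H i j =ᵐ[vol …  -- Friedrichs' theorem, graph norm form: `v k → χ u` in `L²`, gradients converge in `L²`, `w⁻¹ div (A ∇ v k) → w⁻¹ locF` in `L²`.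
-/
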