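/-
R249 PART E1 (helper274): inventory of R247 (S0381), metric geometry, comparison, rays, limits. Automatic extract.

==================== HOPF-RINOW, RADIAL STRUCTURES, BISHOP-GROMOV, SEGMENT INEQUALITY, POINCARE

### R247/HR_216 [ns Crest.Agent.R247.HR216] R247 block (6a): metric Hopf–Rinow (helper216). * `ApproxMid M`: approximate intermediate points (length space); * `properSpace_of_approxMid`: complete + locally compact + length ⇒ proper; * `exists_mid`: exact intermediate points; * `exists_geodesic`: constant-speed minimising curve between any two points.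
* def ApproxMid (M : Type*) [MetricSpace M] : Prop  -- approximate intermediate points
* def ExactMid (M : Type*) [MetricSpace M] : Prop  -- exact intermediate points
* theorem ApproxMid.near (h : ApproxMid M) {x y : M} {R r ε : ℝ} (hr : 0 ≤ r) (hrR : r ≤ R) (hy : dist x y ≤ R) (hε : 0 < ε) : ∃ z, dist x z ≤ r ∧ dist z y ≤ (R - r) + ε  -- every point of a closed ball is close to a point of a smaller closed ball
* theorem ApproxMid.isCompact_closedBall_of_lt [CompleteSpace M] (h : ApproxMid M) {x : M} {R : ℝ} (hR : 0 < R) (hc : ∀ r, r < R → IsCompact (closedBall x r)) : IsCompact (closedBall x R)  -- if all smaller closed balls are compact, so is the closed ball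
* theorem ExactMid.exists_chain (h : ExactMid M) (x y : M) (N : ℕ) (hN : 0 < N) : ∃ z : ℕ → M, ∀ i, i ≤ N → dist x (z i) = (i / N : ℝ) * dist x y ∧ dist (z i) y = (1 - i / N : ℝ) * dist x y ∧ ∀ j, j ≤ i → dist (z j) (z i) = ((i - j : ℝ) / N) * dist x y  -- finite chains of exact intermediate points
* theorem ExactMid.exists_geodesic [ProperSpace M] (h : ExactMid M) (x y : M) : ∃ γ : ℝ → M, γ 0 = x ∧ γ 1 = y ∧ ∀ s ∈ Icc (0 : ℝ) 1, ∀ t ∈ Icc (0 : ℝ) 1, dist (γ s) (γ t) = |s - t| * dist x y  -- constant-speed minimising curve on `[0,1]`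
* theorem exists_approx_mid [IsRiemannianManifold 𝓘(ℝ, EuclideanSpace ℝ (Fin n)) N] (x y : N) (t : ℝ) (ht0 : 0 ≤ t) (ht1 : t ≤ 1) (ε : ℝ) (hε : 0 < ε) : ∃ z, dist x z = t * dist x y ∧ dist z y ≤ (1 - t) * dist x y + ε  -- approximate intermediate points of a Riemannian manifold, with equality on one side
* theorem properSpace_of_riemannian [IsRiemannianManifold 𝓘(ℝ, EuclideanSpace ℝ (Fin n)) N] [CompleteSpace N] : ProperSpace N  -- Hopf–Rinow (metric form): a complete Riemannian manifold is proper.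
* theorem dist_mid_closed {X : Type*} [MetricSpace X] {ι : Type*} {l : Filter ι} [l.NeBot] {x y z : ι → X} {a b c : X} {t : ι → ℝ} {τ : ℝ} (hx : Tendsto x l (𝓝 a)) (hy : Tendsto y l (𝓝 b)) (hz : Tendsto z l (𝓝 c)) (ht : Tendsto t l (𝓝 τ)) (h : ∀ i, dist (x i) (z i) = t i * dist (x i) (y i) ∧ dist (z i) (y i) = (1 - t i) * dist (x i) (y i)) : dist a c = τ * dist a b ∧ dist c b = (1 - τ) * dist a b  -- limits of minimisers are minimisers (exact intermediate points pass to the limit)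

### R247/Mcp1_688 [ns Crest.Agent.R247.Mcp688 / Rad] # Radial contraction structures (block (6e) of R247, abstract half) `wm μ κ x` is the measure `exp(-κ d(x,·)²/2) μ`. A `Rad n κ X μ` is a measurable family of radial contractions `T x t z` (the point at distance `t·d(x,z)` on the minimising geodesic from `x` to `z`), defined on a full-measure symmetric set `U` of pairs, with `(T x t)_* wm x ≤ t⁻ⁿ wm x` (this is exactly `Δ (d_x²/2) ≤ n + κ d_x²` along the rays).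
* def wt (κ s : ℝ) : ℝ  -- The weight `exp(-κ s²/2)`.
* def wm (μ : Measure X) (κ : ℝ) (x : X) : Measure X  -- The measure `exp(-κ d(x,·)²/2) μ`.
* structure Rad (n : ℕ) (κ : ℝ) (X : Type*) [MetricSpace X] [MeasurableSpace X] (μ : Measure X) where / -- the set of good pairs (unique minimising geodesic) - / U : Set (X × X) / -- `T x t z` = the point at distance `t·d(x,z)` from `x` on the geodesic from `x` to `z` - / T : X → ℝ → X → X measU : MeasurableSet U measT : Measurable (fun p : X × ℝ × X => T p.1 p.2.1 p.2.2) ae_U : ∀ x, ∀ᵐ z ∂μ, (x, z) ∈ U symm : ∀ x z, (x, z) ∈ U → (z, x) ∈ U T_symm : ∀ x z, (x, z) ∈ U → ∀ t ∈ Icc (0 : ℝ) 1, T z t x = T x (1 - t) z sub : ∀ x z, (x, z) ∈ U → ∀ t ∈ Ioc (0 : ℝ) 1,  …  -- A measurable family of radial contractions; see the file header.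

### R247/Mcp2_688 [ns Crest.Agent.R247.Mcp688 / Rad] # Segment inequality for radial contraction structures
* theorem segment_le [SFinite μ] (hκ : 0 ≤ κ) {A B W : Set X} (hA : MeasurableSet A) (hB : MeasurableSet B) (hW : MeasurableSet W) {D : ℝ} (hD : ∀ x ∈ A, ∀ z ∈ B, dist x z ≤ D) (hABW : ∀ x ∈ A, ∀ z ∈ B, (x, z) ∈ C.U → ∀ t ∈ Icc (0 : ℝ) 1, C.T x t z ∈ W) {g : X → ℝ≥0∞} (hg : Measurable g) : ∫⁻ x in A, ∫⁻ z in B, ∫⁻ t in Icc (0 : ℝ) 1, g (C.T x t z) ∂volume ∂μ ∂μ ≤ ENNReal.ofReal (Real.exp (κ * D ^ 2 / 2) * 2 ^ n) * (μ A + μ B) * ∫⁻ y in W, g y ∂μ  -- Segment inequality (Cheeger–Colding).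

### R247/Mcp3_688 [ns Crest.Agent.R247.Mcp688 / Rad / RD] # Weak Laplacian comparison and calculus along the rays for radial contraction structures `RD C x φ D` : for almost every `z` the function `t ↦ φ (T x t z)` has left derivative `D z` at `t = 1` (for smooth `φ` on a manifold `D = ⟪∇φ, ∇(d_x²/2)⟫`).
* def RD (C : Rad n κ X μ) (x : X) (φ D : X → ℝ) : Prop  -- `D` is the radial derivative of `φ` with respect to the centre `x` (a.e., from the left).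
* theorem weak_lap (x : X) {φ D b : X → ℝ} (hφ : Measurable φ) (h0 : ∀ z, 0 ≤ φ z) (hint : Integrable φ (wm μ κ x)) (hD : RD C x φ D) (hb : ∀ᵐ z ∂μ, ∀ t ∈ Ico (1 / 2 : ℝ) 1, |φ (C.T x t z) - φ z| ≤ (1 - t) * b z) (hbint : Integrable b (wm μ κ x)) : 0 ≤ n * ∫ z, φ z ∂(wm μ κ x) + ∫ z, D z ∂(wm μ κ x)  -- Weak Laplacian comparison, general form: `0 ≤ n ∫ φ + ∫ D` with respect to `wm`.
* theorem weak_lap' (hκ : 0 ≤ κ) (x : X) {φ D : X → ℝ} {L R : ℝ} (hφ : Measurable φ) (h0 : ∀ z, 0 ≤ φ z) (hL : ∀ y z, |φ y - φ z| ≤ L * dist y z) (hR0 : 0 ≤ R) (hsupp : ∀ z, R < dist x z → φ z = 0) (hfin : μ (Metric.closedBall x (2 * R)) ≠ ∞) (hD : RD C x φ D) : Integrable φ μ ∧ Integrable D μ ∧ 0 ≤ ∫ z, ((n + κ * dist x z ^ 2) * φ z + D z) ∂μ  -- Weak Laplacian comparison, unweighted general form: `0 ≤ ∫ ((n + κ d_x²) φ + D) dμ`.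

### R247/Mcp4_688 [ns Crest.Agent.R247.Mcp688 / Rad] # The comparison functional `ν_x = n + κ d_x² - Δ(d_x²/2) ≥ 0` and the volume drop `cut r s` = `1` for `s ≤ r`, `2 - s/r` for `r ≤ s ≤ 2r`, `0` beyond.
* def cut (r s : ℝ) : ℝ  -- piecewise linear cut-off
* def cut' (r s : ℝ) : ℝ  -- its left derivative
* def Vc (μ : Measure X) (x : X) (s : ℝ) : ℝ  -- real-valued volume of closed balls
* def drop (n : ℕ) (κ : ℝ) (μ : Measure X) (x : X) (r : ℝ) : ℝ  -- the error constant times `κ r²`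
* theorem nu_cut (hκ : 0 ≤ κ) (x : X) {r : ℝ} (hr : 0 < r) [SFinite μ] (hfin : μ (Metric.closedBall x r) ≠ ∞) : ∫ z, ((n + κ * dist x z ^ 2) * cut r (dist x z) + cut' r (dist x z) * dist x z) ∂μ ≤ drop n κ μ x r  -- the value of the comparison functional on the cut-off is at most the volume drop
* theorem nu_bound (hκ : 0 ≤ κ) (x : X) {r : ℝ} (hr : 0 < r) [SFinite μ] (hfin : μ (Metric.closedBall x r) ≠ ∞) {φ D : X → ℝ} {L S : ℝ} (hφ : Measurable φ) (hL : ∀ y z, |φ y - φ z| ≤ L * dist y z) (hsupp : ∀ z, r < dist x z → φ z = 0) (hS : ∀ z, |φ z| ≤ S) (hD : RD C x φ D) : |∫ z, ((n + κ * dist x z ^ 2) * φ z + D z) ∂μ| ≤ S * drop n κ μ x r  -- The comparison functional is bounded by the volume drop for every Lipschitz function supported in the ball.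

### R247/Mcp5_688 [ns Crest.Agent.R247.Mcp688 / Rad] # Calculus along the rays and the law of the rays
* theorem ray_ftc [SFinite μ] (x : X) {q D : X → ℝ} (hD : RD C x q D) (hL : ∀ R, ∃ L, ∀ y z, dist x y ≤ R → dist x z ≤ R → |q y - q z| ≤ L * dist y z) : ∀ᵐ w ∂μ, ∀ a b : ℝ, 0 < a → a ≤ b → b ≤ 1 → IntervalIntegrable (fun t => D (C.T x t w) / t) volume a b ∧ ∫ t in a..b, D (C.T x t w) / t = q (C.T x b w) - q (C.T x a w)  -- Fundamental theorem of calculus along almost every ray.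
* theorem ray_lintegral_le [SFinite μ] (hκ : 0 ≤ κ) (x : X) {a b R : ℝ} (ha : 0 < a) (hb : b ≤ 1) {A W : Set X} (hA : MeasurableSet A) (hW : MeasurableSet W) (hR : ∀ z ∈ A, dist x z ≤ R) (hAW : ∀ z ∈ A, (x, z) ∈ C.U → ∀ t ∈ Icc a b, C.T x t z ∈ W) {g : X → ℝ≥0∞} (hg : Measurable g) : ∫⁻ w in A, ∫⁻ t in Icc a b, g (C.T x t w) ∂volume ∂μ ≤ ENNReal.ofReal (Real.exp (κ * R ^ 2 / 2) * (a⁻¹) ^ n * (b - a)) * ∫⁻ y in W, g y ∂μ  -- the law of the rays has bounded density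
* theorem ray_avg [SFinite μ] (x : X) {q D : X → ℝ} (hDm : Measurable D) (hD : RD C x q D) (hL : ∀ R, ∃ L, ∀ y z, dist x y ≤ R → dist x z ≤ R → |q y - q z| ≤ L * dist y z) {ν : Measure X} [IsFiniteMeasure ν] (hν : ν ≪ μ) {R : ℝ} (hR : ∀ᵐ w ∂ν, dist x w ≤ R) {a b : ℝ} (ha : 0 < a) (hab : a ≤ b) (hb : b ≤ 1) : ∫ w, (q (C.T x b w) - q (C.T x a w)) ∂ν = ∫ t in a..b, (t⁻¹ * ∫ w, D (C.T x t w) ∂ν)  -- Averaged fundamental theorem of calculus along the rays: for every finite `ν ≪ μ` carried by a bounded set.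
* def hw (m : ℕ) (r s : ℝ) : ℝ  -- the weight of the Dirichlet–Poincaré inequality
* def hw' (m : ℕ) (r s : ℝ) : ℝ  -- its left derivative
* theorem dirichlet_poincare (hκ : 0 ≤ κ) (x y : X) {r : ℝ} (hr : 0 < r) (hxy1 : 5 / 2 * r ≤ dist x y) (hxy2 : dist x y ≤ 3 * r) (hκr : κ * (4 * r) ^ 2 ≤ 1) (hfin : μ (Metric.closedBall x r) ≠ ∞) {p D G : X → ℝ} (hp : Measurable p) {L : ℝ} (hL : ∀ u z, |p u - p z| ≤ L * dist u z) (hsupp : ∀ z, r < dist x z → p z = 0) (hD : RD C y p D) (hG : ∀ᵐ z ∂μ, |D z| ≤ dist y z * G z) (hGI : IntegrableOn (fun z => G z ^ 2) (Metric.closedBall x r) μ) : ∫ z, p z ^ 2 ∂μ ≤ 64 * 4 ^ (n + 2) * r ^ 2 * ∫ z in Metric.closedBall x r, G z ^ 2 ∂μ  -- Dirichlet–Poincaré inequality in a ball `B_r(x)`, from a point `y` with `5r/2 ≤ d(x,y) ≤ 3r`. `G` is any function with `|D_y p| ≤ d_y G` a.e.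

### R247/Mcp6_688 [ns Crest.Agent.R247.Mcp688] # Constructor of radial contraction structures from the set form of the contraction property
* def Uniq (X : Type*) [MetricSpace X] : Set (X × X)  -- pairs joined by exactly one minimising geodesic
* def ExMid (X : Type*) [MetricSpace X] : Prop  -- existence of intermediate points
* def TT (hm : ExMid X) (x : X) (t : ℝ) (z : X) : X  -- the contraction maps
* def Nsep (X : Type*) [MetricSpace X] (δ : ℝ) : Set (X × X)  -- pairs with two geodesics at least `δ` apart somewhere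
* def Sdom (X : Type*) [MetricSpace X] : Set (X × ℝ × X)  -- the domain of the contraction map
* def Mid (x : X) (t : ℝ) (A : Set X) : Set X  -- the set of `t`-intermediate points
* def Rad.ofSet (hκ : 0 ≤ κ) (hU : ∀ x : X, ∀ᵐ z ∂μ, (x, z) ∈ Uniq X) (hset : ∀ x : X, ∀ t ∈ Ioc (0 : ℝ) 1, ∀ R : ℝ, ∀ A : Set X, IsCompact A → A ⊆ Metric.closedBall x R → ENNReal.ofReal (t ^ n * Real.exp (-(κ * R ^ 2 * (1 - t ^ 2) / 2))) * μ A ≤ μ (Mid x t A)) : Rad n κ X μ  -- Constructor of radial contraction structures.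

### R247/Mcp7_688 [ns Crest.Agent.R247.Mcp688] R247 (helper688), block (6e), file 7: Rademacher on a Riemannian manifold for `μHE[n]`, a.e. uniqueness of minimisers, local finiteness and absence of atoms of `μHE[n]`.
* theorem LN_grad' {x₀ : M} (L : LocalNear n M x₀) {y : M} (hy : y ∈ L.W) {x c : M} (h : MDifferentiableAt (𝓡 n) 𝓘(ℝ) (fun q => halfDistSq q x) y) (hc : dist x c + dist c y = dist x y) {v : TangentSpace (𝓡 n) y} (hv : ‖v‖ = dist y c) (hvr : ‖v‖ < L.r) (hve : L.e y v = c) (hα : 0 < dist y c) (ξ : TangentSpace (𝓡 n) y) : dL n (fun q => halfDistSq q x) y ξ = -(dist x y / dist y c) * inner ℝ v ξ  -- first variation at a point of differentiability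
* theorem uniq_near (L : ∀ z : M, LocalNear n M z) {x z : M} (h : MDifferentiableAt (𝓡 n) 𝓘(ℝ) (fun q => halfDistSq q x) z) {c c' : M} (hc : dist x c + dist c z = dist x z) (hc' : dist x c' + dist c' z = dist x z) (he : dist c z = dist c' z) (hr : dist c z < (L z).r) (hxz : x ≠ z) : c = c'  -- near the end of differentiability, points on minimisers are determined by their distance
* theorem uniq_of_mdiff [ProperSpace M] (hm : ExM M) {x z : M} (h : MDifferentiableAt (𝓡 n) 𝓘(ℝ) (fun q => halfDistSq q x) z) : (x, z) ∈ Uniq M  -- uniqueness of the minimiser to a point of differentiability of the distance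
* theorem ae_mdiff [SecondCountableTopology M] {u : M → ℝ} (hu : LocallyLipschitz u) : ∀ᵐ x ∂(μHE[n] : Measure M), MDifferentiableAt (𝓡 n) 𝓘(ℝ) u x  -- Rademacher's theorem on a Riemannian manifold
* theorem ae_uniq [ProperSpace M] (hm : ExM M) (x : M) : ∀ᵐ z ∂(μHE[n] : Measure M), (x, z) ∈ Uniq M  -- (iv) almost every point is joined to `x` by a unique minimiser
* theorem isLocallyFinite_muHE : IsLocallyFiniteMeasure (μHE[n] : Measure M)  -- `μHE[n]` is locally finite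
* theorem muHE_singleton (hn : 1 ≤ n) (x : M) : (μHE[n] : Measure M) {x} = 0  -- `μHE[n]` has no atoms, `n ≥ 1`

### R247/Mcp8_688 [ns Crest.Agent.R247.Mcp688] R247 (helper688), block (6e), file 8: the radial contraction structure of a complete Riemannian manifold from the local contraction estimate of `Mcs816`.
* theorem hset_of_loc {n : ℕ} {μ : Measure X} [IsFiniteMeasureOnCompacts μ] {x : X} (hx : Mcs816.NonBr x) (hμx : μ {x} = 0) {κ : ℝ} (hκ : 0 ≤ κ) (hloc : ∀ y, y ≠ x → ∀ ε > 0, ∃ W, IsOpen W ∧ y ∈ W ∧ ∃ τ0 > 0, Mcs816.LocC μ x W (n + κ * dist x y ^ 2 + ε) τ0) : ∀ t ∈ Ioc (0 : ℝ) 1, ∀ R : ℝ, ∀ A : Set X, IsCompact A → A ⊆ closedBall x R → ENNReal.ofReal (t ^ n * Real.exp (-(κ * R ^ 2 * (1 - t ^ 2) / 2))) * μ A ≤ μ (Mid x t A)  -- set form of the contraction property from the local estimates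
* def LocAll (n : ℕ) (κ : ℝ) (M : Type*) [MetricSpace M] [MeasurableSpace M] [BorelSpace M] : Prop  -- the local contraction estimate (delivered by `Mcs816`)
* def radM (hn : 1 ≤ n) (hm : ExM M) {κ : ℝ} (hκ : 0 ≤ κ) (hloc : LocAll n κ M) : Rad n κ M (μHE[n] : Measure M)  -- the radial contraction structure of a complete Riemannian manifold

### R247/Bgr2_546 [ns Crest.Agent.R247.Bgr546] # R247: `RAD n` from the local contraction estimate `LOC n` : on every complete Riemannian `n`-manifold with `Ric ≥ -κ` the local contraction estimates `Mcp688.LocAll n κ M` hold (leaf of 816). `rad_of_loc : (1 ≤ n → LOC n) → RAD n` (dimension `0` included) and `bgr_of_loc`.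
* def LOC (n : ℕ) : Prop  -- The local contraction estimates on every complete manifold with `Ric ≥ -κ`.

### R247/Bgr3_546 [ns Crest.Agent.R247.Bgr546] # R247: unconditional `RAD n` and Bishop–Gromov `rad_all n : RAD n`, `bgr_all n : Asm951.BGr n`, from 816's set form of the contraction property, 582's Laplacian comparison and 688's constructor.
* theorem lapC_of_ricci {n : ℕ} {M : Type*} [MetricSpace M] [CompleteSpace M] [ChartedSpace (EuclideanSpace ℝ (Fin n)) M] [IsManifold 𝓘(ℝ, EuclideanSpace ℝ (Fin n)) ∞ M] [RiemannianBundle (fun x : M => TangentSpace 𝓘(ℝ, EuclideanSpace ℝ (Fin n)) x)] [IsContMDiffRiemannianBundle 𝓘(ℝ, EuclideanSpace ℝ (Fin n)) ∞ (EuclideanSpace ℝ (Fin n)) (fun x : M => TangentSpace 𝓘(ℝ, EuclideanSpace ℝ (Fin n)) x)] [IsRiemannianManifold 𝓘(ℝ, EuclideanSpace ℝ (Fin n)) M] {κ : ℝ} (hκ : 0 ≤ κ) (hric : HasRicciLowerBound n M (-κ)) : Mcs816.LapC n M κ  -- Laplacian comparison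 in 816's form.
* theorem rad_all (n : ℕ) : RAD.{u} n  -- Every complete Riemannian manifold with `Ric ≥ -κ` carries the radial contraction structure.
* theorem bgr_all (n : ℕ) : Asm951.BGr.{u} n  -- Bishop–Gromov.

### R247/Bgr_546 [ns Crest.Agent.R247.Bgr546] # R247: the radial contraction structure of a complete Riemannian manifold, and Bishop–Gromov * `RAD n` : every complete connected Riemannian `n`-manifold with `Ric ≥ -κ` carries 688's structure `Rad n κ M μHE[n]`; * `UNIQ n` : almost every pair is joined by exactly one minimising geodesic (leaf); * `SETF n` : the set form of the measure contraction property (leaf); * `rad_of_parts` : `UNIQ n → SETF n → RAD n` (`n = 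
* def RAD (n : ℕ) : Prop  -- The radial contraction structure on every complete manifold with `Ric ≥ -κ`.
* def UNIQ (n : ℕ) : Prop  -- Almost every pair is joined by exactly one minimising geodesic.
* def SETF (n : ℕ) : Prop  -- Set form of the measure contraction property.
* def SETF' (n : ℕ) : Prop  -- The set form of the contraction property in 816's notation.
* theorem subsingleton_of_zero (M : Type*) [MetricSpace M] [ConnectedSpace M] [ChartedSpace (EuclideanSpace ℝ (Fin 0)) M] : Subsingleton M  -- A connected `0`-dimensional manifold is a point.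
* def radZero (κ : ℝ) (M : Type*) [MetricSpace M] [Subsingleton M] [MeasurableSpace M] [BorelSpace M] (μ : Measure M) : Rad 0 κ M μ  -- The radial structure on a point.

### R247/Mcs10_816 [ns Crest.Agent.R247.Mcs816] Row 247, block (6c)/(6d) (helper816), file 10: the barrier family `(d(x,z) + d(z,·))²/2` in a chart: geometric background, jointly `C²`, eikonal equation, Laplacian.
* theorem bg_chart (y0 : M) : BG (chartAt 𝔼 y0).target (gm (n := n) y0) (dens (n := n) y0)  -- the chart data of the Riemannian metric and volume.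
* def OO (n : ℕ) {M : Type*} [MetricSpace M] [ChartedSpace (EuclideanSpace ℝ (Fin n)) M] (y0 : M) : Set (M × EuclideanSpace ℝ (Fin n))  -- the open set of parameters and points.
* def FF (n : ℕ) {M : Type*} [MetricSpace M] [ChartedSpace (EuclideanSpace ℝ (Fin n)) M] (x y0 z : M) (b : EuclideanSpace ℝ (Fin n)) : ℝ  -- the barriers.
* theorem jf_barrier (hm : ExM M) (x y0 : M) : JF (chartAt 𝔼 y0).target (OO n y0) (FF n x y0)  -- the barrier family is jointly `C²`.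
* theorem lapw_FF (hm : ExM M) (x : M) {y0 : M} {q : M × 𝔼} (hq : q ∈ OO n y0) {Λ : ℝ} (hΛ : laplaceBeltrami (chartMetric n M y0) (fz (n := n) q.1 y0) q.2 ≤ Λ) : lapw (gm (n := n) y0) (dens (n := n) y0) (FF n x y0 q.1) q.2 ≤ (1 + dist x q.1 / dist q.1 ((chartAt 𝔼 y0).symm q.2)) * Λ * dens (n := n) y0 q.2  -- Laplacian of the barrier.

### R247/Mcs11_816 [ns Crest.Agent.R247.Mcs816] Row 247, block (6c)/(6d) (helper816), file 11: distance in a chart from above by the length of the segment; local minimiser points; local contraction on the manifold.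
* def SS (x : M) (δ : ℝ) (q : M) : Set M  -- the points at distance `δ` from `x` on the minimisers from `x` to `q`.
* theorem SS_eventually [ProperSpace M] {x : M} {δ : ℝ} {q0 : M} {K : Set M} (hK : SS x δ q0 ⊆ interior K) : ∀ᶠ q in 𝓝 q0, SS x δ q ⊆ interior K  -- upper semicontinuity of the set of intermediate points.
* theorem exists_net {K : Set M} (hK : IsCompact K) {zk : ℕ → M} (hd : ∀ z ∈ K, ∀ e > 0, ∃ k, dist z (zk k) < e) {e : ℝ} (he : 0 < e) : ∃ N > 0, ∀ z ∈ K, ∃ k < N, dist z (zk k) < e  -- finite nets in a dense sequence of a compact set.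
* theorem dist_le_chart (y0 : M) {b : 𝔼} {r : ℝ} (hb : closedBall b r ⊆ (chartAt 𝔼 y0).target) : ∃ C : ℝ, 0 ≤ C ∧ ∀ y ∈ ball b r, ∀ y' ∈ ball b r, dist ((chartAt 𝔼 y0).symm y) ((chartAt 𝔼 y0).symm y') ≤ √(gm (n := n) y0 y (y' - y) (y' - y)) + C * ‖y' - y‖ ^ 2  -- the distance is at most the length of the segment in the chart.

### R247/Mcs12_816 [ns Crest.Agent.R247.Mcs816] Row 247, block (6c)/(6d) (helper816), file 12: **the contraction property (MCP) of the Riemannian volume** from the Laplacian comparison.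
* def LapC (κ : ℝ) : Prop  -- Laplacian comparison at smooth pairs.
* theorem mf_of (hm : ExM M) {x y0 : M} {b0 : 𝔼} {r δ d C1 C : ℝ} {K : Set M} (hd : 0 < d) (hδ : 0 ≤ δ) (hδd : δ ≤ d / 2) (hK : IsCompact K) (hKO : ∀ z ∈ K, ∀ b ∈ ball b0 r, (z, b) ∈ OO n y0) (hgood : ∀ b ∈ ball b0 r, SS x δ ((chartAt 𝔼 y0).symm b) ⊆ K ∧ d / 2 < dist x ((chartAt 𝔼 y0).symm b) ∧ dist x ((chartAt 𝔼 y0).symm b) < 2 * d) (hdist : ∀ y ∈ ball b0 r, ∀ y' ∈ ball b0 r, dist ((chartAt 𝔼 y0).symm y) ((chartAt 𝔼 y0).symm y') ≤ √(gm (n := n) y0 y (y' - y) (y' - y)) + C1 * ‖y' - y‖ ^ 2) (hC1 : C1 ≤ C) (hC2 : 2 * d ≤ C) {zk : ℕ → M} (hzk : ∀ k, zk k ∈ K) …  -- the family of barriers satisfies `MF`.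
* theorem exists_locC [IsFiniteMeasureOnCompacts (μHE[n] : Measure M)] (hm : ExM M) {κ : ℝ} (hκ : 0 ≤ κ) (hL : LapC n M κ) {x y0 : M} (hy0 : y0 ≠ x) {ε : ℝ} (hε : 0 < ε) : ∃ W, IsOpen W ∧ y0 ∈ W ∧ ∃ τ0 > 0, LocC (μHE[n] : Measure M) x W (n + κ * dist x y0 ^ 2 + ε) τ0  -- local contraction on the manifold.

### R247/Mcs13_816 [ns Crest.Agent.R247.Mcs816] Row 247, block (6c)/(6d) (helper816), file 13: **the contraction property (MCP) of the Riemannian volume** in set form, from the Laplacian comparison `LapC`.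
* theorem mcp_exp (hn : 1 ≤ n) (hm : ExM M) {κ : ℝ} (hκ : 0 ≤ κ) (hL : LapC n M κ) (x : M) {τ R : ℝ} (hτ : 0 ≤ τ) (hR : 0 ≤ R) {A : Set M} (hA : IsCompact A) (hAR : A ⊆ closedBall x R) : ENNReal.ofReal (Real.exp (-(n * τ + κ * R ^ 2 * (1 - Real.exp (-(2 * τ))) / 2))) * (μHE[n] : Measure M) A ≤ (μHE[n] : Measure M) (Ipt x (Real.exp (-τ)) A)  -- MCP in set form (exponential parametrisation).
* theorem mcp_set (hn : 1 ≤ n) (hm : ExM M) {κ : ℝ} (hκ : 0 ≤ κ) (hL : LapC n M κ) (x : M) {t : ℝ} (ht : t ∈ Ioc (0 : ℝ) 1) (R : ℝ) (A : Set M) (hA : IsCompact A) (hAR : A ⊆ closedBall x R) : ENNReal.ofReal (t ^ n * Real.exp (-(κ * R ^ 2 * (1 - t ^ 2) / 2))) * (μHE[n] : Measure M) A ≤ (μHE[n] : Measure M) (Ipt x t A)  -- MCP in set form.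

### R247/Mcs14_816 [ns Crest.Agent.R247.Mcs816] Row 247, block (6c)/(6d) (helper816), file 14: **the contraction property (MCP) of the Riemannian volume** of a complete manifold with `Ric ≥ -κ`.
* theorem mcp_ricci' (hn : 1 ≤ n) (hm : ExM M) {κ : ℝ} (hκ : 0 ≤ κ) (hK : HasRicciLowerBound n M (-κ)) (x : M) {t : ℝ} (ht : t ∈ Ioc (0 : ℝ) 1) (R : ℝ) (A : Set M) (hA : IsCompact A) (hAR : A ⊆ closedBall x R) : ENNReal.ofReal (t ^ n * Real.exp (-(κ / 3 * R ^ 2 * (1 - t ^ 2) / 2))) * (μHE[n] : Measure M) A ≤ (μHE[n] : Measure M) (Ipt x t A)  -- MCP, set form, sharp constant.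
* theorem mcp_ricci (hn : 1 ≤ n) (hm : ExM M) {κ : ℝ} (hκ : 0 ≤ κ) (hK : HasRicciLowerBound n M (-κ)) (x : M) {t : ℝ} (ht : t ∈ Ioc (0 : ℝ) 1) (R : ℝ) (A : Set M) (hA : IsCompact A) (hAR : A ⊆ closedBall x R) : ENNReal.ofReal (t ^ n * Real.exp (-(κ * R ^ 2 * (1 - t ^ 2) / 2))) * (μHE[n] : Measure M) A ≤ (μHE[n] : Measure M) (Ipt x t A)  -- MCP, set form, in the form of `Mcp688.Rad.ofSet`.

### R247/Mcs15_816 [ns Crest.Agent.R247.Mcs816] Row 247, block (6c)/(6d) (helper816), file 15: `LocAll`, `LOC n`, `RAD n`, `BGr n` unconditionally.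
* theorem locAll (hm : ExM M) {κ : ℝ} (hκ : 0 ≤ κ) (hK : HasRicciLowerBound n M (-κ)) : Mcp688.LocAll n κ M  -- the local contraction estimates on `M`.
* theorem rad_holds (n : ℕ) : Bgr546.RAD.{u} n  -- radial contraction structures exist on every complete manifold with `Ric ≥ -κ`.
* theorem bgr_holds (n : ℕ) : Asm951.BGr.{u} n  -- Bishop–Gromov in the form of `Asm951`.

### R247/Mcs1_816 [ns Crest.Agent.R247.Mcs816] Row 247, block (6c)/(6d) (helper816), file 1: first order expansion of the determinant.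
* theorem taylor_of_lip {F : Type*} [NormedAddCommGroup F] [NormedSpace ℝ F] {V : Type*} [NormedAddCommGroup V] [NormedSpace ℝ V] {f : V → F} {s : Set V} (hs : Convex ℝ s) {C : ℝ} (hf : ∀ y ∈ s, DifferentiableAt ℝ f y) (hL : ∀ y ∈ s, ∀ y' ∈ s, ‖fderiv ℝ f y' - fderiv ℝ f y‖ ≤ C * ‖y' - y‖) {y y' : V} (hy : y ∈ s) (hy' : y' ∈ s) : ‖f y' - f y - fderiv ℝ f y (y' - y)‖ ≤ C * ‖y' - y‖ ^ 2  -- second order Taylor bound from a Lipschitz bound of the derivative on a convex set.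
* def trL (E : Type*) [NormedAddCommGroup E] [InnerProductSpace ℝ E] [FiniteDimensional ℝ E] : (E →L[ℝ] E) →L[ℝ] ℝ  -- the trace as a continuous linear functional.
* theorem exists_det_bound (E : Type*) [NormedAddCommGroup E] [InnerProductSpace ℝ E] [FiniteDimensional ℝ E] : ∃ K : ℝ, 0 ≤ K ∧ ∀ L : E →L[ℝ] E, ‖L‖ ≤ 1 → |((ContinuousLinearMap.id ℝ E) + L).det - 1 - trL E L| ≤ K * ‖L‖ ^ 2  -- `det (1 + L) = 1 + tr L + O(‖L‖²)`.

### R247/Mcs2_816 [ns Crest.Agent.R247.Mcs816] Row 247, block (6c)/(6d) (helper816), file 2: one discrete gradient step for a finite minimum of smooth functions, in coordinates.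
* structure LF (U : Set E) (w : E → ℝ) (gg : E → E →L[ℝ] E →L[ℝ] ℝ) (f : ℕ → E → ℝ) (v : ℕ → E → E) (C H : ℝ) : Prop where isOpen : IsOpen U one_le : 1 ≤ C w_lower : ∀ y ∈ U, 1 ≤ C * w y w_fd : ∀ y ∈ U, ‖fderiv ℝ w y‖ ≤ C w_cont : ContinuousOn w U w_taylor : ∀ y ∈ U, ∀ y' ∈ U, |w y' - w y - fderiv ℝ w y (y' - y)| ≤ C * ‖y' - y‖ ^ 2 gg_lower : ∀ y ∈ U, ∀ u, ‖u‖ ^ 2 ≤ C * gg y u u gg_lip : ∀ y ∈ U, ∀ y' ∈ U, ∀ u u', |gg y' u u' - gg y u u'| ≤ C * ‖y' - y‖ * ‖u‖ * ‖u'‖ v_grad : ∀ k, ∀ y ∈ U, ∀ u, gg y (v k y) u = fderiv ℝ (f k) y u f_cont : ∀ k, ContinuousOn  …  -- a uniformly smooth sequence of functions `f k` on `U`, with gradients `v k` with respect to the metric `gg`, and with Laplacian (with respect to the density `w`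
* theorem LF.inj (h : LF U w gg f v C H) {δ : ℝ} (hδ : 0 ≤ δ) (hδ' : C * δ * (2 * C + C ^ 2) < 1) {k j : ℕ} {y y' : E} (hy : y ∈ U) (hy' : y' ∈ U) (hk : f k y ≤ f j y) (hj : f j y' ≤ f k y') (he : y - δ • v k y = y' - δ • v j y') : y = y'  -- injectivity of the discrete step.
* theorem exists_jac (E : Type*) [NormedAddCommGroup E] [InnerProductSpace ℝ E] [FiniteDimensional ℝ E] (C : ℝ) (hC : 1 ≤ C) : ∃ C' δ0 : ℝ, 0 ≤ C' ∧ 0 < δ0 ∧ ∀ (W w W' : ℝ) (L : E →L[ℝ] E) (δ H : ℝ), 0 ≤ δ → δ ≤ δ0 → ‖L‖ ≤ C → |W| ≤ C ^ 2 → 1 ≤ C * w → |W' - w + δ * W| ≤ C ^ 3 * δ ^ 2 → 0 ≤ W' → W + w * trL E L ≤ H * w → 0 < ((ContinuousLinearMap.id ℝ E) - δ • L).det ∧ (1 - δ * H - C' * δ ^ 2) * w ≤ ((ContinuousLinearMap.id ℝ E) - δ • L).det * W'  -- pointwise Jacobian bound.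

### R247/Mcs3_816 [ns Crest.Agent.R247.Mcs816] Row 247, block (6c)/(6d) (helper816), file 3: the measure estimate for one discrete gradient step.
* def piece (f : ℕ → E → ℝ) (N : ℕ) (A : Set E) (k : ℕ) : Set E  -- the piece of `A` where `k` is the first index of the minimum of `f j`, `j < N`.
* theorem exists_step (E : Type*) [NormedAddCommGroup E] [InnerProductSpace ℝ E] [FiniteDimensional ℝ E] [MeasurableSpace E] [BorelSpace E] {C : ℝ} (hC : 1 ≤ C) : ∃ C' δ0 : ℝ, 0 ≤ C' ∧ 0 < δ0 ∧ ∀ {U : Set E} {w : E → ℝ} {gg : E → E →L[ℝ] E →L[ℝ] ℝ} {f : ℕ → E → ℝ} {v : ℕ → E → E} {H : ℝ}, LF U w gg f v C H → ∀ δ, 0 ≤ δ → δ ≤ δ0 → ∀ N, 0 < N → ∀ A : Set E, MeasurableSet A → A ⊆ U → (∀ k, ∀ y ∈ A, y - δ • v k y ∈ U) → ∃ B : Set E, MeasurableSet B ∧ (∀ z ∈ B, ∃ y ∈ A, ∃ k < N, z = y - δ • v k y ∧ ∀ j < N, f k y ≤ f j y) ∧ ENNReal.ofReal (1 - δ * H - C' * δ ^  …  -- one discrete step: the image of `A` under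 `y ↦ y - δ v_k y`, `k` the first minimising index, has measure at least `(1 - δ H - C' δ²) μ(A)`.

### R247/Mcs4_816 [ns Crest.Agent.R247.Mcs816] Row 247, block (6c)/(6d) (helper816), file 4: the discrete steps are almost geodesic; chains of discrete steps.
* structure MF (x : M) (X : E → M) (U : Set E) (gg : E → E →L[ℝ] E →L[ℝ] ℝ) (f : ℕ → E → ℝ) (v : ℕ → E → E) (C ρ : ℝ) : Prop where ρ_pos : 0 < ρ dist_le : ∀ y ∈ U, ∀ y' ∈ U, dist (X y) (X y') ≤ √(gg y (y' - y) (y' - y)) + C * ‖y' - y‖ ^ 2 ge : ∀ k, ∀ y ∈ U, dist x (X y) ^ 2 / 2 ≤ f k y eik : ∀ k, ∀ y ∈ U, gg y (v k y) (v k y) = 2 * f k y near : ∀ η > 0, ∃ N > 0, ∀ y ∈ U, ∃ k < N, f k y ≤ dist x (X y) ^ 2 / 2 + η low : ∀ y ∈ U, ρ ≤ dist x (X y) up : ∀ y ∈ U, dist x (X y) ≤ C  -- metric information on the family `f k`: upper barriers of `d_x²/2`.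
* def KK (C ρ : ℝ) : ℝ  -- the constant of the almost geodesic estimates.
* theorem step_dist (h : LF U w gg f v C H) (hm : MF x X U gg f v C ρ) {δ η : ℝ} (hδ : 0 ≤ δ) (hδ1 : δ ≤ 1 / 2) (hη : 0 ≤ η) {k : ℕ} {y : E} (hy : y ∈ U) (hz : y - δ • v k y ∈ U) (hf : f k y ≤ dist x (X y) ^ 2 / 2 + η) : dist x (X (y - δ • v k y)) ≤ (1 - δ) * dist x (X y) + KK C ρ * (δ ^ 2 + η) ∧ dist (X y) (X (y - δ • v k y)) ≤ δ * dist x (X y) + KK C ρ * (δ ^ 2 + η)  -- the discrete step is almost geodesic.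
* theorem chain [MeasurableSpace E] [BorelSpace E] {C : ℝ} (hC : 1 ≤ C) : ∃ C' δ0 : ℝ, 0 ≤ C' ∧ 0 < δ0 ∧ ∀ {U : Set E} {w : E → ℝ} {gg : E → E →L[ℝ] E →L[ℝ] ℝ} {f : ℕ → E → ℝ} {v : ℕ → E → E} {H ρ : ℝ} {x : M} {X : E → M}, LF U w gg f v C H → MF x X U gg f v C ρ → ∀ δ, 0 ≤ δ → δ ≤ δ0 → ∀ j : ℕ, (j : ℝ) * δ ≤ 1 → ∀ A : Set E, MeasurableSet A → (∀ y ∈ A, Metric.closedBall y (C * (j * δ)) ⊆ U) → ∃ B : Set E, MeasurableSet B ∧ B ⊆ U ∧ (∀ z ∈ B, ∃ y ∈ A, ‖z - y‖ ≤ C * (j * δ) ∧ dist x (X z) ≤ (1 - δ) ^ j * dist x (X y) + j * (2 * KK C ρ * δ ^ 2) ∧ dist (X y) (X …  -- the result of `j` discrete steps.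

### R247/Mcs5_816 [ns Crest.Agent.R247.Mcs816] Row 247, block (6c)/(6d) (helper816), file 5: intermediate points, their thickenings, and the local contraction estimate.
* def Ipt (x : M) (t : ℝ) (A : Set M) : Set M  -- the `t`-intermediate points of `A` seen from `x`.
* def Thick (x : M) (t : ℝ) (A : Set M) (ε : ℝ) : Set M  -- thickening of `Ipt`.
* theorem Ipt_Ipt {x : M} {s t : ℝ} {A : Set M} : Ipt x t (Ipt x s A) ⊆ Ipt x (t * s) A  -- semigroup property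
* theorem le_measure_Ipt [MeasurableSpace M] [BorelSpace M] (μ : Measure M) [IsFiniteMeasureOnCompacts μ] (x : M) (t : ℝ) {A : Set M} (hA : IsCompact A) {c : ℝ≥0∞} (h : ∀ ε > 0, c ≤ μ (Thick x t A ε)) : c ≤ μ (Ipt x t A)  -- if `c` is at most the measure of all thickenings, it is at most the measure of `Ipt`.
* def LocC [MeasurableSpace M] (μ : Measure M) (x : M) (W : Set M) (H τ0 : ℝ) : Prop  -- local contraction property: `μ (A_{e^{-τ}}) ≥ e^{-Hτ} μ A` for compact subsets of `W`.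
* theorem locC_of {x : M} {X : E → M} {U : Set E} {w : E → ℝ} {gg : E → E →L[ℝ] E →L[ℝ] ℝ} {f : ℕ → E → ℝ} {v : ℕ → E → E} {C H ρ : ℝ} (μ : Measure M) [IsFiniteMeasureOnCompacts μ] (h : LF U w gg f v C H) (hm : MF x X U gg f v C ρ) {φ : M → E} {W : Set M} (hφ : ContinuousOn φ W) (hφX : ∀ m ∈ W, X (φ m) = m) {τ0 : ℝ} (hτ0 : τ0 ≤ 1) (hU0 : ∀ m ∈ W, Metric.closedBall (φ m) (C * τ0) ⊆ U) (hμ : ∀ B ⊆ U, MeasurableSet B → μ (X '' B) = ∫⁻ y in B, ENNReal.ofReal (w y)) : LocC μ x W H τ0  -- local contraction estimate from a family of smooth barriers in a chart.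

### R247/Mcs6_816 [ns Crest.Agent.R247.Mcs816] Row 247, block (6c)/(6d) (helper816), file 6: from the local contraction estimate to the global one, by non-branching.
* def NonBr (x : M) : Prop  -- minimisers starting at `x` do not branch.
* theorem LocC.of_cover {μ : Measure M} [IsFiniteMeasureOnCompacts μ] {x : M} (hx : NonBr x) {ι : Type*} (s : Finset ι) (Wi : ι → Set M) (hWi : ∀ i ∈ s, IsOpen (Wi i)) {P : Set M} {H τ0 : ℝ} (h : ∀ i ∈ s, LocC μ x (Wi i ∩ P) H τ0) : LocC μ x ((⋃ i ∈ s, Wi i) ∩ P) H τ0  -- a compact set covered by open sets on which the local contraction holds.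
* theorem exists_unif {μ : Measure M} [IsFiniteMeasureOnCompacts μ] {x : M} (hx : NonBr x) {h : ℝ → ℝ} (hcont : Continuous h) (hmono : MonotoneOn h (Ici 0)) (hloc : ∀ y, y ≠ x → ∀ ε > 0, ∃ W, IsOpen W ∧ y ∈ W ∧ ∃ τ0 > 0, LocC μ x W (h (dist x y) + ε) τ0) {Q : Set M} (hQ : IsCompact Q) (hxQ : x ∉ Q) {ε : ℝ} (hε : 0 < ε) : ∃ τ1 > 0, ∀ r, 0 ≤ r → LocC μ x (Q ∩ Metric.closedBall x r) (h r + 2 * ε) τ1  -- uniform local contraction on a compact set not containing `x`.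
* def GG (a κ r τ : ℝ) : ℝ  -- the exponent of the contraction estimate.
* theorem contraction {μ : Measure M} [IsFiniteMeasureOnCompacts μ] {x : M} (hx : NonBr x) (hμx : μ {x} = 0) {a κ : ℝ} (hκ : 0 ≤ κ) (hloc : ∀ y, y ≠ x → ∀ ε > 0, ∃ W, IsOpen W ∧ y ∈ W ∧ ∃ τ0 > 0, LocC μ x W (a + κ * dist x y ^ 2 + ε) τ0) {R : ℝ} (hR : 0 ≤ R) {A : Set M} (hA : IsCompact A) (hAR : A ⊆ Metric.closedBall x R) {τ : ℝ} (hτ : 0 ≤ τ) : ENNReal.ofReal (Real.exp (-(a * τ + κ * R ^ 2 * (1 - Real.exp (-(2 * τ))) / 2))) * μ A ≤ μ (Ipt x (Real.exp (-τ)) A)  -- global contraction estimate.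

### R247/Mcs7_816 [ns Crest.Agent.R247.Mcs816] Row 247, block (6c)/(6d) (helper816), file 7: uniform constants. A family `Φ z` of functions in a chart, jointly `C²` in the weak sense (`D Φ`, `D² Φ` continuous in the parameter and the point), yields the structure `LF` on a ball, uniformly for parameters in a compact set.
* structure BG (T : Set E) (gg : E → E →L[ℝ] E →L[ℝ] ℝ) (w : E → ℝ) : Prop where isOpen : IsOpen T gg_smooth : ContDiffOn ℝ 2 gg T gg_pos : ∀ y ∈ T, ∀ u, u ≠ 0 → 0 < gg y u u w_smooth : ContDiffOn ℝ 2 w T w_pos : ∀ y ∈ T, 0 < w y  -- geometric background data in a chart.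
* def ginv (gg : E → E →L[ℝ] E →L[ℝ] ℝ) (y : E) : (E →L[ℝ] ℝ) →L[ℝ] E  -- inverse metric.
* def gv (gg : E → E →L[ℝ] E →L[ℝ] ℝ) (f : E → ℝ) (y : E) : E  -- gradient.
* def lapw (gg : E → E →L[ℝ] E →L[ℝ] ℝ) (w : E → ℝ) (f : E → ℝ) (y : E) : ℝ  -- `w` times the Laplacian.
* theorem BG.gv_unique (h : BG T gg w) {y : E} (hy : y ∈ T) {f : E → ℝ} {v : E} (hv : ∀ u, gg y v u = fderiv ℝ f y u) : v = gv gg f y  -- uniqueness of the gradient.

### R247/Mcs8_816 [ns Crest.Agent.R247.Mcs816] Row 247, block (6c)/(6d) (helper816), file 8: the structure `LF` from jointly `C²` families, uniformly for parameters in a compact set.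
* theorem lip_of_bound {V F : Type*} [NormedAddCommGroup V] [NormedSpace ℝ V] [NormedAddCommGroup F] [NormedSpace ℝ F] {f : V → F} {b : V} {r C : ℝ} (hf : ∀ y ∈ ball b r, DifferentiableAt ℝ f y) (hC : ∀ y ∈ ball b r, ‖fderiv ℝ f y‖ ≤ C) {y y' : V} (hy : y ∈ ball b r) (hy' : y' ∈ ball b r) : ‖f y' - f y‖ ≤ C * ‖y' - y‖  -- Lipschitz bound on a ball from a bound of the derivative.
* theorem BG.bounds (h : BG T gg w) {b : E} {r : ℝ} (hb : closedBall b r ⊆ T) : ∃ C : ℝ, 1 ≤ C ∧ (∀ y ∈ ball b r, 1 ≤ C * w y) ∧ (∀ y ∈ ball b r, ‖fderiv ℝ w y‖ ≤ C) ∧ (∀ y ∈ ball b r, ∀ y' ∈ ball b r, |w y' - w y - fderiv ℝ w y (y' - y)| ≤ C * ‖y' - y‖ ^ 2) ∧ (∀ y ∈ ball b r, ∀ u, ‖u‖ ^ 2 ≤ C * gg y u u) ∧ (∀ y ∈ ball b r, ∀ y' ∈ ball b r, ∀ u u', |gg y' u u' - gg y u u'| ≤ C * ‖y' - y‖ * ‖u‖ * ‖u'‖)  -- bounds of the geometric background on a ball.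
* structure JF (T : Set E) (O : Set (P × E)) (Φ : P → E → ℝ) : Prop where isOpen : IsOpen O sub : ∀ q ∈ O, q.2 ∈ T smooth : ∀ q ∈ O, ContDiffAt ℝ 2 (Φ q.1) q.2 c1 : ContinuousOn (fun q : P × E => fderiv ℝ (Φ q.1) q.2) O c2 : ContinuousOn (fun q : P × E => fderiv ℝ (fderiv ℝ (Φ q.1)) q.2) O  -- a jointly `C²` family.
* theorem exists_LF [LocallyCompactSpace P] (h : BG T gg w) (hΦ : JF T O Φ) {Z : Set P} (hZ : IsCompact Z) {b : E} (hb : b ∈ T) (hZO : ∀ z ∈ Z, (z, b) ∈ O) {H : ℝ} (hH : ∀ z ∈ Z, lapw gg w (Φ z) b < H * w b) : ∃ K : Set P, IsCompact K ∧ Z ⊆ interior K ∧ ∃ r > 0, closedBall b r ⊆ T ∧ K ×ˢ closedBall b r ⊆ O ∧ ∃ C : ℝ, ∀ zk : ℕ → P, (∀ k, zk k ∈ K) → LF (ball b r) w gg (fun k => Φ (zk k)) (fun k => gv gg (Φ (zk k))) C H  -- uniform constants.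

### R247/Mcs9_816 [ns Crest.Agent.R247.Mcs816] Row 247, block (6c)/(6d) (helper816), file 9: families depending on a parameter of a topological space; chain rule for the Laplacian; the barrier `(c + d)² / 2`.
* theorem BG.lapw_comp (hb : BG T gg w) {h : E → ℝ} {y : E} (hy : y ∈ T) (hh : ContDiffAt ℝ 2 h y) {G G' : ℝ → ℝ} {G'' : ℝ} (hG : ∀ᶠ s in 𝓝 (h y), HasDerivAt G (G' s) s) (hG' : HasDerivAt G' G'' (h y)) : lapw gg w (fun b => G (h b)) y = G' (h y) * lapw gg w h y + w y * (G'' * fderiv ℝ h y (gv gg h y))  -- chain rule for the Laplacian.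
* def Gc (c s : ℝ) : ℝ  -- the barrier profile.
* theorem BG.lapw_barrier (hb : BG T gg w) {h : E → ℝ} {y : E} (hy : y ∈ T) (hh : ContDiffAt ℝ 2 h y) (hpos : 0 < h y) (heik : gg y (gv gg h y) (gv gg h y) = 2 * h y) {c Λ : ℝ} (hc : 0 ≤ c) (hΛ : lapw gg w h y ≤ Λ * w y) : lapw gg w (fun b => Gc c (h b)) y ≤ (1 + c / √(2 * h y)) * Λ * w y  -- Laplacian of the barrier.
* theorem eik_barrier {h : E → ℝ} {y : E} (hh : DifferentiableAt ℝ h y) (hpos : 0 < h y) (heik : gg y (gv gg h y) (gv gg h y) = 2 * h y) (c : ℝ) : gg y (gv gg (fun b => Gc c (h b)) y) (gv gg (fun b => Gc c (h b)) y) = 2 * Gc c (h y)  -- eikonal equation of the barrier.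

==================== SMOOTHNESS OF THE DISTANCE, RAYS, VELOCITIES, SECOND VARIATION

### R247/Sm1_879 [ns Crest.Agent.R247.Sm879] R247 (helper879), block (6b), file 1: Euclidean calculus. * `ND f p` : the mixed Hessian of `f : E × E → ℝ` at `p` is nondegenerate * `argmin_smooth` : smoothness of a nondegenerate minimiser and second derivative of the value * `value_step2` : `Index77.value_step` together with nondegeneracy of the mixed Hessian
* def ND (f : E × E → ℝ) (p : E × E) : Prop  -- the mixed Hessian is nondegenerate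
* def mixB (D : (E × E) →L[ℝ] (E × E) →L[ℝ] ℝ) : E →ₗ[ℝ] E →ₗ[ℝ] ℝ  -- the mixed part of a bilinear form on `E × E`
* theorem argmin_smooth [CompleteSpace E₁] [FiniteDimensional ℝ E₂] {g : E₁ × E₂ → ℝ} {p₀ : E₁} {z₀ : E₂} (hg : ContDiffAt ℝ ∞ g (p₀, z₀)) (hpos : ∀ h : E₂, h ≠ 0 → 0 < fderiv ℝ (fderiv ℝ g) (p₀, z₀) (0, h) (0, h)) {V : E₁ → ℝ} {ζ : E₁ → E₂} (hζ : Tendsto ζ (𝓝 p₀) (𝓝 z₀)) (hV : ∀ᶠ p in 𝓝 p₀, V p = g (p, ζ p)) (hmin : ∀ᶠ p in 𝓝 p₀, IsLocalMin (fun z => g (p, z)) (ζ p)) : ContDiffAt ℝ ∞ ζ p₀ ∧ ContDiffAt ℝ ∞ V p₀ ∧ (∀ u w : E₁, fderiv ℝ (fderiv ℝ V) p₀ u w = fderiv ℝ (fderiv ℝ g) (p₀, z₀) (u, fderiv ℝ ζ p₀ u) (w, 0)) ∧ (∀ (u : E₁) (j : E₂), fderiv ℝ (fderiv  …  -- smoothness of a nondegenerate minimiser, first order condition and second derivative of the value function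
* theorem value_step2 [FiniteDimensional ℝ E] {f₁ f₂ : E × E → ℝ} {V : E × E → ℝ} {a₀ ζ₀ β₀ : E} (h1 : ContDiffAt ℝ ∞ f₁ (a₀, ζ₀)) (h2 : ContDiffAt ℝ ∞ f₂ (ζ₀, β₀)) (n1 : ND f₁ (a₀, ζ₀)) (n2 : ND f₂ (ζ₀, β₀)) (hpos : ∀ h : E, h ≠ 0 → 0 < fderiv ℝ (fderiv ℝ f₁) (a₀, ζ₀) (0, h) (0, h) + fderiv ℝ (fderiv ℝ f₂) (ζ₀, β₀) (h, 0) (h, 0)) {ζ : E × E → E} (hζ : Tendsto ζ (𝓝 (a₀, β₀)) (𝓝 ζ₀)) (hV : ∀ᶠ p in 𝓝 (a₀, β₀), V p = 2 * f₁ (p.1, ζ p) + 2 * f₂ (ζ p, p.2)) (hmin : ∀ᶠ p in 𝓝 (a₀, β₀), IsLocalMin (fun z => 2 * f₁ (p.1, z) + 2 * f₂ (z, p.2)) (ζ p)) : ContDiffAt ℝ …  -- smoothness step, Euclidean form, with nondegeneracy of the mixed Hessian.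

### R247/Sm2_879 [ns Crest.Agent.R247.Sm879] R247 (helper879), block (6b), file 2: local facts near the diagonal, without compactness.
* theorem hasFDerivAt_chart {f : M → ℝ} {z : M} (hf : MDifferentiableAt (𝓡 n) 𝓘(ℝ) f z) : HasFDerivAt (𝕜 := ℝ) (E := EE n) (F := ℝ) (fun a : EE n => f ((extChartAt (𝓡 n) z).symm a)) (dL n f z) (o z)  -- the differential read in the chart centred at the point
* theorem mdiff_left {x y : M} (h : SC n x y) : MDifferentiableAt (𝓡 n) 𝓘(ℝ) (fun x' : M => halfDistSq x' y) x  -- a smooth cost gives a differentiable slice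
* theorem fderiv_cc_dL {z y : M} {b : EE n} (hd : DifferentiableAt ℝ (cc (n := n) z y) (o z, b)) (hs : SC n z ((extChartAt (𝓡 n) y).symm b)) (ξ : TangentSpace (𝓡 n) z) : fderiv ℝ (cc (n := n) z y) (o z, b) ((ξ : EE n), (0 : EE n)) = dL n (fun x' => halfDistSq x' ((extChartAt (𝓡 n) y).symm b)) z ξ  -- first partial derivative of the cost read in charts
* theorem LN_nd {z y : M} (hz : z ∈ L.W) (h : dist z y < L.r) : ND (cc (n := n) z y) (o z, o y)  -- nondegeneracy of the mixed Hessian near the diagonal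
* theorem LN_opp {y : M} (hy : y ∈ L.W) {a b : M} (ha : dist y a < L.r) (hb : dist y b < L.r) (ha0 : 0 < dist y a) (hb0 : 0 < dist y b) (h : dist a y + dist y b = dist a b) {w v : TangentSpace (𝓡 n) y} (hw : ‖w‖ = dist y a) (hwe : L.e y w = a) (hv : ‖v‖ = dist y b) (hve : L.e y v = b) : (dist y a)⁻¹ • w = -((dist y b)⁻¹ • v)  -- opposite directions
* theorem LN_nb {y : M} (hy : y ∈ L.W) {a a' b : M} (ha : dist y a < L.r) (hb : dist y b < L.r) (hb0 : 0 < dist y b) (haa : dist y a = dist y a') (h : dist a y + dist y b = dist a b) (h' : dist a' y + dist y b = dist a' b) : a = a'  -- local non-branching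
* structure LocU {M : Type*} [MetricSpace M] [ChartedSpace (EuclideanSpace ℝ (Fin n)) M] (K : Set M) (r : ℝ) : Prop where pos : 0 < r sc : ∀ z ∈ K, ∀ y, dist z y < r → SC n z y nd : ∀ z ∈ K, ∀ y, dist z y < r → ND (cc (n := n) z y) (o z, o y) nb : ∀ z ∈ K, ∀ a a' b : M, dist z a < r → dist z b < r → 0 < dist z b → dist z a = dist z a' → dist a z + dist z b = dist a b → dist a' z + dist z b = dist a' b → a = a'  -- uniform local facts on a set

### R247/Sm3_879 [ns Crest.Agent.R247.Sm879] R247 (helper879), block (6b), file 3: non-branching, uniqueness of interior points of minimisers, smoothness of the cost `d²/2` at `(x, y)` when `y` is interior to a minimiser from `x`. No compactness of `M`: only `ProperSpace M` and exact intermediate points.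
* def ExM (M : Type*) [MetricSpace M] : Prop  -- exact intermediate points
* theorem nb_aux {K : Set M} {r : ℝ} (hr : 0 < r) (nb : ∀ z ∈ K, ∀ a a' b : M, dist z a < r → dist z b < r → 0 < dist z b → dist z a = dist z a' → dist a z + dist z b = dist a b → dist a' z + dist z b = dist a' b → a = a') (hm : ExM M) {y y' : M} (hy : y ≠ y') {R : ℝ} (hK : ∀ c, dist c y ≤ R → c ∈ K) (k : ℕ) : ∀ c c' : M, dist c y + dist y y' = dist c y' → dist c' y + dist y y' = dist c' y' → dist c y = dist c' y → dist c y ≤ R → dist c y < k * (r / 2) → c = c'  -- non-branching, uniform version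
* theorem tendsto_mid [ProperSpace M] {m : M × M → M} (hm : ∀ q : M × M, dist q.1 (m q) = dist q.1 q.2 / 2 ∧ dist (m q) q.2 = dist q.1 q.2 / 2) {x y z : M} (hz : ∀ c, dist x c = dist x y / 2 → dist c y = dist x y / 2 → c = z) : Tendsto m (𝓝 (x, y)) (𝓝 z)  -- convergence of midpoints to a unique midpoint
* theorem index_pos' {x z y y' : M} (h1 : SC n x z) (h2 : SC n z y) (n2 : ND (cc (n := n) z y) (o z, o y)) (h3 : SC n y y') (d1 : dist x z = dist x y / 2) (d2 : dist z y = dist x y / 2) (hb : dist x y + dist y y' = dist x y') (hxy : x ≠ y) (hy : y ≠ y') {h : EE n} (hh : h ≠ 0) : 0 < fderiv ℝ (fderiv ℝ (cc (n := n) x z)) (o x, o z) (0, h) (0, h) + fderiv ℝ (fderiv ℝ (cc (n := n) z y)) (o z, o y) (h, 0) (h, 0)  -- index lemma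
* theorem sn_step [ProperSpace M] (hm : ExM M) {x z y y' : M} (h1 : SC n x z) (n1 : ND (cc (n := n) x z) (o x, o z)) (h2 : SC n z y) (n2 : ND (cc (n := n) z y) (o z, o y)) (h3 : SC n y y') (d1 : dist x z = dist x y / 2) (d2 : dist z y = dist x y / 2) (hz : ∀ c, dist x c = dist x y / 2 → dist c y = dist x y / 2 → c = z) (hb : dist x y + dist y y' = dist x y') (hxy : x ≠ y) (hy : y ≠ y') : SC n x y ∧ ND (cc (n := n) x y) (o x, o y)  -- smoothness step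
* theorem sc_symm {x y : M} (h : SC n x y) : SC n y x  -- symmetry of smoothness
* theorem nonbranching (hm : ExM M) {y y' : M} (hy : y ≠ y') {c c' : M} (h1 : dist c y + dist y y' = dist c y') (h2 : dist c' y + dist y y' = dist c' y') (h3 : dist c y = dist c' y) : c = c'  -- non-branching: minimisers do not branch
* theorem mid_unique (hm : ExM M) {x y y' : M} (hb : dist x y + dist y y' = dist x y') (hy : y ≠ y') {c c' : M} (h1 : dist x c + dist c y = dist x y) (h2 : dist x c' + dist c' y = dist x y) (h3 : dist c y = dist c' y) : c = c'  -- uniqueness of interior points of minimisers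
* theorem sn_of_btw (hm : ExM M) {x y y' : M} (hb : dist x y + dist y y' = dist x y') (hy : y ≠ y') : SC n x y ∧ ND (cc (n := n) x y) (o x, o y)  -- smoothness of the cost at interior points of minimisers (with nondegenerate mixed Hessian)

### R247/Sm4_879 [ns Crest.Agent.R247.Sm879] R247 (helper879), block (6b), file 4: the gradient of the cost, eikonal equation (on `M` and in charts), non-branching in the form `NonBr`.
* theorem LN_grad {x₀ : M} (L : LocalNear n M x₀) {y : M} (hy : y ∈ L.W) {x c : M} (h : SC n y x) (hc : dist x c + dist c y = dist x y) {v : TangentSpace (𝓡 n) y} (hv : ‖v‖ = dist y c) (hvr : ‖v‖ < L.r) (hve : L.e y v = c) (hα : 0 < dist y c) (ξ : TangentSpace (𝓡 n) y) : dL n (fun q => halfDistSq q x) y ξ = -(dist x y / dist y c) * inner ℝ v ξ  -- first variation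
* theorem dL_diag {x : M} (h : SC n x x) (ξ : TangentSpace (𝓡 n) x) : dL n (fun q => halfDistSq q x) x ξ = 0  -- derivative at the diagonal
* theorem hasFDerivAt_comp_symm {f : M → ℝ} (x₀ : M) {a : 𝔼} (ha : a ∈ (chartAt 𝔼 x₀).target) (hf : MDifferentiableAt (𝓡 n) 𝓘(ℝ) f ((chartAt 𝔼 x₀).symm a)) : HasFDerivAt (fun b => f ((chartAt 𝔼 x₀).symm b)) ((dL n f ((chartAt 𝔼 x₀).symm a)).comp (dS x₀ a)) a  -- chain rule with the inverse chart
* theorem bil_chartMetric (x₀ : M) (a u v : 𝔼) : bil (chartMetric n M x₀ a) u v = gm x₀ a u v  -- the metric in the chart in matrix form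
* theorem exists_gradv [IsRiemannianManifold (𝓡 n) M] (hm : ExM M) {z y : M} (h : SC n z y) : ∃ W : TangentSpace (𝓡 n) y, ‖W‖ = dist z y ∧ ∀ ξ : TangentSpace (𝓡 n) y, dL n (fun q => halfDistSq z q) y ξ = inner ℝ W ξ  -- gradient of the cost: the differential of `q ↦ d(z,q)²/2` at a point of smoothness is represented by a vector of norm `d(z,y)`.
* def fz (z x₀ : M) (b : 𝔼) : ℝ  -- the cost from `z` read in the chart at `x₀`
* theorem exists_grad_chart [IsRiemannianManifold (𝓡 n) M] (hm : ExM M) {z x₀ : M} {a : 𝔼} (ha : a ∈ (chartAt 𝔼 x₀).target) (h : SC n z ((chartAt 𝔼 x₀).symm a)) : ∃ w : 𝔼, (∀ ξ, fderiv ℝ (fz z x₀) a ξ = gm x₀ a w ξ) ∧ gm x₀ a w w = dist z ((chartAt 𝔼 x₀).symm a) ^ 2  -- gradient of the cost in a chart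
* theorem gam_fz [IsRiemannianManifold (𝓡 n) M] (hm : ExM M) {z x₀ : M} {a : 𝔼} (ha : a ∈ (chartAt 𝔼 x₀).target) (h : SC n z ((chartAt 𝔼 x₀).symm a)) : gam (chartMetric n M x₀) (fz z x₀) (fz z x₀) a = 2 * fz z x₀ a  -- eikonal equation in 84's form
* theorem contDiffAt_pair {x₀ y₀ : M} {a b : 𝔼} (ha : a ∈ (chartAt 𝔼 x₀).target) (hb : b ∈ (chartAt 𝔼 y₀).target) (h : SC n ((chartAt 𝔼 x₀).symm a) ((chartAt 𝔼 y₀).symm b)) : ContDiffAt ℝ ∞ (fun p : 𝔼 × 𝔼 => halfDistSq ((chartAt 𝔼 x₀).symm p.1) ((chartAt 𝔼 y₀).symm p.2)) (a, b)  -- joint smoothness read in charts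
* theorem nonBr [IsRiemannianManifold (𝓡 n) M] [ProperSpace M] (hm : ExM M) (x : M) : ∀ y y' z : M, z ≠ x → z ≠ y → dist x z + dist z y = dist x y → dist x z + dist z y' = dist x y' → dist x y = dist x y' → y = y'  -- non-branching in the form `Mcs816.NonBr`

### R247/Sm5_879 [ns Crest.Agent.R247.Sm879] R247 (helper879), block (6b), file 5: the set `Om` of pairs `(x, y)` with `y` interior to a minimiser from `x` is open; the cost is `C^∞` on the open set `Om`; the point at fraction `t` of the minimiser is a `C^∞` function of the end points on `Om`.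
* def Om (M : Type*) [MetricSpace M] : Set (M × M)  -- pairs `(x, y)` with `y` interior to a minimiser from `x`
* theorem frac_smooth (hm : ExM M) {x y : M} (h : (x, y) ∈ Om M) (hxy : x ≠ y) {t : ℝ} (ht0 : 0 < t) (ht1 : t < 1) {m : M × M → M} (hmm : ∀ q : M × M, dist q.1 (m q) = t * dist q.1 q.2 ∧ dist (m q) q.2 = (1 - t) * dist q.1 q.2) : Tendsto m (𝓝 (x, y)) (𝓝 (m (x, y))) ∧ ContDiffAt ℝ ∞ (fun p : EE n × EE n => extChartAt (𝓡 n) (m (x, y)) (m ((extChartAt (𝓡 n) x).symm p.1, (extChartAt (𝓡 n) y).symm p.2))) (o x, o y) ∧ (∀ k : EE n, fderiv ℝ (fun p : EE n × EE n => extChartAt (𝓡 n) (m (x, y)) (m ((extChartAt (𝓡 n) x).symm p.1, (extChartAt (𝓡 n) y).symm p.2))) (o x …  -- the point at fraction `t` is a smooth function of the end points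
* theorem contMDiffAt_frac (hm : ExM M) {x y : M} (h : (x, y) ∈ Om M) (hxy : x ≠ y) {t : ℝ} (ht0 : 0 < t) (ht1 : t < 1) {m : M × M → M} (hmm : ∀ q : M × M, dist q.1 (m q) = t * dist q.1 q.2 ∧ dist (m q) q.2 = (1 - t) * dist q.1 q.2) : ContMDiffAt ((𝓡 n).prod (𝓡 n)) (𝓡 n) ∞ m (x, y)  -- the point at fraction `t` is a smooth function of the end points, manifold form
* theorem isOpen_Om (hm : ExM M) : IsOpen (Om M)  -- openness of the set of interior pairs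
* theorem contMDiffOn_Om (hm : ExM M) : ContMDiffOn ((𝓡 n).prod (𝓡 n)) 𝓘(ℝ) ∞ (fun q : M × M => halfDistSq q.1 q.2) (Om M)  -- the cost is smooth on `Om`
* def OmA (x : M) : Set M  -- the open set of `y` interior to a minimiser from `x`
* theorem mem_Om_of_btw' {x z y : M} (hx : x ≠ z) (hb : dist x z + dist z y = dist x y) : (y, z) ∈ Om M  -- `z` beyond-extendable: `(y, z) ∈ Om` when `z` lies strictly between `x` and `y`
* theorem isOpen_coord {O : Set (M × M)} (hO : IsOpen O) (x₀ y₀ : M) : IsOpen {p : 𝔼 × 𝔼 | p.1 ∈ (chartAt 𝔼 x₀).target ∧ p.2 ∈ (chartAt 𝔼 y₀).target ∧ ((chartAt 𝔼 x₀).symm p.1, (chartAt 𝔼 y₀).symm p.2) ∈ O}  -- the set of coordinates of pairs in a set of pairs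
* theorem contDiffOn_coord (hm : ExM M) (x₀ y₀ : M) : ContDiffOn ℝ ∞ (fun p : 𝔼 × 𝔼 => halfDistSq ((chartAt 𝔼 x₀).symm p.1) ((chartAt 𝔼 y₀).symm p.2)) {p : 𝔼 × 𝔼 | p.1 ∈ (chartAt 𝔼 x₀).target ∧ p.2 ∈ (chartAt 𝔼 y₀).target ∧ ((chartAt 𝔼 x₀).symm p.1, (chartAt 𝔼 y₀).symm p.2) ∈ Om M}  -- joint smoothness in charts on the open set of interior pairs
* theorem contDiffOn_coord' (hm : ExM M) (x₀ y₀ : M) : ContDiffOn ℝ ∞ (fun p : 𝔼 × 𝔼 => halfDistSq ((chartAt 𝔼 x₀).symm p.1) ((chartAt 𝔼 y₀).symm p.2)) {p : 𝔼 × 𝔼 | p.1 ∈ (chartAt 𝔼 x₀).target ∧ p.2 ∈ (chartAt 𝔼 y₀).target ∧ ((chartAt 𝔼 y₀).symm p.2, (chartAt 𝔼 x₀).symm p.1) ∈ Om M}  -- the same on the mirror image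

### R247/Rdg1_879 [ns Crest.Agent.R247.Rdg879 / Seg] R247 (helper879), leaf (RDG), file 1: derivatives along minimisers, pointwise. `Seg x z T` : `T : ℝ → M` is a minimiser from `x` to `z` parametrised by `[0,1]` (fractions). * `hasDerivWithinAt_end` : left derivative of `φ ∘ T` at `1` * `hasDerivAt_mid` : derivative at interior times * `hasDerivWithinAt_start` : right derivative at `0` * chart versions `chart_end`, `chart_mid`
* structure Seg {M : Type*} [MetricSpace M] (x z : M) (T : ℝ → M) : Prop where zero : T 0 = x one : T 1 = z dist_T : ∀ s ∈ Icc (0 : ℝ) 1, ∀ t ∈ Icc (0 : ℝ) 1, dist (T s) (T t) = |s - t| * dist x z  -- `T` is a minimiser from `x` to `z` parametrised by fractions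
* theorem T_near_end {x₀ : M} (L : LocalNear n M x₀) {x z : M} (hz : z ∈ L.W) (h : SC n z x) {W : TangentSpace (𝓡 n) z} (hW : ∀ ξ : TangentSpace (𝓡 n) z, dL n (fun q => halfDistSq q x) z ξ = inner ℝ W ξ) {p : M} (hp : dist x p + dist p z = dist x z) (hpr : dist z p < L.r) {s : ℝ} (hs : dist z p = s * dist x z) : p = L.e z ((-s) • W)  -- the end of a minimiser is a short geodesic in the direction `-∇f`
* theorem hasDerivWithinAt_end {x₀ : M} (L : LocalNear n M x₀) {x z : M} (hz : z ∈ L.W) (h : SC n z x) {T : ℝ → M} (hT : Seg x z T) {W : TangentSpace (𝓡 n) z} (hW : ∀ ξ : TangentSpace (𝓡 n) z, dL n (fun q => halfDistSq q x) z ξ = inner ℝ W ξ) : ∀ᶠ t in 𝓝[≤] (1 : ℝ), T t = L.e z ((t - 1) • W)  -- left derivative at the end of a minimiser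
* theorem deriv_end {x₀ : M} (L : LocalNear n M x₀) {x z : M} (hz : z ∈ L.W) (h : SC n z x) {T : ℝ → M} (hT : Seg x z T) {W : TangentSpace (𝓡 n) z} (hW : ∀ ξ : TangentSpace (𝓡 n) z, dL n (fun q => halfDistSq q x) z ξ = inner ℝ W ξ) {φ : M → ℝ} (hφ : MDifferentiableAt (𝓡 n) 𝓘(ℝ) φ z) : HasDerivWithinAt (fun t => φ (T t)) (dL n φ z W) (Iic 1) 1  -- left derivative of `φ` along a minimiser at its end
* theorem T_near_mid {x₀ : M} (L : LocalNear n M x₀) {x z : M} {T : ℝ → M} (hT : Seg x z T) (hxz : x ≠ z) {t₀ : ℝ} (ht0 : 0 < t₀) (ht1 : t₀ < 1) (hp : T t₀ ∈ L.W) (h : SC n (T t₀) x) {W : TangentSpace (𝓡 n) (T t₀)} (hW : ∀ ξ : TangentSpace (𝓡 n) (T t₀), dL n (fun q => halfDistSq q x) (T t₀) ξ = inner ℝ W ξ) : ∀ᶠ t in 𝓝 t₀, T t = L.e (T t₀) (((t - t₀) / t₀) • W)  -- two-sided description near an interior point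
* theorem deriv_mid {x₀ : M} (L : LocalNear n M x₀) {x z : M} {T : ℝ → M} (hT : Seg x z T) (hxz : x ≠ z) {t₀ : ℝ} (ht0 : 0 < t₀) (ht1 : t₀ < 1) (hp : T t₀ ∈ L.W) (h : SC n (T t₀) x) {W : TangentSpace (𝓡 n) (T t₀)} (hW : ∀ ξ : TangentSpace (𝓡 n) (T t₀), dL n (fun q => halfDistSq q x) (T t₀) ξ = inner ℝ W ξ) {φ : M → ℝ} (hφ : MDifferentiableAt (𝓡 n) 𝓘(ℝ) φ (T t₀)) : HasDerivAt (fun t => φ (T t)) (dL n φ (T t₀) W / t₀) t₀  -- derivative of `φ` along a minimiser at an interior time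
* theorem deriv_start {x₀ : M} (L : LocalNear n M x₀) {x z : M} (hx : x ∈ L.W) (h : SC n x z) {T : ℝ → M} (hT : Seg x z T) {W : TangentSpace (𝓡 n) x} (hW : ∀ ξ : TangentSpace (𝓡 n) x, dL n (fun q => halfDistSq q z) x ξ = inner ℝ W ξ) {φ : M → ℝ} (hφ : MDifferentiableAt (𝓡 n) 𝓘(ℝ) φ x) : HasDerivWithinAt (fun t => φ (T t)) (-dL n φ x W) (Ici 0) 0  -- right derivative of `φ` along a minimiser at its beginning
* theorem chart_e {x₀ : M} (L : LocalNear n M x₀) {z : M} (hz : z ∈ L.W) (W : TangentSpace (𝓡 n) z) (c : M) (hc : z ∈ (chartAt (EuclideanSpace ℝ (Fin n)) c).source) : HasDerivAt (fun s : ℝ => chartAt (EuclideanSpace ℝ (Fin n)) c (L.e z (s • W))) (dC c z W) 0  -- derivative of a short geodesic read in a chart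
* theorem chart_end {x₀ : M} (L : LocalNear n M x₀) {x z : M} (hz : z ∈ L.W) (h : SC n z x) {T : ℝ → M} (hT : Seg x z T) {W : TangentSpace (𝓡 n) z} (hW : ∀ ξ : TangentSpace (𝓡 n) z, dL n (fun q => halfDistSq q x) z ξ = inner ℝ W ξ) (c : M) (hc : z ∈ (chartAt (EuclideanSpace ℝ (Fin n)) c).source) : HasDerivWithinAt (fun t => chartAt (EuclideanSpace ℝ (Fin n)) c (T t)) (dC c z W : EuclideanSpace ℝ (Fin n)) (Iic 1) 1  -- left velocity at the end, read in a chart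
* theorem chart_mid {x₀ : M} (L : LocalNear n M x₀) {x z : M} {T : ℝ → M} (hT : Seg x z T) (hxz : x ≠ z) {t₀ : ℝ} (ht0 : 0 < t₀) (ht1 : t₀ < 1) (hp : T t₀ ∈ L.W) (h : SC n (T t₀) x) {W : TangentSpace (𝓡 n) (T t₀)} (hW : ∀ ξ : TangentSpace (𝓡 n) (T t₀), dL n (fun q => halfDistSq q x) (T t₀) ξ = inner ℝ W ξ) (c : M) (hc : T t₀ ∈ (chartAt (EuclideanSpace ℝ (Fin n)) c).source) : HasDerivAt (fun t => chartAt (EuclideanSpace ℝ (Fin n)) c (T t)) ((1 / t₀) • (dC c (T t₀) W : EuclideanSpace ℝ (Fin n))) t₀  -- velocity at an interior time, read in a chart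

### R247/Rdg2_879 [ns Crest.Agent.R247.Rdg879] R247 (helper879), leaf (RDG), file 2: over `C : Rad n κ M μ` on the manifold * `seg_of_U` : `(x, z) ∈ C.U → Seg x z (fun t => C.T x t z)` * `ae_Om` : the cut locus of every point is null * `rd_grad` : `RD C x φ (fun z => ⟪Gr f_x z, Gr φ z⟫)`, `f_x = d_x²/2` * `rd_symm` : `RD C v f_b D ∧ RD C b f_v D` * `exists_meas_RD` : a jointly measurable choice of the radial derivatives
* theorem exists_meas_RD (x : X) {Y : Type*} [MeasurableSpace Y] {φ : Y → X → ℝ} (hφ : Measurable (Function.uncurry φ)) (h : ∀ w, ∃ D, RD C x (φ w) D) : ∃ D : X → Y → ℝ, Measurable (Function.uncurry D) ∧ ∀ w, RD C x (φ w) (fun z => D z w)  -- a measurable choice of the radial derivative, jointly in a parameter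
* theorem T_mem_Om {x z : X} (h : (x, z) ∈ C.U) (hxz : x ≠ z) {t : ℝ} (ht : t ∈ Ico (0 : ℝ) 1) : (x, C.T x t z) ∈ Om X  -- points of minimisers
* theorem ae_Om_aux [Nontrivial X] [ProperSpace X] [IsFiniteMeasureOnCompacts μ] (hκ : 0 ≤ κ) (x : X) (hO : MeasurableSet (OmA x)) : ∀ᵐ z ∂μ, (x, z) ∈ Om X  -- the cut locus is null
* theorem nontrivial_of_ne_zero [Nonempty M] (hn : n ≠ 0) : Nontrivial M  -- `n ≠ 0` makes the manifold nontrivial
* def gv (f : M → ℝ) (z : M) : TangentSpace (𝓡 n) z  -- gradient vector in the frame of `Ms6_322`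
* theorem Seg.grad_end {x z : M} (h : SC n z x) {T : ℝ → M} (hT : Seg x z T) {φ : M → ℝ} (hφ : MDifferentiableAt (𝓡 n) 𝓘(ℝ) φ z) : HasDerivWithinAt (fun t => φ (T t)) (inner ℝ (Gr (n := n) (fun q => halfDistSq q x) z) (Gr (n := n) φ z)) (Iic 1) 1  -- pointwise: left derivative of `φ` at the end of a minimiser from `x`
* theorem Seg.grad_start {x z : M} (h : SC n x z) {T : ℝ → M} (hT : Seg x z T) {φ : M → ℝ} (hφ : MDifferentiableAt (𝓡 n) 𝓘(ℝ) φ x) : HasDerivWithinAt (fun t => φ (T t)) (-inner ℝ (Gr (n := n) (fun q => halfDistSq q z) x) (Gr (n := n) φ x)) (Ici 0) 0  -- pointwise: right derivative at the beginning of a minimiser to `z`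
* theorem Seg.grad_mid (hm : ExM M) {x z : M} {T : ℝ → M} (hT : Seg x z T) (hxz : x ≠ z) {t₀ : ℝ} (ht0 : 0 < t₀) (ht1 : t₀ < 1) {φ : M → ℝ} (hφ : MDifferentiableAt (𝓡 n) 𝓘(ℝ) φ (T t₀)) : HasDerivAt (fun t => φ (T t)) (inner ℝ (Gr (n := n) (fun q => halfDistSq q x) (T t₀)) (Gr (n := n) φ (T t₀)) / t₀) t₀  -- pointwise: derivative at an interior time of a minimiser from `x`
* theorem rd_grad (hκ : 0 ≤ κ) (hm : ExM M) (x : M) {φ : M → ℝ} (hφ : ∀ᵐ z ∂μ, MDifferentiableAt (𝓡 n) 𝓘(ℝ) φ z) : RD C x φ (fun z => inner ℝ (Gr (n := n) (fun q => halfDistSq q x) z) (Gr (n := n) φ z))  -- radial derivative = gradient bracket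
* theorem rd_symm (hκ : 0 ≤ κ) (hm : ExM M) (v b : M) : ∃ D : M → ℝ, RD C v (fun z => halfDistSq z b) D ∧ RD C b (fun z => halfDistSq z v) D  -- symmetry of the radial derivative

### R247/Rdg3_879 [ns Crest.Agent.R247.Rdg879] R247 (helper879), leaf (RDG), file 3: `∃ G, GRep C G` (JC5) * `exists_GRep` (abstract, from the symmetry of the radial derivatives) * `exists_GRep_mfd` (on the manifold) * `rd_locLip` : `RD C x φ ⟪Gr f_x, Gr φ⟫` for `φ` locally Lipschitz, `μ = μHE[n]`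
* theorem rd_bound {a b : X} {D : X → ℝ} (h : RD C a (fun u => dist b u ^ 2 / 2) D) : ∀ᵐ u ∂μ, |D u| ≤ dist a u * dist b u  -- the radial derivative of `d_b²/2` from `a` is at most `d_a d_b`
* theorem exists_GRep [SecondCountableTopology X] (hsym : ∀ a b : X, ∃ D : X → ℝ, RD C a (fun u => dist b u ^ 2 / 2) D ∧ RD C b (fun u => dist a u ^ 2 / 2) D) : ∃ G, GRep C G  -- JC5: a jointly measurable, symmetric, bounded representative of all the brackets
* theorem rd_grad' (hκ : 0 ≤ κ) (hm : ExM M) (x : M) {φ : M → ℝ} (hφ : ∀ᵐ z ∂μ, MDifferentiableAt (𝓡 n) 𝓘(ℝ) φ z) : RD C x φ (fun z => inner ℝ (Gr (n := n) (fun u => dist x u ^ 2 / 2) z) (Gr (n := n) φ z))  -- `rd_grad` with `f_x = dist x · ^ 2 / 2`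
* theorem exists_GRep_mfd (hκ : 0 ≤ κ) (hm : ExM M) : ∃ G, GRep C G  -- JC5 on the manifold
* theorem GRep.ae_eq (hκ : 0 ≤ κ) (hm : ExM M) {G : M → M → M → ℝ} (hG : GRep C G) (a b : M) : ∀ᵐ u ∂μ, G a b u = inner ℝ (Gr (n := n) (fun u => dist a u ^ 2 / 2) u) (Gr (n := n) (fun u => dist b u ^ 2 / 2) u)  -- `G a b = ⟪Gr f_a, Gr f_b⟫` a.e. for every `a, b`
* theorem exists_Dw (hκ : 0 ≤ κ) (hm : ExM M) (hμ : ∀ w : M, μ {w} = 0) (x : M) : ∃ Dw : M → M → ℝ, Measurable (Function.uncurry Dw) ∧ ∀ w, RD C x (fun z => dist z w) (fun z => Dw z w)  -- 656's consumer form of JC5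
* theorem rd_locLip [SecondCountableTopology M] [Nonempty M] [Nontrivial M] [IsFiniteMeasureOnCompacts (Measure.euclideanHausdorffMeasure n : Measure M)] (C : Rad n κ M (Measure.euclideanHausdorffMeasure n : Measure M)) (hκ : 0 ≤ κ) (hm : ExM M) (x : M) {φ : M → ℝ} (hφ : LocallyLipschitz φ) : RD C x φ (fun z => inner ℝ (Gr (n := n) (fun u => dist x u ^ 2 / 2) z) (Gr (n := n) φ z))  -- the radial derivative of a locally Lipschitz function, `μ = μHE[n]`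

### R247/Rdg4_879 [ns Crest.Agent.R247.Rdg879] R247 (helper879), leaf (RDG), file 4: block-level forms (instances of S0381, `μ = μHE[n]`, `1 ≤ n`, any real `κ`) * `rd_block` : `RD C x φ ⟪Gr (d_x²/2), Gr φ⟫` for `φ` locally Lipschitz * `grep_block` : `∃ G, GRep C G` * `dw_block` : 656's form of JC5
* theorem rd_grad_of {μ : Measure M} (C : Rad n κ M μ) {x : M} (hsc : ∀ᵐ z ∂μ, SC n z x) {φ : M → ℝ} (hφ : ∀ᵐ z ∂μ, MDifferentiableAt (𝓡 n) 𝓘(ℝ) φ z) : RD C x φ (fun z => inner ℝ (Gr (n := n) (fun u => dist x u ^ 2 / 2) z) (Gr (n := n) φ z))  -- the core form: only `SC n z x` a.e.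
* theorem rd_block [SecondCountableTopology M] [Nonempty M] (hn : 1 ≤ n) (C : Rad n κ M (Measure.euclideanHausdorffMeasure n : Measure M)) (x : M) {φ : M → ℝ} (hφ : LocallyLipschitz φ) : RD C x φ (fun z => inner ℝ (Gr (n := n) (fun u => dist x u ^ 2 / 2) z) (Gr (n := n) φ z))  -- (RDG), block form
* theorem grep_block (hn : 1 ≤ n) (C : Rad n κ M (Measure.euclideanHausdorffMeasure n : Measure M)) : ∃ G, GRep C G  -- (JC5), block form
* theorem rd_symm_block (hn : 1 ≤ n) (C : Rad n κ M (Measure.euclideanHausdorffMeasure n : Measure M)) (a b : M) : ∃ D : M → ℝ, RD C a (fun u => dist b u ^ 2 / 2) D ∧ RD C b (fun u => dist a u ^ 2 / 2) D  -- symmetry of the radial derivatives, block form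
* theorem dw_block (hn : 1 ≤ n) (C : Rad n κ M (Measure.euclideanHausdorffMeasure n : Measure M)) (x : M) : ∃ Dw : M → M → ℝ, Measurable (Function.uncurry Dw) ∧ ∀ w, RD C x (fun z => dist z w) (fun z => Dw z w)  -- 656's consumer form, block form

### R247/Rdg5_879 [ns Crest.Agent.R247.Rdg879] R247 (helper879), leaf (RDG), file 5: the two-point first variation * `two_point` : derivative of `t ↦ dist (a t) (b t)` for two curves with one-sided velocities * `Seg.two_point_end` : for two minimisers from `x`, left derivative at `1` * `two_point_ae` : the same for a.e. pair over `C : Rad n κ M μ`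
* theorem two_point_sq {p q : M} (h : SC n p q) {a b : ℝ → M} {S : Set ℝ} {s₀ : ℝ} (ha0 : a s₀ = p) (hb0 : b s₀ = q) (hac : ContinuousWithinAt a S s₀) (hbc : ContinuousWithinAt b S s₀) {W : TangentSpace (𝓡 n) p} {V : TangentSpace (𝓡 n) q} (ha : HasDerivWithinAt (fun t => chartAt 𝔼 p (a t)) (dC p p W : 𝔼) S s₀) (hb : HasDerivWithinAt (fun t => chartAt 𝔼 q (b t)) (dC q q V : 𝔼) S s₀) : HasDerivWithinAt (fun t => halfDistSq (a t) (b t)) (df (fun u => halfDistSq u q) p W + df (fun u => halfDistSq p u) q V) S s₀  -- two curves, squared distance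
* theorem df_half {p q : M} (h : SC n p q) (hne : p ≠ q) : df (n := n) (fun u => halfDistSq u q) p = dist p q • df (n := n) (fun u => dist q u) p  -- `d(d_q²/2) = d_q · d(d_q)`
* theorem two_point {p q : M} (h : SC n p q) (hne : p ≠ q) {a b : ℝ → M} {S : Set ℝ} {s₀ : ℝ} (ha0 : a s₀ = p) (hb0 : b s₀ = q) (hac : ContinuousWithinAt a S s₀) (hbc : ContinuousWithinAt b S s₀) {W : TangentSpace (𝓡 n) p} {V : TangentSpace (𝓡 n) q} (ha : HasDerivWithinAt (fun t => chartAt 𝔼 p (a t)) (dC p p W : 𝔼) S s₀) (hb : HasDerivWithinAt (fun t => chartAt 𝔼 q (b t)) (dC q q V : 𝔼) S s₀) : HasDerivWithinAt (fun t => dist (a t) (b t)) (df (fun u => dist q u) p W + df (fun u => dist p u) q V) S s₀  -- two curves, distance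
* theorem Seg.continuousWithinAt_end {x z : M} {T : ℝ → M} (hT : Seg x z T) : ContinuousWithinAt T (Iic 1) 1  -- a minimiser is continuous at its end
* theorem Seg.two_point_end {x y p q : M} (hp : SC n p x) (hq : SC n q y) (hpq : SC n p q) (hne : p ≠ q) {a b : ℝ → M} (ha : Seg x p a) (hb : Seg y q b) : HasDerivWithinAt (fun t => dist (a t) (b t)) (inner ℝ (Gr (n := n) (fun u => dist x u ^ 2 / 2) p) (Gr (n := n) (fun u => dist q u) p) + inner ℝ (Gr (n := n) (fun u => dist y u ^ 2 / 2) q) (Gr (n := n) (fun u => dist p u) q)) (Iic 1) 1  -- pointwise two-point first variation for two minimisers from (possibly different) points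
* theorem ae_prod_Om (hm : ExM M) (h : ∀ x : M, ∀ᵐ z ∂μ, (x, z) ∈ Om M) : ∀ᵐ p ∂(μ.prod μ), p ∈ Om M  -- a.e. pair is interior, if this holds for every first point
* theorem two_point_ae_of (C : Rad n κ M μ) (hm : ExM M) (hμ : ∀ w : M, μ {w} = 0) (hOm : ∀ x : M, ∀ᵐ z ∂μ, (x, z) ∈ Om M) (x y : M) : ∀ᵐ p ∂(μ.prod μ), HasDerivWithinAt (fun t => dist (C.T x t p.1) (C.T y t p.2)) (inner ℝ (Gr (n := n) (fun u => dist x u ^ 2 / 2) p.1) (Gr (n := n) (fun u => dist p.2 u) p.1) + inner ℝ (Gr (n := n) (fun u => dist y u ^ 2 / 2) p.2) (Gr (n := n) (fun u => dist p.1 u) p.2)) (Iic 1) 1  -- (E) two-point first variation at almost every pair; `x = y` is 510's form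
* theorem two_point_ae (C : Rad n κ M μ) [Nontrivial M] [IsFiniteMeasureOnCompacts μ] (hκ : 0 ≤ κ) (hm : ExM M) (hμ : ∀ w : M, μ {w} = 0) (x y : M) : ∀ᵐ p ∂(μ.prod μ), HasDerivWithinAt (fun t => dist (C.T x t p.1) (C.T y t p.2)) (inner ℝ (Gr (n := n) (fun u => dist x u ^ 2 / 2) p.1) (Gr (n := n) (fun u => dist p.2 u) p.1) + inner ℝ (Gr (n := n) (fun u => dist y u ^ 2 / 2) p.2) (Gr (n := n) (fun u => dist p.1 u) p.2)) (Iic 1) 1  -- (E), `0 ≤ κ`
* theorem ae_Om_block (hn : 1 ≤ n) (C : Rad n κ M (Measure.euclideanHausdorffMeasure n : Measure M)) (hκ : 0 ≤ κ) (x : M) : ∀ᵐ z ∂(Measure.euclideanHausdorffMeasure n : Measure M), (x, z) ∈ Om M  -- the cut locus is null, block form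
* theorem two_point_block (hn : 1 ≤ n) (C : Rad n κ M (Measure.euclideanHausdorffMeasure n : Measure M)) (hκ : 0 ≤ κ) (x y : M) : ∀ᵐ p ∂((Measure.euclideanHausdorffMeasure n : Measure M).prod (Measure.euclideanHausdorffMeasure n : Measure M)), HasDerivWithinAt (fun t => dist (C.T x t p.1) (C.T y t p.2)) (inner ℝ (Gr (n := n) (fun u => dist x u ^ 2 / 2) p.1) (Gr (n := n) (fun u => dist p.2 u) p.1) + inner ℝ (Gr (n := n) (fun u => dist y u ^ 2 / 2) p.2) (Gr (n := n) (fun u => dist p.1 u) p.2)) (Iic 1) 1  -- (E), block form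

### R247/Rdg6_879 [ns Crest.Agent.R247.Rdg879] R247 (helper879), file 6: the hypotheses `Obj554.LK` and `Smv126.WLap` on the manifold * `norm_Gr_dist` : `‖Gr (dist y) z‖ = 1` at pairs where the cost is smooth * `lk_mfd`, `lk_block` : `Obj554.LK (gradS n M) C` * `wlap_mfd`, `wlap_block` : `Smv126.WLap (gradS n M) n κ`
* theorem inner_Gr_self {x z : M} (h : SC n z x) {T : ℝ → M} (hT : Seg x z T) : inner ℝ (Gr (n := n) (fun q => halfDistSq q x) z) (Gr (n := n) (fun q => halfDistSq q x) z) = dist x z ^ 2  -- `|∇(d_x²/2)|² = d_x²`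
* theorem norm_Gr_dist {y z : M} (h : SC n z y) (hne : z ≠ y) {T : ℝ → M} (hT : Seg y z T) : ‖Gr (n := n) (fun q => dist y q) z‖ = 1  -- `|∇ d_y| = 1` at pairs where the cost is smooth
* theorem lk_mfd (hn : 1 ≤ n) (hm : ExM M) : Obj554.LK (Ms322.gradS n M) C  -- `LK` on the manifold
* theorem wlap_mfd (hn : 1 ≤ n) (hκ : 0 ≤ κ) (hm : ExM M) : Smv126.WLap (Ms322.gradS n M) n κ  -- `WLap` on the manifold
* theorem lk_block (hn : 1 ≤ n) : Obj554.LK (Ms322.gradS n M) C  -- `LK`, block form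
* theorem wlap_block (hn : 1 ≤ n) (hκ : 0 ≤ κ) : Smv126.WLap (Ms322.gradS n M) n κ  -- `WLap`, block form

### R247/Ray1_97 [ns Crest.Agent.R247.Ray97] R247 (helper97), block (6f), part 1: calculus along rays in coordinates (index free). `HessAt Γx u x X Y = D²u(X,Y) - du(Γ(X,Y))`; gradient fields; eikonal functions have `Hess d (∇d, ·) = 0`, i.e. integral curves of `∇d` are geodesics; derivatives along curves of `du(γ')` and `⟨∇u, ∇v⟩`.
* def HessAt (Γx : E →L[ℝ] E →L[ℝ] E) (u : E → ℝ) (x X Y : E) : ℝ  -- The Hessian of `u` at `x` for the connection with Christoffel map `Γx` at `x`.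
* theorem hessAt_eq (hLC : IsLC G x Γx) (hsym : ∀ U V, G x U V = G x V U) (hdsym : ∀ W U V, fderiv ℝ G x W U V = fderiv ℝ G x W V U) (hG : DifferentiableAt ℝ G x) (hV : DifferentiableAt ℝ V x) (hu : ContDiffAt ℝ 2 u x) (hgrad : ∀ᶠ z in 𝓝 x, ∀ Y, G z (V z) Y = fderiv ℝ u z Y) (X Y : E) : HessAt Γx u x X Y = G x (fderiv ℝ V x X + Γx X (V x)) Y  -- `Hess u (X, Y) = ⟨∇_X ∇u, Y⟩`
* theorem fderiv_inner_grad (hLC : IsLC G x Γx) (hsym : ∀ U V, G x U V = G x V U) (hdsym : ∀ W U V, fderiv ℝ G x W U V = fderiv ℝ G x W V U) (hG : DifferentiableAt ℝ G x) (hV : DifferentiableAt ℝ V x) (hu : ContDiffAt ℝ 2 u x) (hgrad : ∀ᶠ z in 𝓝 x, ∀ Y, G z (V z) Y = fderiv ℝ u z Y) {v : E → ℝ} {W : E → E} (hW : DifferentiableAt ℝ W x) (hv : ContDiffAt ℝ 2 v x) (hgradv : ∀ᶠ z in 𝓝 x, ∀ Y, G z (W z) Y = fderiv ℝ v z Y) (X : E) : fderiv ℝ (fun z => G z (V z) (W z)) x X = HessAt Γx u x X (W x) + HessAt Γx v x X (V x)  -- derivative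 of `⟨∇u, ∇v⟩`
* theorem hessAt_eikonal (hLC : IsLC G x Γx) (hsym : ∀ U V, G x U V = G x V U) (hdsym : ∀ W U V, fderiv ℝ G x W U V = fderiv ℝ G x W V U) (hG : DifferentiableAt ℝ G x) (hV : DifferentiableAt ℝ V x) (hu : ContDiffAt ℝ 2 u x) (hgrad : ∀ᶠ z in 𝓝 x, ∀ Y, G z (V z) Y = fderiv ℝ u z Y) {C : ℝ} (heik : ∀ᶠ z in 𝓝 x, G z (V z) (V z) = C) (X : E) : HessAt Γx u x X (V x) = 0  -- the eikonal equation kills `Hess d (·, ∇d)`
* theorem eikonal_geodesic (hLC : IsLC G x Γx) (hsym : ∀ U V, G x U V = G x V U) (hdsym : ∀ W U V, fderiv ℝ G x W U V = fderiv ℝ G x W V U) (hG : DifferentiableAt ℝ G x) (hV : DifferentiableAt ℝ V x) (hΓ : ∀ X Y, Γx X Y = Γx Y X) (hnd : ∀ U, (∀ Z, G x U Z = 0) → U = 0) (hu : ContDiffAt ℝ 2 u x) (hgrad : ∀ᶠ z in 𝓝 x, ∀ Y, G z (V z) Y = fderiv ℝ u z Y) {C : ℝ} (heik : ∀ᶠ z in 𝓝 x, G z (V z) (V z) = C) : fderiv ℝ V x (V x) = - Γx (V x) (V x)  -- integral curves of the gradient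 of an eikonal function are geodesics
* theorem hasDerivAt_fderiv_ray {c : ℝ → E} {s : ℝ} (hxc : c s = x) (hc : HasDerivAt c (V x) s) (hLC : IsLC G x Γx) (hsym : ∀ U V, G x U V = G x V U) (hdsym : ∀ W U V, fderiv ℝ G x W U V = fderiv ℝ G x W V U) (hG : DifferentiableAt ℝ G x) (hV : DifferentiableAt ℝ V x) (hΓ : ∀ X Y, Γx X Y = Γx Y X) (hnd : ∀ U, (∀ Z, G x U Z = 0) → U = 0) (hu : ContDiffAt ℝ 2 u x) (hgrad : ∀ᶠ z in 𝓝 x, ∀ Y, G z (V z) Y = fderiv ℝ u z Y) {C : ℝ} (heik : ∀ᶠ z in 𝓝 x, G z (V z) (V z) = C) {v : E → ℝ} (hv : ContDiffAt ℝ 2 v x) : HasDerivAt (fun t => fderiv ℝ v (c t) (V (c t))) ( …  -- second derivative along an integral curve of an eikonal gradient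
* def hess (g : MetricField n) (u : EE → ℝ) (x X Y : EE) : ℝ  -- coordinate Hessian for the metric field `g`

### R247/Ray2_97 [ns Crest.Agent.R247.Ray97] R247 (helper97), block (6f), part 2: minimisers are `C¹` in charts, with velocity the gradient of the cost (no exponential map, no Rademacher): the pointwise argument `|q - σw|² = |q|² - 2σ⟨q,w⟩ + |w|² → 0`.
* theorem hasDerivWithinAt_chart (x₀ : M) {γ : ℝ → M} {S : Set ℝ} {s₀ : ℝ} {p : M} (hp : p ∈ (chartAt 𝔼 x₀).source) (hγ : γ s₀ = p) {L : ℝ} (hL : 0 ≤ L) (hLip : ∀ᶠ s in 𝓝[S] s₀, dist (γ s) p ≤ L * |s - s₀|) {F : 𝔼 → ℝ} {w : 𝔼} (hF : DifferentiableAt ℝ F (chartAt 𝔼 x₀ p)) (hw : ∀ ξ, fderiv ℝ F (chartAt 𝔼 x₀ p) ξ = gm x₀ (chartAt 𝔼 x₀ p) w ξ) (hww : gm x₀ (chartAt 𝔼 x₀ p) w w = L ^ 2) {σ : ℝ} (hσ : σ ^ 2 = 1) (hD : HasDerivWithinAt (fun s => F (chartAt 𝔼 x₀ (γ s))) (σ * L ^ 2) S s₀) : HasDerivWithinAt (fun s => chartAt 𝔼 x₀ (γ s)) (σ • w)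 S s₀  -- pointwise velocity lemma. A curve with `dist (γ s) p ≤ L |s - s₀|`, along which `F` increases at the maximal rate `σ L²`, `|∇F(p)| = L`, has velocity `σ ∇F(
* theorem grad_fz (hm : ExM M) {z x₀ : M} {a : 𝔼} (ha : a ∈ (chartAt 𝔼 x₀).target) (h : SC n z ((chartAt 𝔼 x₀).symm a)) : (∀ ξ, fderiv ℝ (fz z x₀) a ξ = gm x₀ a (grad (chartMetric n M x₀) (fz z x₀) a) ξ) ∧ gm x₀ a (grad (chartMetric n M x₀) (fz z x₀) a) (grad (chartMetric n M x₀) (fz z x₀) a) = dist z ((chartAt 𝔼 x₀).symm a) ^ 2  -- the gradient of the cost in a chart, in 84's form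
* theorem hasDerivWithinAt_from (hm : ExM M) (x₀ : M) {x : M} {γ : ℝ → M} {S : Set ℝ} {s ℓ : ℝ} (hs : 0 < s) (hp : γ s ∈ (chartAt 𝔼 x₀).source) (h : SC n x (γ s)) (hℓ : 0 ≤ ℓ) (hxs : dist x (γ s) = ℓ * s) (hx : ∀ᶠ t in 𝓝[S] s, dist x (γ t) = ℓ * t) (hd : ∀ᶠ t in 𝓝[S] s, dist (γ t) (γ s) ≤ ℓ * |t - s|) : HasDerivWithinAt (fun t => chartAt 𝔼 x₀ (γ t)) (s⁻¹ • grad (chartMetric n M x₀) (fz x x₀) (chartAt 𝔼 x₀ (γ s))) S s  -- velocity of a minimiser issued from `x` (one- or two-sided, in any chart).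
* theorem hasDerivWithinAt_to (hm : ExM M) (x₀ : M) {v : M} {γ : ℝ → M} {S : Set ℝ} {s b ℓ : ℝ} (hs : s < b) (hp : γ s ∈ (chartAt 𝔼 x₀).source) (h : SC n v (γ s)) (hℓ : 0 ≤ ℓ) (hxs : dist v (γ s) = ℓ * (b - s)) (hx : ∀ᶠ t in 𝓝[S] s, dist v (γ t) = ℓ * (b - t)) (hd : ∀ᶠ t in 𝓝[S] s, dist (γ t) (γ s) ≤ ℓ * |t - s|) : HasDerivWithinAt (fun t => chartAt 𝔼 x₀ (γ t)) (-((b - s)⁻¹ • grad (chartMetric n M x₀) (fz v x₀) (chartAt 𝔼 x₀ (γ s)))) S s  -- velocity of a minimiser ending at `v` (one- or two-sided, in any chart).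
* theorem hasDerivWithinAt_comp_chart (x₀ : M) {φ : M → ℝ} {γ : ℝ → M} {S : Set ℝ} {s : ℝ} {v : 𝔼} (hp : γ s ∈ (chartAt 𝔼 x₀).source) (hγ : Tendsto γ (𝓝[S] s) (𝓝 (γ s))) (hc : HasDerivWithinAt (fun t => chartAt 𝔼 x₀ (γ t)) v S s) (hφ : DifferentiableAt ℝ (fun b => φ ((chartAt 𝔼 x₀).symm b)) (chartAt 𝔼 x₀ (γ s))) : HasDerivWithinAt (fun t => φ (γ t)) (fderiv ℝ (fun b => φ ((chartAt 𝔼 x₀).symm b)) (chartAt 𝔼 x₀ (γ s)) v) S s  -- chain rule along a curve in a chart, for a function differentiable in the chart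

### R247/Ray3_97 [ns Crest.Agent.R247.Ray97 / IsRay] R247 (helper97), block (6f), part 3: second derivatives along minimisers. `IsRay x γ ℓ b`: `γ : [0,b] → M` is a minimiser of constant speed `ℓ > 0` issued from `x`. For `0 < s < b` and `w : M → ℝ`: * `(w ∘ γ)' (s) = s⁻¹ ⟨∇w, ∇f_x⟩(γ s)`, `f_x = d_x²/2`; * `(w ∘ γ)'' (s) = s⁻² Hess w (∇f_x, ∇f_x)(γ s)`.
* structure IsRay {M : Type*} [MetricSpace M] (x : M) (γ : ℝ → M) (ℓ b : ℝ) : Prop where pos : 0 < ℓ bpos : 0 < b zero : γ 0 = x dist' : ∀ s ∈ Icc 0 b, ∀ t ∈ Icc 0 b, dist (γ s) (γ t) = ℓ * |s - t|  -- `γ` is, on `[0,b]`, a minimiser of constant speed `ℓ > 0` issued from `x`.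
* theorem IsRay.hasDerivAt_chart (hm : ExM M) {x : M} {γ : ℝ → M} {ℓ b s : ℝ} (h : IsRay x γ ℓ b) (hs : s ∈ Ioo 0 b) (x₀ : M) (hp : γ s ∈ (chartAt 𝔼 x₀).source) : HasDerivAt (fun t => chartAt 𝔼 x₀ (γ t)) (s⁻¹ • grad (chartMetric n M x₀) (fz x x₀) (chartAt 𝔼 x₀ (γ s))) s  -- velocity in a chart, interior times
* theorem eventually_gam_fz (hm : ExM M) {x p : M} (hO : (x, p) ∈ Om M) (x₀ : M) (hp : p ∈ (chartAt 𝔼 x₀).source) : ∀ᶠ y in 𝓝 (chartAt 𝔼 x₀ p), gam (chartMetric n M x₀) (fz x x₀) (fz x x₀) y = 2 * fz x x₀ y  -- the eikonal equation near a point of `Om`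
* theorem IsRay.hasDerivAt_fderiv (hm : ExM M) {x : M} {γ : ℝ → M} {ℓ b s : ℝ} (h : IsRay x γ ℓ b) (hs : s ∈ Ioo 0 b) (x₀ : M) (hp : γ s ∈ (chartAt 𝔼 x₀).source) {w : 𝔼 → ℝ} (hw : ContDiffAt ℝ 2 w (chartAt 𝔼 x₀ (γ s))) : HasDerivAt (fun t => fderiv ℝ w (chartAt 𝔼 x₀ (γ t)) (t⁻¹ • grad (chartMetric n M x₀) (fz x x₀) (chartAt 𝔼 x₀ (γ t)))) (hess (chartMetric n M x₀) w (chartAt 𝔼 x₀ (γ s)) (s⁻¹ • grad (chartMetric n M x₀) (fz x x₀) (chartAt 𝔼 x₀ (γ s))) (s⁻¹ • grad (chartMetric n M x₀) (fz x x₀) (chartAt 𝔼 x₀ (γ s)))) s  -- second derivative in a chart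
* theorem IsRay.hasDerivAt_comp (hm : ExM M) (h : IsRay x γ ℓ b) (hs : s ∈ Ioo 0 b) {w : M → ℝ} (hw : MDifferentiableAt (𝓡 n) 𝓘(ℝ, ℝ) w (γ s)) : HasDerivAt (fun t => w (γ t)) (s⁻¹ * mGam n w (halfDistSq x) (γ s)) s  -- first derivative along a minimiser, interior times, invariant form.
* theorem IsRay.hasDerivAt_mGam (hm : ExM M) (h : IsRay x γ ℓ b) (hs : s ∈ Ioo 0 b) {w : M → ℝ} (hw : ContMDiffAt (𝓡 n) 𝓘(ℝ, ℝ) 2 w (γ s)) : HasDerivAt (fun t => t⁻¹ * mGam n w (halfDistSq x) (γ t)) (s⁻¹ ^ 2 * mHess n w (γ s) (mgrad n (halfDistSq x) (γ s)) (mgrad n (halfDistSq x) (γ s))) s  -- second derivative along a minimiser, interior times, invariant form.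
* theorem IsRay.hasDerivAt_deriv (hm : ExM M) (h : IsRay x γ ℓ b) (hs : s ∈ Ioo 0 b) {w : M → ℝ} (hw : ContMDiffAt (𝓡 n) 𝓘(ℝ, ℝ) 2 w (γ s)) : HasDerivAt (deriv (fun t => w (γ t))) (s⁻¹ ^ 2 * mHess n w (γ s) (mgrad n (halfDistSq x) (γ s)) (mgrad n (halfDistSq x) (γ s))) s  -- second derivative, `deriv` form.
* theorem norm_mgrad_halfDistSq (hm : ExM M) {p : M} (hp : SC n x p) : ‖mgrad n (halfDistSq x) p‖ = dist x p  -- the gradient of `f_x` has norm `ℓ s` on the ray.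
* theorem IsRay.hasDerivWithinAt_end (hm : ExM M) (h : IsRay x γ ℓ b) (hSC : SC n x (γ b)) {w : M → ℝ} (hw : MDifferentiableAt (𝓡 n) 𝓘(ℝ, ℝ) w (γ b)) : HasDerivWithinAt (fun t => w (γ t)) (b⁻¹ * mGam n w (halfDistSq x) (γ b)) (Iic b) b  -- derivative at the far end, one-sided.
* theorem IsRay.hasDerivWithinAt_zero (hm : ExM M) (h : IsRay x γ ℓ b) (hSC : SC n (γ b) x) {w : M → ℝ} (hw : MDifferentiableAt (𝓡 n) 𝓘(ℝ, ℝ) w x) : HasDerivWithinAt (fun t => w (γ t)) (-(b⁻¹ * mGam n w (halfDistSq (γ b)) x)) (Ici 0) 0  -- derivative at the starting point, one-sided.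

### R247/Ray4_97 [ns Crest.Agent.R247.Ray97] R247 (helper97), block (6f), part 4: first and second order Taylor inequalities along a minimiser.
* theorem contMDiffAt_halfDistSq {p : M} (h : SC n x p) : ContMDiffAt (𝓡 n) 𝓘(ℝ, ℝ) ∞ (halfDistSq x) p  -- the cost from `x` is smooth at a point of smoothness
* theorem IsRay.vel_eq (hm : ExM M) (h : IsRay x γ ℓ b) (hs : s ∈ Ioo 0 b) {w : M → ℝ} (hw : MDifferentiableAt (𝓡 n) 𝓘(ℝ, ℝ) w (γ s)) : s⁻¹ * mGam n w (halfDistSq x) (γ s) = -((b - s)⁻¹ * mGam n w (halfDistSq (γ b)) (γ s))  -- the velocity from both ends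
* theorem IsRay.tendsto_deriv (hm : ExM M) (h : IsRay x γ ℓ b) (hSC : SC n (γ b) x) {w : M → ℝ} (hw : ContMDiffAt (𝓡 n) 𝓘(ℝ, ℝ) 2 w x) : Tendsto (fun s => s⁻¹ * mGam n w (halfDistSq x) (γ s)) (𝓝[>] 0) (𝓝 (-(b⁻¹ * mGam n w (halfDistSq (γ b)) x)))  -- the first derivative tends to the one-sided derivative at the starting point.
* theorem IsRay.taylor (hm : ExM M) (h : IsRay x γ ℓ 1) (hSC : SC n (γ 1) x) {w : M → ℝ} (hw : ∀ t ∈ Icc (0 : ℝ) 1, ContMDiffAt (𝓡 n) 𝓘(ℝ, ℝ) 2 w (γ t)) {K : M → ℝ≥0∞} (hK : ∀ t ∈ Ioo (0 : ℝ) 1, ∀ ξ : TangentSpace (𝓡 n) (γ t), ENNReal.ofReal |mHess n w (γ t) ξ ξ - ‖ξ‖ ^ 2| ≤ K (γ t) * ENNReal.ofReal (‖ξ‖ ^ 2)) : ENNReal.ofReal |mGam n w (halfDistSq (γ 1)) x - w x - halfDistSq (γ 1) x + w (γ 1)| ≤ ENNReal.ofReal (ℓ ^ 2) * ∫⁻ t in Icc (0 : ℝ) 1, ENNReal.ofReal (1 - t) * K (γ t)  -- second order Taylor inequality along a minimiser (literal form of doc 1349, sec. 2).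
* theorem IsRay.ftc (hm : ExM M) (h : IsRay x γ ℓ 1) {w : M → ℝ} (hw : ∀ t ∈ Icc (0 : ℝ) 1, MDifferentiableAt (𝓡 n) 𝓘(ℝ, ℝ) w (γ t)) : ENNReal.ofReal |w (γ 1) - w x| ≤ ENNReal.ofReal ℓ * ∫⁻ t in Icc (0 : ℝ) 1, ENNReal.ofReal ‖mgrad n w (γ t)‖  -- first order inequality along a minimiser

### R247/Ray4a_97 [ns Crest.Agent.R247.Ray97] R247 (helper97), block (6f), part 4a: first and second order Taylor inequalities on `[0,1]` for a function which is (twice) differentiable on the open interval, with `ℝ≥0∞`-valued bounds (no integrability or measurability hypothesis on the bound).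
* theorem ftc_1d {φ φ' : ℝ → ℝ} {K : ℝ → ℝ≥0∞} (hc : ContinuousOn φ (Icc 0 1)) (h1 : ∀ t ∈ Ioo (0 : ℝ) 1, HasDerivAt φ (φ' t) t) (hK : ∀ t ∈ Ioo (0 : ℝ) 1, ENNReal.ofReal |φ' t| ≤ K t) : ENNReal.ofReal |φ 1 - φ 0| ≤ ∫⁻ t in Icc (0 : ℝ) 1, K t  -- FTC inequality
* theorem taylor_1d {φ φ' φ'' : ℝ → ℝ} {d0 c : ℝ} {K : ℝ → ℝ≥0∞} (hc : ContinuousOn φ (Icc 0 1)) (h1 : ∀ t ∈ Ioo (0 : ℝ) 1, HasDerivAt φ (φ' t) t) (h2 : ∀ t ∈ Ioo (0 : ℝ) 1, HasDerivAt φ' (φ'' t) t) (h0 : Tendsto φ' (𝓝[>] 0) (𝓝 d0)) (hK : ∀ t ∈ Ioo (0 : ℝ) 1, ENNReal.ofReal |φ'' t - c| ≤ K t) : ENNReal.ofReal |φ 1 - φ 0 - d0 - c / 2| ≤ ∫⁻ t in Icc (0 : ℝ) 1, ENNReal.ofReal (1 - t) * K t  -- second order Taylor inequality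

### R247/Ray5_97 [ns Crest.Agent.R247.Ray97] R247 (helper97), block (6f), part 5: the manifold instances of the hypotheses `TaylorP`, `UnitA`, `UnitP`, `RDG` of `Loc1_710` (over `Gr`, `mHess` in the frame of `Ms6_322`, and any `Rad`).
* theorem exists_vf (z : M) (ξ : TangentSpace (𝓡 n) z) : ∃ v : 𝔼, ξ = vf z v  -- every tangent vector is a frame vector
* theorem abs_mHess_sub_le {w : M → ℝ} {z : M} {A : S n} (hA : ∀ i j, A (i, j) = mHess n w z (fr z i) (fr z j)) (ξ : TangentSpace (𝓡 n) z) : |mHess n w z ξ ξ - ‖ξ‖ ^ 2| ≤ ‖A - idm n‖ * ‖ξ‖ ^ 2  -- the deviation of the Hessian from the metric, on vectors, is controlled by the norm of the frame matrix.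
* theorem taylor_pt (hm : ExM M) (C : Rad n κ' M μ) {w : M → ℝ} (hw : ContMDiff (𝓡 n) 𝓘(ℝ, ℝ) 2 w) {A : M → S n} (hA : ∀ z i j, A z (i, j) = mHess n w z (fr z i) (fr z j)) {u v : M} (hU : (u, v) ∈ C.U) (hSC : SC n v u) : ENNReal.ofReal |inner ℝ (Gr (n := n) w u) (Gr (n := n) (fx v) u) - w u - fx v u + w v| ≤ ENNReal.ofReal (dist u v ^ 2) * ∫⁻ t in Icc (0 : ℝ) 1, ENNReal.ofReal ‖A (C.T u t v) - idm n‖  -- pointwise Taylor inequality
* theorem ftc_pt (hm : ExM M) (C : Rad n κ' M μ) {w : M → ℝ} {u v : M} (hU : (u, v) ∈ C.U) (hw : ∀ t ∈ Icc (0 : ℝ) 1, MDifferentiableAt (𝓡 n) 𝓘(ℝ, ℝ) w (C.T u t v)) : ENNReal.ofReal |w v - w u| ≤ ENNReal.ofReal (dist u v) * ∫⁻ t in Icc (0 : ℝ) 1, ENNReal.ofReal ‖Gr (n := n) w (C.T u t v)‖  -- pointwise first order inequality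
* theorem taylorP (hκ : 0 ≤ κ') (hm : ExM M) (C : Rad n κ' M μ) {κ : ℝ} (B : BochS n κ M μ) (hG : B.G = Gr (n := n)) (hcore : ∀ w ∈ B.core, ContMDiff (𝓡 n) 𝓘(ℝ, ℝ) 2 w) (hH : ∀ w ∈ B.core, ∀ z i j, B.H w z (i, j) = mHess n w z (fr z i) (fr z j)) : TaylorP B C  -- `TaylorP` of `Loc1_710`
* theorem unitA (hκ : 0 ≤ κ') (hm : ExM M) (C : Rad n κ' M μ) (S : GradS M (F n) μ) (hG : S.G = Gr (n := n)) : UnitA S  -- `UnitA` of `Loc1_710`
* theorem unitP (hκ : 0 ≤ κ') (hm : ExM M) (C : Rad n κ' M μ) (S : GradS M (F n) μ) (hG : S.G = Gr (n := n)) : UnitP S  -- `UnitP` of `Loc1_710`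
* theorem rdg [IsFiniteMeasureOnCompacts (μHE[n] : Measure M)] (hκ : 0 ≤ κ') (hm : ExM M) (C : Rad n κ' M (μHE[n] : Measure M)) (S : GradS M (F n) (μHE[n] : Measure M)) (hG : S.G = Gr (n := n)) : RDG S C  -- `RDG` of `Loc1_710` (for the Riemannian measure)

### R247/Vel1_338 [ns Crest.Agent.R247.Vel338] R247 (helper338), leaf (1-V), file 1: infinitesimal law of cosines at a point. * `hasDerivAt_e`: `t ↦ e x (t v)` read in the chart at `x` has derivative `v` at `0` (any `v`); * `tendsto_dist_div`: `dist (e x (t v)) (e x (t w)) / t → ‖v - w‖` as `t → 0+`; * `ray_at`: near `P` the (unique) minimiser from `P` to `x` is `h ↦ e P (-h W)`, `W` the gradient of `d_x²/2` at `P`; * `vel_point`: the law of cosines + first varia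
* theorem contDiffAt_e {x : M} (hx : x ∈ L.W) : ContDiffAt ℝ ∞ (fun u : TangentSpace (𝓡 n) x => chartAt 𝔼 x (L.e x u)) 0  -- `u ↦ e x u` is smooth at small vectors, read in the chart at `x`.
* theorem hasDerivAt_e_small {x : M} (hx : x ∈ L.W) {v : TangentSpace (𝓡 n) x} (hv : ‖v‖ < L.r) : HasDerivAt (fun t : ℝ => chartAt 𝔼 x (L.e x (t • v))) (v : 𝔼) 0  -- velocity at `0` of the curve `t ↦ e x (t v)`, for small `v`
* theorem hasDerivAt_e {x : M} (hx : x ∈ L.W) (v : TangentSpace (𝓡 n) x) : HasDerivAt (fun t : ℝ => chartAt 𝔼 x (L.e x (t • v))) (v : 𝔼) 0  -- velocity at `0` of the curve `t ↦ e x (t v)`, for every `v`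
* theorem tendsto_dist_div_of {x : M} {γ η : ℝ → M} {v w : TangentSpace (𝓡 n) x} (hγ : Tendsto γ (𝓝[>] 0) (𝓝 x)) (hη : Tendsto η (𝓝[>] 0) (𝓝 x)) (hγ' : HasDerivWithinAt (fun t => chartAt 𝔼 x (γ t)) (v : 𝔼) (Ioi 0) 0) (hγ0 : γ 0 = x) (hη' : HasDerivWithinAt (fun t => chartAt 𝔼 x (η t)) (w : 𝔼) (Ioi 0) 0) (hη0 : η 0 = x) : Tendsto (fun t : ℝ => dist (γ t) (η t) / t) (𝓝[>] 0) (𝓝 ‖v - w‖)  -- Infinitesimal distance between two curves through `x` with chart velocities `v`, `w`.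
* theorem tendsto_dist_div {x₀ : M} (L : LocalNear n M x₀) {x : M} (hx : x ∈ L.W) (v w : TangentSpace (𝓡 n) x) : Tendsto (fun t : ℝ => dist (L.e x (t • v)) (L.e x (t • w)) / t) (𝓝[>] 0) (𝓝 ‖v - w‖)  -- law of cosines, exponential form

### R247/Vel2_338 [ns Crest.Agent.R247.Vel338] R247 (helper338), leaf (1-V), file 2: first variation and law of cosines at a point for the minimiser `γ` through `P = γ s₀` and the minimiser `η` from `P` to `x`.
* theorem ray_at (hm : ExM M) {P : M} (L : LocalNear n M P) {x P' : M} (hxP : x ≠ P) (hb : dist x P + dist P P' = dist x P') (hP' : P ≠ P') : ∃ W : TangentSpace (𝓡 n) P, ‖W‖ = dist x P ∧ (∀ ξ : TangentSpace (𝓡 n) P, dL n (fun q => halfDistSq q x) P ξ = inner ℝ W ξ) ∧ ∃ ρ : ℝ, 0 < ρ ∧ ρ ≤ 1 ∧ ∀ h ∈ Icc (0 : ℝ) ρ, ∀ c, dist x c + dist c P = dist x P → dist c P = h * dist x P → c = L.e P (-(h • W))  -- near `P` the minimiser from `P` to `x` is `h ↦ e P (-h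 W)`, with `W` the gradient of `d_x² / 2` at `P`.
* theorem seg_at (hm : ExM M) {γ : ℝ → M} {s₀ l : ℝ} (hs₀ : s₀ ∈ Ioo (0 : ℝ) 1) (hl : 0 < l) (hγ : ∀ s ∈ Icc (0 : ℝ) 1, ∀ t ∈ Icc (0 : ℝ) 1, dist (γ s) (γ t) = |s - t| * l) (L : LocalNear n M (γ s₀)) : ∃ V : TangentSpace (𝓡 n) (γ s₀), ‖V‖ = l ∧ ∃ δ : ℝ, 0 < δ ∧ ∀ h, |h| ≤ δ → γ (s₀ + h) = L.e (γ s₀) (h • V)  -- a minimising curve through `P` at an interior time is `h ↦ e P (h V)` near `P`.
* theorem hasDerivAt_comp_e {P : M} (L : LocalNear n M P) {f : M → ℝ} (hf : MDifferentiableAt (𝓡 n) 𝓘(ℝ) f P) (V : TangentSpace (𝓡 n) P) : HasDerivAt (fun h : ℝ => f (L.e P (h • V))) (dL n f P V) 0  -- derivative of a function on `M` along an exponential curve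
* theorem vel_point (hm : ExM M) {γ η : ℝ → M} {s₀ l D : ℝ} (hs₀ : s₀ ∈ Ioo (0 : ℝ) 1) (hl : 0 < l) (hγ : ∀ s ∈ Icc (0 : ℝ) 1, ∀ t ∈ Icc (0 : ℝ) 1, dist (γ s) (γ t) = |s - t| * l) (hD : 0 < D) (hη : ∀ s ∈ Icc (0 : ℝ) 1, ∀ t ∈ Icc (0 : ℝ) 1, dist (η s) (η t) = |s - t| * D) (hη0 : η 0 = γ s₀) {x P' : M} (hx : η 1 = x) (hb : dist x (γ s₀) + dist (γ s₀) P' = dist x P') (hP' : γ s₀ ≠ P') : ∃ ca : ℝ, |ca| ≤ 1 ∧ HasDerivAt (fun s => dist x (γ s)) (-(l * ca)) s₀ ∧ ∀ ν : ℝ, 0 ≤ ν → Tendsto (fun h => dist (γ (s₀ + h)) (η (ν * h)) / h) (𝓝[>] 0) (𝓝 (√(l ^ 2 + (ν * D)  …  -- first variation + infinitesimal law of cosines at an interior point `P = γ s₀` of a minimiser `γ`, with respect to a centre `x = η 1` such that `P` is inter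

### R247/Vel3_338 [ns Crest.Agent.R247.Vel338] R247 (helper338), leaf (1-V), file 3 (metric measure part): almost every point is interior to a minimiser from `x` (over `Rad`).
* def Int' (x : X) : Set X  -- points interior to a minimiser from `x`
* theorem ae_int [ProperSpace X] [IsFiniteMeasureOnCompacts μ] (hκ : 0 ≤ κ) (x : X) : ∀ᵐ P ∂μ, x ≠ P → P ∈ Int' x  -- almost every `P ≠ x` is interior to a minimiser from `x`

### R247/Vel4_338 [ns Crest.Agent.R247.Vel338] R247 (helper338), leaf (1-V), file 4: the fields `vel` and `sym` of `Far553.FarD` on the manifold, over `Rad`.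
* theorem vel_pair (hm : ExM M) {x y P : M} (hxP : x ≠ P) (hyP : y ≠ P) (hx : P ∈ Int' x) (hy : P ∈ Int' y) {α β : ℝ → M} (hα : ∀ t ∈ Icc (0 : ℝ) 1, dist x (α t) = t * dist x P ∧ dist (α t) P = (1 - t) * dist x P) (hβ : ∀ t ∈ Icc (0 : ℝ) 1, dist y (β t) = t * dist y P ∧ dist (β t) P = (1 - t) * dist y P) : ∃ Γ : ℝ, |Γ| ≤ dist x P * dist y P ∧ HasDerivWithinAt (fun t : ℝ => dist x (β t) ^ 2 / 2) Γ (Iio 1) 1 ∧ HasDerivWithinAt (fun t : ℝ => dist y (α t) ^ 2 / 2) Γ (Iio 1) 1 ∧ ∀ a b : ℝ, 0 ≤ a → 0 ≤ b → Tendsto (fun ε : ℝ => dist (α (1 - a * ε)) (β (1 - b * ε …  -- pointwise statement at a point `P` interior to minimisers from `x` and from `y`; `α`, `β` are the rays `t ↦ T x t P`, `t ↦ T y t P`.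
* theorem vel_all (hm : ExM M) (hκ : 0 ≤ κ) (C : Rad n κ M μ) (x y : M) : ∀ᵐ P ∂μ, ∃ Γ : ℝ, |Γ| ≤ dist x P * dist y P ∧ HasDerivWithinAt (fun t : ℝ => dist x (C.T y t P) ^ 2 / 2) Γ (Iio 1) 1 ∧ HasDerivWithinAt (fun t : ℝ => dist y (C.T x t P) ^ 2 / 2) Γ (Iio 1) 1 ∧ ∀ a b : ℝ, 0 ≤ a → 0 ≤ b → Tendsto (fun ε : ℝ => dist (C.T x (1 - a * ε) P) (C.T y (1 - b * ε) P) / ε) (𝓝[>] 0) (𝓝 (√(a ^ 2 * dist x P ^ 2 + b ^ 2 * dist y P ^ 2 - 2 * a * b * Γ)))  -- (VEL) over `Rad`, all forms at once.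
* theorem vel_field (hm : ExM M) (hκ : 0 ≤ κ) (C : Rad n κ M μ) (x : M) : ∀ y : M, ∀ᵐ P ∂μ, ∃ Γ : ℝ, HasDerivWithinAt (fun t : ℝ => dist x (C.T y t P) ^ 2 / 2) Γ (Iio 1) 1 ∧ ∀ a b : ℝ, 0 ≤ a → 0 ≤ b → Tendsto (fun ε : ℝ => dist (C.T x (1 - a * ε) P) (C.T y (1 - b * ε) P) / ε) (𝓝[>] 0) (𝓝 (Real.sqrt (a ^ 2 * dist x P ^ 2 + b ^ 2 * dist y P ^ 2 - 2 * a * b * Γ)))  -- the field `vel` of `Far553.FarD`
* theorem sym_field (hm : ExM M) (hκ : 0 ≤ κ) (C : Rad n κ M μ) : ∀ a b : M, ∃ Γ : M → ℝ, Measurable Γ ∧ RD C a (fun z => dist b z ^ 2 / 2) Γ ∧ RD C b (fun z => dist a z ^ 2 / 2) Γ  -- the field `sym` of `Far553.FarD`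

### R247/Vel5_338 [ns Crest.Agent.R247.Vel338] R247 (helper338), leaf (1-V), file 5: the field `vel` of `Far553.FarD` (version 2, product form).
* theorem vel_cos (hm : ExM M) (C : Rad n κ M μ) {x y P : M} (hxU : (x, P) ∈ C.U) (hyU : (y, P) ∈ C.U) (hIx : x ≠ P → P ∈ Int' x) (hIy : y ≠ P → P ∈ Int' y) : ∃ cs ∈ Icc (-1 : ℝ) 1, HasDerivWithinAt (fun t : ℝ => dist x (C.T y t P)) (cs * dist y P) (Iio 1) 1 ∧ ∀ a b : ℝ, 0 ≤ a → 0 ≤ b → Tendsto (fun ε : ℝ => dist (C.T x (1 - a * ε) P) (C.T y (1 - b * ε) P) / ε) (𝓝[>] 0) (𝓝 (Real.sqrt ((a * dist x P) ^ 2 + (b * dist y P) ^ 2 - 2 * (a * dist x P) * (b * dist y P) * cs)))  -- pointwise form of (VEL) with the cosine, all degenerate cases included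
* theorem vel_prod (hm : ExM M) (hκ : 0 ≤ κ) (C : Rad n κ M μ) (x : M) : ∀ᵐ p ∂(μ.prod μ), ∃ cs ∈ Icc (-1 : ℝ) 1, HasDerivWithinAt (fun t : ℝ => dist x (C.T p.1 t p.2)) (cs * dist p.1 p.2) (Iio 1) 1 ∧ ∀ a b : ℝ, 0 ≤ a → 0 ≤ b → Tendsto (fun ε : ℝ => dist (C.T x (1 - a * ε) p.2) (C.T p.1 (1 - b * ε) p.2) / ε) (𝓝[>] 0) (𝓝 (Real.sqrt ((a * dist x p.2) ^ 2 + (b * dist p.1 p.2) ^ 2 - 2 * (a * dist x p.2) * (b * dist p.1 p.2) * cs)))  -- the field `vel` of `Far553.FarD` (product form)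

### R247/Lin_101 [ns Crest.Agent.R247.Lin101 / Geo] # R247, block (1-CH): the elementary geometry of one line (helper101, for 111) `w = C.T x lam v`, `σ τ = ray C z w τ`, `R τ = dist x (σ τ)`, `D τ = dist (σ τ) (ray C x v (R τ))`, `T τ = Exc x w (σ τ)`.
* def Rl (C : Rad n κ X μ) (x z w : X) (τ : ℝ) : ℝ  -- distance from `x` along the line
* def Dl (C : Rad n κ X μ) (x z v w : X) (τ : ℝ) : ℝ  -- distance from the ray of `v`
* def Tl (C : Rad n κ X μ) (x z w : X) (τ : ℝ) : ℝ  -- excess along the line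
* structure Geo (C : Rad n κ X μ) (p x z v : X) (t lam : ℝ) : Prop where lam_mem : lam ∈ Ioc (0 : ℝ) 1 U : (x, v) ∈ C.U mem : C.T x lam v ∈ ann p 4 8 Uz : (z, C.T x lam v) ∈ C.U px : dist p x < 1 xz : dist x z < t t_le : t ≤ 1 / 2  -- one line
* lemma U_field {c : FarK} {δ : ℝ} {ph : ℕ → ℝ} (F : FarD c C x δ ph) [ProperSpace X] [IsFiniteMeasureOnCompacts μ] (hκ : 0 ≤ κ) (hn : 1 ≤ n) (hδ' : -1 ≤ δ) (hδ : δ ≤ 1 / 2) (hκ' : κ * 1600 ≤ 1) {τ : ℝ} (h1 : 2 * t ≤ τ) (h2 : τ ≤ 1 / 4) : Tl C x z (C.T x lam v) (2 * τ) ≤ (192 * 2 ^ n + 48) * (Dl C x z v (C.T x lam v) τ ^ 2 / τ)  -- (U) along the line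
* theorem line {K c₁ C1 Gg CU : ℝ} {Ng Nb j0 J : ℕ} {t' θ : ℝ} {bad : ℕ → Prop} (hθ : 0 < θ) (hθ' : θ ≤ 1 / 20) (ht : t ≤ t') (hJ1 : 1 / 16 ≤ 2 ^ J * t') (hJ2 : 2 ^ J * t' ≤ 1 / 8) (good : ∀ j, j0 ≤ j → j < J → ¬ bad j → ∀ i < Ng, Stp K c₁ C1 Gg (Dl C x z v (C.T x lam v)) (Rl C x z (C.T x lam v)) (Tl C x z (C.T x lam v)) (2 ^ j * t' / Ng) (2 ^ j * t' + i * (2 ^ j * t' / Ng)) (2 ^ j * t' + (i + 1) * (2 ^ j * t' / Ng)) (2 ^ j * t' + (i + 2) * (2 ^ j * t' / Ng))) (always : ∀ τ₁ τ₂ τ₃, 2 ^ j0 * t' ≤ τ₁ → τ₁ < τ₂ → τ₂ < τ₃ → τ₃ ≤ dist z (C.T x lam v) → Nb * (τ₂ …  -- All elementary fields of 111's `Line`, base scale `t' ∈ [t, 2t)`.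

### R247/Chb_101 [ns Crest.Agent.R247.Chb101] # R247, block (1-CH): bad count along a real base scale, choice of the base scale, conversion (helper101, for 111) `t = dy m` is the near scale, `t' ∈ [t, 2t)` a real base scale, `s_j = 2 ^ j * t'`.
* def badP (Bad : ℕ → Prop) (m j : ℕ) : Prop  -- one of the dyadic scales `dy i` near `2 ^ j * dy m` is bad
* def badQ (Bad : ℕ → Prop) (m j : ℕ) : Prop  -- the same, and the `8` coarsest scales are bad by definition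
* theorem card_badP {c : ℝ} (hc : 0 ≤ c) {Bad : ℕ → Prop} {m : ℕ} (h : ¬ Hit c Bad m) {j : ℕ} (hj : j ≤ m) : (#{i ∈ range j | badP Bad m i} : ℝ) ≤ 40 * c * (1 + j)  -- Count of the bad scales, for a real base scale.
* theorem card_badQ {c : ℝ} (hc : 0 < c) {Bad : ℕ → Prop} {m : ℕ} (hm : 8 / c + 8 ≤ m) (h : ¬ Hit c Bad m) {j : ℕ} (hj : j ≤ m) : (#{i ∈ range j | badQ Bad m i} : ℝ) ≤ 41 * c * (1 + j)  -- the same, when the coarsest scales are declared to be bad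
* theorem exists_base {m j0 : ℕ} {τ : ℝ} (h1 : 2 ^ j0 * dy m ≤ τ) (h2 : τ ≤ 1 / 8) : ∃ (j J : ℕ) (t' : ℝ), dy m ≤ t' ∧ t' < 2 * dy m ∧ 2 ^ j * t' = τ ∧ j0 ≤ j ∧ j ≤ J ∧ J + 3 ≤ m ∧ 1 / 16 ≤ 2 ^ J * t' ∧ 2 ^ J * t' ≤ 1 / 8  -- Choice of the base scale.
* theorem conv {t t' τ β C A : ℝ} {j : ℕ} (hβ : 0 ≤ β) (hC : 0 ≤ C) (ht : 0 < t) (h1 : t ≤ t') (h2 : t' < 2 * t) (he : 2 ^ j * t' = τ) (hA : A ≤ C * t' * (2 : ℝ) ^ (-β * j)) : A ≤ C * 2 ^ (1 + β) * t * (t / τ) ^ β  -- Conversion from the base scale `t'` to `t`.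
* theorem conv_le {t t' τ β γ C A : ℝ} {j : ℕ} (hγ : γ ≤ β) (hβ : 0 ≤ β) (hC : 0 ≤ C) (ht : 0 < t) (h1 : t ≤ t') (h2 : t' < 2 * t) (he : 2 ^ j * t' = τ) (hA : A ≤ C * t' * (2 : ℝ) ^ (-β * j)) : A ≤ C * 2 ^ (1 + β) * t * (t / τ) ^ γ  -- conversion with a smaller exponent
* theorem conv_sq {t t' τ β γ C A : ℝ} {j : ℕ} (hγ : γ ≤ β) (hβ : 0 ≤ β) (hC : 0 ≤ C) (ht : 0 < t) (h1 : t ≤ t') (h2 : t' < 2 * t) (he : 2 ^ j * t' = τ) (hA : A ≤ C * t' * (2 ^ j * t') * (2 : ℝ) ^ (-β * j)) : A ≤ C * 2 ^ (1 + β) * t * τ * (t / τ) ^ γ  -- conversion for the squared distance, `D² ≤ C t' s_j 2^{-βj}`, `s_j = τ`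

==================== VOLUME CONVERGENCE, GH LIMITS, RESCALING, ISOMETRIES

### R247/VC10_402 [ns Crest.Agent.R247.VC402] # R247, block (3), file 10: `Asm951.VC n` from the radial structure and Bishop–Gromov * `RadM n` : every `M` of S0381 with `Ric ≥ -κ` carries a radial structure `Rad n κ M μHE[n]`; * `lap_of_rad` : weak Laplacian comparison in the calculus of `Ar659.setup`; * `vc_of_rad : RadM n → Asm951.BGr n → Asm951.VC n`.
* def RadM (n : ℕ) : Prop  -- every manifold of S0381 with `Ric ≥ -κ` carries a radial structure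
* theorem vc_of_rad {n : ℕ} (hn : 1 ≤ n) (hR : RadM.{u} n) (hB : Asm951.BGr.{u} n) : Asm951.VC.{u} n  -- Volume convergence (block (3)).

### R247/VC11_402 [ns Crest.Agent.R247.VC402] # R247, block (3), file 11: `Asm951.VC n` from `Bgr546.RAD n`
* theorem vc_of_RAD {n : ℕ} (hn : 1 ≤ n) (hR : Bgr546.RAD.{u} n) : Asm951.VC.{u} n  -- Volume convergence from the radial structure alone.

### R247/VC1_402 [ns Crest.Agent.R247.VC402 / Cdc] # R247, block (3) (Colding volume convergence), file 1: abstract carre-du-champ calculus `Cdc M` : a pointwise "carre du champ" on real functions of a metric space `M`: `D f x` = "f is differentiable at x", `Γ f g x` = `⟨grad f, grad g⟩ (x)`. The only rules are: symmetry, the chain rule for functions of finitely many functions, locality, positivity and the bound by the Lipschitz constant. (Instance on a Riemannian ma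
* structure Cdc (M : Type*) [MetricSpace M] where / -- differentiability of a function at a point - / D : (M → ℝ) → M → Prop / -- `⟨grad f, grad g⟩ (x)` - / Γ : (M → ℝ) → (M → ℝ) → M → ℝ symm : ∀ f g x, Γ f g x = Γ g f x chain : ∀ {k : ℕ} (F : (Fin k → ℝ) → ℝ) (F' : (Fin k → ℝ) →L[ℝ] ℝ) (u : Fin k → M → ℝ) (x : M), (∀ i, D (u i) x) → HasFDerivAt F F' (fun i => u i x) → D (fun y => F (fun i => u i y)) x ∧ ∀ g, D g x → Γ (fun y => F (fun i => u i y)) g x = ∑ i, F' (Pi.single i 1) * Γ (u i) g x congr : ∀ f f' x, f =ᶠ[𝓝 x] f' → D f x → D f' x ∧ ∀ g, D g x → Γ f g  …  -- Pointwise carre-du-champ calculus.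
* def Lp {M : Type*} [MetricSpace M] (f : M → ℝ) : Prop  -- `f` is Lipschitz (some constant).
* def cut (a t : ℝ) : ℝ  -- cutoff: `1` for `t ≤ a`, `0` for `t ≥ a + 1/2`
* def cut' (a t : ℝ) : ℝ  -- derivative of `cut`

### R247/VC2_402 [ns Crest.Agent.R247.VC402] # R247, block (3), file 2: integral estimates (positive functional, Caccioppoli, almost orthogonality)
* structure Setup (n : ℕ) (M : Type*) [MetricSpace M] [MeasurableSpace M] (ν : Measure M) where cd : Cdc M rad : ∀ f, Lp f → ∀ᵐ x ∂ν, cd.D f x meas : ∀ f g, Lp f → Lp g → AEStronglyMeasurable (cd.Γ f g) ν unit : ∀ q : M, ∀ᵐ x ∂ν, cd.Γ (fun y => dist q y) (fun y => dist q y) x = 1 area : ∀ b : Fin n → M → ℝ, (∀ i x y, |b i x - b i y| ≤ dist x y) → ∀ A, MeasurableSet A → volume ((fun x => (WithLp.toLp 2 (fun i => b i x) : EuclideanSpace ℝ (Fin n))) '' A) ≤ ν A  -- First-order calculus on a metric measure space (what block (3) consumes).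
* def T {M : Type*} [MetricSpace M] (p : M) (χ : M → ℝ) : Prop  -- `T p χ`: Lipschitz test functions supported in the ball of radius 5 about `p`.
* def co (p : M) (a : ℝ) (x : M) : ℝ  -- the cutoff functions
* def V (ν : Measure M) (p : M) : ℝ  -- volume of `B_5`
* def Setup.Λ (b : M → ℝ) (κ : ℝ) (χ : M → ℝ) : ℝ  -- the functional `Λ`
* def Setup.Pos (b : M → ℝ) (κ : ℝ) (p : M) : Prop  -- positivity of `Λ` on nonnegative test functions: `Δ b ≤ κ` weakly on `B_5(p)`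

### R247/VC3_402 [ns Crest.Agent.R247.VC402 / Dirs] # R247, block (3), file 3: direction functions: small Laplacian mass and almost orthogonality
* abbrev E (n : ℕ)  -- model space
* structure Dirs {n : ℕ} {M : Type*} [MetricSpace M] [MeasurableSpace M] {ν : Measure M} (S : Setup n M ν) (p : M) (φ : M → E n) (ψ κ : ℝ) (β : E n → M → ℝ) : Prop where lip : ∀ v, ‖v‖ = 1 → LipschitzWith 1 (β v) pos : ∀ v, ‖v‖ = 1 → S.Pos (β v) κ p unit : ∀ v, ‖v‖ = 1 → ∀ᵐ x ∂ν, S.cd.Γ (β v) (β v) x = 1 close : ∀ v, ‖v‖ = 1 → ∀ x, dist p x < 5 → |β v x - ⟪φ x, v⟫| ≤ ψ ψ0 : 0 < ψ ψ1 : ψ ≤ 1 κ0 : 0 ≤ κ κ1 : κ ≤ 1  -- The family of "direction functions" at `p`: `β v ≈ ⟪φ, v⟫` with `Δ(β v) ≤ κ` weakly and `|∇ β v| = 1`.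

### R247/VC4_402 [ns Crest.Agent.R247.VC402 / Dirs] # R247, block (3), file 4: the divergence inequality for the push-forward measure
* abbrev ee {n : ℕ} (i : Fin n) : E n  -- basis vectors
* def Φ {n : ℕ} {M : Type*} (β : E n → M → ℝ) (x : M) : E n  -- the map `Φ`
* def dv {n : ℕ} (X : E n → E n) (z : E n) : ℝ  -- divergence

### R247/VC5_402 [ns Crest.Agent.R247.VC402] # R247, block (3), file 5: the explicit test field `X₀ z = -(9-|z|²)₊^{4n+1} z`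
* def gg (n : ℕ) (t : ℝ) : ℝ  -- profile
* def X₀ (z : E n) : E n  -- test field
* def XX (r : ℝ) (y z : E n) : E n  -- scaled and translated field
* def XS (F : Finset (E n)) (r : E n → ℝ) (z : E n) : E n  -- finite sum of fields

### R247/VC6_402 [ns Crest.Agent.R247.VC402 / Dirs] # R247, block (3), file 6: maximal empty balls, Vitali covering, the image is almost full
* theorem volume_le (hn : 1 ≤ n) (hsmall : 3 * κ + 548 * √ψ ≤ 1) {ε c A : ℝ} (hp : φ p = 0) (hφ : ∀ x, dist p x < 5 → |‖φ x‖ - dist p x| ≤ ε) (hcov : ∀ y : E n, ‖y‖ < 1 → ∃ x, dist p x < 5 ∧ ‖φ x - y‖ ≤ ε) (hε : 0 ≤ ε) (hθ : ε + n * ψ ≤ 1 / 40) (hc : 0 < c) (hvol : ∀ x, dist p x ≤ 2 → ∀ r, 0 < r → r ≤ 1 → c * r ^ n ≤ ν.real (Metric.ball x r)) (hA : 0 ≤ A) (hA1 : ∀ z : E n, ‖X₀ z‖ ≤ A) (hA2 : ∀ z : E n, ‖fderiv ℝ (X₀ : E n → E n) z‖ ≤ A) : ENNReal.ofReal ((1 - (ε + n * ψ)) ^ n) * volume (Metric.ball (0 : E n) 1) ≤ ν (Metric.ball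 p 1) + ENNReal.ofReal ((5 *  …  -- main inequality

### R247/VC7_402 [ns Crest.Agent.R247.VC402] # R247, block (3), file 7: volume convergence, abstract form
* theorem vol_conv_abstract (n : ℕ) (hn : 1 ≤ n) {c C₁ δ : ℝ} (hc : 0 < c) (hC₁ : 0 ≤ C₁) (hδ : 0 < δ) : ∃ κ₀ : ℝ, 0 < κ₀ ∧ κ₀ ≤ 1 ∧ ∀ L : ℝ, ∃ ε₀ : ℝ, 0 < ε₀ ∧ ∀ ε : ℝ, 0 < ε → ε ≤ ε₀ → ∀ (M : Type*) [MetricSpace M] [ProperSpace M] [MeasurableSpace M] [BorelSpace M] (ν : Measure M) [IsFiniteMeasureOnCompacts ν] (S : Setup n M ν) (p : M), (∀ q, L ≤ dist p q → S.Pos (fun y => dist q y) κ₀ p) → IsScaledApprox 1 p (0 : EuclideanSpace ℝ (Fin n)) ε⁻¹ ε → (∀ x, dist p x ≤ 2 → ∀ r, 0 < r → r ≤ 1 → c * r ^ n ≤ ν.real (Metric.ball x r)) → ν.real {x | dist p x < 5}  …  -- Volume convergence, abstract form.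

### R247/VC8_402 [ns Crest.Agent.R247.VC402] # R247, block (3), file 8: volume convergence, abstract form relative to the volume of the ball
* theorem vol_conv_rel (n : ℕ) (hn : 1 ≤ n) {c δ : ℝ} (hc : 0 < c) (hδ : 0 < δ) : ∃ κ₀ : ℝ, 0 < κ₀ ∧ κ₀ ≤ 1 ∧ ∀ L : ℝ, ∃ ε₀ : ℝ, 0 < ε₀ ∧ ∀ ε : ℝ, 0 < ε → ε ≤ ε₀ → ∀ (M : Type*) [MetricSpace M] [ProperSpace M] [MeasurableSpace M] [BorelSpace M] (ν : Measure M) [IsFiniteMeasureOnCompacts ν] (S : Setup n M ν) (p : M), (∀ q, L ≤ dist p q → dist p q < ε⁻¹ → S.Pos (fun y => dist q y) κ₀ p) → IsScaledApprox 1 p (0 : EuclideanSpace ℝ (Fin n)) ε⁻¹ ε → 0 < V ν p → (∀ x, dist p x ≤ 2 → ∀ r, 0 < r → r ≤ 1 → c * V ν p * r ^ n ≤ ν.real (Metric.ball x r)) → ENNReal.ofRe …  -- Volume convergence, abstract form, relative to the volume of the 5-ball (scale invariant in the measure: neither a lower nor an upper bound of the volume is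

### R247/VC9_402 [ns Crest.Agent.R247.VC402] # R247, block (3), file 9: from `Δ (d_q²/2) ≤ n + K d_q²` to `Δ d_q ≤ κ₀` on `B_5(p)` for far points `q`
* def Setup.Lap (q : M) (K : ℝ) : Prop  -- weak Laplacian comparison for `d_q²/2` tested with Lipschitz functions of bounded support
* def rw' (q : M) (ℓ : ℝ) (x : M) : ℝ  -- `1 / max (d_q) ℓ`

### R247/Top_546 [ns Crest.Agent.R247.Top546] # R247: the top of the chain, from `GlueDataT 40 n` alone `vc_all n : VC n` (unconditional) and `s0381_of_glue : GlueDataT 40 n → S0381`.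
* theorem vc_all (n : ℕ) : Asm951.VC.{u} n  -- Volume convergence, every dimension.
* theorem s0381_of_glue (n : ℕ) (hG : GluM923.GlueDataT.{u} 40 n) : ∃ L : ℝ, 1 ≤ L ∧ ∀ (K : ℝ) (M : ℕ → Type u) [∀ k, MetricSpace (M k)] [∀ k, CompleteSpace (M k)] [∀ k, ConnectedSpace (M k)] [∀ k, ChartedSpace (EuclideanSpace ℝ (Fin n)) (M k)] [∀ k, IsManifold 𝓘(ℝ, EuclideanSpace ℝ (Fin n)) ∞ (M k)] [∀ k, RiemannianBundle (fun x : M k => TangentSpace 𝓘(ℝ, EuclideanSpace ℝ (Fin n)) x)] [∀ k, IsContMDiffRiemannianBundle 𝓘(ℝ, EuclideanSpace ℝ (Fin n)) ∞ (EuclideanSpace ℝ (Fin n)) (fun x : M k => TangentSpace 𝓘(ℝ, EuclideanSpace ℝ (Fin n)) x)] [∀ k, IsRiemann …  -- S0381 from the planes/far data alone.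

### R247/Asm1_951 [ns Crest.Agent.R247.Asm951] # R247, assembly (1): from the volume-pinched theorem to the unit-scale effective theorem * `approx_centre` : change of centre of an approximation to `ℝⁿ`; * `HasRicciLowerBound.mono` : monotonicity of the Ricci lower bound; * `VC`, `BGr`, `EFF2`, `EFF1` : literal statements; `eff1_of_eff2`.
* theorem approx_centre {M : Type*} [MetricSpace M] {n : ℕ} {q x : M} {R ε R' ε' ρ : ℝ} (h : IsScaledApprox 1 q (0 : EuclideanSpace ℝ (Fin n)) R ε) (hx : dist q x ≤ ρ) (hρR : ρ < R) (h0 : 0 < R) (h1 : R' + ρ ≤ R) (h2 : 2 * ε ≤ ε') (hε' : 0 < ε') : IsScaledApprox 1 x (0 : EuclideanSpace ℝ (Fin n)) R' ε'  -- change of centre of an approximation to `ℝⁿ`.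
* def VC (n : ℕ) : Prop  -- Volume convergence (block (3)): non-collapsed unit balls which are Gromov–Hausdorff close to Euclidean ones at a large scale have almost Euclidean volume.
* def BGr (n : ℕ) : Prop  -- Bishop–Gromov (block (6e)).
* def EFF2 (n : ℕ) : Prop  -- The volume-pinched theorem: bi-Lipschitz charts from volume pinching at all scales `≤ 1` and all points of `ball q R₀`.
* def EFF1 (n : ℕ) : Prop  -- The unit-scale effective theorem.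

### R247/Asm2_951 [ns Crest.Agent.R247.Asm951] # R247, assembly (2): from near isometries to bi-Lipschitz charts * `EFF3` : the near-isometric form of the volume-pinched theorem; * `eff2_of_eff3`, `eff1_of_eff3`.
* def EFF3 (n : ℕ) : Prop  -- The near-isometric theorem: for every `η`, volume pinching at all scales `≤ 1` and all points of `ball q R₀` gives a map which is `η`-isometric (up to the c
* theorem radius_le_one {n : ℕ} (hn : n ≠ 0) {X : Type*} [MetricSpace X] [MeasurableSpace X] [BorelSpace X] {F : X → EuclideanSpace ℝ (Fin n)} {q : X} {R ε c : ℝ} (hc : 0 < c) (hε : 0 ≤ ε) (hε1 : ε ≤ 1 / 2) (hR0 : 0 < R) (hR : R ≤ 1 / 6) (hF : ∀ x z : X, dist q x < R → dist q z < R → |c * dist (F x) (F z) - dist x z| ≤ ε * dist x z) {z : X} (hz : ∀ x, dist z x < 1 → dist q x < R) : ¬ (ENNReal.ofReal (3 / 4) * volume (ball (0 : EuclideanSpace ℝ (Fin n)) 1) ≤ Measure.euclideanHausdorffMeasure n (ball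 z 1))  -- On a small near-isometric ball there is no ball of radius `1` with almost full volume.

### R247/Asm3_951 [ns Crest.Agent.R247.Asm951] # R247, assembly (3): rescaling of the output of blocks (1), (2) `GluM923.GlueDataT A n` is `GluM923.GlueData n` under the hypothesis of volume pinching at all scales `≤ A` (instead of `≤ 1`). By rescaling it implies `GlueData n`.
* theorem pinch_sc {n : ℕ} {M : Type u} [MetricSpace M] [MeasurableSpace M] [BorelSpace M] (r : {r : ℝ // 0 < r}) {q : M} {R₀ δ s₁ A : ℝ} (hA : r.1 * A ≤ s₁) (h : ∀ x ∈ ball q (r.1 * R₀), ∀ s : ℝ, 0 < s → s ≤ s₁ → ENNReal.ofReal (1 - δ) * volume (ball (0 : EuclideanSpace ℝ (Fin n)) s) ≤ Measure.euclideanHausdorffMeasure n (ball x s)) : ∀ x ∈ ball (toSc r q) R₀, ∀ s : ℝ, 0 < s → s ≤ A → ENNReal.ofReal (1 - δ) * volume (ball (0 : EuclideanSpace ℝ (Fin n)) s) ≤ Measure.euclideanHausdorffMeasure n (ball x s)  -- Volume pinching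 passes to the rescaled manifold: if `M` is pinched at all scales `≤ s₁` on `ball q (r * R₀)`, then `Sc r M` (distances divided by `r`) is pi
* theorem glueOn_sc {M H : Type u} [MetricSpace M] [NormedAddCommGroup H] [InnerProductSpace ℝ H] {n : ℕ} (r : {r : ℝ // 0 < r}) {Ψ : Sc r M → H} {P : ℕ → Sc r M → H →L[ℝ] H} {D : ℕ → Sc r M → ℝ} {q : M} {R C c η : ℝ} (h : GluM923.GlueOn n Ψ P D (ball (toSc r q) (R / 2)) R C c η) : GluM923.GlueOn n (fun x : M => r.1 • Ψ (toSc r x)) (fun k x => P k (toSc r x)) (fun k x => D k (toSc r x)) (ball q (r.1 * R / 2)) (r.1 * R) C c η  -- The data of the gluing theorem are scale invariant.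
* theorem glueData_of_T {n : ℕ} {A : ℝ} (hA : 1 ≤ A) (h : GluM923.GlueDataT.{u} A n) : GluM923.GlueData.{u} n  -- Rescaling: pinching at all scales `≤ A` in the hypothesis of `GlueData` costs nothing.
* theorem eff2_of_glueDataT {n : ℕ} {A : ℝ} (hA : 1 ≤ A) (hBG : BGr.{u} n) (h : GluM923.GlueDataT.{u} A n) : EFF2.{u} n  -- The joint theorem: blocks (1), (2) under pinching at all scales `≤ A` give `EFF2`.

### R247/GluM1_923 [ns Crest.Agent.R247.GluM923] # R247, block (4), assembly on the manifold (1): finiteness of the volume, packing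
* theorem isLocallyFinite : IsLocallyFiniteMeasure (μHE[n] : Measure M)  -- The Riemannian volume is locally finite.
* theorem packing_of_doubling {X : Type*} [MetricSpace X] [MeasurableSpace X] [BorelSpace X] (μ : Measure X) {x : X} {r : ℝ} {K : ℝ} {N : ℕ} (hKN : K ≤ N) (h0 : 0 < μ (ball x (4 * r))) (h1 : μ (ball x (4 * r)) < ⊤) (hd : ∀ a, dist x a ≤ 3 * r → μ (ball a (8 * r)) ≤ ENNReal.ofReal K * μ (ball a (r / 2))) (t : Finset X) (ht : ∀ a ∈ t, dist x a ≤ 3 * r) (hs : ∀ a ∈ t, ∀ b ∈ t, a ≠ b → r ≤ dist a b) (hr : 0 < r) : t.card ≤ N  -- Packing from a doubling inequality.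

### R247/GluM2_923 [ns Crest.Agent.R247.GluM923] # R247, block (4), assembly on the manifold (2): `GlueData n ⟹ EFF2 n` `GlueData n` is the output of blocks (1) and (2): on a small ball, a map `Ψ` into a Hilbert space which is a near isometry up to a constant factor, and rank `n` projections `P k x` which almost contain the increments of `Ψ` at scale `R / 2 ^ k` and vary slowly, with square summable errors.
* structure GlueOn {M H : Type*} [MetricSpace M] [NormedAddCommGroup H] [InnerProductSpace ℝ H] (n : ℕ) (Ψ : M → H) (P : ℕ → M → H →L[ℝ] H) (D : ℕ → M → ℝ) (S : Set M) (R C c η : ℝ) : Prop where / -- `Ψ` is 1-Lipschitz - / Ψ_le : ∀ x ∈ S, ∀ y ∈ S, ‖Ψ x - Ψ y‖ ≤ dist x y / -- `c • Ψ` is a near isometry - / near : ∀ x ∈ S, ∀ y ∈ S, |c * ‖Ψ x - Ψ y‖ - dist x y| ≤ η * dist x y D_nonneg : ∀ k, 1 ≤ k → ∀ x ∈ S, 0 ≤ D k x D_sum : ∀ x ∈ S, ∀ m, ∑ k ∈ Finset.range m, D (k + 1) x ≤ η proj : ∀ k, 1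 ≤ k → ∀ x ∈ S, Glu923.IsProj (P k x) rank : ∀ x ∈ S, ∃ V : Submodule ℝ H, …  -- The data of the gluing theorem on a subset `S` of a metric space: `H` a Hilbert space, `Ψ : M → H`, projections `P k x` (`k ≥ 1`, scale `R / 2 ^ k`), errors `D 
* def GlueData (n : ℕ) : Prop  -- Output of blocks (1), (2) (far propagation and planes): the constants `C`, `c` depend on `n` only, `η` is arbitrary.
* theorem radius_lt_one {n : ℕ} (hn : n ≠ 0) {X : Type*} [MetricSpace X] [MeasurableSpace X] [BorelSpace X] {F : X → EuclideanSpace ℝ (Fin n)} {q z : X} {R' ε δ c s : ℝ} (hc : 0 < c) (hε : 0 ≤ ε) (hε1 : ε ≤ 1 / 2) (hδ : δ ≤ 1 / 4) (hR' : 0 < R') (hR : R' ≤ 1 / 8) (hF : ∀ x z : X, dist q x < R' → dist q z < R' → |c * dist (F x) (F z) - dist x z| ≤ ε * dist x z) (hs : ∀ x, dist z x < s → dist q x < R') (hvol : ENNReal.ofReal (1 - δ) * volume (ball (0 : EuclideanSpace ℝ (Fin n)) 1) ≤ μHE[n] (ball z 1)) : s < 1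  -- If a small ball is nearly isometric to a subset of `ℝⁿ` then it does not contain a ball of radius `1` with almost Euclidean volume.
* theorem eff2_of_glueData {n : ℕ} (hBG : Asm951.BGr.{u} n) (hGD : GlueData.{u} n) : Asm951.EFF2.{u} n  -- Blocks (1), (2) imply the volume pinched theorem.

### R247/GluM3_923 [ns Crest.Agent.R247.GluM923] # R247, block (4), assembly on the manifold (3): pinching up to radius `T` `NearIso T n` : near isometric maps to `ℝⁿ` on small balls, hypothesis: volume pinching for all radii `r ≤ T`. `NearIso 1 n ⟹ EFF2 n`, `GlueDataT T n ⟹ NearIso T n` (`T ≥ 1`).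
* def NearIso (T : ℝ) (n : ℕ) : Prop  -- Near isometries with `ℝⁿ` on a small ball, from volume pinching for all radii `≤ T`.
* def GlueDataT (T : ℝ) (n : ℕ) : Prop  -- Input of the gluing theorem, pinching for all radii `≤ T`.
* theorem nearIso_of_glueDataT {n : ℕ} {T : ℝ} (hT : 1 ≤ T) (hBG : Asm951.BGr.{u} n) (hGD : GlueDataT.{u} T n) : NearIso.{u} T n  -- `GlueDataT T n ⟹ NearIso T n`.
* def EFF2T (T : ℝ) (n : ℕ) : Prop  -- `EFF2` with volume pinching for all radii `≤ T`.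
* theorem eff2T_of_nearIso {n : ℕ} {T : ℝ} (hT : 1 ≤ T) (h : NearIso.{u} T n) : EFF2T.{u} T n  -- `NearIso T n ⟹ EFF2T T n`.
* theorem eff2_of_nearIso {n : ℕ} (h : NearIso.{u} 1 n) : Asm951.EFF2.{u} n  -- `NearIso 1 n ⟹ EFF2 n`.
* theorem eff2T_of_glueDataT {n : ℕ} {T : ℝ} (hT : 1 ≤ T) (hBG : Asm951.BGr.{u} n) (h : GlueDataT.{u} T n) : EFF2T.{u} T n  -- `GlueDataT T n ⟹ EFF2T T n`.
* def GlueData40 (n : ℕ) : Prop  -- Literal name asked for: pinching for all `r ≤ 40`.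

### R247/Scal1_386 [ns Crest.Agent.R247.Scal386] # R247: rescaling of a Riemannian manifold (1): the metric space and the bundle metric
* def scMetric (r : ℝ) (hr : 0 < r) (m : MetricSpace M) : MetricSpace M  -- The metric space `(M, r⁻¹ dist)`, with the same uniform structure and bornology.
* def Sc (_ : {r : ℝ // 0 < r}) (M : Type u) : Type u  -- Type synonym for `M` with distances divided by `r`.
* def toSc (x : M) : Sc r M  -- the identity map to the rescaled space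
* def ofSc (x : Sc r M) : M  -- the identity map from the rescaled space
* def scRM (g : RiemannianMetric (fun x : M => TangentSpace 𝓘(ℝ, EuclideanSpace ℝ (Fin n)) x)) : RiemannianMetric (fun x : Sc r M => TangentSpace 𝓘(ℝ, EuclideanSpace ℝ (Fin n)) x)  -- the metric tensor divided by `r ^ 2`

### R247/Scal2_386 [ns Crest.Agent.R247.Scal386] # R247: rescaling of a Riemannian manifold (2): smoothness of the rescaled bundle metric
* def SmB (n : ℕ) (X : Type u) [TopologicalSpace X] [ChartedSpace (EuclideanSpace ℝ (Fin n)) X] [IsManifold 𝓘(ℝ, EuclideanSpace ℝ (Fin n)) ∞ X] (B : X → EuclideanSpace ℝ (Fin n) →L[ℝ] EuclideanSpace ℝ (Fin n) →L[ℝ] ℝ) : Prop  -- smoothness of a family of bilinear forms on the tangent spaces (raw form; used only to transport along the identity `M → Sc r M`)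

### R247/Scal3_386 [ns Crest.Agent.R247.Scal386] # R247: rescaling of a Riemannian manifold (3): the Riemannian distance
* def RD (n : ℕ) (X : Type u) [TopologicalSpace X] [ChartedSpace (EuclideanSpace ℝ (Fin n)) X] (N : X → EuclideanSpace ℝ (Fin n) → ℝ≥0∞) (x y : X) : ℝ≥0∞  -- Riemannian distance for an arbitrary family of extended norms (raw form; used only to transport along the identity `M → Sc r M`)

### R247/Scal4_386 [ns Crest.Agent.R247.Scal386] # R247: rescaling of a Riemannian manifold (4): Ricci curvature and volume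
* theorem vol_sc (n : ℕ) (q : M) {v : ℝ} (h : ENNReal.ofReal (v * r.1 ^ n) ≤ Measure.euclideanHausdorffMeasure n (Metric.ball q r.1)) : ENNReal.ofReal v ≤ Measure.euclideanHausdorffMeasure n (Metric.ball (toSc r q) 1)  -- lower volume bound of the rescaled unit ball.

### R247/Lim1_386 [ns Crest.Agent.R247.Lim386] # R247, limit step (1): the abstract limit theorem `limit_chart` : if `(M k, q k) → (X, p)` in the pointed Gromov–Hausdorff sense, `X` is complete and for all large `k` there is an `L`-bi-Lipschitz map on `ball (q k) (2ρ)` into `ℝⁿ` which is quantitatively open on `ball (q k) ρ`, then `p` has an open neighbourhood with an `L`-bi-Lipschitz map onto an open set of `ℝⁿ`.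
* theorem exists_approx {M : ℕ → Type u} [∀ k, MetricSpace (M k)] {q : ∀ k, M k} {X : Type u} [MetricSpace X] {p : X} (h : SeqPointedTendsto q p) {R : ℝ} (hR : 0 < R) : ∃ (f : ∀ k, M k → X) (ε : ℕ → ℝ), Tendsto ε atTop (𝓝 0) ∧ ∀ᶠ k in atTop, 0 ≤ ε k ∧ f k (q k) = p ∧ (∀ x x' : M k, dist (q k) x < R → dist (q k) x' < R → |dist (f k x) (f k x') - dist x x'| ≤ ε k) ∧ (∀ y : X, dist p y < R - ε k → ∃ x : M k, dist (q k) x < R ∧ dist (f k x) y ≤ ε k)  -- A sequence of approximations with errors tending to `0`.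
* theorem exists_ulim {Y : Type*} [MetricSpace Y] [ProperSpace Y] (U : Ultrafilter ℕ) (u : ℕ → Y) {c : Y} {C : ℝ} (h : ∀ᶠ k in (U : Filter ℕ), dist (u k) c ≤ C) : ∃ y, Tendsto u U (𝓝 y)  -- ultralimit of a bounded family in a proper space
* theorem limit_chart {M : ℕ → Type u} [∀ k, MetricSpace (M k)] {q : ∀ k, M k} {X : Type u} [MetricSpace X] [CompleteSpace X] {p : X} (h : SeqPointedTendsto q p) {L ρ : ℝ} (hL : 1 ≤ L) (hρ : 0 < ρ) (F : ∀ k, M k → EuclideanSpace ℝ (Fin n)) (hbi : ∀ᶠ k in atTop, ∀ x z : M k, dist (q k) x < 2 * ρ → dist (q k) z < 2 * ρ → L⁻¹ * dist x z ≤ dist (F k x) (F k z) ∧ dist (F k x) (F k z) ≤ L * dist x z) (hop : ∀ᶠ k in atTop, ∀ x : M k, dist (q k) x < ρ → ∀ s : ℝ, 0 < s → s ≤ ρ → ∀ y, dist (F k x) y < s / L → ∃ z, dist x z < s ∧ F k z = y) : ∃ U : Set X, IsOpen U ∧  …  -- Abstract limit theorem.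

### R247/Lim2_386 [ns Crest.Agent.R247.Lim386] # R247, limit step (2): composing the approximations `comp_approx` : `SeqPointedTendsto q p` and `RescalingsTendstoEuclidean p n` give, for every `R, ε > 0` and every small scale `r`, for all large `k` an approximation from `(M k, r⁻¹ dist, q k)` to `(ℝⁿ, 0)`.
* theorem approx_comp {A X Y : Type*} [MetricSpace A] [MetricSpace X] [MetricSpace Y] {a : A} {p : X} {c : Y} {r R ε ε₁ : ℝ} (hr : 0 < r) (hε : 0 < ε) (hε₁ : 0 < ε₁) (hR : 0 < R) (h1 : ε₁ ≤ r) (h2 : 2 * ε + 2 * ε₁ / r ≤ 1) (hX : IsScaledApprox r⁻¹ p c (R + 1) ε) (hA : IsScaledApprox 1 a p ((R + 1) * r + r) ε₁) : IsScaledApprox r⁻¹ a c R (2 * ε + 2 * ε₁ / r)  -- monotonicity of the notion of approximation in the error, at fixed radius.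
* theorem approx_mono_err {X Y : Type*} [MetricSpace X] [MetricSpace Y] {s : ℝ} {p : X} {q : Y} {R ε ε' : ℝ} (h : IsScaledApprox s p q R ε) (hε : ε ≤ ε') : IsScaledApprox s p q R ε'  -- an approximation with a smaller error is an approximation (same radius).
* theorem comp_approx {M : ℕ → Type u} [∀ k, MetricSpace (M k)] {q : ∀ k, M k} {X : Type u} [MetricSpace X] {p : X} (h : SeqPointedTendsto q p) (hE : RescalingsTendstoEuclidean p n) {R ε : ℝ} (hR : 0 < R) (hε : 0 < ε) : ∃ r₀ : ℝ, 0 < r₀ ∧ ∀ r : ℝ, 0 < r → r < r₀ → ∀ᶠ k in atTop, IsScaledApprox r⁻¹ (q k) (0 : EuclideanSpace ℝ (Fin n)) R ε  -- (LS2)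

### R247/Lim3_386 [ns Crest.Agent.R247.Lim386] # R247, limit step (3): S0381 from the unit-scale effective theorem and Bishop–Gromov * `BG n` : lower volume bound at small scales from a lower bound at scale one; * `EFF1 n` : the effective chart theorem at scale one (`Ric ≥ -ε`, unit ball `ε`-close to the Euclidean one, noncollapsed); * `result_of` : the literal statement of S0381 from `BG n` and `EFF1 n`.
* def BG (n : ℕ) : Prop  -- Volume lower bound at all scales `≤ 1` from the one at scale `1`.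
* def Chart (n : ℕ) {M : Type u} [MetricSpace M] (q : M) (L ρ : ℝ) : Prop  -- The chart conclusion at `(q, ρ)` with constant `L`.
* def EFF1 (n : ℕ) : Prop  -- The effective chart theorem at scale one.
* theorem chart_of_sc {n : ℕ} {M : Type u} [MetricSpace M] (r : {r : ℝ // 0 < r}) {q : M} {L ρ : ℝ} (hL : 1 ≤ L) (h : Chart n (Scal386.toSc r q) L ρ) : Chart n q L (r.1 * ρ)  -- Scaling of charts.
* theorem result_of (n : ℕ) (hBG : BG.{u} n) (hE : EFF1.{u} n) : ∃ L : ℝ, 1 ≤ L ∧ ∀ (K : ℝ) (M : ℕ → Type u) [∀ k, MetricSpace (M k)] [∀ k, CompleteSpace (M k)] [∀ k, ConnectedSpace (M k)] [∀ k, ChartedSpace (EuclideanSpace ℝ (Fin n)) (M k)] [∀ k, IsManifold 𝓘(ℝ, EuclideanSpace ℝ (Fin n)) ∞ (M k)] [∀ k, RiemannianBundle (fun x : M k => TangentSpace 𝓘(ℝ, EuclideanSpace ℝ (Fin n)) x)] [∀ k, IsContMDiffRiemannianBundle 𝓘(ℝ, EuclideanSpace ℝ (Fin n)) ∞ (EuclideanSpace ℝ (Fin n)) (fun x : M k => TangentSpace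 𝓘(ℝ, EuclideanSpace ℝ (Fin n)) x)] [∀ k, IsRiemannian …  -- S0381 from the effective theorem.

### R247/Lim4_386 [ns Crest.Agent.R247.Lim386] # R247, limit step (4): S0381 from `VC`, `BGr`, `EFF2` * `bg_of_bgr` : `BG n` from Bishop–Gromov `Asm951.BGr n`; * `eff1_of` : my `EFF1` from `Asm951.EFF1`; * `result_of_parts` : the literal statement of S0381 from `Asm951.VC`, `BGr`, `EFF2`.
* theorem result_of_parts (n : ℕ) (hVC : Asm951.VC.{u} n) (hBG : Asm951.BGr.{u} n) (h2 : Asm951.EFF2.{u} n) : ∃ L : ℝ, 1 ≤ L ∧ ∀ (K : ℝ) (M : ℕ → Type u) [∀ k, MetricSpace (M k)] [∀ k, CompleteSpace (M k)] [∀ k, ConnectedSpace (M k)] [∀ k, ChartedSpace (EuclideanSpace ℝ (Fin n)) (M k)] [∀ k, IsManifold 𝓘(ℝ, EuclideanSpace ℝ (Fin n)) ∞ (M k)] [∀ k, RiemannianBundle (fun x : M k => TangentSpace 𝓘(ℝ, EuclideanSpace ℝ (Fin n)) x)] [∀ k, IsContMDiffRiemannianBundle 𝓘(ℝ, EuclideanSpace ℝ (Fin n)) ∞ (EuclideanSpace ℝ (Fin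 n)) (fun x : M k => TangentSpace 𝓘(ℝ, Euc …  -- S0381 from volume convergence, Bishop–Gromov and the volume-pinched theorem.

### R247/Iso1_311 [ns Crest.Agent.R247.Iso311] R247, block (2a) (helper311), part 1: ISOTROPY of the directions `grad d_w (z)` in an annulus, and absolute Bishop, from the radial contraction and an asymptotically Euclidean chart at `z`. Abstract form: `AC z` = asymptotically Euclidean chart at `z`.
* theorem J_eq {S : Set ℝ} (hS : MeasurableSet S) (h0 : (0 : ℝ) ∉ S) (ξ : 𝔼) : (n : ℝ≥0∞) * J S ξ = ENNReal.ofReal (‖ξ‖ ^ 2) * volume {v : 𝔼 | ‖v‖ ∈ S}  -- isotropy in the Euclidean space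
* structure AC (n : ℕ) {X : Type*} [MetricSpace X] [MeasurableSpace X] (μ : Measure X) (z : X) where φ : X → EuclideanSpace ℝ (Fin n) ψ : EuclideanSpace ℝ (Fin n) → X meas : Measurable φ ψ_zero : ψ 0 = z ψφ : ∀ᶠ y in 𝓝 z, ψ (φ y) = y near : ∀ η : ℝ, 0 < η → ∀ᶠ y in 𝓝 z, |‖φ y‖ - dist z y| ≤ η * dist z y near' : ∀ η : ℝ, 0 < η → ∀ᶠ a in 𝓝 (0 : EuclideanSpace ℝ (Fin n)), dist z (ψ a) ≤ (1 + η) * ‖a‖ vol : ∀ η : ℝ, 0 < η → ∃ r : ℝ, 0 < r ∧ (μ.restrict (ball z r)).map φ ≤ ENNReal.ofReal (1 + η) • volume  -- An asymptotically Euclidean chart at `z`.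
* def AC.L {z : X} (A : AC n μ z) (w : X) : 𝔼 →L[ℝ] ℝ  -- the differential of `d_w` at `z` in the chart
* def AC.e {z : X} (A : AC n μ z) (w : X) : 𝔼  -- the unit direction from `z` to `w` in the chart
* theorem AC.direction {z : X} (A : AC n μ z) (C : Rad n κ X μ) {w : X} (hU : (z, w) ∈ C.U) (hzw : z ≠ w) (hd : DifferentiableAt ℝ (fun a => dist w (A.ψ a)) 0) : ‖A.e w‖ = 1 ∧ Tendsto (fun t : ℝ => t⁻¹ • A.φ (C.T z t w)) (𝓝[>] 0) (𝓝 (dist z w • A.e w))  -- first variation: the ray from `z` to `w` leaves in the direction `e w`.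
* theorem AC.shell {z : X} (A : AC n μ z) {η : ℝ} (hη : 0 < η) (hη1 : η < 1) : ∃ r : ℝ, 0 < r ∧ ∀ a b : ℝ, b ≤ r → ∀ g : 𝔼 → ℝ≥0∞, Measurable g → ∫⁻ y in {y | dist z y ∈ Ioo a b}, g (A.φ y) ∂μ ≤ ENNReal.ofReal (1 + η) * ∫⁻ v in {v : 𝔼 | ‖v‖ ∈ Ioo ((1 - η) * a) ((1 + η) * b)}, g v  -- the shell estimate: `∫_{a < d_z < b} g(φ y) dμ ≤ (1+η) ∫_{(1-η)a < |v| < (1+η)b} g`.
* theorem AC.bishop {z : X} (A : AC n μ z) (C : Rad n κ X μ) (hκ : 0 ≤ κ) (s : ℝ) : μ (ball z s) ≤ ENNReal.ofReal (Real.exp (κ * s ^ 2 / 2) * s ^ n) * volume (ball (0 : 𝔼) 1)  -- absolute Bishop inequality from the contraction property and an asymptotically Euclidean chart at the centre.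
* theorem AC.isotropy {z : X} (A : AC n μ z) (C : Rad n κ X μ) (hκ : 0 ≤ κ) {α β : ℝ} (hα : 0 ≤ α) (hαβ : α ≤ β) {W : Set X} (hW : ∀ w ∈ W, dist z w ∈ Ioo α β) (hd : ∀ᵐ w ∂μ, DifferentiableAt ℝ (fun a => dist w (A.ψ a)) 0) (ξ : 𝔼) : (n : ℝ≥0∞) * ∫⁻ w in W, ENNReal.ofReal ((A.L w ξ) ^ 2) ∂μ ≤ ENNReal.ofReal (Real.exp (κ * β ^ 2 / 2) * (β ^ n - α ^ n) * ‖ξ‖ ^ 2) * volume (ball (0 : 𝔼) 1)  -- isotropy: the directions of the rays from `z` to the points of an annulus.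
* theorem AC.ae_norm_L {z : X} (A : AC n μ z) (C : Rad n κ X μ) (hz : μ {z} = 0) (hd : ∀ᵐ w ∂μ, DifferentiableAt ℝ (fun a => dist w (A.ψ a)) 0) : ∀ᵐ w ∂μ, ‖A.L w‖ = 1  -- for a.e. `w` the differential of `d_w` at `z` has norm one (read in the chart)
* theorem AC.sum_sq {z : X} (A : AC n μ z) {w : X} (h : ‖A.L w‖ = 1) : ∑ i, (A.L w (EuclideanSpace.single i (1 : ℝ))) ^ 2 = 1  -- the trace identity

### R247/Iso2_311 [ns Crest.Agent.R247.Iso311] R247, block (2a) (helper311), part 2: the asymptotically Euclidean chart of a Riemannian manifold; a.e. extendability of rays from the radial contraction; absolute Bishop and isotropy on `M`.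
* def Ext (z : X) : Set X  -- the points `w` such that some minimiser from `z` to `w` extends beyond `w`
* theorem ae_ext [ProperSpace X] [IsFiniteMeasureOnCompacts μ] (C : Rad n κ X μ) (z : X) : ∀ᵐ w ∂μ, w ≠ z → w ∈ Ext z  -- a.e. point is interior to a ray
* def acφ (x : M) (a : 𝔼) (A : 𝔼 ≃L[ℝ] 𝔼) : M → 𝔼  -- the asymptotically Euclidean chart at `z = (chartAt x).symm a`.
* theorem muHE_singleton (hn : n ≠ 0) (z : M) : (μHE[n] : Measure M) {z} = 0  -- points are null in positive dimension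
* theorem differentiableAt_dist_chart {w x : M} {a : 𝔼} (ha : a ∈ (chartAt 𝔼 x).target) (h : SC n w ((chartAt 𝔼 x).symm a)) (hw : w ≠ (chartAt 𝔼 x).symm a) : DifferentiableAt ℝ (fun b => dist w ((chartAt 𝔼 x).symm b)) a  -- `d_w` read in a chart is differentiable at a point of smoothness of the cost
* theorem bishop {κ : ℝ} (C : Rad n κ M (μHE[n] : Measure M)) (hκ : 0 ≤ κ) (z : M) (s : ℝ) : μHE[n] (ball z s) ≤ ENNReal.ofReal (Real.exp (κ * s ^ 2 / 2) * s ^ n) * volume (ball (0 : 𝔼) 1)  -- absolute Bishop inequality on `M`.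
* theorem ae_unit {κ : ℝ} (C : Rad n κ M (μHE[n] : Measure M)) (hm : ExM M) [IsFiniteMeasureOnCompacts (μHE[n] : Measure M)] (x : M) {a : 𝔼} (ha : a ∈ (chartAt 𝔼 x).target) : ∀ᵐ w ∂(μHE[n] : Measure M), w ≠ (chartAt 𝔼 x).symm a → DifferentiableAt ℝ (fun b => dist w ((chartAt 𝔼 x).symm b)) a ∧ ∃ u : 𝔼, (∀ ξ, fderiv ℝ (fun b => dist w ((chartAt 𝔼 x).symm b)) a ξ = gm x a u ξ) ∧ gm x a u u = 1  -- everything at one point: for a.e. `w` the function `d_w` is differentiable at `z = (chartAt x).symm a` and its gradient is a unit vector.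
* theorem isotropy {κ : ℝ} (C : Rad n κ M (μHE[n] : Measure M)) (hκ : 0 ≤ κ) (hm : ExM M) [IsFiniteMeasureOnCompacts (μHE[n] : Measure M)] (x : M) {a : 𝔼} (ha : a ∈ (chartAt 𝔼 x).target) {α β : ℝ} (hα : 0 ≤ α) (hαβ : α ≤ β) {W : Set M} (hW : ∀ w ∈ W, dist ((chartAt 𝔼 x).symm a) w ∈ Ioo α β) (v : 𝔼) : (n : ℝ≥0∞) * ∫⁻ w in W, ENNReal.ofReal ((fderiv ℝ (fun b => dist w ((chartAt 𝔼 x).symm b)) a v) ^ 2) ∂(μHE[n] : Measure M) ≤ ENNReal.ofReal (Real.exp (κ * β ^ 2 / 2) * (β ^ n - α ^ n) * gm x a v v) * volume (ball (0 : 𝔼) 1)  -- ISOTROPY on `M`, in a chart.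
* theorem isotropy_Gr {κ : ℝ} (C : Rad n κ M (μHE[n] : Measure M)) (hκ : 0 ≤ κ) (hm : ExM M) [IsFiniteMeasureOnCompacts (μHE[n] : Measure M)] (u : M) {α β : ℝ} (hα : 0 ≤ α) (hαβ : α ≤ β) {W : Set M} (hW : ∀ w ∈ W, dist u w ∈ Ioo α β) (ξ : 𝔼) : (n : ℝ≥0∞) * ∫⁻ w in W, ENNReal.ofReal ((inner ℝ (Gr (n := n) (fun z => dist w z) u) ξ) ^ 2) ∂(μHE[n] : Measure M) ≤ ENNReal.ofReal (Real.exp (κ * β ^ 2 / 2) * (β ^ n - α ^ n) * ‖ξ‖ ^ 2) * volume (ball (0 : 𝔼) 1)  -- ISOTROPY in the frame.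
* theorem ae_norm_Gr {κ : ℝ} (C : Rad n κ M (μHE[n] : Measure M)) (hm : ExM M) [IsFiniteMeasureOnCompacts (μHE[n] : Measure M)] (u : M) : ∀ᵐ w ∂(μHE[n] : Measure M), w ≠ u → MDifferentiableAt (𝓡 n) 𝓘(ℝ) (fun z => dist w z) u ∧ ‖Gr (n := n) (fun z => dist w z) u‖ = 1  -- for a.e. `w` the function `d_w` is differentiable at `u` with unit gradient.

### R247/Iso3_311 [ns Crest.Agent.R247.Iso311] R247, block (2a) (helper311), part 3: isotropy of the far measure `ν` = normalised volume of the annulus `ann p 4 8`, in the literal form of the near-isometry theorem.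
* def nuf {X : Type*} [MetricSpace X] [MeasurableSpace X] (μ : Measure X) (p : X) : Measure X  -- the normalised volume of the far annulus
* theorem integral_le_of_lintegral_le {α : Type*} [MeasurableSpace α] {ν : Measure α} {f : α → ℝ} (hf : ∀ w, 0 ≤ f w) {B : ℝ} (hB : 0 ≤ B) (h : ∫⁻ w, ENNReal.ofReal (f w) ∂ν ≤ ENNReal.ofReal B) : ∫ w, f w ∂ν ≤ B  -- integral versus lintegral, without measurability
* theorem exists_const (n : ℕ) (hn : 0 < n) {ε : ℝ} (hε : 0 < ε) : ∃ c : ℝ, 0 < c ∧ c < 1 ∧ Real.exp (c * (8 + 2 * c) ^ 2 / 2) * ((8 + 2 * c) ^ n - (4 - 2 * c) ^ n) ≤ (1 + ε) * ((1 - c) * 8 ^ n - Real.exp (8 * c) * 4 ^ n) ∧ 0 < (1 - c) * 8 ^ n - Real.exp (8 * c) * 4 ^ n  -- the numerical choice of the constant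
* theorem ann_ge {κ : ℝ} (C : Rad n κ M (μHE[n] : Measure M)) (hκ : 0 ≤ κ) [IsFiniteMeasureOnCompacts (μHE[n] : Measure M)] {c : ℝ} (hc : 0 < c) (hc1 : c < 1) (hκc : κ ≤ c) (p : M) (hvol : ENNReal.ofReal ((1 - c) * 8 ^ n) * volume (ball (0 : 𝔼) 1) ≤ μHE[n] (ball p 8)) : ENNReal.ofReal ((1 - c) * 8 ^ n - Real.exp (8 * c) * 4 ^ n) * volume (ball (0 : 𝔼) 1) ≤ μHE[n] (ann p 4 8)  -- the far annulus has almost maximal volume
* theorem n1_lintegral (hn : 0 < n) {ε : ℝ} (hε : 0 < ε) {c : ℝ} (hc : 0 < c) (hc1 : c < 1) (hnum : Real.exp (c * (8 + 2 * c) ^ 2 / 2) * ((8 + 2 * c) ^ n - (4 - 2 * c) ^ n) ≤ (1 + ε) * ((1 - c) * 8 ^ n - Real.exp (8 * c) * 4 ^ n)) (hpos : 0 < (1 - c) * 8 ^ n - Real.exp (8 * c) * 4 ^ n) {κ : ℝ} (C : Rad n κ M (μHE[n] : Measure M)) (hκ : 0 ≤ κ) (hκc : κ ≤ c) (hm : ExM M) [IsFiniteMeasureOnCompacts (μHE[n] : Measure M)] {p u : M} (hpu : dist p u ≤ c) (hvol : ENNReal.ofReal ((1 -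 c) * 8 ^ n) * volume (ball (0 : 𝔼) 1) ≤ μHE[n] (ball p 8)) (ξ : 𝔼) : ∫⁻ w, ENNRea …  -- (N1): isotropy of the far measure, `lintegral` form.
* theorem n1 (n : ℕ) (hn : 0 < n) {ε : ℝ} (hε : 0 < ε) : ∃ c : ℝ, 0 < c ∧ c < 1 ∧ ∀ (M : Type*) [MetricSpace M] [ChartedSpace (EuclideanSpace ℝ (Fin n)) M] [IsManifold (𝓡 n) ∞ M] [RiemannianBundle (fun p : M => TangentSpace (𝓡 n) p)] [IsContMDiffRiemannianBundle (𝓡 n) ∞ (EuclideanSpace ℝ (Fin n)) (fun p : M => TangentSpace (𝓡 n) p)] [IsRiemannianManifold (𝓡 n) M] [MeasurableSpace M] [BorelSpace M] [ProperSpace M] [SecondCountableTopology M] [Nonempty M] [IsFiniteMeasureOnCompacts (μHE[n] : Measure M)] (κ : ℝ) (C : Rad n κ M (μHE[n] : Measure M)) (_ : 0 ≤ κ …  -- (N1) in 710's form.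

### R247/Ar1_659 [ns Crest.Agent.R247.Ar659] # R247, block (3)/(I4): the area inequality, flat part (helper659) * `abs_det_le_prod` : Hadamard, `|det L| ≤ ∏ ‖L_i‖` (`L_i` = the components of `L`); * `flat_area` : if every component of `f : ℝⁿ → ℝⁿ` is `K`-Lipschitz on the open set `V`, then `volume (f '' B) ≤ Kⁿ volume B` for measurable `B ⊆ V`.
* theorem abs_basis_det_le (v : Fin n → 𝔼) : |(EuclideanSpace.basisFun (Fin n) ℝ).toBasis.det v| ≤ ∏ i, ‖v i‖  -- Hadamard's inequality for the vectors `v i` of `ℝⁿ`.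
* theorem abs_det_le_prod (L : 𝔼 →L[ℝ] 𝔼) (l : Fin n → (𝔼 →L[ℝ] ℝ)) (hl : ∀ i v, l i v = (L v) i) : |L.det| ≤ ∏ i, ‖l i‖  -- Hadamard's inequality: `|det L| ≤ ∏ ‖component i of L‖`.
* theorem lipschitzOnWith_of_components {X : Type*} [PseudoMetricSpace X] {K : ℝ≥0} {V : Set X} {f : X → 𝔼} (hf : ∀ i, LipschitzOnWith K (fun x => f x i) V) : LipschitzOnWith (NNReal.sqrt n * K) f V  -- a map with Lipschitz components is Lipschitz.
* theorem flat_area {K : ℝ≥0} {V : Set 𝔼} (hV : IsOpen V) {f : 𝔼 → 𝔼} (hf : ∀ i, LipschitzOnWith K (fun x => f x i) V) {B : Set 𝔼} (hB : B ⊆ V) (hBm : MeasurableSet B) : volume (f '' B) ≤ (K : ℝ≥0∞) ^ n * volume B  -- Area inequality, flat version.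

### R247/Ar2_659 [ns Crest.Agent.R247.Ar659] # R247, block (3)/(I4): the area inequality on a Riemannian manifold (helper659) * `area_on` : `U ⊆ M` open, every `b i` is `L`-Lipschitz on `U`, `A ⊆ U` measurable ⇒ `volume ((b₁,…,bₙ) '' A) ≤ Lⁿ μHE[n] A`; * `area` : the global `1`-Lipschitz form (field `area` of `VC402.Setup`).
* def mp (b : Fin n → M → ℝ) (x : M) : 𝔼  -- the map `(b₁,…,bₙ)`.
* theorem area_local {U : Set M} (hU : IsOpen U) {L : ℝ≥0} {b : Fin n → M → ℝ} (hb : ∀ i, LipschitzOnWith L (b i) U) {z : M} (hz : z ∈ U) {K : ℝ≥0} (hK : 1 < K) : ∃ W : Set M, IsOpen W ∧ z ∈ W ∧ W ⊆ U ∧ ∀ S ⊆ W, MeasurableSet S → volume (mp b '' S) ≤ (K : ℝ≥0∞) * ((L : ℝ≥0∞) ^ n * μHE[n] S)  -- local version.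
* theorem area_on [SecondCountableTopology M] {U : Set M} (hU : IsOpen U) {L : ℝ≥0} {b : Fin n → M → ℝ} (hb : ∀ i, LipschitzOnWith L (b i) U) {A : Set M} (hA : A ⊆ U) (hAm : MeasurableSet A) : volume (mp b '' A) ≤ (L : ℝ≥0∞) ^ n * μHE[n] A  -- Area inequality, on an open set.
* theorem area [SecondCountableTopology M] (b : Fin n → M → ℝ) (hb : ∀ i x y, |b i x - b i y| ≤ dist x y) (A : Set M) (hAm : MeasurableSet A) : volume ((fun x => (WithLp.toLp 2 (fun i => b i x) : 𝔼)) '' A) ≤ μHE[n] A  -- Area inequality, global `1`-Lipschitz form.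

### R247/Ar3_659 [ns Crest.Agent.R247.Ar659] # R247: the pointwise calculus of the gradient `Gr` (helper659) * `Gr_comp` : chain rule for a function of finitely many functions; * `Gr_congr` : locality; * `norm_Gr_le_pt`, `ev_le` : `‖Gr f z‖` = pointwise Lipschitz constant of `f` at `z`; * `norm_Gr_dist` : `‖Gr (dist q ·) z‖ = 1` at every `z ≠ q` where `dist q ·` is differentiable; * `cdc : VC402.Cdc M`.
* theorem hasFDerivAt_sel {f : M → ℝ} {z : M} (hf : MDifferentiableAt (𝓡 n) 𝓘(ℝ) f z) : HasFDerivAt (fun b : 𝔼 => f ((chartAt 𝔼 (sel n z)).symm b)) (fderiv ℝ (fun b : 𝔼 => f ((chartAt 𝔼 (sel n z)).symm b)) (crd n z)) (crd n z)  -- differentiability in the selected chart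
* theorem mdiff_comp {k : ℕ} {F : (Fin k → ℝ) → ℝ} {F' : (Fin k → ℝ) →L[ℝ] ℝ} {u : Fin k → M → ℝ} {z : M} (hu : ∀ i, MDifferentiableAt (𝓡 n) 𝓘(ℝ) (u i) z) (hF : HasFDerivAt F F' (fun i => u i z)) : MDifferentiableAt (𝓡 n) 𝓘(ℝ) (fun y => F (fun i => u i y)) z ∧ Gr (n := n) (fun y => F (fun i => u i y)) z = ∑ i, F' (Pi.single i 1) • Gr (n := n) (u i) z  -- Chain rule.
* theorem Gr_congr {f g : M → ℝ} {z : M} (h : f =ᶠ[𝓝 z] g) : Gr (n := n) f z = Gr (n := n) g z  -- Locality.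
* theorem exists_isom_at (z : M) : ∃ A : 𝔼 ≃L[ℝ] 𝔼, (∀ u v, inner ℝ (A u) (A v) = gm (sel n z) (crd n z) u v) ∧ (∀ v : TangentSpace (𝓡 n) z, ‖A (dC (sel n z) z v)‖ = ‖v‖)  -- The isometric picture at `z`.
* theorem norm_Gr_le_pt {f : M → ℝ} {z : M} {K : ℝ} (hK : 0 ≤ K) (hf : MDifferentiableAt (𝓡 n) 𝓘(ℝ) f z) (h : ∀ᶠ y in 𝓝 z, |f y - f z| ≤ K * dist y z) : ‖Gr (n := n) f z‖ ≤ K  -- `‖Gr f z‖ ≤` the pointwise Lipschitz constant.
* theorem ev_le {f : M → ℝ} {z : M} (hf : MDifferentiableAt (𝓡 n) 𝓘(ℝ) f z) {ε : ℝ} (hε : 0 < ε) : ∀ᶠ y in 𝓝 z, |f y - f z| ≤ (‖Gr (n := n) f z‖ + ε) * dist y z  -- the pointwise Lipschitz constant is `≤ ‖Gr f z‖`.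
* theorem norm_Gr_dist [CompleteSpace M] {q z : M} (hz : z ≠ q) (hf : MDifferentiableAt (𝓡 n) 𝓘(ℝ) (fun y => dist q y) z) : ‖Gr (n := n) (fun y => dist q y) z‖ = 1  -- Unit gradient of the distance.
* def cdc : VC402.Cdc M  -- The carré-du-champ calculus of a Riemannian manifold.

### R247/Ar4_659 [ns Crest.Agent.R247.Ar659] # R247, block (3): the instance `setup : VC402.Setup n M μHE[n]` (helper659) `M` a complete Riemannian manifold of dimension `n ≥ 1` (for `n = 0` the field `unit` is false).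
* theorem muHE_singleton {X : Type*} [MetricSpace X] [MeasurableSpace X] [BorelSpace X] {n : ℕ} (hn : 1 ≤ n) (q : X) : (μHE[n] : Measure X) {q} = 0  -- points are null in dimension `≥ 1`.
* theorem ae_norm_Gr_dist [CompleteSpace M] (hn : 1 ≤ n) (q : M) : ∀ᵐ z ∂(μHE[n] : Measure M), ‖Gr (n := n) (fun y => dist q y) z‖ = 1  -- `|∇ d_q| = 1` a.e.
* def setup [CompleteSpace M] (hn : 1 ≤ n) : VC402.Setup n M (μHE[n] : Measure M)  -- The instance.

### R247/Opn_79 [ns Crest.Agent.R247.Opn79] # R247, LS4: openness clause from volume pinching A map `F` from a complete metric space to `ℝⁿ` which is (up to a constant factor `c`) a near isometry on a ball, the small balls of which have almost maximal `n`-volume, is quantitatively open. No degree, no invariance of domain.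
* abbrev E (n : ℕ) : Type  -- Euclidean space
* theorem vol_le (F : X → E n) (S : Set X) (K : ℝ≥0) (h : ∀ x ∈ S, ∀ z ∈ S, dist x z ≤ K * dist (F x) (F z)) : μHE[n] S ≤ (K : ℝ≥0∞) ^ n * volume (F '' S)  -- Expanding maps do not decrease the `n`-volume much.
* theorem vol_ball (x : E n) {r : ℝ} (hr : 0 < r) : volume (ball x r) = ENNReal.ofReal (r ^ n) * volume (ball (0 : E n) 1)  -- volume of a Euclidean ball
* theorem dense (hε : 0 ≤ ε) (hε1 : ε < 1) (hnum : (1 + ε) ^ n < (1 - ε) * (1 - ε) ^ n + (1 / 4) ^ n) (hG : ∀ x z : X, dist q x < R → dist q z < R → |dist (G x) (G z) - dist x z| ≤ ε * dist x z) {z : X} {s : ℝ} (hs : 0 < s) (hz : ∀ x, dist z x < s → dist q x < R) (hvol : ENNReal.ofReal (1 - ε) * volume (ball (0 : E n) s) ≤ μHE[n] (ball z s)) (w : E n) (hw : dist (G z) w ≤ s / 2) : ∃ z', dist z z' < s ∧ dist (G z') w < s / 4  -- The image of a ball is dense in the Euclidean ball, at scale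 `1/4`.
* theorem surj [CompleteSpace X] (hε : 0 ≤ ε) (hε1 : ε < 1) (hnum : (1 + ε) ^ n < (1 - ε) * (1 - ε) ^ n + (1 / 4) ^ n) (hG : ∀ x z : X, dist q x < R → dist q z < R → |dist (G x) (G z) - dist x z| ≤ ε * dist x z) (hvol : ∀ z s, 0 < s → (∀ x, dist z x < s → dist q x < R) → ENNReal.ofReal (1 - ε) * volume (ball (0 : E n) s) ≤ μHE[n] (ball z s)) {x : X} {y : E n} {t : ℝ} (ht : 0 < t) (hx : dist q x + 4 * t < R) (hy : dist (G x) y ≤ t) : ∃ z, dist x z ≤ 4 * t ∧ G z = y  -- Quantitative surjectivity.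
* theorem chart_of_near [CompleteSpace X] {F : X → E n} {q : X} {R ε c ρ L : ℝ} (hc : 0 < c) (hε : 0 ≤ ε) (hε1 : ε ≤ 1 / 2) (hnum : (1 + ε) ^ n < (1 - ε) * (1 - ε) ^ n + (1 / 4) ^ n) (hF : ∀ x z : X, dist q x < R → dist q z < R → |c * dist (F x) (F z) - dist x z| ≤ ε * dist x z) (hvol : ∀ z s, 0 < s → (∀ x, dist z x < s → dist q x < R) → ENNReal.ofReal (1 - ε) * volume (ball (0 : E n) s) ≤ μHE[n] (ball z s)) (hρ : 2 * ρ ≤ R) (hL : 4 * c ≤ L) (hL' : 2 / c ≤ L) : (∀ x z : X, dist q x < 2 * ρ → dist q z < 2 * ρ → L⁻¹ * dist x z ≤ dist (F x) (F z) ∧ dist (F x) …  -- LS4: bi-Lipschitz and openness clauses from a near isometry `c • F` and volume pinching.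

### R247/Jm1_216 [ns Crest.Agent.R247.Jm216] R247, leaf (0e) (helper216): joint measurability, in `(y, z)`, of the frame gradient `Gr (f y) z` of a family `f : Y → M → ℝ` with `(y, z) ↦ f y z` continuous, of its set of differentiability, and Rademacher's theorem for almost every pair. Special case `f y z = dist y z`.
* def Fl (f : Y → M → ℝ) (i : ℕ × ℕ × ℕ) (y : Y) (b : EuclideanSpace ℝ (Fin n)) : ℝ  -- local model of the family
* theorem measurable_Gr_param {f : Y → M → ℝ} (hf : Continuous (Function.uncurry f)) : Measurable (fun p : Y × M => Gr (n := n) (f p.1) p.2)  -- (0e-a) joint measurability of the frame gradient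
* theorem measurableSet_mdiff_param {f : Y → M → ℝ} (hf : Continuous (Function.uncurry f)) : MeasurableSet {p : Y × M | MDifferentiableAt (𝓡 n) 𝓘(ℝ) (f p.1) p.2}  -- (0e-b) joint measurability of the set of differentiability
* def MD (f : Y → M → ℝ) : Set (Y × M)  -- pairs `(y, z)` such that `f y` is differentiable at `z`
* def gd (a z : M) : EuclideanSpace ℝ (Fin n)  -- frame gradient of the distance from `a`
* def gf (a z : M) : EuclideanSpace ℝ (Fin n)  -- frame gradient of `dist a · ^ 2 / 2`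
* theorem measurable_inner_gf : Measurable (fun p : M × M × M => inner ℝ (gf n p.1 p.2.2) (gf n p.2.1 p.2.2))  -- `(a, b, u) ↦ ⟨∇f_a, ∇f_b⟩(u)`
* theorem measurable_inner_gd : Measurable (fun p : M × M × M => inner ℝ (gd n p.1 p.2.2) (gd n p.2.1 p.2.2))  -- `(a, b, u) ↦ ⟨∇d_a, ∇d_b⟩(u)`
* theorem measurable_inner_gf_gd : Measurable (fun p : M × M × M => inner ℝ (gf n p.1 p.2.2) (gd n p.2.1 p.2.2))  -- `(a, b, u) ↦ ⟨∇f_a, ∇d_b⟩(u)`
* theorem ae_MD_dist (ν : Measure M) [SFinite (μHE[n] : Measure M)] : ∀ᵐ p ∂(ν.prod (μHE[n] : Measure M)), p ∈ MD n (fun a u : M => dist a u)  -- almost every pair: `d_a` is differentiable at `z`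

### R247/Exc1_853 [ns Crest.Agent.R247.Exc853] # R247, block (1), leaf (1-E): the excess inequalities (3a), (3b), (3b'), (3c) of doc 1392 Everything is derived from the mean value inequality `MVH` for the nonnegative functions `y ↦ dist p y + dist y q - c`.
* def Exc (x w y : X) : ℝ  -- The excess `E(y) = |y| + d(y,w) - |w|`, `|·| = dist x ·`.
* def MVH (μ : Measure X) (S : Set X) (R K A : ℝ) : Prop  -- Mean value inequality for the functions `y ↦ ∑ dist (p i) y - c ≥ 0`, centres in `S`, radii `≤ R`.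
* def Bpf (μ : Measure X) : Prop  -- Balls have positive and finite measure.
* theorem exc_next_le (hB : Bpf μ) {S : Set X} {R K A : ℝ} (hMV : MVH μ S R K A) {x w b₀ b₁ b₂ : X} {r : ℝ} (hS₀ : b₀ ∈ S) (hS₁ : b₁ ∈ S) (hS₂ : b₂ ∈ S) (hr : 0 < r) (hrR : r ≤ R) (h01 : 4 * r ≤ dist b₀ b₁) (h12 : 4 * r ≤ dist b₁ b₂) (h012 : dist b₀ b₁ + dist b₁ b₂ = dist b₀ b₂) (h02w : dist b₀ b₂ + dist b₂ w = dist b₀ w) : Exc x w b₂ ≤ ⨍ y in ball b₁ r, Exc x w y ∂μ + K * (A * r ^ 2 * ((dist b₀ b₁)⁻¹ + (dist b₁ b₂)⁻¹))  -- (3a) the excess at the next point is bounded by the average at the previous one: `b₀, b₁, b₂, w` aligned.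
* def xbar (μ : Measure X) (x b b' : X) (ρ : ℝ) : ℝ  -- The averaged excess `E[|zz| + d(zz,y) - |y|]`, `zz` uniform in `B_ρ(b)`, `y` uniform in `B_ρ(b')`.
* theorem xbar_le (hB : Bpf μ) {S : Set X} {R K A L : ℝ} (hK : 1 ≤ K) (hA : 0 ≤ A) (hMV : MVH μ S R K A) {x w b b' b'' : X} {ρ : ℝ} (hx : x ∈ S) (hw : w ∈ S) (hbS : ball b ρ ⊆ S) (hb' : b' ∈ S) (hb'' : b'' ∈ S) (hρ : 0 < ρ) (hρR : ρ ≤ R) (h8 : 8 * ρ ≤ L) (hxb : L ≤ dist x b) (hbb : L ≤ dist b b') (hbw : L ≤ dist b' w) (hbc : L ≤ dist b' b'') (h1 : dist b b' + dist b' b'' = dist b b'') (h2 : dist b b'' + dist b'' w = dist b w) : xbar μ x b b' ρ ≤ K ^ 2 * (Exc x w b - Exc x w b'') + 7 * K ^ 2 * A * ρ ^ 2 / L  -- (3b): `b, b', b'', w` aligned.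
* theorem xbar_last_le (hB : Bpf μ) {S : Set X} {R K A L : ℝ} (hK : 1 ≤ K) (hA : 0 ≤ A) (hMV : MVH μ S R K A) {x w w' b : X} {ρ : ℝ} (hx : x ∈ S) (hw : w ∈ S) (hw'S : w' ∈ S) (hbS : ball b ρ ⊆ S) (hρ : 0 < ρ) (hρR : ρ ≤ R) (h8 : 8 * ρ ≤ L) (hxb : L ≤ dist x b) (hbb : L ≤ dist b w) (hww : L ≤ dist w w') (hw' : dist x w + dist w w' = dist x w') : xbar μ x b w ρ ≤ K ^ 2 * Exc x w b + 5 * K ^ 2 * A * ρ ^ 2 / L  -- (3b'), the last step `b' = w`, with `w'` beyond `w` on the ray from `x`.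
* theorem exc_next_le_sq (hB : Bpf μ) {S : Set X} {R K A Cd L : ℝ} (hK : 0 ≤ K) (hA : 0 ≤ A) (hCd : 0 ≤ Cd) (hMV : MVH μ S R K A) {x w b₀ b₁ b₂ g : X} (hx : x ∈ S) (hw : w ∈ S) (hS₀ : b₀ ∈ S) (hS₁ : b₁ ∈ S) (hS₂ : b₂ ∈ S) (hSg : g ∈ S) (hL : 0 < L) (hLR : L ≤ R) (hdb : ∀ r, 0 < r → r ≤ L → μ.real (ball g (2 * r)) ≤ Cd * μ.real (ball b₁ r)) (h01 : L ≤ dist b₀ b₁) (h12 : L ≤ dist b₁ b₂) (hxg : L ≤ dist x g) (hgw : L ≤ dist g w) (h012 : dist b₀ b₁ + dist b₁ b₂ = dist b₀ b₂) (h02w : dist b₀ b₂ + dist b₂ w = dist b₀ w) (hg : Exc x w g = 0) : Exc x w b₂ ≤ (8 * C …  -- (3c) `E(b₂) ≤ C_U D²/L`, `D = d(b₁, g)`, `g` a point with `E(g) = 0`.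

### R247/Exc2_853 [ns Crest.Agent.R247.Exc853 / IsMin] # R247, block (1), leaf (1-E), file 2: balls of positive measure from `Rad`, and the excess inequalities along a minimiser `σ : [0,l] → X` from `z` to `w`.
* structure IsMin (z w : X) (l : ℝ) (σ : ℝ → X) : Prop where zero : σ 0 = z last : σ l = w dist : ∀ a ∈ Icc (0 : ℝ) l, ∀ b ∈ Icc (0 : ℝ) l, dist (σ a) (σ b) = |a - b|  -- `σ` is a minimiser from `z = σ 0` to `w = σ l` (arclength).
* theorem xbar_le (hB : Bpf μ) {S : Set X} {R K A L : ℝ} (hK : 1 ≤ K) (hA : 0 ≤ A) (hMV : MVH μ S R K A) {x : X} {ρ a b c : ℝ} (hx : x ∈ S) (hw : w ∈ S) (hbS : ball (σ a) ρ ⊆ S) (hb' : σ b ∈ S) (hb'' : σ c ∈ S) (hρ : 0 < ρ) (hρR : ρ ≤ R) (h8 : 8 * ρ ≤ L) (ha : 0 ≤ a) (hab : L ≤ b - a) (hbc : L ≤ c - b) (hc : c ≤ l) (hxb : L ≤ Dist.dist x (σ a)) : xbar μ x (σ a) (σ b) ρ ≤ K ^ 2 * (Exc x w (σ a) - Exc x w (σ c)) + 7 * K ^ 2 * A * ρ ^ 2 / L  -- (3b) along `σ`.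
* theorem xbar_last_le (hB : Bpf μ) {S : Set X} {R K A L : ℝ} (hK : 1 ≤ K) (hA : 0 ≤ A) (hMV : MVH μ S R K A) {x w' : X} {ρ a : ℝ} (hx : x ∈ S) (hw : w ∈ S) (hw'S : w' ∈ S) (hbS : ball (σ a) ρ ⊆ S) (hρ : 0 < ρ) (hρR : ρ ≤ R) (h8 : 8 * ρ ≤ L) (ha : 0 ≤ a) (hal : L ≤ l - a) (hxb : L ≤ Dist.dist x (σ a)) (hww : L ≤ Dist.dist w w') (hw' : Dist.dist x w + Dist.dist w w' = Dist.dist x w') : xbar μ x (σ a) w ρ ≤ K ^ 2 * Exc x w (σ a) + 5 * K ^ 2 * A * ρ ^ 2 / L  -- (3b') along `σ`, last step, `w'` beyond `w`.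
* theorem exc_le_sq (hB : Bpf μ) {S : Set X} {R K A Cd L : ℝ} (hK : 0 ≤ K) (hA : 0 ≤ A) (hCd : 0 ≤ Cd) (hMV : MVH μ S R K A) {x g : X} {a b c : ℝ} (hx : x ∈ S) (hw : w ∈ S) (hS₀ : σ a ∈ S) (hS₁ : σ b ∈ S) (hS₂ : σ c ∈ S) (hSg : g ∈ S) (hL : 0 < L) (hLR : L ≤ R) (hdb : ∀ r, 0 < r → r ≤ L → μ.real (ball g (2 * r)) ≤ Cd * μ.real (ball (σ b) r)) (ha : 0 ≤ a) (hab : L ≤ b - a) (hbc : L ≤ c - b) (hc : c ≤ l) (hxg : L ≤ Dist.dist x g) (hgw : L ≤ Dist.dist g w) (hg : Exc x w g = 0) : Exc x w (σ c) ≤ (8 * Cd * K * A + 2 * K * A + 16) * (Dist.dist (σ b) g ^ 2 / L)  -- (3c) along `σ`: `T(c) ≤ C_U D(b)²/L`.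

### R247/Exc3_853 [ns Crest.Agent.R247.Exc853] # R247, block (1), leaf (1-E), file 3: `xbar` as an iterated `lintegral`; (3c) = (U) along a minimiser over the interface `FarD`.
* theorem lintegral_xbar (hB : Bpf μ) (x b b' : X) {ρ : ℝ} (hρ : 0 < ρ) : ∫⁻ z in ball b ρ, ∫⁻ y in ball b' ρ, ENNReal.ofReal (dist x z + dist z y - dist x y) ∂μ ∂μ = ENNReal.ofReal (xbar μ x b b' ρ) * μ (ball b ρ) * μ (ball b' ρ)  -- `xbar` in the form consumed by (BL): iterated `lintegral`.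
* theorem U_line {c : FarK} {C : Rad n κ X μ} {x : X} {δ : ℝ} {ph : ℕ → ℝ} (F : FarD c C x δ ph) (hB : Bpf μ) (hδ : δ ≤ 1 / 2) {K A : ℝ} (hK : 0 ≤ K) (hA : 0 ≤ A) (hMV : MVH μ (ball x 20) 1 K A) {z v w : X} {l lam : ℝ} {σ : ℝ → X} (hU : (x, v) ∈ C.U) (hv : x ≠ v) (hlam : lam ∈ Ioc (0 : ℝ) 1) (hw : w = C.T x lam v) (hl : 0 ≤ l) (hσ : IsMin z w l σ) (hwx : dist x w < 12) (hwx' : 2 ≤ dist x w) {τ : ℝ} (hz : 2 * dist x z ≤ τ) (hτ : 0 < τ) (hτ1 : τ ≤ 1 / 4) : Exc x w (σ (2 * τ)) ≤ (16 * (3 * 2 ^ n) * K * A + 4 * K * A + 32) * (dist (σ τ) (ray C x v (dist x (σ τ …  -- (U) = (3c) along a minimiser `σ : z → w`, `w = T x lam v`, over `FarD`: `T(2τ) ≤ C_U D(τ)²/τ`, `D(τ) = d(σ τ, γ_v(|σ τ|))`.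

### R247/Exc4_853 [ns Crest.Agent.R247.Exc853] # R247, block (1), leaf (1-E), file 4: (3b), (3b'), (3c) over the interface `FarD`, all hypotheses discharged.
* theorem far_xbar_le (F : FarD c C x δ ph) (hκ : 0 ≤ κ) (hn : 1 ≤ n) (hδ' : -1 ≤ δ) (hδ : δ ≤ 1 / 2) (hκ' : κ * 1600 ≤ 1) {z w : X} {l L ρ a b c' : ℝ} {σ : ℝ → X} (hσ : IsMin z w l σ) (hl : 0 ≤ l) (hz : dist x z ≤ 1) (hw : dist x w ≤ 12) (hρ : 0 < ρ) (hρ1 : ρ ≤ 1) (h8 : 8 * ρ ≤ L) (ha : 0 ≤ a) (hab : L ≤ b - a) (hbc : L ≤ c' - b) (hc : c' ≤ l) (hxb : L ≤ dist x (σ a)) : xbar μ x (σ a) (σ b) ρ ≤ 16 * (Exc x w (σ a) - Exc x w (σ c')) + 112 * ρ ^ 2 / L  -- (3b) over `FarD`: `xbar ≤ 16 (T(a) - T(c)) + 112 ρ²/L`.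
* theorem far_xbar_last_le (F : FarD c C x δ ph) (hκ : 0 ≤ κ) (hn : 1 ≤ n) (hδ' : -1 ≤ δ) (hδ : δ ≤ 1 / 2) (hκ' : κ * 1600 ≤ 1) {z w v : X} {l L ρ a lam : ℝ} {σ : ℝ → X} (hU : (x, v) ∈ C.U) (hlam : lam ∈ Ioc (0 : ℝ) 1) (hwv : w = C.T x lam v) (hv : dist x v ≤ 12) (hσ : IsMin z w l σ) (hl : 0 ≤ l) (hz : dist x z ≤ 1) (hρ : 0 < ρ) (hρ1 : ρ ≤ 1) (h8 : 8 * ρ ≤ L) (ha : 0 ≤ a) (hal : L ≤ l - a) (hxb : L ≤ dist x (σ a)) (hwv' : L ≤ (1 - lam) * dist x v) : xbar μ x (σ a) w ρ ≤ 16 * Exc x w (σ a) + 80 * ρ ^ 2 / L  -- (3b') over `FarD`, last step.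
* theorem far_U (F : FarD c C x δ ph) (hκ : 0 ≤ κ) (hn : 1 ≤ n) (hδ' : -1 ≤ δ) (hδ : δ ≤ 1 / 2) (hκ' : κ * 1600 ≤ 1) {z w v : X} {l lam τ : ℝ} {σ : ℝ → X} (hU : (x, v) ∈ C.U) (hv : x ≠ v) (hlam : lam ∈ Ioc (0 : ℝ) 1) (hwv : w = C.T x lam v) (hl : 0 ≤ l) (hσ : IsMin z w l σ) (hwx : dist x w < 12) (hwx' : 2 ≤ dist x w) (hz : 2 * dist x z ≤ τ) (hτ : 0 < τ) (hτ1 : τ ≤ 1 / 4) : Exc x w (σ (2 * τ)) ≤ (192 * 2 ^ n + 48) * (dist (σ τ) (ray C x v (dist x (σ τ))) ^ 2 / τ)  -- (U) over `FarD`: `T(2τ) ≤ (192·2ⁿ + 48) D(τ)²/τ`.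

### R247/Max1_193 [ns Crest.Agent.R247.Max193] R247, leaf (1-M) (helper193), abstract part: splitting of a positive functional on the form domain, local maximal inequality for `sup_h (1 + h L)⁻¹ l` on a set `B`.
* theorem Pos.mono_on (hQ : Markov Q) {l : Fnl Q} (hl : Pos l) {U : Set X} (hU : SuppIn l U) {u v : Lp ℝ 2 μ} (hu : u ∈ Q.dom) (hv : v ∈ Q.dom) (h : ∀ᵐ y ∂μ, y ∈ U → u y ≤ v y) : l.f u ≤ l.f v  -- monotonicity seen only on `U`
* theorem markov_resD (hQ : Markov Q) {h : ℝ} (hh : 0 < h) {l : Fnl Q} (hl : Pos l) {B : Set X} (hB : MeasurableSet B) (hμ : μ B ≠ ∞) {o : ℝ} (ho : l.f (Q.res h (ind hB hμ)) ≤ o) {t : ℝ} (ht : 0 < t) : μ {x | x ∈ B ∧ t < resD Q h l x} ≤ ENNReal.ofReal (o / t)  -- Markov's inequality on `B` for `R l`, `l` positive.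
* theorem weak11_local [SigmaFinite μ] (hQ : Markov Q) {l lin lout : Fnl Q} (hsplit : ∀ w ∈ Q.dom, l.f w = lin.f w + lout.f w) (hin : Pos lin) (hout : Pos lout) {B : Set X} (hB : MeasurableSet B) (hμ : μ B ≠ ∞) {h : ℕ → ℝ} (hh : ∀ i, 0 < h i) {m : ℝ} (hm : Mass lin m) {o : ℕ → ℝ} (ho0 : ∀ i, 0 ≤ o i) (hos : Summable o) (ho : ∀ i, lout.f (Q.res (h i) (ind hB hμ)) ≤ o i) {t : ℝ} (ht : 0 < t) : μ {x | x ∈ B ∧ ∃ i, t < resD Q (h i) l x} ≤ ENNReal.ofReal (2 * (m + ∑' i, o i) / t)  -- local maximal inequality: `l = lin + lout`, `lin` of small mass, `lout` far from `B`.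
* structure Mult (Q : CForm (Lp ℝ 2 μ)) (p : X → ℝ) where meas : AEStronglyMeasurable p μ nonneg : ∀ᵐ x ∂μ, 0 ≤ p x le_one : ∀ᵐ x ∂μ, p x ≤ 1 C : ℝ C0 : 0 ≤ C mem : ∀ {u w : Lp ℝ 2 μ}, u ∈ Q.dom → ((w : X → ℝ) =ᵐ[μ] fun x => p x * u x) → w ∈ Q.dom ∧ ‖w‖ ^ 2 + Q.E w w ≤ C ^ 2 * (‖u‖ ^ 2 + Q.E u u)  -- `p` is a multiplier of the form domain, `0 ≤ p ≤ 1`.
* def Mult.mul {p : X → ℝ} (M : Mult Q p) (u : Lp ℝ 2 μ) : Lp ℝ 2 μ  -- multiplication by `p` on `L²`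
* def Mult.fnl {p : X → ℝ} (M : Mult Q p) (l : Fnl Q) : Fnl Q  -- the functional `w ↦ l (p w)`
* theorem Mult.fnl_mass {p : X → ℝ} (M : Mult Q p) {l : Fnl Q} (hl : Pos l) {v : Lp ℝ 2 μ} (hv : v ∈ Q.dom) (hpv : ∀ᵐ x ∂μ, p x ≤ v x) : Mass (M.fnl l) (l.f v)  -- the mass of `l (p ·)` is at most `l p'`, for `p ≤ p'` in the domain
* def Mult.compl {p : X → ℝ} (M : Mult Q p) : Mult Q (fun x => 1 - p x)  -- the complementary multiplier
* theorem Mult.out_le (hQ : Markov Q) {p : X → ℝ} (M : Mult Q p) {l : Fnl Q} (hl : Pos l) {U : Set X} (hU : SuppIn l U) {u : Lp ℝ 2 μ} (hu : u ∈ Q.dom) {J : ℕ} {v : ℕ → Lp ℝ 2 μ} (hv : ∀ j, v j ∈ Q.dom) {c : ℕ → ℝ} (h : ∀ᵐ x ∂μ, x ∈ U → (1 - p x) * u x ≤ ∑ j ∈ Finset.range J, c j * v j x) : (M.compl.fnl l).f u ≤ ∑ j ∈ Finset.range J, c j * l.f (v j)  -- the out part: bound through finitely many shells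
* theorem weak11_shells [SigmaFinite μ] (hQ : Markov Q) {l : Fnl Q} (hl : Pos l) {U : Set X} (hU : SuppIn l U) {B : Set X} (hB : MeasurableSet B) (hμ : μ B ≠ ∞) {h : ℕ → ℝ} (hh : ∀ i, 0 < h i) {p : X → ℝ} (M : Mult Q p) {v0 : Lp ℝ 2 μ} (hv0 : v0 ∈ Q.dom) (hpv : ∀ᵐ x ∂μ, p x ≤ v0 x) {J : ℕ} {v : ℕ → Lp ℝ 2 μ} (hv : ∀ j, v j ∈ Q.dom) (hvn : ∀ j, 0 ≤ᵐ[μ] (v j : X → ℝ)) {C a : ℝ} (hC : 0 ≤ C) (ha : 0 < a) (hdec : ∀ i, ∀ᵐ x ∂μ, x ∈ U → (1 - p x) * Q.res (h i) (ind hB hμ) x ≤ ∑ j ∈ Finset.range J, (C * Real.exp (-(a * 2 ^ j * 2 ^ i))) * v j x) {t : ℝ} (ht : 0 <  …  -- local maximal inequality with shells: `R_i 1_B ≤ C exp (-a 2^(i+j))` on the `j`-th shell.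

### R247/Max2_193 [ns Crest.Agent.R247.Max193] R247, leaf (1-M) (helper193), probability part: if a random integral of `min N C2` along the rays is at least `c`, then the rays meet `{N > c'}`; the probability is at most `C s⁻ⁿ μ {N > c'}`.
* theorem rad_prob [SFinite μ] (C : Rad n κ X μ) (hκ : 0 ≤ κ) (x : X) {A : Set X} (hA : MeasurableSet A) {r1 r2 s : ℝ} (hr1 : 0 < r1) (hAr : ∀ w ∈ A, r1 ≤ dist x w ∧ dist x w ≤ r2) (hs : 0 < s) (hs1 : 4 * s ≤ r1) {N : X → ℝ≥0∞} (hN : Measurable N) {P : X → Prop} {c C1 C2 : ℝ} (hc : 0 < c) (hC1 : 0 < C1) (hC2 : 0 < C2) (hP : ∀ᵐ w ∂μ, w ∈ A → P w → ENNReal.ofReal c ≤ ENNReal.ofReal C1 * ∫⁻ t in Icc (s / dist x w) (4 * s / dist x w), min (N (C.T x t w)) (ENNReal.ofReal C2) * ENNReal.ofReal t⁻¹) : μ {w | w ∈ A ∧ P w} ≤ ENNReal.ofReal (8 * C1 * C2 * r2 ^ (n + 1 …  -- probability of a large capped maximal function along the rays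
* theorem rad_prob_sup [SFinite μ] (C : Rad n κ X μ) (hκ : 0 ≤ κ) (x : X) {A : Set X} (hA : MeasurableSet A) {r1 r2 s : ℝ} (hr1 : 0 < r1) (hAr : ∀ w ∈ A, r1 ≤ dist x w ∧ dist x w ≤ r2) (hs : 0 < s) (hs1 : 4 * s ≤ r1) {q : ℕ → X → ℝ} (hq : ∀ i, Measurable (q i)) {P : X → Prop} {c C1 C2 : ℝ} (hc : 0 < c) (hC1 : 0 < C1) (hC2 : 0 < C2) (hP : ∀ᵐ w ∂μ, w ∈ A → P w → ENNReal.ofReal c ≤ ENNReal.ofReal C1 * ∫⁻ t in Icc (s / dist x w) (4 * s / dist x w), min (⨆ i, ENNReal.ofReal (q i (C.T x t w))) (ENNReal.ofReal C2) * ENNReal.ofReal t⁻¹) : μ {w | w ∈ A ∧ P w} ≤ ENN …  -- the same for a supremum of real functions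
* theorem avg_end {I t1 t2 t3 : ℝ} {q r : ℝ → ℝ} (h1 : 0 < t1) (h12 : t1 ≤ t2) (h23 : t2 < t3) (hr : ∀ t ∈ Icc t1 t3, 0 ≤ r t) (hqi : IntervalIntegrable (fun t => q t / t) volume t2 t3) (hri : IntervalIntegrable (fun t => r t / t) volume t1 t3) (h : ∀ b ∈ Icc t2 t3, I ≤ 2 * q b + 4 * ∫ t in t1..b, r t / t) : I ≤ 2 / Real.log (t3 / t2) * (∫ t in t2..t3, q t / t) + 4 * ∫ t in t1..t3, r t / t  -- `I ≤ 2 q(b) + 4 ∫_{t1}^b r dt/t` for all `b ∈ [t2,t3]`, averaged over `b`.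

### R247/Max3_193 [ns Crest.Agent.R247.Max193 / MaxIn] R247, leaf (1-M) (helper193): the maximal inequality and the `L¹` bound for `q_ρ = (1 - ρ²Δ)⁻¹ m` near the centre, over 593's Dirichlet form, with the volume drops of 688.
* structure MaxIn (n : ℕ) (κ : ℝ) (S : GradS X F μ) (hd : Dense (S.V : Set (Lp ℝ 2 μ))) (x : X) (l : Fnl (S.form hd)) (C0 C3 c3 : ℝ) : Prop where pos : Pos l supp : SuppIn l (Metric.ball x 64) cutb : ∀ r (hr : 0 < r), r ≤ 16 → l.f (tL (isT_cut x hr)) ≤ Rad.drop n κ μ x r mac : l.f (tL (isT_cut x (show (0:ℝ) < 64 by norm_num))) ≤ C0 C3_nonneg : 0 ≤ C3 c3_pos : 0 < c3 dec : ∀ r, 0 < r → r ≤ 2 → ∀ ρ, 0 < ρ → ρ ≤ r → ∀ (hm : MeasurableSet (Metric.ball x r)) (hμ : μ (Metric.ball x r) ≠ ∞), ∀ᵐ y ∂μ, 2 * r ≤ dist x y → (S.form hd).res (ρ ^ 2) (ind hm hμ) y ≤ C3 * …  -- The inputs for the maximal inequality at the centre `x`: `l` = 554's functional, `dec` = 386's (R3).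
* theorem max_le (h : MaxIn n κ S hd x l C0 C3 c3) {r : ℝ} (hr : 0 < r) (hr2 : r ≤ 2) {I : ℕ} (hI : 2 ^ (I + 1) * r ≤ 16) {t : ℝ} (ht : 0 < t) : μ {y | y ∈ Metric.ball x r ∧ ∃ i : ℕ, t < resD (S.form hd) ((r / 2 ^ i) ^ 2) l y} ≤ ENNReal.ofReal (2 * tot n κ μ x C0 C3 c3 r I / t)  -- maximal inequality at radius `r`
* theorem int_le (h : MaxIn n κ S hd x l C0 C3 c3) {r : ℝ} (hr : 0 < r) (hr2 : r ≤ 2) {I : ℕ} (hI : 2 ^ (I + 1) * r ≤ 16) (i : ℕ) : IntegrableOn (fun y => resD (S.form hd) ((r / 2 ^ i) ^ 2) l y) (Metric.ball x r) μ ∧ ∫ y in Metric.ball x r, resD (S.form hd) ((r / 2 ^ i) ^ 2) l y ∂μ ≤ tot n κ μ x C0 C3 c3 r I  -- `L¹` bound at radius `r`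
* def phat (n : ℕ) (κ : ℝ) (μ : Measure X) (x : X) (a : ℝ) (j : ℕ) : ℝ  -- the far defect at scale `dy j` (radii up to `16`)
* def cA (C0 C3 c3 : ℝ) : ℝ  -- the constant
* theorem tot_le (h : MaxIn n κ S hd x l C0 C3 c3) {j : ℕ} (hj : 4 ≤ j) : tot n κ μ x C0 C3 c3 (32 * dy j) (j - 2) ≤ cA C0 C3 c3 * (phat n κ μ x (c3 / 64) j * dy j ^ n)  -- everything in terms of `phat`
* theorem scale_eq {j k : ℕ} (hjk : j ≤ k + 1) : 32 * dy j / 2 ^ (k + 5 - j) = dy k  -- the scales `32 dy j / 2^i`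
* theorem max_dy (h : MaxIn n κ S hd x l C0 C3 c3) {j : ℕ} (hj : 4 ≤ j) {t : ℝ} (ht : 0 < t) : μ {y | y ∈ Metric.ball x (32 * dy j) ∧ ∃ k : ℕ, j ≤ k + 1 ∧ t < resD (S.form hd) (dy k ^ 2) l y} ≤ ENNReal.ofReal (2 * cA C0 C3 c3 / t * phat n κ μ x (c3 / 64) j * dy j ^ n)  -- (MAX)
* theorem int_dy (h : MaxIn n κ S hd x l C0 C3 c3) {j k : ℕ} (hj : 4 ≤ j) (hjk : j ≤ k + 1) : IntegrableOn (fun y => resD (S.form hd) (dy k ^ 2) l y) (Metric.ball x (32 * dy j)) μ ∧ ∫ y in Metric.ball x (32 * dy j), resD (S.form hd) (dy k ^ 2) l y ∂μ ≤ cA C0 C3 c3 * phat n κ μ x (c3 / 64) j * dy j ^ n  -- (m1)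
* theorem int_res_dy (h : MaxIn n κ S hd x l C0 C3 c3) {j k : ℕ} (hj : 4 ≤ j) (hjk : j ≤ k) : IntegrableOn (fun y => (S.form hd).res (dy k ^ 2) (resD (S.form hd) (dy k ^ 2) l) y) (Metric.ball x (32 * dy j)) μ ∧ ∫ y in Metric.ball x (32 * dy j), (S.form hd).res (dy k ^ 2) (resD (S.form hd) (dy k ^ 2) l) y ∂μ ≤ 16 / 3 * (cA C0 C3 c3 * phat n κ μ x (c3 / 64) j * dy j ^ n)  -- (m1R)

### R247/Max4_193 [ns Crest.Agent.R247.Max193 / MaxIn] R247, leaf (1-M) (helper193): the maximal inequality and the `L¹` bound for the representatives `q k`, `R q k` and for `N k = q k + 2 R q k + err k`, where `err` is a cut-off error.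
* theorem exp_le_phat (h : MaxIn n κ S hd x l C0 C3 c3) {b : ℝ} {j k : ℕ} (hb : c3 / 64 ≤ b) (hjk : j ≤ k) : Real.exp (-(b * 2 ^ k)) ≤ phat n κ μ x (c3 / 64) j  -- `phat` dominates the cut-off errors
* theorem rq_le (h : MaxIn n κ S hd x l C0 C3 c3) {q Rq : ℕ → X → ℝ} (hq : ∀ k, q k =ᵐ[μ] (resD (S.form hd) (dy k ^ 2) l : Lp ℝ 2 μ)) (hRq : ∀ k, Rq k =ᵐ[μ] (S.form hd).res (dy k ^ 2) (resD (S.form hd) (dy k ^ 2) l)) (k : ℕ) : ∀ᵐ y ∂μ, Rq (k + 1) y ≤ 16 / 3 * q k y  -- `R q_k ≤ (16/3) q_{k-1}` for representatives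
* def cN (C0 C3 c3 E Vb c : ℝ) : ℝ  -- the constant of `max_N` at level `c`
* theorem max_N (h : MaxIn n κ S hd x l C0 C3 c3) {q Rq err : ℕ → X → ℝ} (hq : ∀ k, q k =ᵐ[μ] (resD (S.form hd) (dy k ^ 2) l : Lp ℝ 2 μ)) (hRq : ∀ k, Rq k =ᵐ[μ] (S.form hd).res (dy k ^ 2) (resD (S.form hd) (dy k ^ 2) l)) {E b Vb : ℝ} (hE : 0 ≤ E) (hb : c3 / 64 ≤ b) (hVb : 0 ≤ Vb) (herr : ∀ k, ∀ᵐ y ∂μ, dist x y < 12 → err k y ≤ E * Real.exp (-(b * 2 ^ k))) {j : ℕ} (hj : 4 ≤ j) (hV : μ (Metric.ball x (5 * dy j)) ≤ ENNReal.ofReal (Vb * dy j ^ n)) {c : ℝ} (hc : 0 < c) : μ {y | y ∈ Metric.ball x (5 * dy j) ∧ ∃ k, j ≤ k ∧ c < q k y + 2 * Rq k y + err k y} ≤ ENNR …  -- [MAX] for `N k = q k + 2 R q k + err k` (input of 644's `d1b_of`)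
* theorem int_N (h : MaxIn n κ S hd x l C0 C3 c3) {q Rq err : ℕ → X → ℝ} (hq : ∀ k, q k =ᵐ[μ] (resD (S.form hd) (dy k ^ 2) l : Lp ℝ 2 μ)) (hRq : ∀ k, Rq k =ᵐ[μ] (S.form hd).res (dy k ^ 2) (resD (S.form hd) (dy k ^ 2) l)) {E b Vb : ℝ} (hE : 0 ≤ E) (hb : c3 / 64 ≤ b) (hVb : 0 ≤ Vb) (herr : ∀ k, ∀ᵐ y ∂μ, dist x y < 12 → err k y ≤ E * Real.exp (-(b * 2 ^ k))) {j k : ℕ} (hj : 4 ≤ j) (hjk : j ≤ k) (hV : μ (Metric.ball x (32 * dy j)) ≤ ENNReal.ofReal (Vb * dy j ^ n)) : ∫⁻ y in Metric.ball x (32 * dy j), ENNReal.ofReal (q k y + 2 * Rq k y + err k y) ∂μ ≤ ENNReal.o …  -- (m1) for `N k = q k + 2 R q k + err k`, `lintegral` form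

### R247/Max5_193 [ns Crest.Agent.R247.Max193] R247, leaf (1-M) (helper193): the inputs `MaxIn` for helper554's functional `lx`.
* def c3 (n : ℕ) : ℝ  -- the decay constant

### R247/Max6_193 [ns Crest.Agent.R247.Max193] R247, leaf (1-M) (helper193): summability of the defects `phat` from the volume pinching.
* def wt193 (a : ℝ) (n i : ℕ) : ℝ  -- the weights
* theorem phat_summable [SFinite μ] (C : Rad n κ X μ) (hκ : 0 ≤ κ) (x : X) {a : ℝ} (ha : 0 < a) (hfin : ∀ r, 0 < r → μ (Metric.closedBall x r) ≠ ∞) {δ ω : ℝ} (hδ : δ ≤ 1) (hω : 0 ≤ ω) (h1 : κ * 16 ^ 2 ≤ δ) (hlow : (1 - δ) * ω ≤ vr n μ x (2 * 16)) (hup : ∀ s, 0 < s → s ≤ 2 * 16 → vr n μ x s ≤ (1 + δ) * ω) : (∀ j, 0 ≤ phat n κ μ x a j) ∧ Summable (phat n κ μ x a) ∧ ∀ j1, ∑' j, phat n κ μ x a (j1 + j) ≤ (∑' i, wt193 a n i) * (260 * 2 ^ n * ω * δ) + ∑' j, wt193 a n (j1 + j)  -- summability of the defects with the tail bound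

### R247/Env2_879 [ns Crest.Agent.R247.Env879] R247 (helper879): `Fd656.EnvP n` from the `SegS` instances.
* theorem envP_of {n : ℕ} (hn : 1 ≤ n) (hQ : ∀ (δ : ℝ), 0 ≤ δ → ∀ (M : Type u) [MetricSpace M] [CompleteSpace M] [ConnectedSpace M] [ChartedSpace (EuclideanSpace ℝ (Fin n)) M] [IsManifold 𝓘(ℝ, EuclideanSpace ℝ (Fin n)) ∞ M] [RiemannianBundle (fun x : M => TangentSpace 𝓘(ℝ, EuclideanSpace ℝ (Fin n)) x)] [IsContMDiffRiemannianBundle 𝓘(ℝ, EuclideanSpace ℝ (Fin n)) ∞ (EuclideanSpace ℝ (Fin n)) (fun x : M => TangentSpace 𝓘(ℝ, EuclideanSpace ℝ (Fin n)) x)] [IsRiemannianManifold 𝓘(ℝ, EuclideanSpace ℝ (Fin n)) M] [MeasurableSpace M] [BorelSpace M] [ProperSpace M]  …  -- `EnvP` from `SegS`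
* theorem envP {n : ℕ} (hn : 1 ≤ n) : EnvP.{u} n  -- `EnvP n`, unconditionally (`n ≥ 1`)

### R247/Env_554 [ns Crest.Agent.R247.Fd656] # R247 (helper554): representatives and positivity facts over the environment `EnvF`
* theorem EnvF.norm_Duk_le (h : EnvF B C x δ) (O : HObj B x) (k : ℕ) : ∀ᵐ z ∂μ, ‖B.D (uk B x k) z‖ ≤ 2 * CA n 1  -- n-constant gradient bound of `u_k`
* theorem EnvF.exists_uc (h : EnvF B C x δ) (O : HObj B x) (k : ℕ) : ∃ uc : X → ℝ, LipschitzWith (2 * CA n 1).toNNReal uc ∧ (∀ᵐ z ∂μ, uk B x k z = uc z) ∧ ∀ᵐ z ∂μ, B.D (uk B x k) z = B.G uc z  -- Lipschitz representative of `u_k`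
* theorem EnvF.exists_qc (h : EnvF B C x δ) (O : HObj B x) (k : ℕ) : ∃ qc : X → ℝ, LocallyLipschitz qc ∧ (∀ z, 0 ≤ qc z) ∧ (∀ᵐ z ∂μ, qk B x k z = qc z) ∧ (∀ᵐ z ∂μ, B.D (qk B x k) z = B.G qc z) ∧ ∀ y, RD C y qc (fun z => ⟪B.G (hf y) z, B.G qc z⟫)  -- locally Lipschitz, nonnegative representative of `q_k`
* theorem EnvF.exists_qc' (h : EnvF B C x δ) (O : HObj B x) (k : ℕ) : ∃ qc : X → ℝ, LocallyLipschitz qc ∧ (∀ z, 0 ≤ qc z) ∧ (∀ᵐ z ∂μ, qf B x k z = qc z) ∧ (∀ᵐ z ∂μ, qk B x k z = qc z) ∧ (∀ᵐ z ∂μ, B.D (qk B x k) z = B.G qc z) ∧ RD C x qc (fun z => ⟪B.G (hf x) z, B.D (qk B x k) z⟫)  -- the same, with the literal function `qf` and the class gradient of `q_k`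
* theorem EnvF.exists_reps (h : EnvF B C x δ) (O : HObj B x) : ∃ qc : ℕ → X → ℝ, (∀ k, LocallyLipschitz (qc k)) ∧ (∀ k z, 0 ≤ qc k z) ∧ (∀ k, ∀ᵐ z ∂μ, qf B x k z = qc k z) ∧ (∀ k, ∀ᵐ z ∂μ, qk B x k z = qc k z) ∧ (∀ k, ∀ᵐ z ∂μ, B.D (qk B x k) z = B.G (qc k) z) ∧ ∀ k, RD C x (qc k) (fun z => ⟪B.G (hf x) z, B.D (qk B x k) z⟫)  -- all representatives at once
* def hdn (n : ℕ) : ℝ  -- the constant of the upper density
* theorem EnvF.closedBall_le (h : EnvF B C x δ) (y : X) {ε : ℝ} (hε : 0 < ε) (hε1 : ε ≤ 32) : μ (closedBall y ε) ≤ ENNReal.ofReal (hdn n * ε ^ n)  -- small closed balls, all centres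
* theorem EnvF.hd (h : EnvF B C x δ) (y : X) : ∀ᶠ ε in 𝓝[>] (0:ℝ), μ (closedBall y ε) ≤ ENNReal.ofReal (hdn n * ε ^ n)  -- (hd), constant depending on `n` only

### R247/Env_879 [ns Crest.Agent.R247.Env879] R247 (helper879): the environment `Fd656.EnvF` of one centre exists on every pinched manifold. * `vol_ge'`: lower volumes from the pinching * `env_block_of`: `EnvF (Gs939.boch hk) C x (1024 * δ)` from the pinching and a `SegS`
* theorem env_block_of (hn : 1 ≤ n) {δ : ℝ} (hδ0 : 0 < δ) (hδ : 4096 * δ ≤ 1) {q : M} (hk : HasRicciLowerBound n M (-δ)) (hp : ∀ x ∈ ball q 50, ∀ r : ℝ, 0 < r → r ≤ 40 → ENNReal.ofReal (1 - δ) * volume (ball (0 : EuclideanSpace ℝ (Fin n)) r) ≤ (Measure.euclideanHausdorffMeasure n : Measure M) (ball x r)) (C : Rad n δ M (Measure.euclideanHausdorffMeasure n : Measure M)) (hQ : Nonempty (Fv510.SegS (Gs939.boch (n := n) (M := M) hk) C)) {x : M} (hx : dist x q < 1) : EnvF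 (Gs939.boch (n := n) (M := M) hk) C x (1024 * δ)  -- `EnvF` on a pinched manifold, from a `SegS`.

### R247/Near1_551 [ns Crest.Agent.R247.Near551] R247, block (2a), near isometry (helper551), part 1: the upper bound `‖Ψ x - Ψ y‖ ≤ √((1+ε)/n) d(x,y)` on a Riemannian manifold, from the isotropy of the far measure (`Iso3_311`), by differentiating `d_w` along a minimiser from `x` to `y`.
* def arc (T : ℝ → X) (l s : ℝ) : X  -- unit speed version of a segment `T : [0,1] → X` of length `l`, extended by constants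
* theorem psi_upper_of {κ : ℝ} (hn : 0 < n) (hm : ExM M) {ν : Measure M} [IsProbabilityMeasure ν] {p : M} {R ε : ℝ} (hν : ∀ᵐ w ∂ν, dist w p ≤ R) (hε : 0 ≤ ε) {S : Set M} (hD : ∀ u ∈ S, ∀ᵐ w ∂ν, MDifferentiableAt (𝓡 n) 𝓘(ℝ) (fun z => dist w z) u ∧ ‖Gr (n := n) (fun z => dist w z) u‖ = 1) (hN1 : ∀ u ∈ S, ∀ ξ : 𝔼, ∫ w, ⟪Gr (n := n) (fun z => dist w z) u, ξ⟫ ^ 2 ∂ν ≤ (1 + ε) * ‖ξ‖ ^ 2 / n) {x y : M} (hS : ∀ z, dist x z + dist z y = dist x y → z ∈ S) : ‖psi ν x - psi ν y‖ ≤ Real.sqrt ((1 + ε) / n) * dist x y  -- upper bound (N2) on `M`, for any probability measure `ν ≪ μ` with isotropy constant `(1+ε)/n` at the points of `S`.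
* theorem psi_upper_far (n : ℕ) (hn : 0 < n) {ε : ℝ} (hε : 0 < ε) : ∃ c : ℝ, 0 < c ∧ c < 1 ∧ ∀ (M : Type*) [MetricSpace M] [ChartedSpace (EuclideanSpace ℝ (Fin n)) M] [IsManifold (𝓡 n) ∞ M] [RiemannianBundle (fun p : M => TangentSpace (𝓡 n) p)] [IsContMDiffRiemannianBundle (𝓡 n) ∞ (EuclideanSpace ℝ (Fin n)) (fun p : M => TangentSpace (𝓡 n) p)] [IsRiemannianManifold (𝓡 n) M] [MeasurableSpace M] [BorelSpace M] [ProperSpace M] [SecondCountableTopology M] [Nonempty M] [IsFiniteMeasureOnCompacts (μHE[n] : Measure M)] (κ : ℝ) (C : Rad n κ M (μHE[n] : Measure M)) …  -- upper bound for the far measure of a pinched manifold: literal form of `Iso3_311.n1`.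

### R247/Near2_710 [ns Crest.Agent.R247.Near710] R247, block (2a), near isometry (helper710), part 2: the lower bound `‖Ψ x - Ψ y‖ ≥ (√((1-(n-1)ε)/n) - τ) d(x,y)` on a Riemannian manifold, from far propagation (F) at one scale comparable to `d(x,y)`.
* def om (n : ℕ) : ℝ  -- the measure of the unit ball as a real number
* theorem psi_lower_one {κ : ℝ} (hn : 1 ≤ n) (C : Rad n κ M (μHE[n] : Measure M)) (hm : ExM M) {G : M → M → M → ℝ} (hG : GRep C G) {p : M} {ε c w0 τ : ℝ} (hε0 : 0 ≤ ε) (hε1 : (n - 1) * ε ≤ 1) (hprob : IsProbabilityMeasure (nuf (μHE[n] : Measure M) p)) (hN : ∀ u : M, dist p u ≤ c → (∀ ξ : EuclideanSpace ℝ (Fin n), ∫ w, (inner ℝ (Gr (n := n) (fun z => dist w z) u) ξ) ^ 2 ∂(nuf (μHE[n] : Measure M) p) ≤ (1 + ε) * ‖ξ‖ ^ 2 / n) ∧ ∀ᵐ w ∂(nuf (μHE[n] : Measure M) p), MDifferentiableAt (𝓡 n) 𝓘(ℝ) (fun z => dist w z) u ∧ ‖Gr (n := n) (fun z => dist w z) u‖ = 1) (hw …  -- the lower bound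 with explicit constants
* theorem psi_lower_far (n : ℕ) (hn : 0 < n) {ε : ℝ} (hε : 0 < ε) (hε1 : (n - 1) * ε ≤ 1) : ∃ c : ℝ, 0 < c ∧ c < 1 ∧ ∀ τ : ℝ, 0 < τ → ∃ ε₁ : ℝ, 0 < ε₁ ∧ ∀ (M : Type*) [MetricSpace M] [ChartedSpace (EuclideanSpace ℝ (Fin n)) M] [IsManifold (𝓡 n) ∞ M] [RiemannianBundle (fun p : M => TangentSpace (𝓡 n) p)] [IsContMDiffRiemannianBundle (𝓡 n) ∞ (EuclideanSpace ℝ (Fin n)) (fun p : M => TangentSpace (𝓡 n) p)] [IsRiemannianManifold (𝓡 n) M] [MeasurableSpace M] [BorelSpace M] [ProperSpace M] [SecondCountableTopology M] [Nonempty M] [IsFiniteMeasureOnCompacts (μHE[n …  -- Lower bound of the near isometry, in the form promised to helper551.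

### R247/Near4_710 [ns Crest.Agent.R247.Near710] R247, block (2a), near isometry: `NearP n` (literal Prop of `Q9_550`) from `psi_upper_far` (551) and `psi_lower_far` (710).
* theorem nearP (n : ℕ) (hn : 1 ≤ n) : NearP.{u} n  -- Near isometry.
-/
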