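/-
R249 PART E1 (helper274): inventory of R202 (tensors, elliptic regularity, Moser), R246 (C^{1,alpha}, C^infty bootstrap), R238 (Schauder), R253 SchB, R242, R241 Sobolev. Automatic extract.

==================== TRANSFORMATION LAWS OF TENSORS UNDER CHANGE OF COORDINATES (R202)

### R202/GeoTens [ns Crest.Agent.R202.Tens / Pull] Row 202, part D1: transformation law of the Christoffel symbols, the Riemann tensor, the Ricci tensor, sectional curvature numerators and Gram determinants of `Def_CoordMetric` / `Def_ChartCurvature` under local diffeomorphisms.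
* def eijk (i j k : Fin n) : EuclideanSpace ℝ (Fin n) →L[ℝ] EuclideanSpace ℝ (Fin n) →L[ℝ] EuclideanSpace ℝ (Fin n)  -- coordinate version of a 3-tensor basis element
* structure Pull (g' g : MetricField n) (Φ : EuclideanSpace ℝ (Fin n) → EuclideanSpace ℝ (Fin n)) (V W : Set (EuclideanSpace ℝ (Fin n))) : Prop where isOpen : IsOpen V riem : IsRiemannianOn g W maps : ∀ y ∈ V, Φ y ∈ W smooth : ContDiffOn ℝ ∞ Φ V pull : ∀ y ∈ V, ∀ i j, g' y i j = ∑ a, ∑ b, g (Φ y) a b * (fderiv ℝ Φ y (EuclideanSpace.single i 1)) a * (fderiv ℝ Φ y (EuclideanSpace.single j 1)) b inj : ∀ y ∈ V, Function.Injective (fderiv ℝ Φ y)  -- `g'` on `V` is the pull-back of the Riemannian metric `g` on `W` under the local diffeomorphism `Φ`.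
* theorem gam_eq (h : Pull g' g Φ V W) (hy : y ∈ V) (X Y : EuclideanSpace ℝ (Fin n)) : fderiv ℝ Φ y (Gam g' y X Y) = Gam g (Φ y) (fderiv ℝ Φ y X) (fderiv ℝ Φ y Y) + fderiv ℝ (fderiv ℝ Φ) y X Y  -- Transformation law of the Christoffel symbols.
* theorem curv_eq (h : Pull g' g Φ V W) (hy : y ∈ V) (A X Y : EuclideanSpace ℝ (Fin n)) : fderiv ℝ Φ y (curv (Gam g') y A X Y) = curv (Gam g) (Φ y) (fderiv ℝ Φ y A) (fderiv ℝ Φ y X) (fderiv ℝ Φ y Y)  -- Transformation law of the curvature.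
* theorem ricci_pull (h : Pull g' g Φ V W) (hy : y ∈ V) (X Y : EuclideanSpace ℝ (Fin n)) : ∑ i, ∑ j, ricci g' y i j * X i * Y j = ∑ a, ∑ b, ricci g (Φ y) a b * (fderiv ℝ Φ y X) a * (fderiv ℝ Φ y Y) b  -- Tensoriality of the Ricci form.
* theorem ricci_push (h : Pull g' g Φ V W) (hy : y ∈ V) {P : Prop} (w : EuclideanSpace ℝ (Fin n)) (hP : ∀ v, fderiv ℝ Φ y v = w → ∑ i, ∑ j, ricci g' y i j * v i * v j = ∑ a, ∑ b, ricci g (Φ y) a b * w a * w b → P) : P  -- The Ricci form at `Φ y`, in all directions, from the one at `y`.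
* theorem det_pull (h : Pull g' g Φ V W) (hy : y ∈ V) : (g' y).det = (g (Φ y)).det * (fderiv ℝ Φ y).det ^ 2  -- Determinant of the pulled back metric.
* theorem ricci_ge_of_dense {g : MetricField n} {U D : Set (EuclideanSpace ℝ (Fin n))} (hg : IsRiemannianOn g U) (hDU : D ⊆ U) (hD : U ⊆ closure D) {c : EuclideanSpace ℝ (Fin n) → ℝ} (hc : ContinuousOn c U) (h : ∀ x ∈ D, ∀ w : EuclideanSpace ℝ (Fin n), c x * ‖w‖ ^ 2 ≤ ∑ i, ∑ j, ricci g x i j * w i * w j) : ∀ x ∈ U, ∀ w : EuclideanSpace ℝ (Fin n), c x * ‖w‖ ^ 2 ≤ ∑ i, ∑ j, ricci g x i j * w i * w j  -- A lower bound for the Ricci form on a dense subset extends to the closure: `c x ‖w‖² ≤ Ric(w,w)` with `c` continuous.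

### R202/GeoTensA [ns Crest.Agent.R202.Tens] Row 202, part D1 (abstract part): transformation laws of Levi-Civita connections and of their curvature under a local diffeomorphism, index free.
* def curv (Γ : E → E →L[ℝ] E →L[ℝ] E) (x W X Y : E) : E  -- Curvature of a connection given by its Christoffel map `Γ`.
* def IsLC (G : E → E →L[ℝ] E →L[ℝ] ℝ) (x : E) (Γx : E →L[ℝ] E →L[ℝ] E) : Prop  -- `Γx` is the Levi-Civita Christoffel map at `x` of the metric `G`.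
* theorem lc_transform {G G' : E → E →L[ℝ] E →L[ℝ] ℝ} {Φ : E → E} {y : E} (hΦ : ContDiffAt ℝ 2 Φ y) (hG : DifferentiableAt ℝ G (Φ y)) (hpull : ∀ᶠ z in 𝓝 y, ∀ X Y, G' z X Y = G (Φ z) (fderiv ℝ Φ z X) (fderiv ℝ Φ z Y)) (hG' : DifferentiableAt ℝ G' y) (hsymm : ∀ U V, G (Φ y) U V = G (Φ y) V U) (hnd : ∀ U, (∀ Z, G (Φ y) U Z = 0) → U = 0) (hsurj : Function.Surjective (fderiv ℝ Φ y)) {Γ' Γ : E →L[ℝ] E →L[ℝ] E} (hΓ' : IsLC G' y Γ') (hΓ : IsLC G (Φ y) Γ) (X Y : E) : fderiv ℝ Φ y (Γ' X Y) = Γ (fderiv ℝ Φ y X) (fderiv ℝ Φ y Y) + fderiv ℝ (fderiv ℝ Φ) y X Y  -- Transformation law of the Levi-Civita connection.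
* theorem curv_transform {Γ Γ' : E → E →L[ℝ] E →L[ℝ] E} {Φ : E → E} {y : E} (hΦ : ContDiffAt ℝ 3 Φ y) (hΓ : DifferentiableAt ℝ Γ (Φ y)) (hΓ' : DifferentiableAt ℝ Γ' y) (h : ∀ᶠ z in 𝓝 y, ∀ X Y, fderiv ℝ Φ z (Γ' z X Y) = Γ (Φ z) (fderiv ℝ Φ z X) (fderiv ℝ Φ z Y) + fderiv ℝ (fderiv ℝ Φ) z X Y) (W X Y : E) : fderiv ℝ Φ y (curv Γ' y W X Y) = curv Γ (Φ y) (fderiv ℝ Φ y W) (fderiv ℝ Φ y X) (fderiv ℝ Φ y Y)  -- Transformation law of the curvature.

==================== ELLIPTIC REGULARITY ON R^n (R202)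

### R202/Ell1 [ns Crest.Agent.R202.Ell] Row 202, interior elliptic regularity, file 1: convolution with kernels, Young's inequality `L¹ * L² ⊆ L²`, test functions, weak derivatives. (helper912)
* abbrev EE (n : ℕ)  -- `ℝⁿ`.
* structure IsTest (φ : EE n → ℝ) : Prop where smooth : ContDiff ℝ ∞ φ cpt : HasCompactSupport φ  -- Test functions.
* theorem IsTest.comp_sub {K : EE n → ℝ} (h : IsTest K) (x : EE n) : IsTest (fun t => K (x - t))  -- The function `t ↦ K (x - t)` is a test function.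
* theorem pderiv_add {f g : EE n → ℝ} (i : Fin n) (x : EE n) (hf : DifferentiableAt ℝ f x) (hg : DifferentiableAt ℝ g x) : pderiv i (fun y => f y + g y) x = pderiv i f x + pderiv i g x  -- `pderiv` rules.
* theorem integral_parts {f g : EE n → ℝ} (i : Fin n) (hf : Differentiable ℝ f) (hg : Differentiable ℝ g) (h1 : Integrable (fun x => f x * pderiv i g x)) (h2 : Integrable (fun x => pderiv i f x * g x)) (h3 : Integrable (fun x => f x * g x)) : ∫ x, f x * pderiv i g x = - ∫ x, pderiv i f x * g x  -- integration by parts for products with integrable terms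
* def cv (K g : EE n → ℝ) : EE n → ℝ  -- Convolution with the kernel `K` : `cv K g x = ∫ g t * K (x - t)`.
* theorem lintegral_young (K g : EE n → ℝ≥0∞) (hK : Measurable K) (hg : AEMeasurable g) : ∫⁻ x, (∫⁻ t, g t * K (x - t)) ^ 2 ≤ (∫⁻ x, K x) ^ 2 * ∫⁻ x, g x ^ 2  -- Young's inequality in `lintegral` form.

### R202/Ell2 [ns Crest.Agent.R202.Ell] Row 202, interior elliptic regularity, file 2: Young's inequality for `MemLp _ 2`, the mollifiers, weak derivatives. (helper912)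
* theorem eLpNorm_le_of_dom (K g : EE n → ℝ) (hK : Continuous K) (hg : AEStronglyMeasurable g) {h : EE n → ℝ} {c : ℝ≥0∞} (hd : ∀ x, ‖h x‖ₑ ≤ c * ∫⁻ t, ‖g t‖ₑ * ‖K (x - t)‖ₑ) : eLpNorm h 2 volume ≤ c * (∫⁻ x, ‖K x‖ₑ) * eLpNorm g 2 volume  -- Young: `‖K * g‖₂ ≤ ‖K‖₁ ‖g‖₂`, for any function `h` dominated by the convolution of `|K|` with `|g|`.
* def WD (i : Fin n) (v g : EE n → ℝ) : Prop  -- Weak derivative in direction `i`.
* theorem pderiv_cv_wd {K v g : EE n → ℝ} (hK : IsTest K) (hv : LocallyIntegrable v) {i : Fin n} (h : WD i v g) (x : EE n) : pderiv i (cv K v) x = cv K g x  -- The mollification of a function with a weak derivative.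
* theorem WD.mul {i : Fin n} {v g ψ : EE n → ℝ} (hv : LocallyIntegrable v) (hg : LocallyIntegrable g) (hψ : ContDiff ℝ ∞ ψ) (h : WD i v g) : WD i (fun x => ψ x * v x) (fun x => pderiv i ψ x * v x + ψ x * g x)  -- Product with a smooth function.
* theorem WD.of_smooth {i : Fin n} {f : EE n → ℝ} (hf : ContDiff ℝ 1 f) : WD i f (pderiv i f)  -- Smooth functions have their classical derivatives as weak derivatives.
* theorem WD.symm {i j : Fin n} {v gi gj h : EE n → ℝ} (hi : WD i v gi) (hj : WD j v gj) (hij : WD i gj h) : WD j gi h  -- Symmetry of second weak derivatives.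
* def bmp (n : ℕ) (ε : ℝ) (hε : 0 < ε) : ContDiffBump (0 : EE n)  -- The standard bump at scale `ε`.
* def rho (n k : ℕ) : EE n → ℝ  -- The mollifier at scale `1/(k+1)`.

### R202/Ell3 [ns Crest.Agent.R202.Ell] Row 202, interior elliptic regularity, file 3: weak convergence of mollifications, existence of weak derivatives by Riesz representation. (helper912)
* theorem integral_cv_mul {K g ψ : EE n → ℝ} (hK : IsTest K) (hKn : ∀ x, K (-x) = K x) (hg : LocallyIntegrable g) (hψ : IsTest ψ) : ∫ x, cv K g x * ψ x = ∫ x, g x * cv K ψ x  -- duality for mollification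
* theorem tendsto_integral_cv_mul {g ψ : EE n → ℝ} (hg : LocallyIntegrable g) (hψ : IsTest ψ) : Tendsto (fun k => ∫ x, cv (rho n k) g x * ψ x) atTop (𝓝 (∫ x, g x * ψ x))  -- weak convergence of the mollification
* theorem riesz_rep {V H : Type*} [AddCommGroup V] [Module ℝ V] [NormedAddCommGroup H] [InnerProductSpace ℝ H] [CompleteSpace H] (ι : V →ₗ[ℝ] H) (T : V →ₗ[ℝ] ℝ) {C : ℝ} (hC : 0 ≤ C) (hT : ∀ v, |T v| ≤ C * ‖ι v‖) : ∃ z : H, ‖z‖ ≤ C ∧ ∀ v, T v = inner ℝ z (ι v)  -- Riesz: a functional bounded by the Hilbert norm of an embedding is represented.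
* def testSub (n : ℕ) : Submodule ℝ (EE n → ℝ)  -- The test functions as a submodule.
* theorem exists_wd {v : EE n → ℝ} (hv : LocallyIntegrable v) (i : Fin n) {C : ℝ} (hC : 0 ≤ C) (h : ∀ φ, IsTest φ → |∫ x, v x * pderiv i φ x| ≤ C * (eLpNorm φ 2 volume).toReal) : ∃ g : EE n → ℝ, MemLp g 2 ∧ eLpNorm g 2 volume ≤ ENNReal.ofReal C ∧ WD i v g  -- existence of the weak derivative

### R202/Ell4 [ns Crest.Agent.R202.Ell] Row 202, interior elliptic regularity, file 4: scaling of the mollifiers, the `L²` norm calculus, Friedrichs' commutator, the `H²` estimate. (helper912)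
* def kerK (n k : ℕ) (l : Fin n) (z : EE n) : ℝ  -- The kernel of the commutator.
* def cK (n : ℕ) : ℝ  -- `L¹` norm of the kernel: independent of the scale.
* def nm (f : EE n → ℝ) : ℝ  -- The `L²` norm.
* def N2 (B : ℝ) (f : EE n → ℝ) : Prop  -- `f ∈ L²` with norm at most `B`.
* structure Coef (n : ℕ) (lam M : ℝ) (A : Fin n → Fin n → EE n → ℝ) : Prop where lam_pos : 0 < lam cont : ∀ i j, Continuous (A i j) bdd : ∀ i j x, |A i j x| ≤ M lip : ∀ i j x y, |A i j x - A i j y| ≤ M * ‖x - y‖ ell : ∀ x (ξ : Fin n → ℝ), lam * ∑ i, ξ i ^ 2 ≤ ∑ i, ∑ j, A i j x * ξ j * ξ i  -- data of the uniformly elliptic equation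
* theorem h2_est {lam M B : ℝ} {A : Fin n → Fin n → EE n → ℝ} (h : Coef n lam M A) (hB : 0 ≤ B) {v f : EE n → ℝ} {G : Fin n → EE n → ℝ} (hv : LocallyIntegrable v) (hG : ∀ i, N2 B (G i)) (hf : N2 B f) (hvG : ∀ i, WD i v (G i)) (heq : ∀ φ, IsTest φ → ∫ x, ∑ i, ∑ j, A i j x * G j x * pderiv i φ x = - ∫ x, f x * φ x) (j l : Fin n) : ∃ g, N2 ((1 + n * (n * (M * cK n))) / lam * B) g ∧ WD l (G j) g  -- The `H²` estimate : the weak gradient of a weak solution of `div (A ∇ v) = f` has weak derivatives, with a bound.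

### R202/Ell5 [ns Crest.Agent.R202.Ell] Row 202, interior elliptic regularity, file 5: the classes `HB k C` (`H^k` with norm bound) and `DBOn U k M` (smooth with bounded derivatives), the induction for the `H^(k+2)` estimate. (helper912)
* def HB : ℕ → ℝ → (EE n → ℝ) → Prop | 0, C, v => N2 C v | k + 1, C, v => N2 C v ∧ ∀ i, ∃ g, WD i v g ∧ HB k C g theorem HB.n2 {k : ℕ} {C : ℝ} {v : EE n → ℝ} (h : HB k C v) : N2 C v  -- `v ∈ H^k(ℝⁿ)`, all weak derivatives up to order `k` have `L²` norm at most `C`.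
* def DBOn (U : Set (EE n)) : ℕ → ℝ → (EE n → ℝ) → Prop | 0, M, ψ => ContDiffOn ℝ ∞ ψ U ∧ ∀ x ∈ U, |ψ x| ≤ M | k + 1, M, ψ => (ContDiffOn ℝ ∞ ψ U ∧ ∀ x ∈ U, |ψ x| ≤ M) ∧ ∀ i, DBOn U k M (pderiv i ψ) theorem DBOn.base {U : Set (EE n)} {k : ℕ} {M : ℝ} {ψ : EE n → ℝ} (h : DBOn U k M ψ) : ContDiffOn ℝ ∞ ψ U ∧ ∀ x ∈ U, |ψ x| ≤ M  -- smooth on the open set `U`, all partial derivatives of order at most `k` are bounded by `M`.
* theorem IsTest.exists_db {χ : EE n → ℝ} (h : IsTest χ) (k : ℕ) : ∃ M : ℝ, 0 ≤ M ∧ DBOn univ k M χ  -- Test functions have bounded derivatives.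
* theorem DBOn.cutoff {U : Set (EE n)} (hU : IsOpen U) {k : ℕ} {M M' : ℝ} {χ φ : EE n → ℝ} (hM : 0 ≤ M) (hM' : 0 ≤ M') (hχ : tsupport χ ⊆ U) (h : DBOn univ k M χ) (h' : DBOn U k M' φ) : DBOn univ k (2 ^ k * (M * M')) (fun x => χ x * φ x)  -- Product of a cutoff with a function smooth on `U`.
* theorem HB.mul {k : ℕ} {C M : ℝ} {v ψ : EE n → ℝ} (h : HB k C v) (hψ : DBOn univ k M ψ) (hC : 0 ≤ C) (hM : 0 ≤ M) : HB k (2 ^ k * (M * C)) (fun x => ψ x * v x)  -- Product rule in `H^k`.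

### R202/Ell6 [ns Crest.Agent.R202.Ell] Row 202, interior elliptic regularity, file 6: global `H^(k+2)` regularity with constants. (helper912)
* def WEq (A : Fin n → Fin n → EE n → ℝ) (G : Fin n → EE n → ℝ) (f : EE n → ℝ) : Prop  -- The weak equation `div (A G) = f` on `ℝⁿ`.
* theorem WEq.diff {lam M B : ℝ} {A : Fin n → Fin n → EE n → ℝ} (h : Coef n lam M A) (hA : ∀ i j, ContDiff ℝ ∞ (A i j)) {f : EE n → ℝ} {G : Fin n → EE n → ℝ} (hG : ∀ i, N2 B (G i)) (hf : N2 B f) (heq : WEq A G f) {l : Fin n} {fl : EE n → ℝ} (hfl : WD l f fl) (hfl' : LocallyIntegrable fl) {g : Fin n → Fin n → EE n → ℝ} (hg : ∀ j i, WD i (G j) (g j i)) (hgl : ∀ j i, LocallyIntegrable (g j i)) : WEq A (fun j => g j l) (fun x => fl x + - ∑ i, ∑ j, (pderiv i (pderiv l (A i j)) x * G j x + pderiv l (A i j) x * g j i x))  -- differentiated equation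
* theorem ellreg (n : ℕ) (k : ℕ) (lam M : ℝ) : ∃ C : ℝ, 1 ≤ C ∧ ∀ (A : Fin n → Fin n → EE n → ℝ), Coef n lam M A → (∀ i j, DBOn univ (k + 1) M (A i j)) → ∀ (B : ℝ), 0 ≤ B → ∀ (v f : EE n → ℝ) (G : Fin n → EE n → ℝ), LocallyIntegrable v → (∀ i, N2 B (G i)) → (∀ i, WD i v (G i)) → HB k B f → WEq A G f → ∀ j, HB (k + 1) (C * B) (G j)  -- Global regularity with constants.

### R202/Ell7 [ns Crest.Agent.R202.Ell] Row 202, interior elliptic regularity, file 7: the elementary Sobolev embedding `sup |v| ≤ ∫ |∂₁ ⋯ ∂ₙ v|` and its consequence for `HB n C`. (helper912)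
* def pds : List (Fin n) → (EE n → ℝ) → (EE n → ℝ) | [], f => f | i :: L, f => pderiv i (pds L f) theorem IsTest.pds {φ : EE n → ℝ} (h : IsTest φ) (L : List (Fin n)) : IsTest (pds L φ)  -- iterated derivatives along a list of directions
* def cS (n : ℕ) (R : ℝ) : ℝ  -- the constant of the Sobolev embedding
* theorem ae_le_of_HB {v : EE n → ℝ} {R C : ℝ} (h : HB n C v) (hC : 0 ≤ C) (hR : ∀ x, R ≤ ‖x‖ → v x = 0) : ∀ᵐ x, |v x| ≤ cS n R * C  -- Sobolev embedding : `‖v‖_∞ ≤ c ‖v‖_{H^n}`.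

### R202/EllBasic [ns Crest.Agent.R202.Ell] Row 202: elliptic regularity, part 1: test functions, weak derivatives, L² pairing, difference quotients.
* def Test (φ : V → ℝ) : Prop  -- smooth compactly supported functions
* def dd (e : V) (φ : V → ℝ) (x : V) : ℝ  -- directional derivative
* def WD (e : V) (u v : V → ℝ) : Prop  -- `v` is a weak derivative of `u` in direction `e` (on the whole space)
* def nn (f : V → ℝ) : ℝ  -- the L² norm
* theorem nn_bdd_mul_le {a f : V → ℝ} {C : ℝ} (hC : 0 ≤ C) (ha : ∀ x, |a x| ≤ C) (hf : MemLp f 2 (volume : Measure V)) : nn (fun x => a x * f x) ≤ C * nn f  -- bounded times L²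
* def testSub (V : Type*) [NormedAddCommGroup V] [InnerProductSpace ℝ V] : Submodule ℝ (V → ℝ)  -- The submodule of test functions.
* theorem exists_repr (Λ : testSub V →ₗ[ℝ] ℝ) {C : ℝ} (hC : 0 ≤ C) (h : ∀ φ : testSub V, |Λ φ| ≤ C * nn (φ : V → ℝ)) : ∃ v : V → ℝ, MemLp v 2 (volume : Measure V) ∧ ∀ φ : testSub V, Λ φ = ∫ x, v x * (φ : V → ℝ) x  -- Riesz representation for functionals on test functions bounded in L².

### R202/EllCoer [ns Crest.Agent.R202.Ell] # Coercivity at the sequence level from pointwise ellipticity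
* def box (c : EuclideanSpace ℝ (Fin n)) : Set (Fin n → ℝ)  -- the unit box centred at `c`.
* def bi (c : EuclideanSpace ℝ (Fin n)) (F : EuclideanSpace ℝ (Fin n) → ℂ) : ℂ  -- integral of a function over the unit box.
* def am (B : Fin n → Fin n → EuclideanSpace ℝ (Fin n) → ℂ) (i j : Fin n) (m : Fin n → ℤ) : ℂ  -- Fourier coefficients of the matrix field `δ + B`.
* def tp (S : Finset (Fin n → ℤ)) (g : (Fin n → ℤ) → ℂ) (x : EuclideanSpace ℝ (Fin n)) : ℂ  -- trigonometric polynomial.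
* def Elliptic (lam : ℝ) (B : Fin n → Fin n → EuclideanSpace ℝ (Fin n) → ℝ) : Prop  -- pointwise ellipticity, real form.
* theorem coercive_am (c : EuclideanSpace ℝ (Fin n)) {B : Fin n → Fin n → EuclideanSpace ℝ (Fin n) → ℝ} {r : ℝ} (hr : r < 1 / 2) (hcont : ∀ i j, Continuous (B i j)) (hsupp : ∀ i j x, r ≤ ‖x - c‖ → B i j x = 0) {lam : ℝ} (hell : Elliptic lam B) (hsum : ∀ i j, Summable fun m => ‖am (fun i j x => ((B i j x : ℝ) : ℂ)) i j m‖) : Coercive lam (am fun i j x => ((B i j x : ℝ) : ℂ))  -- Coercivity on `ℓ²` from pointwise ellipticity.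

### R202/EllCube [ns Crest.Agent.R202.Ell] # Fourier series of smooth functions supported in a cube of side one `ee k x = exp(2πi k·x)`, `cf ψ k = ∫ ψ ee(-k)`.
* def ee (k : Fin n → ℤ) (x : EuclideanSpace ℝ (Fin n)) : ℂ  -- `exp(2πi k·x)`.
* def cf (ψ : EuclideanSpace ℝ (Fin n) → ℂ) (k : Fin n → ℤ) : ℂ  -- the coefficient `∫ ψ ee(-k)`.
* def fv (k : Fin n → ℤ) : EuclideanSpace ℝ (Fin n)  -- integer frequency as a vector.
* def rep (c : EuclideanSpace ℝ (Fin n)) (t : UnitAddTorus (Fin n)) : EuclideanSpace ℝ (Fin n)  -- representative in the cube centred at `c`.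
* def prj (x : EuclideanSpace ℝ (Fin n)) : UnitAddTorus (Fin n)  -- projection to the torus.
* theorem hasSum_cf {ψ : EuclideanSpace ℝ (Fin n) → ℂ} (h1 : HasCompactSupport ψ) (h2 : ContDiff ℝ ∞ ψ) (c : EuclideanSpace ℝ (Fin n)) {r : ℝ} (hr : r < 1 / 2) (hsupp : ∀ x, r ≤ ‖x - c‖ → ψ x = 0) {x : EuclideanSpace ℝ (Fin n)} (hx : ‖x - c‖ < 1 / 2) : HasSum (fun k => cf ψ k * ee k x) (ψ x)  -- Fourier expansion of a test function supported near `c`, valid in the cube around `c`.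

### R202/EllDQ [ns Crest.Agent.R202.Ell] Row 202: elliptic regularity, part 2: convolution with test functions, difference quotients, extension of weak equations to compactly supported H¹ test functions.
* def cv (u ρ : V → ℝ) (y : V) : ℝ  -- convolution of `u` with a test function
* theorem hasDerivAt_pair {u φ : V → ℝ} (hu : LocallyIntegrable u volume) (hφ : Test φ) (e : V) (s : ℝ) : HasDerivAt (fun s : ℝ => ∫ x, u x * φ (x + s • e)) (∫ x, u x * dd e φ (x + s • e)) s  -- The pairing of `u` with a translated test function is differentiable.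
* theorem pair_diff {ψ φ : V → ℝ} (hψ : MemLp ψ 2 (volume : Measure V)) (hφ : Test φ) (e : V) (h : ℝ) : ∫ x, (ψ (x + h • e) - ψ x) * φ x = (∫ x, ψ x * φ (x + (-h) • e)) - ∫ x, ψ x * φ (x + (0 : ℝ) • e)  -- pairing of the difference with a test function
* theorem nn_diff_le {ψ v : V → ℝ} (hψ : MemLp ψ 2 (volume : Measure V)) (hv : MemLp v 2 (volume : Measure V)) {e : V} (hw : WD e ψ v) (h : ℝ) : nn (fun x => ψ (x + h • e) - ψ x) ≤ |h| * nn v  -- Difference quotient bound.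
* theorem exists_WD_of_diff {ψ : V → ℝ} (hψ : MemLp ψ 2 (volume : Measure V)) (e : V) {C : ℝ} (hC : 0 ≤ C) (hb : ∀ h : ℝ, nn (fun x => ψ (x + h • e) - ψ x) ≤ |h| * C) : ∃ v : V → ℝ, MemLp v 2 (volume : Measure V) ∧ WD e ψ v  -- Existence of the weak derivative from bounded difference quotients.

### R202/EllDefs [ns Crest.Agent.R202.Ell] # Frozen definitions for PART R (elliptic regularity), row 202
* def divA (A : EuclideanSpace ℝ (Fin n) → Matrix (Fin n) (Fin n) ℝ) (φ : EuclideanSpace ℝ (Fin n) → ℝ) (x : EuclideanSpace ℝ (Fin n)) : ℝ  -- `div (A ∇φ)` in coordinates.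
* def EllRegularity (n : ℕ) : Prop  -- Frozen statement of (R1).

### R202/EllDer [ns Crest.Agent.R202.Ell] # Derivatives and Fourier coefficients
* def cd (j : Fin n) (ψ : EuclideanSpace ℝ (Fin n) → ℂ) (x : EuclideanSpace ℝ (Fin n)) : ℂ  -- complex valued partial derivative.
* def phase (k : Fin n → ℤ) : EuclideanSpace ℝ (Fin n) →L[ℝ] ℂ  -- the linear phase.

### R202/EllEmb [ns Crest.Agent.R202.Ell] Row 202: elliptic regularity, part 7: Sobolev embedding by the Fourier transform.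
* theorem WD.test_smooth {d : V} {w v : V → ℝ} (h : WD d w v) (hw : HasCompactSupport w) (hv : HasCompactSupport v) {g : V → ℝ} (hg : ContDiff ℝ ∞ g) : ∫ x, w x * dd d g x = - ∫ x, v x * g x  -- the weak derivative identity tested with arbitrary smooth functions
* def cx (w : V → ℝ) : V → ℂ  -- complexification
* theorem fourier_WD {d : V} {w v : V → ℝ} (h : WD d w v) (hwi : Integrable w (volume : Measure V)) (hvi : Integrable v (volume : Measure V)) (hw : HasCompactSupport w) (hv : HasCompactSupport v) (ξ : V) : 𝓕 (cx v) ξ = (2 * Real.pi * ⟪d, ξ⟫ : ℝ) * Complex.I * 𝓕 (cx w) ξ  -- the Fourier transform of the weak derivative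
* theorem smooth_of_sob (b : OrthonormalBasis ι ℝ V) {w : V → ℝ} (hc : HasCompactSupport w) (hS : ∀ k, Sob b k w) : ∃ v : V → ℝ, ContDiff ℝ ∞ v ∧ w =ᵐ[volume] v  -- Sobolev embedding: a compactly supported function with all weak derivatives in L² is smooth.

### R202/EllEnergy [ns Crest.Agent.R202.Ell] # Energy estimate at the sequence level: `h^s` solution, right side in `h^(s-1)` ⟹ `h^(s+1)`.
* def HS (s : ℤ) (w : (Fin n → ℤ) → ℂ) : Prop  -- the weighted space `h^s`.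
* def shear : ((Fin n → ℤ) × (Fin n → ℤ)) ≃ ((Fin n → ℤ) × (Fin n → ℤ))  -- shear equivalence `(m,l) ↦ (m, m+l)`.
* def Coercive (lam : ℝ) (a : Fin n → Fin n → (Fin n → ℤ) → ℂ) : Prop  -- the coercivity hypothesis (Gårding with constant form).
* def gg (s : ℤ) (ε : ℝ) (w : (Fin n → ℤ) → ℂ) (i : Fin n) (l : Fin n → ℤ) : ℂ  -- the weighted gradient sequences.
* def XX (a : Fin n → Fin n → (Fin n → ℤ) → ℂ) (s : ℤ) (ε : ℝ) (w : (Fin n → ℤ) → ℂ) (i j : Fin n) (p : (Fin n → ℤ) × (Fin n → ℤ)) : ℂ  -- the `X` terms.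
* def YY (a : Fin n → Fin n → (Fin n → ℤ) → ℂ) (s : ℤ) (ε : ℝ) (w : (Fin n → ℤ) → ℂ) (i j : Fin n) (p : (Fin n → ℤ) × (Fin n → ℤ)) : ℂ  -- the `Y` terms (multiplier moved to the output frequency).
* theorem HS_step (ha : ∀ i j (N : ℕ), Summable fun m => J m ^ N * ‖a i j m‖) {lam : ℝ} (hlam : 0 < lam) (hcoer : Coercive lam a) (s : ℤ) {w H : (Fin n → ℤ) → ℂ} (hw : HS s w) (hH : HS (s - 1) H) (heq : ∀ k, ∑ j, ((k j : ℝ) : ℂ) * ∑ i, ∑' m, a i j m * (((k - m) i : ℝ) : ℂ) * w (k - m) = H k) : HS (s + 1) w  -- Regularity gain at the sequence level.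

### R202/EllFinal [ns Crest.Agent.R202.Ell] # Elliptic regularity for distributional solutions (R1)
* theorem local_ell {U : Set (EuclideanSpace ℝ (Fin n))} (hU : IsOpen U) {A : EuclideanSpace ℝ (Fin n) → Matrix (Fin n) (Fin n) ℝ} (hA : ∀ i j, ContDiffOn ℝ ∞ (fun x => A x i j) U) (hpos : ∀ x ∈ U, (A x).PosDef) {f : EuclideanSpace ℝ (Fin n) → ℝ} (hf : ContDiffOn ℝ ∞ f U) {u : EuclideanSpace ℝ (Fin n) → ℝ} (hu : LocallyIntegrableOn u U) (h : ∀ φ : EuclideanSpace ℝ (Fin n) → ℝ, ContDiff ℝ ∞ φ → HasCompactSupport φ → tsupport φ ⊆ U → ∫ x, u x * divA A φ x = ∫ x, f x * φ x) {c : EuclideanSpace ℝ (Fin n)} (hc : c ∈ U) : ∃ ρ : ℝ, 0 < ρ ∧ Metric.ball c ρ ⊆ U ∧ ∃ …  -- Local theorem.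
* theorem ell_regularity (n : ℕ) : EllRegularity n  -- (R1) Elliptic regularity: distributional solutions are smooth.
* theorem weak_grad_eq {U : Set (EuclideanSpace ℝ (Fin n))} (hU : IsOpen U) {u v : EuclideanSpace ℝ (Fin n) → ℝ} (hv : ContDiffOn ℝ ∞ v U) (hvu : ∀ᵐ x, x ∈ U → v x = u x) (j : Fin n) {G : EuclideanSpace ℝ (Fin n) → ℝ} (hG : LocallyIntegrableOn G U) (h : ∀ φ : EuclideanSpace ℝ (Fin n) → ℝ, ContDiff ℝ ∞ φ → HasCompactSupport φ → tsupport φ ⊆ U → ∫ x, u x * pderiv j φ x = -∫ x, G x * φ x) : ∀ᵐ x, x ∈ U → G x = pderiv j v x  -- Corollary: a weak gradient in `L¹_loc(U)` is the classical gradient a.e.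

### R202/EllHigh [ns Crest.Agent.R202.Ell] Row 202: elliptic regularity, part 5: higher regularity for compactly supported solutions.
* structure Coef (a : ι → ι → V → ℝ) (c : ι → ι → ℝ) (lam : ℝ) : Prop where pos : 0 < lam test : ∀ i j, Test (fun x => a i j x - c i j) ell : ∀ (x : V) (ξ : ι → ℝ), lam * ∑ i, ξ i ^ 2 ≤ ∑ i, ∑ j, a i j x * ξ j * ξ i  -- global coefficients: constants plus compactly supported smooth functions, elliptic

### R202/EllLoc [ns Crest.Agent.R202.Ell] Row 202: elliptic regularity, part 6: localisation.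
* def L2loc (u : V → ℝ) : Prop  -- locally square integrable (and locally integrable) functions
* theorem exists_ell {a : ι → ι → V → ℝ} (ha : ∀ i j, Continuous (a i j)) (hpos : ∀ (x : V) (ξ : ι → ℝ), ξ ≠ 0 → 0 < ∑ i, ∑ j, a i j x * ξ j * ξ i) {K : Set V} (hK : IsCompact K) : ∃ lam : ℝ, 0 < lam ∧ ∀ x ∈ K, ∀ ξ : ι → ℝ, lam * ∑ i, ξ i ^ 2 ≤ ∑ i, ∑ j, a i j x * ξ j * ξ i  -- uniform ellipticity on compact sets
* theorem exists_coef [DecidableEq ι] {a : ι → ι → V → ℝ} (ha : ∀ i j, ContDiff ℝ ∞ (a i j)) (hpos : ∀ (x : V) (ξ : ι → ℝ), ξ ≠ 0 → 0 < ∑ i, ∑ j, a i j x * ξ j * ξ i) (R : ℝ) : ∃ (b : ι → ι → V → ℝ) (lam : ℝ), Coef b (fun i j => if i = j then 1 else 0) lam ∧ ∀ i j x, ‖x‖ < R → b i j x = a i j x  -- global extension of local coefficients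

### R202/EllLocal [ns Crest.Agent.R202.Ell] # Local regularity: coefficients of `χ u` decay rapidly.
* def ac (B : Fin n → Fin n → EuclideanSpace ℝ (Fin n) → ℝ) (i j : Fin n) (x : EuclideanSpace ℝ (Fin n)) : ℂ  -- complexified coefficient.
* def LC (B : Fin n → Fin n → EuclideanSpace ℝ (Fin n) → ℝ) (φ : EuclideanSpace ℝ (Fin n) → ℂ) (x : EuclideanSpace ℝ (Fin n)) : ℂ  -- complexified operator.
* def XX1 (B : Fin n → Fin n → EuclideanSpace ℝ (Fin n) → ℝ) (χ : EuclideanSpace ℝ (Fin n) → ℂ) (j : Fin n) (x : EuclideanSpace ℝ (Fin n)) : ℂ  -- the symmetrised drift `X_j = ∑_i (A_ji + A_ij) ∂_i χ`.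

### R202/EllMain [ns Crest.Agent.R202.Ell] Row 202: elliptic regularity, final statement: weak solutions with smooth coefficients are smooth.
* theorem smooth_of_local {u : V → ℝ} (h : ∀ η : V → ℝ, Test η → ∃ v : V → ℝ, ContDiff ℝ ∞ v ∧ (fun x => η x * u x) =ᵐ[volume] v) : ∃ v : V → ℝ, ContDiff ℝ ∞ v ∧ u =ᵐ[volume] v  -- a function all of whose localisations are a.e. smooth is a.e. smooth
* theorem regularity (e : OrthonormalBasis ι ℝ V) {a : ι → ι → V → ℝ} (ha : ∀ i j, ContDiff ℝ ∞ (a i j)) (hpos : ∀ (x : V) (ξ : ι → ℝ), ξ ≠ 0 → 0 < ∑ i, ∑ j, a i j x * ξ j * ξ i) {u f : V → ℝ} {u' : ι → V → ℝ} (hu : L2loc u) (hu' : ∀ i, L2loc (u' i)) (hW : ∀ i, WD (e i) u (u' i)) (hf : ContDiff ℝ ∞ f) (heq : ∀ φ : V → ℝ, Test φ → ∑ i, ∫ x, (∑ j, a i j x * u' j x) * dd (e i) φ x = ∫ x, f x * φ x) : ∃ v : V → ℝ, ContDiff ℝ ∞ v ∧ u =ᵐ[volume] v ∧ (∀ i, u' i =ᵐ[volume] dd (e i) v) ∧ ∀ x, ∑ i, dd (e i) (fun x => ∑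 j, a i j x * dd (e j) v x) x = - f x  -- Elliptic regularity (coordinate free version): `e` an orthonormal basis.

### R202/EllReal [ns Crest.Agent.R202.Ell] # From the real distributional equation to the complex one; integration by parts
* def AB (B : Fin n → Fin n → EuclideanSpace ℝ (Fin n) → ℝ) (x : EuclideanSpace ℝ (Fin n)) : Matrix (Fin n) (Fin n) ℝ  -- the global matrix field `1 + B`.

### R202/EllRecon [ns Crest.Agent.R202.Ell] # Reconstruction: rapidly decaying coefficients give a smooth function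
* def rphase (k : Fin n → ℤ) : EuclideanSpace ℝ (Fin n) →L[ℝ] ℝ  -- the real linear phase.
* def ei (t : ℝ) : ℂ  -- `t ↦ exp(i t)`.
* def rec (w : (Fin n → ℤ) → ℂ) (x : EuclideanSpace ℝ (Fin n)) : ℂ  -- the smooth function with coefficients `w`.
* theorem rec_ae {c : EuclideanSpace ℝ (Fin n)} {r : ℝ} (hr : r < 1 / 2) {W : EuclideanSpace ℝ (Fin n) → ℂ} (hW : Integrable W) (hWs : ∀ x, r ≤ ‖x - c‖ → W x = 0) (hdec : ∀ N : ℕ, ∃ C, ∀ k, J k ^ N * ‖cf W k‖ ≤ C) : ∀ᵐ x, x ∈ Metric.ball c r → rec (cf W) x = W x  -- Reconstruction.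
* theorem local_smooth {c : EuclideanSpace ℝ (Fin n)} {r r1 lam : ℝ} (hr1 : r1 ≤ r) {B : Fin n → Fin n → EuclideanSpace ℝ (Fin n) → ℝ} (hD : LocData c r lam B) {u f : EuclideanSpace ℝ (Fin n) → ℂ} (hu : Integrable u) (hf : ContDiff ℝ ∞ f) (hEq : CEq c r1 B u f) (χ : EuclideanSpace ℝ (Fin n) → ℂ) (hχ : ContDiff ℝ ∞ χ) (hχs : tsupport χ ⊆ Metric.ball c r1) : ∃ V : EuclideanSpace ℝ (Fin n) → ℂ, ContDiff ℝ ∞ V ∧ ∀ᵐ x, x ∈ Metric.ball c r1 → V x = u x * χ x  -- Local regularity, complex form.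

### R202/EllReg [ns Crest.Agent.R202.Ell] Row 202: elliptic regularity, part 3: H² regularity, Leibniz rule, the spaces `Sob k`.
* theorem h2_reg {ι : Type*} [Fintype ι] (e : ι → V) (a : ι → ι → V → ℝ) {lam A L : ℝ} (hlam : 0 < lam) (hell : ∀ (x : V) (ξ : ι → ℝ), lam * ∑ i, ξ i ^ 2 ≤ ∑ i, ∑ j, a i j x * ξ j * ξ i) (hac : ∀ i j, Continuous (a i j)) (hA : ∀ i j x, |a i j x| ≤ A) (hL0 : 0 ≤ L) (hL : ∀ i j x y, |a i j x - a i j y| ≤ L * ‖x - y‖) {w f : V → ℝ} {w' : ι → V → ℝ} (hw2 : MemLp w 2 (volume : Measure V)) (hwc : HasCompactSupport w) (hw'2 : ∀ i, MemLp (w' i) 2 (volume : Measure V)) (hw' : ∀ i, WD (e i) w (w' i)) (hf : MemLp f 2 (volume : Measure V)) (heq : ∀ φ : V → ℝ, Test φ → …  -- H² regularity.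

### R202/EllSeq [ns Crest.Agent.R202.Ell] # Elliptic regularity on the Fourier side (sequence level) Row 202, PART R. Weights `J k = 1 + ∑ |k i|` on `ℤ^n`, multipliers `J^s / (1 + ε J)`, and the commutator estimate: an `h^s` solution of an elliptic convolution equation with right side in `h^(s-1)` is in `h^(s+1)`.
* def J (k : Fin n → ℤ) : ℝ  -- the weight `1 + |k|_1` on `ℤ^n`.
* def mu (s : ℤ) (ε : ℝ) (k : Fin n → ℤ) : ℝ  -- the smoothing multipliers.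

### R202/EllSobK [ns Crest.Agent.R202.Ell] Row 202: elliptic regularity, part 4: Leibniz rule, the spaces `Sob k`, higher regularity.
* theorem WD.smooth_mul {e : V} {a u v : V → ℝ} (ha : ContDiff ℝ ∞ a) (hu : LocallyIntegrable u (volume : Measure V)) (hv : LocallyIntegrable v (volume : Measure V)) (h : WD e u v) : WD e (fun x => a x * u x) (fun x => dd e a x * u x + a x * v x)  -- Leibniz rule for weak derivatives.
* theorem WD.of_smooth {e : V} {u : V → ℝ} (hu : ContDiff ℝ ∞ u) : WD e u (dd e u)  -- classical derivative of a smooth function is a weak derivative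
* def Sob {ι : Type*} (e : ι → V) : ℕ → (V → ℝ) → Prop | 0, u => MemLp u 2 volume | (k + 1), u => MemLp u 2 volume ∧ ∀ i, ∃ v, WD (e i) u v ∧ Sob e k v variable {ι : Type*} {e : ι → V} theorem Sob.memLp {k : ℕ} {u : V → ℝ} (h : Sob e k u) : MemLp u 2 (volume : Measure V)  -- the L²-Sobolev spaces of integer order relative to a family of directions
* theorem Sob.deriv {k : ℕ} {u v : V → ℝ} (h : Sob e (k + 1) u) {i : ι} (hv : WD (e i) u v) (hvl : LocallyIntegrable v volume) : Sob e k v  -- derivative of a `Sob (k+1)` function is `Sob k` for every representative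
* theorem exists_cutoff (R : ℝ) : ∃ χ : V → ℝ, Test χ ∧ (∀ x, 0 ≤ χ x) ∧ (∀ x, χ x ≤ 1) ∧ (∀ x, ‖x‖ < R → χ x = 1)  -- cut-off equal to one on a big ball
* theorem exists_compact_WD {u v : V → ℝ} {d : V} (hu : LocallyIntegrable u volume) (huc : HasCompactSupport u) (hv : LocallyIntegrable v volume) (h : WD d u v) : ∃ χ : V → ℝ, Test χ ∧ WD d u (fun x => χ x * v x)  -- for compactly supported functions the weak derivative can be chosen compactly supported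
* theorem WD.swap {d d' : V} {w p q r : V → ℝ} (hp : WD d w p) (hq : WD d' w q) (hr : WD d' p r) : WD d q r  -- symmetry of second weak derivatives

### R202/EllStep [ns Crest.Agent.R202.Ell] # The coefficient equation and the induction on `s`
* structure LocData (c : EuclideanSpace ℝ (Fin n)) (r lam : ℝ) (B : Fin n → Fin n → EuclideanSpace ℝ (Fin n) → ℝ) : Prop where hr : r < 1 / 2 hB : ∀ i j, ContDiff ℝ ∞ (B i j) hs : ∀ i j, tsupport (B i j) ⊆ Metric.ball c r hlam : 0 < lam hell : Elliptic lam B  -- local data: smooth perturbation of the identity supported in a small ball, elliptic.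
* def CEq (c : EuclideanSpace ℝ (Fin n)) (r : ℝ) (B : Fin n → Fin n → EuclideanSpace ℝ (Fin n) → ℝ) (u f : EuclideanSpace ℝ (Fin n) → ℂ) : Prop  -- complex distributional equation on the ball.
* lemma coeff_eq {c : EuclideanSpace ℝ (Fin n)} {r r1 lam : ℝ} (hr1 : r1 ≤ r) {B : Fin n → Fin n → EuclideanSpace ℝ (Fin n) → ℝ} (hD : LocData c r lam B) {u f : EuclideanSpace ℝ (Fin n) → ℂ} (hu : Integrable u) (hEq : CEq c r1 B u f) {χ : EuclideanSpace ℝ (Fin n) → ℂ} (hχ : ContDiff ℝ ∞ χ) (hχs : tsupport χ ⊆ Metric.ball c r1) (k : Fin n → ℤ) : (-(2 * Real.pi * Complex.I)) ^ 2 * ∑ j, ((k j : ℝ) : ℂ) * ∑ i, ∑' m, am (fun i j x => ((B i j x : ℝ) : ℂ)) i j m * (((k - m) i : ℝ) : ℂ) * cf (fun x => u x * χ x) (k - m) = cf (fun x => f x * χ x) k - ∑ j, (-(2 * Re …  -- coefficient equation.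
* theorem HS_all {c : EuclideanSpace ℝ (Fin n)} {r r1 lam : ℝ} (hr1 : r1 ≤ r) {B : Fin n → Fin n → EuclideanSpace ℝ (Fin n) → ℝ} (hD : LocData c r lam B) {u f : EuclideanSpace ℝ (Fin n) → ℂ} (hu : Integrable u) (hf : ContDiff ℝ ∞ f) (hEq : CEq c r1 B u f) (s : ℤ) : ∀ χ : EuclideanSpace ℝ (Fin n) → ℂ, ContDiff ℝ ∞ χ → tsupport χ ⊆ Metric.ball c r1 → HS s (cf fun x => u x * χ x)  -- Induction: all weighted norms of the coefficients of `u χ` are finite.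

### R202/Moser [ns Crest.Agent.R202.Moser] # Row 202: Moser's sup bound Main exports (all constants only depend on `n ≥ 3`, `lam`, `Lam`): * `sup_bound` : `A`, `v` global, `Ell` and `WeakSol` on `ball x0 (2r)`; * `sup_bound_on` : the same for data on an open set containing `closedBall x0 (2r)`; * `weakSol_of_div` : a pointwise solution is a weak solution.
* theorem sup_bound (hn : 3 ≤ n) {lam : ℝ} (Lam : ℝ) (hlam : 0 < lam) : ∃ C : ℝ, 0 < C ∧ ∀ (A : (E n) → (E n) →L[ℝ] (E n)) (v : (E n) → ℝ) (x0 : E n) (r : ℝ), 0 < r → Continuous A → ContDiff ℝ 1 v → Ell lam Lam A x0 (2 * r) → WeakSol A v x0 (2 * r) → ∀ x ∈ ball x0 r, v x ^ 2 ≤ C * ((r ^ n)⁻¹ * ∫ y in ball x0 (2 * r), v y ^ 2)  -- Moser's sup bound, scale invariant form.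
* theorem sup_bound_on (hn : 3 ≤ n) {lam : ℝ} (Lam : ℝ) (hlam : 0 < lam) : ∃ C : ℝ, 0 < C ∧ ∀ (A : (E n) → (E n) →L[ℝ] (E n)) (v : (E n) → ℝ) (x0 : E n) (r : ℝ) (U : Set (E n)), 0 < r → IsOpen U → closedBall x0 (2 * r) ⊆ U → ContinuousOn A U → ContDiffOn ℝ 1 v U → Ell lam Lam A x0 (2 * r) → WeakSol A v x0 (2 * r) → ∀ x ∈ ball x0 r, v x ^ 2 ≤ C * ((r ^ n)⁻¹ * ∫ y in ball x0 (2 * r), v y ^ 2)  -- Moser's sup bound for data defined on an open set containing the closed ball.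
* theorem weakSol_of_div {A : (E n) → (E n) →L[ℝ] (E n)} {v : (E n) → ℝ} {x0 : E n} {R : ℝ} {X : Fin n → (E n) → ℝ} (hX : ∀ i, ContDiffOn ℝ 1 (X i) (ball x0 R)) (hXA : ∀ x ∈ ball x0 R, ∀ i, A x (∇ v x) i = X i x) (hdiv : ∀ x ∈ ball x0 R, ∑ i, fderiv ℝ (X i) x (EuclideanSpace.single i 1) = 0) : WeakSol A v x0 R  -- a vector field `X` (coordinates `X i`) with vanishing divergence on the ball is orthogonal to gradients of test functions; `A ∇ v = X` on the ball.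

### R202/Moser1 [ns Crest.Agent.R202.Moser] # Row 202: Moser's sup bound, part 1 (pointwise algebra, powers, Caccioppoli)
* def sp (a s : ℝ) : ℝ  -- `sp a s = |s|^a * s`.

### R202/Moser2 [ns Crest.Agent.R202.Moser] # Row 202: Moser's sup bound, part 2 (Caccioppoli inequality, cut-off functions, Sobolev step)
* def WeakSol {n : ℕ} (A : EuclideanSpace ℝ (Fin n) → EuclideanSpace ℝ (Fin n) →L[ℝ] EuclideanSpace ℝ (Fin n)) (v : EuclideanSpace ℝ (Fin n) → ℝ) (x0 : EuclideanSpace ℝ (Fin n)) (R : ℝ) : Prop  -- weak solution on the ball `ball x0 R`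
* structure Ell {n : ℕ} (lam Lam : ℝ) (A : EuclideanSpace ℝ (Fin n) → EuclideanSpace ℝ (Fin n) →L[ℝ] EuclideanSpace ℝ (Fin n)) (x0 : EuclideanSpace ℝ (Fin n)) (R : ℝ) : Prop where low : ∀ x ∈ ball x0 R, ∀ ξ, lam * ‖ξ‖ ^ 2 ≤ ⟪A x ξ, ξ⟫ up : ∀ x ∈ ball x0 R, ∀ ξ, ‖A x ξ‖ ≤ Lam * ‖ξ‖  -- ellipticity on the ball `ball x0 R`

### R202/Moser3 [ns Crest.Agent.R202.Moser] # Row 202: Moser's sup bound, part 3 (Sobolev step and iteration on the unit scale)
* def chi (n : ℕ) : ℝ  -- the Sobolev gain `n/(n-2)`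

### R202/Moser4 [ns Crest.Agent.R202.Moser] # Row 202: Moser's sup bound, part 4 (iteration)
* theorem unit_scale (hn : 3 ≤ n) {lam : ℝ} (Lam : ℝ) (hlam : 0 < lam) : ∃ C : ℝ, 0 < C ∧ ∀ (A : (E n) → (E n) →L[ℝ] (E n)) (v : (E n) → ℝ), Continuous A → ContDiff ℝ 1 v → Ell lam Lam A 0 2 → WeakSol A v 0 2 → ∀ x ∈ ball (0 : E n) 1, v x ^ 2 ≤ C * ∫ y in ball (0 : E n) 2, v y ^ 2  -- the sup bound on the unit scale

==================== R246: DIVERGENCE FORM, C^{1,alpha}, BOOTSTRAP, MEAN VALUE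

### R246/H2b1_622 [ns Crest.Agent.R246.H2x622] R246, block H2b (helper622). Part 1: the radial kernel and the scale identity.
* def eta (y : F) : ℝ  -- mollifier (not normalised)
* def deta (y : F) : F →L[ℝ] ℝ  -- derivative of the mollifier
* def KK (y : F) : F →L[ℝ] F  -- the vector kernel `K y e = ∂_e (y η(y))`
* def psi (e y : F) : ℝ  -- the test functions `ψ_e = η ⟪·,e⟫`
* def WeakDiv (H : F → F →L[ℝ] V) (U : Set F) : Prop  -- `H` is weakly divergence free in `U`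
* def PP (g : F → F →L[ℝ] V) (s : ℝ) (x e : F) : V  -- mollified gradient
* def QQ (f : F → F →L[ℝ] V) (s : ℝ) (x e : F) : V  -- kernel average of the flux
* def AA (v : F → V) (s : ℝ) (x e : F) : V  -- the integrated by parts form of `PP`

### R246/H2b2_622 [ns Crest.Agent.R246.H2x622] R246, block H2b (helper622). Part 2: the `C^{1,α}` estimate for `Δ v = div f`.
* structure KB (κ : ℝ) : Prop where nonneg : 0 ≤ κ bK : ∀ y : F, ‖KK y‖ ≤ κ bD : ∀ y : F, ‖deta y‖ ≤ κ lK : ∀ y y' : F, ‖KK y - KK y'‖ ≤ κ * ‖y - y'‖ lD : ∀ y y' : F, ‖deta y - deta y'‖ ≤ κ * ‖y - y'‖  -- bounds for the kernels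

### R246/H2b3_622 [ns Crest.Agent.R246.H2x622] R246, block H2b (helper622). Part 3: the Schauder estimate for `Δ v = div f`.
* def ce : ℝ  -- mass of the mollifier
* def CS (κ α : ℝ) : ℝ  -- the Schauder constant
* theorem schauder {κ : ℝ} (hκ : KB F κ) {v : F → V} {g f : F → F →L[ℝ] V} {x x' : F} {R K M α : ℝ} (hα : 0 < α) (hα1 : α < 1) (hK0 : 0 ≤ K) (hR : 0 < R) (hM0 : 0 ≤ M) (hv : ∀ z ∈ ball x (3 * R), HasFDerivAt v (g z) z) (hg : ContinuousOn g (ball x (3 * R))) (hf : ContinuousOn f (ball x (3 * R))) (hw : WeakDiv (fun z => g z - f z) (ball x (3 * R))) (hK : ∀ z ∈ ball x (3 * R), ∀ z' ∈ ball x (3 * R), ‖f z - f z'‖ ≤ K * ‖z - z'‖ ^ α) (hM : ∀ z ∈ ball x (3 * R), ‖v z‖ ≤ M) (hxx : ‖x' - x‖ ≤ R) : ‖g x - g x'‖ ≤ CS F κ α * (K + M * R ^ (-1 - α)) * ‖x' - x‖ ^ α  -- The `C^{1,α}` estimate for `Δ v = div f`.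

### R246/H2b4_622 [ns Crest.Agent.R246.H2x622] R246, block H2b (helper622). Part 4: absorption, `div((I+B)∇v) = div f₀`.
* def WH (g : F → F →L[ℝ] V) (x₀ : F) (ρ α N : ℝ) : Prop  -- weighted interior Hölder bound of the gradient
* def bet (κ α : ℝ) : ℝ  -- admissible size of the perturbation of the identity
* theorem schauder_pert {κ α : ℝ} (hκ : KB F κ) (hα : 0 < α) (hα1 : α < 1) {b ρ : ℝ} (hb : 0 ≤ b) (hρ0 : 0 < ρ) (hρ1 : ρ ≤ 1) : ∃ C : ℝ, 0 ≤ C ∧ ∀ (v : F → V) (g f : F → F →L[ℝ] V) (x₀ : F) (M F0 K0 : ℝ), 0 ≤ M → 0 ≤ F0 → (∀ z ∈ ball x₀ ρ, HasFDerivAt v (g z) z) → ContinuousOn f (ball x₀ ρ) → WeakDiv (fun z => g z - f z) (ball x₀ ρ) → (∀ z ∈ ball x₀ ρ, ∀ z' ∈ ball x₀ ρ, ‖g z - g z'‖ ≤ K0 * ‖z - z'‖ ^ α) → (∀ z ∈ ball x₀ ρ, ‖v z‖ ≤ M) → (∀ z ∈ ball x₀ ρ, ∀ z' ∈ ball x₀ ρ, ‖f z - f z'‖ ≤ bet F κ α * ‖g z - g z'‖ + (b * ‖g z'‖ + F0) * ‖z - z'‖ ^ α) → (∀ x ∈ b …  -- Interior `C^{1,α}` a priori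 estimate for perturbations of the Laplacian in divergence form.

### R246/H2c1_622 [ns Crest.Agent.R246.H2x622] R246, block H2c (helper622). Part 1: Hölder second differences give `C^{1,α}`.
* def dq (g : F → W) (x h : F) (k : ℕ) : W  -- dyadic difference quotient

### R246/H2c2_622 [ns Crest.Agent.R246.H2x622] R246, block H2c (helper622). Part 2: `C^{1,α}` solutions of `Δ v = div G(v,∇v)` are `C^{2,α}`.
* structure Sol (α : ℝ) (G : V × (F →L[ℝ] V) → (F →L[ℝ] V)) (v : F → V) (g : F → F →L[ℝ] V) (U : Set F) : Prop where op : IsOpen U der : ∀ z ∈ U, HasFDerivAt v (g z) z hol : ∀ x ∈ U, ∃ r > 0, ∃ K, ∀ z ∈ ball x r, ∀ z' ∈ ball x r, ‖g z - g z'‖ ≤ K * ‖z - z'‖ ^ α weak : WeakDiv (fun z => g z - G (v z, g z)) U  -- `C^{1,α}_loc` solution of `Δ v = div G(v,∇v)` in `U`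
* def Sml (β : ℝ) (G : V × (F →L[ℝ] V) → (F →L[ℝ] V)) (p : V × (F →L[ℝ] V)) : Prop  -- smallness of the gradient dependence
* theorem sol_c2 {κ α β₁ : ℝ} (hκ : KB F κ) (hα : 0 < α) (hα1 : α < 1) (hβ : β₁ < bet F κ α) {G : V × (F →L[ℝ] V) → (F →L[ℝ] V)} (hG : ContDiff ℝ ∞ G) {v : F → V} {g : F → F →L[ℝ] V} {U : Set F} (hS : Sol α G v g U) (hsml : ∀ z ∈ U, Sml β₁ G (v z, g z)) {x₀ : F} (hx₀ : x₀ ∈ U) : ∃ r > 0, ∃ K, ∃ g' : F → F →L[ℝ] (F →L[ℝ] V), (∀ x ∈ ball x₀ r, HasFDerivAt g (g' x) x) ∧ ∀ x ∈ ball x₀ r, ∀ x' ∈ ball x₀ r, ‖g' x - g' x'‖ ≤ K * ‖x - x'‖ ^ α  -- `C^{1,α}` implies `C^{2,α}` (interior, local).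

### R246/H2c3_622 [ns Crest.Agent.R246.H2x622] R246, block H2c (helper622). Part 3: prolongation and `C^∞` regularity.
* def flipC : (F →L[ℝ] F →L[ℝ] V) →L[ℝ] (F →L[ℝ] F →L[ℝ] V)  -- flip as a continuous linear map
* def prodC {W : Type*} [NormedAddCommGroup W] [NormedSpace ℝ W] : ((F →L[ℝ] V) × (F →L[ℝ] W)) →L[ℝ] (F →L[ℝ] V × W)  -- pairing as a continuous linear map
* def pro (G : V × (F →L[ℝ] V) → (F →L[ℝ] V)) (p : (V × (F →L[ℝ] V)) × (F →L[ℝ] (V × (F →L[ℝ] V)))) : F →L[ℝ] (V × (F →L[ℝ] V))  -- the prolonged nonlinearity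

### R246/H2c4_622 [ns Crest.Agent.R246.H2x622] R246, block H2c (helper622). Part 4: the prolonged solution and `C^∞` regularity.

### R246/H2c5_622 [ns Crest.Agent.R246.H2x622] R246, block H2c (helper622). Part 5: `C^{1,α}` weak solutions of the minimal surface equation with small gradient are `C^∞`.
* def mseM (q : F →L[ℝ] ℝ) : F →L[ℝ] ℝ  -- the nonlinearity of the minimal surface equation, gradient part
* def mseG (p : ℝ × (F →L[ℝ] ℝ)) : F →L[ℝ] ℝ  -- the nonlinearity of the minimal surface equation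
* theorem mse_smooth {α : ℝ} (hα : 0 < α) (hα1 : α < 1) : ∃ p₀ > 0, ∀ (U : Set F) (w : F → ℝ) (g : F → F →L[ℝ] ℝ), IsOpen U → (∀ z ∈ U, HasFDerivAt w (g z) z) → (∀ x ∈ U, ∃ r > 0, ∃ K, ∀ z ∈ ball x r, ∀ z' ∈ ball x r, ‖g z - g z'‖ ≤ K * ‖z - z'‖ ^ α) → (∀ z ∈ U, ‖g z‖ < p₀) → (∀ ζ : F → ℝ, ContDiff ℝ ∞ ζ → HasCompactSupport ζ → tsupport ζ ⊆ U → ∫ z, (Real.sqrt (1 + ‖g z‖ ^ 2))⁻¹ * g z (gradient ζ z) = 0) → ContDiffOn ℝ ∞ w U  -- Regularity for the minimal surface equation: `C^{1,α}` weak solutions with small gradient are smooth.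

### R246/H2c6_622 [ns Crest.Agent.R246.H2x622] R246, block H2c (helper622). Part 6: the interface form (literally `Reg549.StH2c F`).
* theorem smooth_of_weak_mse (r K α : ℝ) (w : F → ℝ) (hr : 0 < r) (hK : 0 ≤ K) (hα : 1 / 2 < α) (_hα1 : α ≤ 1) (h0 : fderiv ℝ w 0 = 0) (hd : ∀ y ∈ ball (0 : F) r, DifferentiableAt ℝ w y ∧ ‖fderiv ℝ w y‖ ≤ 1 / 4) (hh : ∀ y ∈ ball (0 : F) r, ∀ y' ∈ ball (0 : F) r, ‖fderiv ℝ w y - fderiv ℝ w y'‖ ≤ K * ‖y - y'‖ ^ α) (hweak : ∀ ψ : F → ℝ, ContDiff ℝ 1 ψ → HasCompactSupport ψ → tsupport ψ ⊆ ball 0 r → ∫ y, (Real.sqrt (1 + ‖gradient w y‖ ^ 2))⁻¹ * inner ℝ (gradient w y) (gradient ψ y) = 0) : ∃ r1 > 0, r1 ≤ r ∧ ContDiffOn ℝ ∞ w (ball 0 r1)  -- `C^{1,α}` weak solutions of the minimal surface equation with `∇w(0) = 0` are smooth near `0`.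

### R246/Reg1_656 [ns Crest.Agent.R246.Reg656] # Row 246 (Solomon-Yau), helper656: elliptic regularity, part 1: the gain of one derivative `Gp t g x = ∫_0^t ∫ g(y) pot_s(x,y) dy ds` (a truncated Newtonian potential without Newtonian kernel). * `contDiff_Gp_one`: bounded integrable `g` gives `Gp t g ∈ C¹`. * `contDiff_Gp`: `g ∈ C^n_c` gives `Gp t g ∈ C^{n+1}`.
* def DK (s : ℝ) (x y : E d) : E d →L[ℝ] ℝ  -- the derivative of `x ↦ pot 1 s x y`
* def Ps (s : ℝ) (g : E d → ℝ) (x : E d) : ℝ  -- potential at scale `s`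
* def DPs (s : ℝ) (g : E d → ℝ) (x : E d) : E d →L[ℝ] ℝ  -- its derivative
* def Gp (t : ℝ) (g : E d → ℝ) (x : E d) : ℝ  -- the truncated potential
* def DGp (t : ℝ) (g : E d → ℝ) (x : E d) : E d →L[ℝ] ℝ  -- its derivative
* theorem contDiff_Gp_one {g : E d → ℝ} (hg : Integrable g) {M : ℝ} (hM : ∀ y, |g y| ≤ M) (t : ℝ) : ContDiff ℝ 1 (Gp t g)  -- bounded integrable data: `C¹` potential
* theorem contDiff_Gp (n : ℕ) : ∀ {g : E d → ℝ}, ContDiff ℝ n g → HasCompactSupport g → ∀ t : ℝ, ContDiff ℝ (n + 1) (Gp t g)  -- gain of one derivative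

### R246/Reg2_656 [ns Crest.Agent.R246.Reg656] # Row 246 (Solomon-Yau), helper656: elliptic regularity, part 2: bounded weak solutions of `Δ u = F(x,u)` with smooth `F` are smooth.
* def prec (u : E d → ℝ) (x : E d) : ℝ  -- the precise representative
* def LocBdd (U : Set (E d)) (g : E d → ℝ) : Prop  -- local boundedness on compact sets
* theorem prec_repr {U : Set (E d)} {u g : E d → ℝ} (hu : LocallyIntegrableOn u U) (hw : WeakLap U u g) {x0 : E d} {R : ℝ} (hR : 0 < R) (hRU : closedBall x0 (3 * R) ⊆ U) {g' : E d → ℝ} (hg' : AEStronglyMeasurable g') {M : ℝ} (hM : ∀ y, |g' y| ≤ M) (hgg : ∀ᵐ y, y ∈ closedBall x0 (3 * R) → g y = g' y) {x : E d} (hx : x ∈ ball x0 R) : prec u x = (kap d 1)⁻¹ * (MM 1 R u x + Gp R g' x)  -- local representation of the precise representative of a weak solution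
* theorem contDiffOn_one_prec {U : Set (E d)} (hU : IsOpen U) {u g : E d → ℝ} (hu : LocallyIntegrableOn u U) (hg : AEStronglyMeasurable g (volume.restrict U)) (hgb : LocBdd U g) (hw : WeakLap U u g) : ContDiffOn ℝ 1 (prec u) U  -- weak solutions with locally bounded right-hand side have a `C¹` representative
* theorem contDiffOn_succ_of_weak {U : Set (E d)} (hU : IsOpen U) {u g : E d → ℝ} (hu : ContinuousOn u U) (n : ℕ) (hg : ContDiffOn ℝ n g U) (hw : WeakLap U u g) : ContDiffOn ℝ (n + 1) u U  -- gain of one derivative for continuous weak solutions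
* theorem lap_eq_of_weak {U : Set (E d)} (hU : IsOpen U) {u g : E d → ℝ} (hu : ContDiffOn ℝ 2 u U) (hg : ContinuousOn g U) (hw : WeakLap U u g) : ∀ x ∈ U, (Δ u) x = g x  -- a `C²` weak solution is a classical solution
* theorem smooth_of_weak_cont {U : Set (E d)} (hU : IsOpen U) {u : E d → ℝ} (hu : ContinuousOn u U) {F : E d → ℝ → ℝ} (hF : ContDiffOn ℝ ∞ (fun p : E d × ℝ => F p.1 p.2) (U ×ˢ univ)) (hw : WeakLap U u (fun x => F x (u x))) : ContDiffOn ℝ ∞ u U ∧ ∀ x ∈ U, (Δ u) x = F x (u x)  -- smoothness of continuous weak solutions of `Δ u = F(x,u)`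
* theorem smooth_of_weak {U : Set (E d)} (hU : IsOpen U) {u : E d → ℝ} (hu : AEStronglyMeasurable u (volume.restrict U)) (hb : LocBdd U u) {F : E d → ℝ → ℝ} (hF : ContDiffOn ℝ ∞ (fun p : E d × ℝ => F p.1 p.2) (U ×ˢ univ)) (hw : WeakLap U u (fun x => F x (u x))) : ∃ w : E d → ℝ, ContDiffOn ℝ ∞ w U ∧ (∀ᵐ x ∂(volume.restrict U), u x = w x) ∧ ∀ x ∈ U, (Δ w) x = F x (w x)  -- Regularity: locally bounded weak solutions of `Δ u = F(x,u)` agree a.e. with a smooth classical solution.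

### R246/Reg_549 [ns Crest.Agent.R246.Reg549] # R246 (helper549): assembly of the regularity block `StReg` `[StObj (538, 872)] + [StMS (852)] + [StG (873)] + [StH1 (105)] + [StH2a (295)] + [StH2c (622)]` `⟹ Skel656.StReg SmoothMin m`.
* def StObj (m : ℕ) : Prop  -- E (538, 872): the limit object of a minimising sequence.
* def StH1 (n d : ℕ) : Prop  -- H1 (105): flatness and density `≤ 1 + κ` at all nearby zeros and scales give a pointwise `C^{1,α}` expansion, `α > 1/2`.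
* def StH2a : Prop  -- H2a (295): the weak minimal surface equation of the graph.
* def StH2c : Prop  -- H2c (622): `C^{1,α}` weak solutions of the minimal surface equation are smooth.
* theorem classD_univ {φ : F → ℝ} (h : G873.ClassD φ) : SD638.ClassD univ φ  -- the class `D` of 873 in 638's form
* theorem good_of_expn [Nontrivial F] (hH2a : StH2a F) (hH2c : ∀ e : F, ‖e‖ = 1 → StH2c (ℝ ∙ e)ᗮ) {φ : F → ℝ} (hφ : G873.ClassD φ) {p0 : F} (hp0 : φ p0 = 0) {ρ C α : ℝ} (hρ : 0 < ρ) (hα : 1 / 2 < α) (hα1 : α ≤ 1) (hE : Expn φ p0 ρ C α) : SM436.Good φ p0 ∧ LinearMap.trace ℝ F (SM436.hs φ p0 : F →ₗ[ℝ] F) = 0  -- from the expansion at all zeros near `p0` to smoothness and minimality at `p0`.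
* theorem stReg {m : ℕ} (hm : 2 ≤ m) (hObj : StObj m) (hMS : StMS (E m) (m + 1)) (hG : StG (E m) (E (m - 1))) (hH1 : StH1 (m + 2) (m + 1)) (hH2a : StH2a (E m)) (hH2c : ∀ e : E m, ‖e‖ = 1 → StH2c (ℝ ∙ e)ᗮ) : StReg (fun m φ => SM436.SmoothMin φ) m  -- The regularity block.

### R246/MV_386 [ns Crest.Agent.R246.MV386] # Mean value inequality and strong maximum principle (weak form, smooth tests) `SupW φ U`: the Lipschitz function `φ` is weakly superharmonic on `U` (smooth tests). * `SupW.mean_le`: mean value inequality with the radial kernel `gk (1 - ‖y‖²)`. * `SupW.eq_of_min`: strong maximum principle on a ball. * `SupW.eq_of_min_conn`: strong maximum principle on a preconnected open set.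
* def gk (s : ℝ) : ℝ  -- the derivative of `expNegInvGlue`
* def SupW (φ : E → ℝ) (U : Set E) : Prop  -- `φ` (Lipschitz) is weakly superharmonic on `U`.
* def bmp (x₀ : E) (t : ℝ) (x : E) : ℝ  -- the bump at `x₀` of radius `t`.
* def ker (y : E) : ℝ  -- kernel
* def MM (φ : E → ℝ) (x₀ : E) (t : ℝ) : ℝ  -- the weighted mean
* theorem SupW.mean_le {K : ℝ≥0} {φ : E → ℝ} (hφ : LipschitzWith K φ) {U : Set E} (h : SupW φ U) {x₀ : E} {r : ℝ} (hr0 : 0 ≤ r) (hr : closedBall x₀ r ⊆ U) : ∫ y, φ (x₀ + r • y) * ker y ≤ φ x₀ * ∫ y : E, ker y  -- Mean value inequality.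
* theorem SupW.eq_of_min {K : ℝ≥0} {φ : E → ℝ} (hφ : LipschitzWith K φ) {U : Set E} (h : SupW φ U) {x₀ : E} {r : ℝ} (hr : closedBall x₀ r ⊆ U) (hmin : ∀ y ∈ ball x₀ r, φ x₀ ≤ φ y) {y : E} (hy : y ∈ ball x₀ r) : φ y = φ x₀  -- Strong maximum principle on a ball.
* theorem SupW.eq_of_min_conn {K : ℝ≥0} {φ : E → ℝ} (hφ : LipschitzWith K φ) {U : Set E} (h : SupW φ U) (hU : IsOpen U) (hU' : IsPreconnected U) {x₀ : E} (hx₀ : x₀ ∈ U) (hmin : ∀ y ∈ U, φ x₀ ≤ φ y) {y : E} (hy : y ∈ U) : φ y = φ x₀  -- Strong maximum principle on a preconnected open set.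

==================== SCHAUDER (R238, R253)

### R238/Sch1 [ns Crest.Agent.R238.Sch] Row 238, module H3 (B): Schauder a priori estimate by freezing and absorption. File 1: bounded Hölder functions, localized products, interpolation.
* structure HB {X F : Type*} [NormedAddCommGroup X] [NormedAddCommGroup F] (a M : ℝ) (r : X → F) : Prop where bdd : ∀ x, ‖r x‖ ≤ M hol : ∀ x y, ‖r x - r y‖ ≤ M * ‖x - y‖ ^ a  -- bounded `a`-Hölder function with constant `M` (both for the sup and the seminorm).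
* theorem HB.absorb {B V : ℝ} (h0 : HB a V r) (hB : ∀ W, HB a W r → HB a (B + W / 2) r) : HB a (2 * B) r  -- absorption
* theorem HB.localMul {u v : X → ℝ} {s : Set X} {U0 U1 V0 V1 W : ℝ} (hu : ∀ x, x ∉ s → u x = 0) (hu0 : ∀ x ∈ s, ‖u x‖ ≤ U0) (hu1 : ∀ x y, ‖u x - u y‖ ≤ U1 * ‖x - y‖ ^ a) (hv0 : ∀ x ∈ s, ‖v x‖ ≤ V0) (hv1 : ∀ x ∈ s, ∀ y ∈ s, ‖v x - v y‖ ≤ V1 * ‖x - y‖ ^ a) (hU0 : 0 ≤ U0) (hU1 : 0 ≤ U1) (hV0 : 0 ≤ V0) (hV1 : 0 ≤ V1) (hW : U0 * V0 ≤ W) (hW' : U1 * V0 + U0 * V1 ≤ W) : HB a W (fun x => u x * v x)  -- localized product: `u` is globally Hölder and vanishes outside `s`, `v` is controlled on `s`.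
* theorem HB.mul {u v : X → ℝ} {M N : ℝ} (hu : HB a M u) (hv : HB a N v) : HB a (2 * (M * N)) (fun x => u x * v x)  -- global product
* def D2 (h : EuclideanSpace ℝ (Fin n) → ℝ) (x : EuclideanSpace ℝ (Fin n)) : EuclideanSpace ℝ (Fin n) →L[ℝ] EuclideanSpace ℝ (Fin n) →L[ℝ] ℝ  -- second derivative as a bilinear form
* theorem norm_fderiv_le {h : E → ℝ} (hh : ContDiff ℝ 2 h) {y : E} {δ H W : ℝ} (hδ : 0 < δ) (hH : ∀ z ∈ closedBall y δ, |h z| ≤ H) (hW : ∀ z ∈ closedBall y δ, ‖D2 h z‖ ≤ W) : ‖fderiv ℝ h y‖ ≤ 2 * H / δ + W * δ  -- `‖Dh(y)‖ ≤ 2H/δ + Wδ` if `|h| ≤ H`, `‖D²h‖ ≤ W` on `closedBall y δ`.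
* theorem norm_D2_le {h : E → ℝ} (hh : ContDiff ℝ 2 h) {x : E} {a δ H V : ℝ} (ha : 0 ≤ a) (ha1 : a ≤ 1) (hδ : 0 < δ) (hV0 : 0 ≤ V) (hV : ∀ y z, ‖D2 h y - D2 h z‖ ≤ V * ‖y - z‖ ^ a) (hH : ∀ z ∈ closedBall x (2 * δ), |h z| ≤ H) : ‖D2 h x‖ ≤ 4 * (δ ^ a * V) + 32 * H / δ ^ 2  -- `‖D²h(x)‖ ≤ 4 δ^a V + 32 H / δ²` if `|h| ≤ H` on `closedBall x (2δ)`.
* structure LB (a Q : ℝ) (s : Set E) (h : E → ℝ) : Prop where h0 : ∀ x ∈ s, |h x| ≤ Q h1 : ∀ x ∈ s, ∀ y ∈ s, |h x - h y| ≤ Q * ‖x - y‖ ^ a d0 : ∀ x ∈ s, ‖fderiv ℝ h x‖ ≤ Q d1 : ∀ x ∈ s, ∀ y ∈ s, ‖fderiv ℝ h x - fderiv ℝ h y‖ ≤ Q * ‖x - y‖ ^ a  -- lower-order control of `h` on `s`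

### R238/Sch138a [ns Crest.Agent.R238.Sch138] Row 238, node H3 = (B), insurance copy (helper138). Part a: Hölder calculus on sets, Leibniz rule for `Hs`, interpolation.
* def HSon (a : ℝ) (K : Set (E n)) (s k : ℝ) (g : E n → ℝ) : Prop  -- on `K`: `|g| ≤ s` and `g` is `a`-Hölder with constant `k`.
* theorem HSon.mul_on {K : Set (E n)} {s k s' k' : ℝ} {g g' : E n → ℝ} (h : HSon a univ s k g) (h0 : ∀ x, x ∉ K → g x = 0) (h' : HSon a K s' k' g') (hs : 0 ≤ s) (hk : 0 ≤ k) (hs' : 0 ≤ s') (hk' : 0 ≤ k') : HSon a univ (s * s') (s * k' + k * s') (fun x => g x * g' x)  -- product, the second factor being controlled only on the support `K` of the first one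
* theorem HSon.of_lip {K : Set (E n)} {s L : ℝ} {g : E n → ℝ} (ha : 0 < a) (ha1 : a < 1) (h0 : ∀ x ∈ K, |g x| ≤ s) (h1 : ∀ x ∈ K, ∀ y ∈ K, |g x - g y| ≤ L * ‖x - y‖) (hL : 0 ≤ L) (hs : 0 ≤ s) : HSon a K s (2 * s + L) g  -- bounded and Lipschitz implies Hölder
* theorem HSon.of_deriv {K : Set (E n)} {s L : ℝ} {g : E n → ℝ} (ha : 0 < a) (ha1 : a < 1) (hK : Convex ℝ K) (hg : Differentiable ℝ g) (h0 : ∀ x ∈ K, |g x| ≤ s) (h1 : ∀ x ∈ K, ‖fderiv ℝ g x‖ ≤ L) (hL : 0 ≤ L) (hs : 0 ≤ s) : HSon a K s (2 * s + L) g  -- from a derivative bound on a convex set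
* theorem norm_le_sum (l : E n →L[ℝ] ℝ) : ‖l‖ ≤ ∑ i, |l (ee i)|  -- norm of a functional by its coordinates
* theorem LA_mul {χ h : E n → ℝ} (hχ : ContDiff ℝ 2 χ) (hh : ContDiff ℝ 2 h) (A : E n → Matrix (Fin n) (Fin n) ℝ) (A0 : Matrix (Fin n) (Fin n) ℝ) (hsym : ∀ i j, A0 i j = A0 j i) (lam : ℝ) (x : E n) : LA (fun _ => A0) (fun y => χ y * h y) x + lam * (χ x * h x) = χ x * (LA A h x + lam * h x) + ∑ i, ∑ j, χ x * (A0 i j - A x i j) * Hs h x i j + ∑ i, ∑ j, fderiv ℝ χ x (ee i) * (2 * A0 i j * fderiv ℝ h x (ee j)) + (∑ i, ∑ j, A0 i j * Hs χ x i j - fderiv ℝ χ x x) * h x  -- the localized equation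

### R238/Sch2 [ns Crest.Agent.R238.Sch] Row 238, module H3 (B): Schauder a priori estimate by freezing and absorption. File 2: cutoff calculus and the cut-off estimate.
* def ee (i : Fin n) : EuclideanSpace ℝ (Fin n)  -- standard basis vector
* def Lop (τ : EuclideanSpace ℝ (Fin n) → Matrix (Fin n) (Fin n) ℝ) (lam : ℝ) (h : EuclideanSpace ℝ (Fin n) → ℝ) (x : EuclideanSpace ℝ (Fin n)) : ℝ  -- the operator `∑ τ_ij D²h_ij - x·∇h + λ h`
* theorem fderiv_prod {χ h : E → ℝ} (hχ : Differentiable ℝ χ) (hh : Differentiable ℝ h) : fderiv ℝ (fun x => χ x * h x) = fun x => χ x • fderiv ℝ h x + h x • fderiv ℝ χ x  -- product rule for the gradient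
* theorem D2_prod {χ h : E → ℝ} (hχ : ContDiff ℝ 2 χ) (hh : ContDiff ℝ 2 h) (x v w : E) : D2 (fun x => χ x * h x) x v w = χ x * D2 h x v w + fderiv ℝ χ x v * fderiv ℝ h x w + fderiv ℝ h x v * fderiv ℝ χ x w + h x * D2 χ x v w  -- product rule for the Hessian
* structure Cut (a X : ℝ) (χ : EuclideanSpace ℝ (Fin n) → ℝ) : Prop where sm : ContDiff ℝ 2 χ c0 : HB a X χ c1 : HB a X (fderiv ℝ χ) c2 : HB a X (D2 χ) cx : HB a X (fun x => fderiv ℝ χ x x)  -- cutoff data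
* def SA (a C0 lam : ℝ) (A : Matrix (Fin n) (Fin n) ℝ) : Prop  -- Hypothesis (A) for one matrix `A` and one `lam`.
* theorem Lop_cut {τ : E → Matrix (Fin n) (Fin n) ℝ} {lam : ℝ} {χ h : E → ℝ} (hχ : ContDiff ℝ 2 χ) (hh : ContDiff ℝ 2 h) (A : Matrix (Fin n) (Fin n) ℝ) (x : E) : Lop (fun _ => A) lam (fun x => χ x * h x) x = (∑ i, ∑ j, D2 (fun x => χ x * h x) x (ee i) (ee j) * (A i j - τ x i j)) + (χ x * Lop τ lam h x + (∑ i, ∑ j, (fderiv ℝ χ x (ee i) * (τ x i j * fderiv ℝ h x (ee j)) + fderiv ℝ χ x (ee j) * (τ x i j * fderiv ℝ h x (ee i)) + D2 χ x (ee i) (ee j) * (τ x i j * h x))) - fderiv ℝ χ x x * h x)  -- the equation for the cut-off function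

### R238/Sch3 [ns Crest.Agent.R238.Sch] Row 238, module H3 (B): Schauder a priori estimate by freezing and absorption. File 3: the cut-off estimate.
* theorem triple {X : Type*} [NormedAddCommGroup X] {a U M Q : ℝ} {s : Set X} {u w v : X → ℝ} (hu : HB a U u) (hus : ∀ x, x ∉ s → u x = 0) (hw : HB a M w) (hQ : 0 ≤ Q) (v0 : ∀ x ∈ s, ‖v x‖ ≤ Q) (v1 : ∀ x ∈ s, ∀ y ∈ s, ‖v x - v y‖ ≤ Q * ‖x - y‖ ^ a) : HB a (3 * (U * (M * Q))) (fun x => u x * (w x * v x))  -- `u` cutoff-like, `w` coefficient, `v` lower order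
* theorem lower_HB {a X M N Q : ℝ} {s : Set E} {χ h f : E → ℝ} {τ : E → Matrix (Fin n) (Fin n) ℝ} (hχ : Cut a X χ) (hs1 : ∀ x, x ∉ s → fderiv ℝ χ x = 0) (hs2 : ∀ x, x ∉ s → D2 χ x = 0) (hτ : ∀ i j, HB a M (fun x => τ x i j)) (hL : LB a Q s h) (hQ : 0 ≤ Q) (hf : HB a N f) : HB a (2 * (X * N) + (n : ℝ) ^ 2 * (9 * (X * (M * Q))) + 2 * (X * Q)) (fun x => χ x * f x + (∑ i, ∑ j, (fderiv ℝ χ x (ee i) * (τ x i j * fderiv ℝ h x (ee j)) + fderiv ℝ χ x (ee j) * (τ x i j * fderiv ℝ h x (ee i)) + D2 χ x (ee i) (ee j) * (τ x i j * h x))) - fderiv ℝ χ x x * h x)  -- bound of the lower order right-hand side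
* theorem cut_qual {a X Q V : ℝ} {s : Set E} {χ h : E → ℝ} (hχ : Cut a X χ) (hs1 : ∀ x, x ∉ s → fderiv ℝ χ x = 0) (hs2 : ∀ x, x ∉ s → D2 χ x = 0) (hh : ContDiff ℝ 2 h) (hV : HB a V (D2 h)) (hL : LB a Q s h) (hQ : 0 ≤ Q) : ∃ W, HB a W (D2 (fun x => χ x * h x))  -- qualitative bound of `D²(χh)`
* theorem cut_est {a X M N Q C0 lam V : ℝ} (hC0 : 0 < C0) {A : Matrix (Fin n) (Fin n) ℝ} {τ : E → Matrix (Fin n) (Fin n) ℝ} {s : Set E} {χ h : E → ℝ} (hA : SA a C0 lam A) (hχ : Cut a X χ) (hs1 : ∀ x, x ∉ s → fderiv ℝ χ x = 0) (hs2 : ∀ x, x ∉ s → D2 χ x = 0) (hτ : ∀ i j, HB a M (fun x => τ x i j)) (hh : ContDiff ℝ 2 h) (hV : HB a V (D2 h)) (hL : LB a Q s h) (hQ : 0 ≤ Q) (hf : HB a N (Lop τ lam h)) (habs : ∀ W, HB a W (D2 (fun x => χ x * h x)) → HB a (W / (2 * C0)) (fun x => ∑ i, ∑ j, D2 (fun x => χ x * h x) x (ee i) (ee j) * (A i j - τ x i j))) : HB a (2 *  …  -- The cut-off estimate.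

### R238/Sch4 [ns Crest.Agent.R238.Sch] Row 238, module H3 (B): Schauder a priori estimate by freezing and absorption. File 4: the cutoffs, local and far estimate, final theorem.
* theorem exists_bump {a ρ ρ' : ℝ} (ha : 0 < a) (ha1 : a ≤ 1) (hρ : 0 < ρ) (hρ' : ρ < ρ') : ∃ (ψ : E → ℝ) (X : ℝ), Cut a X ψ ∧ (∀ x, ‖x‖ ≤ ρ → ψ x = 1) ∧ (∀ x, ρ' ≤ ‖x‖ → ψ x = 0)  -- radial cutoffs
* theorem abs_local {a M ρ C0 W : ℝ} (hC0 : 0 < C0) (ha : 0 < a) (hρ : 0 < ρ) (hM : 0 ≤ M) (hρa : (3 * ρ) ^ a ≤ 1 / (4 * (n : ℝ) ^ 2 * M * C0 + 1)) {x0 : E} {τ : E → Matrix (Fin n) (Fin n) ℝ} (hτ : ∀ i j, HB a M (fun x => τ x i j)) {B : E → E →L[ℝ] E →L[ℝ] ℝ} (hB : HB a W B) (hB0 : ∀ x, x ∉ closedBall x0 ρ → B x = 0) : HB a (W / (2 * C0)) (fun x => ∑ i, ∑ j, B x (ee i) (ee j) * (τ x0 i j - τ x i j))  -- local absorption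
* theorem abs_far {a R C0 W eps : ℝ} (hC0 : 0 < C0) (heps0 : 0 ≤ eps) (heps : eps ≤ 1 / (4 * (n : ℝ) ^ 2 * C0 + 1)) {τ : E → Matrix (Fin n) (Fin n) ℝ} (hf0 : ∀ i j x, R ≤ ‖x‖ → |τ x i j - (1 : Matrix (Fin n) (Fin n) ℝ) i j| ≤ eps) (hf1 : ∀ i j x y, R ≤ ‖x‖ → R ≤ ‖y‖ → |τ x i j - τ y i j| ≤ eps * ‖x - y‖ ^ a) {B : E → E →L[ℝ] E →L[ℝ] ℝ} (hB : HB a W B) (hB0 : ∀ x, ‖x‖ < R → B x = 0) : HB a (W / (2 * C0)) (fun x => ∑ i, ∑ j, B x (ee i) (ee j) * ((1 : Matrix (Fin n) (Fin n) ℝ) i j - τ x i j))  -- far absorption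
* theorem schauder_B {a C0 lam : ℝ} (ha : 0 < a) (ha1 : a < 1) (hC0 : 0 < C0) (Adm : Matrix (Fin n) (Fin n) ℝ → Prop) (hI : Adm 1) (hSA : ∀ A, Adm A → SA a C0 lam A) : ∃ eps0 : ℝ, 0 < eps0 ∧ ∀ M R : ℝ, 0 ≤ M → 0 < R → ∃ C : ℝ, 0 ≤ C ∧ ∀ (τ : E → Matrix (Fin n) (Fin n) ℝ) (h : E → ℝ) (N S V : ℝ), (∀ x, Adm (τ x)) → (∀ i j, HB a M (fun x => τ x i j)) → (∀ i j x, R ≤ ‖x‖ → |τ x i j - (1 : Matrix (Fin n) (Fin n) ℝ) i j| ≤ eps0) → (∀ i j x y, R ≤ ‖x‖ → R ≤ ‖y‖ → |τ x i j - τ y i j| ≤ eps0 * ‖x - y‖ ^ a) → ContDiff ℝ 2 h → HB a V (D2 h) → HB a N (Lop τ lam h) →  …  -- MODULE (B): a priori Schauder estimate for variable coefficients, close to the identity in the Hölder sense outside a ball. The smallness `eps0` depends only on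

### R238/Sch5 [ns Crest.Agent.R238.Sch] Row 238, module H3 (B): entry form of the a priori Schauder estimate.
* def Adm (lo hi : ℝ) (A : Matrix (Fin n) (Fin n) ℝ) : Prop  -- admissible (symmetric, elliptic) matrices
* def AHyp (n : ℕ) (a lo hi lam C0 : ℝ) : Prop  -- Hypothesis (A) in entry form, uniformly over the admissible constant matrices.
* theorem schauder_B_entry {a lo hi lam C0 : ℝ} (ha : 0 < a) (ha1 : a < 1) (hlo : lo ≤ 1) (hhi : 1 ≤ hi) (hC0 : 0 ≤ C0) (hA : AHyp n a lo hi lam C0) : ∃ eps0 : ℝ, 0 < eps0 ∧ ∀ M R : ℝ, 0 ≤ M → 0 < R → ∃ C : ℝ, 0 ≤ C ∧ ∀ (τ : E → Matrix (Fin n) (Fin n) ℝ) (h : E → ℝ) (N S : ℝ), (∀ x, Adm lo hi (τ x)) → (∀ i j x, |τ x i j| ≤ M) → (∀ i j x y, |τ x i j - τ y i j| ≤ M * ‖x - y‖ ^ a) → (∀ i j x, R ≤ ‖x‖ → |τ x i j - (1 : Matrix (Fin n) (Fin n) ℝ) i j| ≤ eps0) → (∀ i j x y, R ≤ ‖x‖ → R ≤ ‖y‖ → |τ x i j - τ y i j| ≤ eps0 * ‖x - y‖ ^ a) → ContDiff ℝ 2 h → (∃ V, ∀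 i …  -- (B) in entry form.

### R238/SchAll [ns Crest.Agent.R238] Row 238: (B) without hypotheses (glue of helper452's `Apr.schStmt_of_rep` and helper8's `repStmt`).

### R238/SchApr [ns Crest.Agent.R238] Row 238, node H3: `RepStmt → Apr.SchStmt` (helper452).
* theorem SF.intOn_all (n : ℕ) (a ρ ε : ℝ) (ha : 0 < a) (ha1 : a < 1) (hε : 0 < ε) : SF.IntOn n a ρ ε  -- interpolation on balls (helper839)
* theorem SF.schStmt_of_rep (hRep : RepStmt) : SF.SchStmt  -- (B) from (A)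
* theorem Apr.schStmt_of_rep (hRep : RepStmt) : Apr.SchStmt  -- (B) in the frozen form of the a priori node

### R238/SchBall [ns Crest.Agent.R238.SF] Row 238, node H3, helper452's part 3: cut-off families, error terms (far and local), covering.
* theorem exists_cut {a : ℝ} (ha0 : 0 ≤ a) (ha : a ≤ 1) (ρ : ℝ) (hρ : 0 < ρ) : ∃ (X : ℝ) (χ : E n → ℝ), 0 ≤ X ∧ Cut a X (closedBall 0 (2 * ρ)) χ ∧ (∀ x, ‖x‖ ≤ ρ → χ x = 1) ∧ (∀ x, 2 * ρ ≤ ‖x‖ → χ x = 0)  -- a fixed smooth cut-off at scale `ρ`: `1` on `closedBall 0 ρ`, `0` outside `ball 0 (2ρ)`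

### R238/SchCut [ns Crest.Agent.R238.SF] Row 238, node H3, helper452's part 2: derivatives of `χ h`, the commutator identity and its Hölder estimate (`cut_comm`), for arbitrary cut-off `χ` and frozen matrix `A0`.
* abbrev dd (f : E n → ℝ) (x : E n) (i : Fin n) : ℝ  -- first partial derivative
* theorem LA_mul {χ h : E n → ℝ} (hχ : ContDiff ℝ 2 χ) (hh : ContDiff ℝ 2 h) (τ : E n → Matrix (Fin n) (Fin n) ℝ) (A0 : Matrix (Fin n) (Fin n) ℝ) (lam : ℝ) (x : E n) : LA (fun _ => A0) (fun x => χ x * h x) x + lam * (χ x * h x) = χ x * (LA τ h x + lam * h x) + (∑ i, ∑ j, τ x i j * (h x * Hs χ x i j)) - h x * fderiv ℝ χ x x + (∑ i, ∑ j, τ x i j * (dd h x j * dd χ x i)) + (∑ i, ∑ j, τ x i j * (dd h x i * dd χ x j)) + ∑ i, ∑ j, (A0 i j - τ x i j) * Hs (fun x => χ x * h x) x i j  -- the commutator identity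
* structure Cut (a X : ℝ) (S : Set (E n)) (χ : E n → ℝ) : Prop where c2 : ContDiff ℝ 2 χ h0 : HB a X χ h1 : ∀ i, HB a X (fun x => dd χ x i) h2 : ∀ i j, HB a X (fun x => Hs χ x i j) h3 : HB a X (fun x => fderiv ℝ χ x x) s1 : ∀ x ∉ S, fderiv ℝ χ x = 0 s2 : ∀ x ∉ S, ∀ i j, Hs χ x i j = 0  -- data of a cut-off function: all norms bounded by `X`, derivatives vanish outside `S`
* theorem cut_comm {a N X T Q Er lam : ℝ} {S : Set (E n)} {χ h : E n → ℝ} {τ : E n → Matrix (Fin n) (Fin n) ℝ} {A0 : Matrix (Fin n) (Fin n) ℝ} (hQ : 0 ≤ Q) (hχ : Cut a X S χ) (hh : ContDiff ℝ 2 h) (hf : HB a N (fun x => LA τ h x + lam * h x)) (hτ : ∀ i j, HB a T (fun x => τ x i j)) (hQ0 : HBon a Q S h) (hQ1 : ∀ j, HBon a Q S (fun x => dd h x j)) (hEr : HB a Er (fun x => ∑ i, ∑ j, (A0 i j - τ x i j) * Hs (fun x => χ x * h x) x i j)) : HB a (2 * (X * N) + 2 * (Q * X) * (6 * (n : ℝ) ^ 2 * T + 1) + Er) (fun x => LA (fun _ => A0) (fun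 x => χ x * h x) x + lam *  …  -- Hölder bound of the commutator
* theorem cut_fin {a X Q K0 : ℝ} {S : Set (E n)} {χ h : E n → ℝ} (hQ : 0 ≤ Q) (hχ : Cut a X S χ) (hh : ContDiff ℝ 2 h) (hK : ∀ i j, HB a K0 (fun x => Hs h x i j)) (hQ0 : HBon a Q S h) (hQ1 : ∀ j, HBon a Q S (fun x => dd h x j)) (i j : Fin n) : HB a (2 * (X * K0) + 6 * (Q * X)) (fun x => Hs (fun x => χ x * h x) x i j)  -- qualitative bound of `D²(χ h)`
* def AEst (a C lam : ℝ) (A0 : Matrix (Fin n) (Fin n) ℝ) : Prop  -- constant-coefficient estimate (A) for the matrix `A0`, with constant `C`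
* theorem cut_absorb {a C N X T Q K0 lam θ : ℝ} {S : Set (E n)} {χ h : E n → ℝ} {τ : E n → Matrix (Fin n) (Fin n) ℝ} {A0 : Matrix (Fin n) (Fin n) ℝ} (hC : 0 < C) (hA : AEst a C lam A0) (hQ : 0 ≤ Q) (hT : 0 ≤ T) (hχ : Cut a X S χ) (hh : ContDiff ℝ 2 h) (hK : ∀ i j, HB a K0 (fun x => Hs h x i j)) (hf : HB a N (fun x => LA τ h x + lam * h x)) (hτ : ∀ i j, HB a T (fun x => τ x i j)) (hQ0 : HBon a Q S h) (hQ1 : ∀ j, HBon a Q S (fun x => dd h x j)) (hEr : ∀ K, 0 ≤ K → (∀ i j, HB a K (fun x => Hs (fun x => χ x * h x) x i j)) → HB a (θ * K) (fun x => ∑ i, ∑ j, (A0 …  -- cut-off estimate with absorption: if the frozen error is at most half of the norm of `D²(χ h)`, it is absorbed.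

### R238/SchErr [ns Crest.Agent.R238.SF] Row 238, node H3, helper452's part 4: far and local error terms, covering lemma.
* theorem err_sum {a K θ : ℝ} {A0 : Matrix (Fin n) (Fin n) ℝ} {τ : E n → Matrix (Fin n) (Fin n) ℝ} {F : Fin n → Fin n → E n → ℝ} (h : ∀ i j, HB a (θ * K) (fun x => (A0 i j - τ x i j) * F i j x)) : HB a ((n : ℝ) ^ 2 * θ * K) (fun x => ∑ i, ∑ j, (A0 i j - τ x i j) * F i j x)  -- error term from entrywise products
* theorem far_err {a e : ℝ} {S : Set (E n)} {A0 : Matrix (Fin n) (Fin n) ℝ} {τ : E n → Matrix (Fin n) (Fin n) ℝ} (he : 0 ≤ e) (hS : ∀ i j, HBon a e S (fun x => A0 i j - τ x i j)) {g : E n → ℝ} (hg : ∀ x ∉ S, ∀ i j, Hs g x i j = 0) (K : ℝ) (hK : ∀ i j, HB a K (fun x => Hs g x i j)) : HB a ((n : ℝ) ^ 2 * (2 * e) * K) (fun x => ∑ i, ∑ j, (A0 i j - τ x i j) * Hs g x i j)  -- far error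
* theorem sup_small {a K r : ℝ} (ha0 : 0 ≤ a) (hr : 0 < r) (i0 : Fin n) {F : E n → ℝ} {z : E n} (hF : HB a K F) (h0 : ∀ x ∉ closedBall z r, F x = 0) (x : E n) (hx : x ∈ closedBall z r) : |F x| ≤ K * (3 * r) ^ a  -- the sup of a Hölder function vanishing outside a small ball
* theorem loc_prod {a K T r : ℝ} (ha0 : 0 ≤ a) (hr : 0 < r) (hr1 : 3 * r ≤ 1) (hT : 0 ≤ T) (i0 : Fin n) {B F : E n → ℝ} {z : E n} (hF : HB a K F) (h0 : ∀ x ∉ closedBall z r, F x = 0) (hB0 : B z = 0) (hB : ∀ x y, |B x - B y| ≤ T * ‖x - y‖ ^ a) : HB a (2 * (T * (3 * r) ^ a) * K) (fun x => B x * F x)  -- product with a factor vanishing at the centre of a small ball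
* theorem loc_err {a T r : ℝ} (ha0 : 0 ≤ a) (hr : 0 < r) (hr1 : 3 * r ≤ 1) (hT : 0 ≤ T) (i0 : Fin n) {τ : E n → Matrix (Fin n) (Fin n) ℝ} {z : E n} (hτ : ∀ i j, HB a T (fun x => τ x i j)) {g : E n → ℝ} (hg : ∀ x ∉ closedBall z r, ∀ i j, Hs g x i j = 0) (K : ℝ) (hK : ∀ i j, HB a K (fun x => Hs g x i j)) : HB a ((n : ℝ) ^ 2 * (2 * (T * (3 * r) ^ a)) * K) (fun x => ∑ i, ∑ j, (τ z i j - τ x i j) * Hs g x i j)  -- local error
* theorem hb_of_cover {a K δ : ℝ} (ha0 : 0 ≤ a) (hδ : 0 < δ) (hK : 0 ≤ K) {f : E n → ℝ} (h : ∀ x, ∃ g : E n → ℝ, HB a K g ∧ ∀ y ∈ closedBall x δ, f y = g y) : HB a ((1 + 2 / δ ^ a) * K) f  -- covering lemma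

### R238/SchFar [ns Crest.Agent.R238.SF] Row 238, node H3 (Schauder a priori estimate (B) of note 13508), helper452's part: generic lemmas on `HB`: algebra, product with a factor small only on the support of the other factor, absorption, cut-off functions, far estimate.
* theorem hb_lim {a M : ℝ} {f : E n → ℝ} (h : ∀ d : ℝ, 0 < d → HB a (M + d) f) : HB a M f  -- closedness of the class in the constant
* theorem absorb {a : ℝ} {ι : Type*} {F : ι → E n → ℝ} {M : ℝ} (hM : 0 ≤ M) (h0 : ∃ K, ∀ i, HB a K (F i)) (step : ∀ K, 0 ≤ K → (∀ i, HB a K (F i)) → ∀ i, HB a (M + K / 2) (F i)) : ∀ i, HB a (2 * M) (F i)  -- absorption of the top norm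
* def HBon (a M : ℝ) (S : Set (E n)) (f : E n → ℝ) : Prop  -- local class
* theorem HBon.mul {a e K : ℝ} {S : Set (E n)} {B F : E n → ℝ} (he : 0 ≤ e) (hB : HBon a e S B) (hF : HB a K F) (h0 : ∀ x ∉ S, F x = 0) : HB a (2 * (e * K)) (fun x => B x * F x)  -- product where one factor is controlled only on a set carrying the other factor

### R238/SchFrozen [ns Crest.Agent.R238.Sch] Row 238, module H3 (B): the frozen statement `Apr.SchStmt` from `Sch.schauder_B` and `repStmt`.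
* theorem sch_lam (n : ℕ) {a lo hi lam : ℝ} (ha : 0 < a) (ha1 : a < 1) (hlo : 0 < lo) (hlohi : lo ≤ hi) (hlam : lam = 0 ∨ lam = 1) : ∃ ε₀ : ℝ, 0 < ε₀ ∧ ∀ M R : ℝ, ∃ C : ℝ, 0 < C ∧ ∀ τ : R238.E n → Matrix (Fin n) (Fin n) ℝ, (∀ x, Ell lo hi (τ x)) → (∀ i j, R238.HB a M (fun x => τ x i j)) → (∀ ε ≤ ε₀, Apr.Far a ε R τ → ∀ (h : R238.E n → ℝ) (N S : ℝ), ContDiff ℝ 2 h → (∃ B, ∀ i j, R238.HB a B (fun x => Hs h x i j)) → R238.HB a N (fun x => LA τ h x + lam * h x) → (∀ x, ‖x‖ ≤ 3 * (max R 1) + 3 → |h x| ≤ S) → ∀ i j, R238.HB a (C * (N + S)) (fun x => Hs h x i j))  -- (B), one `lam`.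
* theorem schStmt : Apr.SchStmt  -- (B): the variable coefficient Schauder estimate, frozen form.

### R238/SchInt [ns Crest.Agent.R238.SchI] 
* theorem grad_int (n : ℕ) (ρ ε : ℝ) (hε : 0 < ε) : ∃ K : ℝ, 0 ≤ K ∧ ∀ h : E n → ℝ, ContDiff ℝ 2 h → ∀ B m : ℝ, 0 ≤ B → (∀ x i j, |Hs h x i j| ≤ B) → (∀ x : E n, ‖x‖ ≤ ρ + 1 → |h x| ≤ m) → ∀ x : E n, ‖x‖ ≤ ρ → ‖fderiv ℝ h x‖ ≤ ε * B + K * m  -- (S1) interpolation of the gradient.
* theorem hb_cut_grad (n : ℕ) (a ρ P ε : ℝ) (ha0 : 0 < a) (ha1 : a < 1) (hε : 0 < ε) : ∃ K : ℝ, 0 ≤ K ∧ ∀ h : E n → ℝ, ContDiff ℝ 2 h → ∀ B m : ℝ, 0 ≤ B → (∀ x i j, |Hs h x i j| ≤ B) → (∀ x : E n, ‖x‖ ≤ ρ + 1 → |h x| ≤ m) → 0 ≤ m → ∀ φ : E n → ℝ, (∀ x, |φ x| ≤ P) → (∀ x y, |φ x - φ y| ≤ P * ‖x - y‖) → (∀ x : E n, ρ < ‖x‖ → φ x = 0) → ∀ i, HB a (ε * B + K * m) (fun x => φ x * fderiv ℝ h x (ee i))  -- (S3) `φ ∂ᵢh` for a cutoff `φ`.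
* theorem hb_cut_fun (n : ℕ) (a ρ P ε : ℝ) (ha0 : 0 < a) (ha1 : a < 1) (hε : 0 < ε) : ∃ K : ℝ, 0 ≤ K ∧ ∀ h : E n → ℝ, ContDiff ℝ 2 h → ∀ B m : ℝ, 0 ≤ B → (∀ x i j, |Hs h x i j| ≤ B) → (∀ x : E n, ‖x‖ ≤ ρ + 1 → |h x| ≤ m) → 0 ≤ m → ∀ φ : E n → ℝ, (∀ x, |φ x| ≤ P) → (∀ x y, |φ x - φ y| ≤ P * ‖x - y‖) → (∀ x : E n, ρ < ‖x‖ → φ x = 0) → HB a (ε * B + K * m) (fun x => φ x * h x)  -- (S2) `φ h` for a cutoff `φ`.

### R238/SchIntOn [ns Crest.Agent.R238.SchI] 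
* theorem interp_on (n : ℕ) (a ρ ε : ℝ) (ha0 : 0 < a) (ha1 : a < 1) (hε : 0 < ε) : ∃ K : ℝ, 0 ≤ K ∧ ∀ h : E n → ℝ, ContDiff ℝ 2 h → ∀ B m : ℝ, 0 ≤ B → 0 ≤ m → (∀ x i j, |Hs h x i j| ≤ B) → (∀ x : E n, ‖x‖ ≤ ρ + 1 → |h x| ≤ m) → SF.HBon a (ε * B + K * m) (Metric.closedBall 0 ρ) h ∧ ∀ i, SF.HBon a (ε * B + K * m) (Metric.closedBall 0 ρ) (fun x => fderiv ℝ h x (ee i))  -- Interpolation on balls (`HBon` form).

### R238/SchMain [ns Crest.Agent.R238.SF] Row 238, node H3, helper452's part 5: the Schauder a priori estimate (B) from (A) = `RepStmt` and the interpolation inequality on balls.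
* def IntOn (n : ℕ) (a ρ ε : ℝ) : Prop  -- interpolation on a ball
* def SchStmt : Prop  -- (B): the Schauder a priori estimate.
* theorem far_piece {a C N X T Q K0 lam e R : ℝ} {χ h : E n → ℝ} {τ : E n → Matrix (Fin n) (Fin n) ℝ} {S : Set (E n)} (hC : 0 < C) (hA : AEst a C lam (1 : Matrix (Fin n) (Fin n) ℝ)) (hQ : 0 ≤ Q) (hT : 0 ≤ T) (he : 0 ≤ e) (hχ : Cut a X S (fun x => 1 - χ x)) (hχ1 : ∀ x, ‖x‖ ≤ R → χ x = 1) (hh : ContDiff ℝ 2 h) (hK : ∀ i j, HB a K0 (fun x => Hs h x i j)) (hf : HB a N (fun x => LA τ h x + lam * h x)) (hτ : ∀ i j, HB a T (fun x => τ x i j)) (hfar : ∀ i j, HBon a e {x | R ≤ ‖x‖} (fun x => τ x i j - (1 : Matrix (Fin n) (Fin n) ℝ) i j)) (hQ0 : HBon a Q S h) (hQ1 : …  -- far piece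
* theorem loc_piece {a C N X T Q K0 lam r : ℝ} {χ h : E n → ℝ} {z : E n} {τ : E n → Matrix (Fin n) (Fin n) ℝ} {S : Set (E n)} (ha0 : 0 ≤ a) (hr : 0 < r) (hr1 : 3 * r ≤ 1) (hC : 0 < C) (hA : AEst a C lam (τ z)) (hQ : 0 ≤ Q) (hT : 0 ≤ T) (hχ : Cut a X S (fun x => χ (x - z))) (hχ0 : ∀ x, r ≤ ‖x‖ → χ x = 0) (hh : ContDiff ℝ 2 h) (hK : ∀ i j, HB a K0 (fun x => Hs h x i j)) (hf : HB a N (fun x => LA τ h x + lam * h x)) (hτ : ∀ i j, HB a T (fun x => τ x i j)) (hQ0 : HBon a Q S h) (hQ1 : ∀ j, HBon a Q S (fun x => dd h x j)) (hθ : C * ((n : ℝ) ^ 2 * (2 * (T * (3 *  …  -- local piece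
* theorem schauder (hRep : RepStmt) (hInt : ∀ (n : ℕ) (a ρ ε : ℝ), 0 < a → a < 1 → 0 < ε → IntOn n a ρ ε) : SchStmt  -- (B) from (A) and interpolation

### R253/SchB_944 [ns Crest.Agent.R253.Br] Row 253, T6, node B3 (helper944): Schauder a priori estimate for `Lb lam b τ h = tr(τ D²h) - x·∇h - b·∇h - lam h` (`schB : SchB`).
* theorem Lb_one_side {lo hi lam M N B : ℝ} (hlo : 0 < lo) (hlam : 0 < lam) {τ : E n → Matrix (Fin n) (Fin n) ℝ} (hτ : ∀ x, Ell lo hi (τ x)) {b : E n → Fin n → ℝ} (hb : ∀ x i, |b x i| ≤ M) {w : E n → ℝ} (hw : ContDiff ℝ 2 w) (hB : ∀ x, w x ≤ B) (hN : ∀ x, -N ≤ Lb lam b τ w x) (x0 : E n) : w x0 ≤ N / lam  -- one-sided maximum principle for `Lb`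
* theorem Lb_sup {lo hi lam M N B : ℝ} (hlo : 0 < lo) (hlam : 0 < lam) {τ : E n → Matrix (Fin n) (Fin n) ℝ} (hτ : ∀ x, Ell lo hi (τ x)) {b : E n → Fin n → ℝ} (hb : ∀ x i, |b x i| ≤ M) {h : E n → ℝ} (hh : ContDiff ℝ 2 h) (hB : ∀ x, |h x| ≤ B) (hN : ∀ x, |Lb lam b τ h x| ≤ N) (x : E n) : |h x| ≤ N / lam  -- sup bound for `Lb`
* theorem interp_global (n : ℕ) (a ε : ℝ) (ha0 : 0 < a) (ha1 : a < 1) (hε : 0 < ε) : ∃ K : ℝ, 0 ≤ K ∧ ∀ h : E n → ℝ, ContDiff ℝ 2 h → ∀ B S : ℝ, 0 ≤ B → (∀ x i j, |Hs h x i j| ≤ B) → (∀ x, |h x| ≤ S) → HB a (ε * B + K * S) h ∧ ∀ i, HB a (ε * B + K * S) (fun x => gr h x i)  -- global interpolation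
* theorem hb_lim {a K : ℝ} {u : ℕ → ℝ} {f : E n → ℝ} (hu : Tendsto u atTop (𝓝 K)) (h : ∀ k, HB a (u k) f) : HB a K f  -- closedness of `HB`
* theorem schB : SchB  -- B3

==================== SOBOLEV ON SUBMANIFOLDS (R241)

### R241/A2 [ns Crest.Agent.R241.A2] R241, block A2: summary.
* theorem a2 (hn : 3 ≤ n) (hk : 0 ≤ k) (hkh : k < h) (P : PreData n k K) (hFV : P.FV h) (hsup : T_super P h) : T_int P ∧ T_pole P ∧ T_pt P ∧ T_sob P h  -- A2 in one statement, given A1's `T_super`.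

### R241/A2Int [ns Crest.Agent.R241.A2] R241, block A2a: uniform negative moments `T_int`.
* theorem q_le' (P : PreData n k K) {Z : ℝ} (hb : ∀ x y : K, zd k x y ≤ Z) (x : K) : ∀ᵐ y ∂P.τ, P.q x y ≤ √(2 + k ^ 2 * Z) * √(zd k x y)  -- `q ≤ C √z`
* theorem t_int (hn : 1 ≤ n) {h : ℝ} (hh : 0 < h) (P : PreData n k K) (hFV : P.FV h) : T_int P  -- `T_int`
* theorem int_real {P : PreData n k K} (h : T_int P) {s : ℝ} (hs0 : 0 ≤ s) (hs : s < (n : ℝ) / 2) : ∃ C : ℝ, 0 < C ∧ ∀ x : K, Integrable (fun y => zd k x y ^ (-s)) P.τ ∧ ∫ y, zd k x y ^ (-s) ∂P.τ ≤ C  -- real version: `z^{-s}` is integrable, with uniform bound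

### R241/A2Layer [ns Crest.Agent.R241.A2] R241, block A2b: layer cake lower bound for the pole inequality.
* theorem integral_pow {a p z R : ℝ} (ha : 0 < a) (hz : 0 ≤ z) (hzR : z ≤ R) : ∫ t in z..R, p * (t + a) ^ (-p - 1) = (z + a) ^ (-p) - (R + a) ^ (-p)  -- `∫_z^R p (t+a)^{-p-1} dt = (z+a)^{-p} - (R+a)^{-p}`.
* theorem integral_pole {a p R : ℝ} (ha : 0 < a) (hp : 1 ≤ p) (hR : 0 ≤ R) : ∫ t in (0 : ℝ)..R, p * (t + a) ^ (-p - 1) * t ^ (p - 1) = (R / (R + a)) ^ p / a  -- `∫_0^R p t^{p-1} (t+a)^{-p-1} dt = (R/(R+a))^p / a`.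
* theorem layer {K : Type*} [MeasurableSpace K] {μ : Measure K} [IsFiniteMeasure μ] {z : K → ℝ} (hz : Measurable z) (hz0 : ∀ y, 0 ≤ z y) {a p R c : ℝ} (ha : 0 < a) (hp : 1 ≤ p) (hR : 0 < R) (hc : 0 ≤ c) (h : ∀ t ∈ Ioo 0 R, c * t ^ (p - 1) ≤ μ.real {y | z y < t}) : c * ((R / (R + a)) ^ p / a) ≤ ∫ y in {y | z y < R}, (z y + a) ^ (-p) ∂μ  -- layer cake lower bound

### R241/A2Pole [ns Crest.Agent.R241.A2] R241, block A2b: pole inequality `T_pole`.

### R241/A2Pt [ns Crest.Agent.R241.A2] R241, block A2b: pointwise bound `T_pt`.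

### R241/A2Sob [ns Crest.Agent.R241.A2] R241, block A2c: subcritical Sobolev inequality `T_sob`.
* theorem t_pt_abs (hn : 3 ≤ n) (P : PreData n k K) (hint : T_int P) (hpt : T_pt P) : ∃ C : ℝ, 0 < C ∧ ∀ u : K → ℝ, Lip u → ∀ᵐ y' ∂P.τ, |u y'| ≤ C * ∫ y, zd k y' y ^ (-(mA n + 1 / 2)) * (√(P.G u u y) + |u y|) ∂P.τ  -- pointwise bound for functions of arbitrary sign

### R241/A2Young [ns Crest.Agent.R241.A2] R241, block A2: Young / Schur inequality for an integral kernel (ENNReal form).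
* theorem young {α β : Type*} [MeasurableSpace α] [MeasurableSpace β] {μ : Measure α} {ν : Measure β} [SFinite μ] [SFinite ν] {κ : α → β → ℝ≥0∞} (hκ : Measurable (Function.uncurry κ)) {g : β → ℝ≥0∞} (hg : AEMeasurable g ν) {p q r : ℝ} (hp : 0 < p) (hr : 0 < r) (hpq : p ≤ q) (hrq : r ≤ q) (h : 1 / p + 1 / r = 1 + 1 / q) {M : ℝ≥0∞} (h1 : ∀ x, ∫⁻ y, κ x y ^ r ∂ν ≤ M) (h2 : ∀ y, ∫⁻ x, κ x y ^ r ∂μ ≤ M) : (∫⁻ x, (∫⁻ y, κ x y * g y ∂ν) ^ q ∂μ) ≤ M ^ (q / r) * (∫⁻ y, g y ^ p ∂ν) ^ (q / p)  -- Young / Schur inequality for a kernel `κ` with `∫ κ(x,·)^r ≤ M`, `∫ κ(·,y)^r ≤ M`, `1/p + 1/r = 1 + 1/q`.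

==================== R242 Sobolev calculus

### R242/ParBase [ns Crest.Agent.R242 / WgCalc] # Row 242, S11, part 1: elementary consequences of `WgCalc`; the classes `IsSobolevLoc`, `IsSobolev`
* theorem ae_of_ae_ball {p : X → Prop} (o : X) (h : ∀ n : ℕ, ∀ᵐ x ∂(m.restrict (Metric.ball o n)), p x) : ∀ᵐ x ∂m, p x  -- everything that happens a.e. on every ball happens a.e.
* theorem wg_zero_of_eq (C : WgCalc m) {f : X → ℝ} (hf : IsSobolevLoc m f) (c : ℝ) : ∀ᵐ x ∂m, f x = c → minWeakGrad m f x = 0  -- the weak gradient vanishes where the function is constant.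
* theorem abs_wg_sub_le (C : WgCalc m) {f g : X → ℝ} (hf : IsSobolevLoc m f) (hg : IsSobolevLoc m g) : ∀ᵐ x ∂m, |minWeakGrad m f x - minWeakGrad m g x| ≤ minWeakGrad m (fun x => f x - g x) x  -- difference of the weak gradients.
* theorem sq_convex (C : WgCalc m) {u v : X → ℝ} (hu : IsSobolevLoc m u) (hv : IsSobolevLoc m v) {a b : ℝ} (ha : 0 ≤ a) (hb : 0 ≤ b) (hab : a + b = 1) : ∀ᵐ x ∂m, minWeakGrad m (fun y => a * u y + b * v y) x ^ 2 ≤ a * minWeakGrad m u x ^ 2 + b * minWeakGrad m v x ^ 2  -- convexity of the square of the weak gradient.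
* theorem isSobolev_of_le {f : X → ℝ} {w : X → ℝ} (h1 : MemLp f 2 m) (h2 : IsSobolevLoc m f) (hw : MemLp w 2 m) (h : ∀ᵐ x ∂m, minWeakGrad m f x ≤ w x) : IsSobolev m f  -- criterion: `IsSobolevLoc` and domination of the weak gradient.
* theorem sob_of_bddSupp [OpensMeasurableSpace X] (C : WgCalc m) {f : X → ℝ} (hf : IsSobolevLoc m f) (hs : BddSupp m f) : IsSobolev m f  -- a locally Sobolev function vanishing outside a ball is in `W^{1,2}`.

### R242/ParD [ns Crest.Agent.R242 / WgCalc] # Row 242, S11, part 2: the one-sided derivatives of the energy density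
* def Aq (m : Measure X) (δ : ℝ) (f g : X → ℝ) (x : X) : ℝ  -- difference quotient of `t ↦ wg(g + t f)²/2` at `0`.
* def Dq (m : Measure X) (f g : X → ℝ) (x : X) : ℝ  -- the derivative.
* def Eg (m : Measure X) (f : X → ℝ) : ℝ  -- the Dirichlet energy.

### R242/ParE [ns Crest.Agent.R242 / WgCalc] # Row 242, S11, part 3: second slot, Leibniz rule, polarisation
* theorem wg_eq_of_eq_add_const (C : WgCalc m) {u v : X → ℝ} (hu : IsSobolevLoc m u) (hv : IsSobolevLoc m v) (b : ℝ) : ∀ᵐ x ∂m, u x = v x + b → minWeakGrad m u x = minWeakGrad m v x  -- locality of the weak gradient up to constants.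
* theorem Dq_affine_right (C : WgCalc m) (hH : IsInfHilbertian m) {h f u : X → ℝ} (hh : IsSobolev m h) (hf : IsSobolev m f) (hu : IsSobolev m u) (s b : ℝ) : ∀ᵐ x ∂m, u x = s * f x + b → Dq m h u x = s * Dq m h f x  -- the derivative in the second slot only depends on the function locally, up to affine changes.
* theorem Dq_tendsto_right (C : WgCalc m) (hH : IsInfHilbertian m) {h g : X → ℝ} {gs : ℕ → X → ℝ} (hh : IsSobolev m h) (hg : IsSobolev m g) (hgs : ∀ n, IsSobolev m (gs n)) {w : X → ℝ} {c : ℕ → ℝ} (hc : Tendsto c atTop (𝓝 0)) (hle : ∀ n, ∀ᵐ x ∂m, minWeakGrad m (fun y => gs n y - g y) x ≤ c n * w x) : ∀ᵐ x ∂m, Tendsto (fun n => Dq m h (gs n) x) atTop (𝓝 (Dq m h g x))  -- continuity in the second slot along sequences that converge pointwise in gradient.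
* theorem integral_Dq_symm (C : WgCalc m) (hH : IsInfHilbertian m) {u v : X → ℝ} (hu : IsSobolev m u) (hv : IsSobolev m v) : ∫ x, Dq m u v x ∂m = ∫ x, Dq m v u x ∂m  -- the polarised energy.

### R242/ParF [ns Crest.Agent.R242 / ParF / WgCalc] # Row 242, S11, part 4: chain rule for the square in the second slot
* def cl (M t : ℝ) : ℝ  -- clamp.
* def sl (M : ℝ) (n : ℕ) (t : ℝ) : ℝ  -- slopes.
* def ph (M : ℝ) (n : ℕ) (r : ℝ) : ℝ  -- piecewise affine approximation.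
* def th (M : ℝ) (r : ℝ) : ℝ  -- truncated `r²/2`.

### R242/ParG [ns Crest.Agent.R242 / WgCalc] # Row 242, S11, part 5: the pointwise parallelogram law on `IsSobolevLoc`
* def cutf (o : X) (n : ℕ) (x : X) : ℝ  -- cut-off function: `1` on `ball o n`, `0` outside `closedBall o (n+1)`, `1`-Lipschitz.
* theorem sob_trunc [BorelSpace X] (C : WgCalc m) {f : X → ℝ} (hf : IsSobolevLoc m f) (o : X) (n : ℕ) : IsSobolev m (fun x => cutf o n x * ParF.cl n (f x))  -- truncation and cut-off of a locally Sobolev function.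

### R242/Sob2Lip [ns Crest.Agent.R242] # Row 242, PART G, [G1]: Sobolev-to-Lipschitz (helper216)
* def HasBddGeoPlans (m : Measure X) : Prop  -- bounded-density geodesic plans (a consequence of [DYAD])
* theorem geoPlan_isTestPlan {m : Measure X} {P : Measure (UCurve X)} (hP : IsProbabilityMeasure P) (hgeo : ∀ᵐ γ ∂P, IsCSGeodesic γ) (hC : ∃ C : ℝ≥0, ∀ t, timeMarginal P t ≤ (C : ℝ≥0∞) • m) {o : X} {R : ℝ} (h0 : ∀ᵐ γ ∂P, γ.toMap 0 ∈ Metric.closedBall o R) (h1 : ∀ᵐ γ ∂P, γ.toMap 1 ∈ Metric.closedBall o R) : IsTestPlan2 m P ∧ HasBoundedTracks P  -- geodesic plans between measures on bounded sets are test plans with bounded tracks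
* def unif (m : Measure X) (S : Set X) : Measure X  -- the normalised restriction of `m` to `S`; `⨍ x in S, f x ∂m = ∫ x, f x ∂(unif m S)` by definition
* theorem avg_sub_avg_le {m : Measure X} [m.IsOpenPosMeasure] (hfin : IsFiniteOnBalls m) (hpl : HasBddGeoPlans m) {u D : X → ℝ} (hu : IsL2OnBalls m u) (hD : IsWUGLoc m u D) {y z : X} {s ρ L : ℝ} (hs : 0 < s) (hρ : dist y z + 4 * s ≤ ρ) (hL : 0 ≤ L) (hDL : ∀ᵐ x ∂m, x ∈ Metric.ball y ρ → D x ≤ L) : |(⨍ x in Metric.closedBall y s, u x ∂m) - ⨍ x in Metric.closedBall z s, u x ∂m| ≤ L * (dist y z + 2 * s)  -- [G1], core estimate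
* theorem tendsto_avg_of_continuous {m : Measure X} [m.IsOpenPosMeasure] (hfin : IsFiniteOnBalls m) {u : X → ℝ} (hu : Continuous u) (y : X) : Tendsto (fun s : ℝ => ⨍ x in Metric.closedBall y s, u x ∂m) (𝓝[>] 0) (𝓝 (u y))  -- averages of a continuous function over small balls converge
* theorem abs_sub_le_of_wug {m : Measure X} [m.IsOpenPosMeasure] (hfin : IsFiniteOnBalls m) (hpl : HasBddGeoPlans m) {u D : X → ℝ} (hu : IsL2OnBalls m u) (hD : IsWUGLoc m u D) (hc : Continuous u) {y z : X} {ρ L : ℝ} (hρ : dist y z < ρ) (hL : 0 ≤ L) (hDL : ∀ᵐ x ∂m, x ∈ Metric.ball y ρ → D x ≤ L) : |u y - u z| ≤ L * dist y z  -- [G1], local version: a continuous function with a weak upper gradient bounded by `L` on a ball around `y` containing `z`.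
* theorem exists_lip_rep {m : Measure X} [m.IsOpenPosMeasure] [SecondCountableTopology X] [IsLocallyFiniteMeasure m] [IsUnifLocDoublingMeasure m] (hfin : IsFiniteOnBalls m) (hpl : HasBddGeoPlans m) {u D : X → ℝ} (hu : IsL2OnBalls m u) (hD : IsWUGLoc m u D) {L : ℝ≥0} (hDL : ∀ᵐ x ∂m, D x ≤ L) : ∃ v : X → ℝ, LipschitzWith L v ∧ v =ᵐ[m] u  -- [G1], global version: a Lipschitz representative.
* theorem eq_of_ae_eq_of_continuous {m : Measure X} [m.IsOpenPosMeasure] {u v : X → ℝ} (hu : Continuous u) (hv : Continuous v) (h : u =ᵐ[m] v) : u = v  -- continuous functions that agree almost everywhere are equal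
-/
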