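/-
R249 PART E1 (helper274): inventory of R226 (closed Riemannian manifolds: exp, Jacobi, cut locus) and R244 (chart curvature). Automatic extract.

==================== R226

### R226/Alex_977 [ns Crest.Agent.R226.Alex977] 
* theorem vol_le_contX {u : M → ℝ} (hu : CConv u) (hA : AlexPinch vol (ctr u) m) {P : Set M} (hP : MeasurableSet P) : ENNReal.ofReal m * vol P ≤ vol (contX u P)  -- volume of the contact set: from below.
* theorem vol_contX_le {u : M → ℝ} (hu : CConv u) (hA : AlexPinch vol (ctr u) m) {P : Set M} (hP : MeasurableSet P) : ENNReal.ofReal m * vol (contX u P) ≤ vol P  -- volume of the contact set: from above.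
* theorem lintegral_le_contX {G : GeoData n M} {vol : Measure M} {m C : ℝ} (hC : 0 < C) {u : M → ℝ} (hu : CConv u) (hA : AlexPinch vol (ctr u) m) {x₁ : M} [MeasurableSpace (TangentSpace (𝓡 n) x₁)] {μ : Measure (TangentSpace (𝓡 n) x₁)} {J : TangentSpace (𝓡 n) x₁ → ℝ≥0∞} (harea : ∀ A ⊆ G.K x₁, IsCompact A → ∫⁻ p in A, J p ∂μ ≤ ENNReal.ofReal C * vol (G.ex x₁ '' A)) {W : Set (TangentSpace (𝓡 n) x₁)} (hWK : W ⊆ G.K x₁) (hW …  -- new mass: the contact set of `exp W` has volume `≥ (m/C) ∫_W J`.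
* theorem toReal_le_contX_image {G : GeoData n M} {vol : Measure M} [IsFiniteMeasure vol] {m C w : ℝ} (hC : 0 < C) (hm : 0 ≤ m) {u : M → ℝ} (hu : CConv u) (hA : AlexPinch vol (ctr u) m) {x₁ : M} [MeasurableSpace (TangentSpace (𝓡 n) x₁)] {μ : Measure (TangentSpace (𝓡 n) x₁)} {J : TangentSpace (𝓡 n) x₁ → ℝ≥0∞} (harea : ∀ A ⊆ G.K x₁, IsCompact A → ∫⁻ p in A, J p ∂μ ≤ ENNReal.ofReal C * vol (G.ex x₁ '' A)) {W : Set (Tangen …  -- real form of `lintegral_le_contX`.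
* theorem lintegral_le_contY {G : GeoData n M} {vol : Measure M} {m C : ℝ} (hC : 0 < C) {u : M → ℝ} (hu : CConv u) (hA : AlexPinch vol u m) {y₁ : M} [MeasurableSpace (TangentSpace (𝓡 n) y₁)] {μ : Measure (TangentSpace (𝓡 n) y₁)} {J : TangentSpace (𝓡 n) y₁ → ℝ≥0∞} (harea : ∀ A ⊆ G.K y₁, IsCompact A → ∫⁻ p in A, J p ∂μ ≤ ENNReal.ofReal C * vol (G.ex y₁ '' A)) {W : Set (TangentSpace (𝓡 n) y₁)} (hWK : W ⊆ G.K y₁) (hW : IsC …  -- the dual statement: base `y₁`, velocities of points `x`, contacts `y`.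

### R226/B2_413 [ns Crest.Agent.R226.B2_413] 
* theorem growth_of_slope {f : ℝ → ℝ} {a b κ : ℝ} (hab : a ≤ b) (hf : ContinuousOn f (Icc a b)) (h : ∀ t ∈ Ico a b, ∀ m < κ, ∀ᶠ z in 𝓝[>] t, f t + m * (z - t) < f z) : f a + κ * (b - a) ≤ f b  -- growth of a function from lower bounds of its right slopes
* theorem ns1_alt {C : ℝ} (hC : 0 ≤ C) (hNS : NS1P G C) {x : M} {p₀ p₁ : TangentSpace (𝓡 n) x} (h0 : p₀ ∈ G.K x) (h1 : p₁ ∈ G.K x) {x₁ : M} {α m L : ℝ} (hα : 0 < α) (hg0 : α ≤ gg G x p₀ p₁ x₁ 0) (hL : ‖p₁ - p₀‖ ≤ L) (hm : ∀ m' > m, ∀ᶠ s : ℝ in 𝓝[>] 0, gg G x p₀ p₁ x₁ 0 - m' * s ≤ gg G x p₀ p₁ x₁ s) : min (α / 2) (gg G x p₀ p₁ x₁ 0 - gg G x p₀ p₁ x₁ 1) ≤ Real.exp (C * L * (1 + √(2 / α))) * max 0 m  -- NS1 in alternative form: the loss is at least `min(gg 0 / 2, gg 0 - gg 1)`.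
* theorem b2_core (hB : Base G) (hg : GoodAll G) {C : ℝ} (hC : 0 ≤ C) (hNS : NS1P G C) {y₀ y : M} {q₀ q₁ : TangentSpace (𝓡 n) y₀} (h0 : q₀ ∈ G.K y₀) (h1 : q₁ ∈ G.K y₀) {L α : ℝ} (hα : 0 < α) (hrow : ∀ τ : ℝ, 3 / 4 ≤ τ → τ < 1 → ∀ p ∈ G.K (G.ex y₀ (q₀ + τ • (q₁ - q₀))), ∀ p' ∈ G.K (G.ex y₀ (q₀ + τ • (q₁ - q₀))), G.ex (G.ex y₀ (q₀ + τ • (q₁ - q₀))) p = y₀ → G.ex (G.ex y₀ (q₀ + τ • (q₁ - q₀))) p' = y → ‖p' - p‖ ≤ L) (hlev …  -- (b2), core form. `f τ = c(x_τ, y₀) - c(x_τ, y)` along the chord `x_τ = exp_{y₀} q_τ`; if for `τ ∈ [3/4, 1)` the chord `p_{y₀} → p_y` in `K(x_τ)` has length 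
* theorem b2w (hB : Base G) (hg : GoodAll G) {C : ℝ} (hC : 0 ≤ C) (hNS : NS1P G C) {u : M → ℝ} (hu : CConv u) {y₀ y : M} {H H₁ : ℝ} {q₀ q₁ : TangentSpace (𝓡 n) y₀} (h0 : q₀ ∈ QS G u y₀ H) (h1 : q₁ ∈ QS G u y₀ H) (hy : ∀ τ : ℝ, 3 / 4 ≤ τ → τ ≤ 1 → Dd u (G.ex y₀ (q₀ + τ • (q₁ - q₀))) y ≤ H₁) {R α : ℝ} (hα : 0 < α) (hrow : ∀ τ : ℝ, 3 / 4 ≤ τ → τ ≤ 1 → osc (ctr u) (G.ex y₀ (q₀ + τ • (q₁ - q₀))) (max H H₁) ≤ R) (hlev : ∀ τ  …  -- (b2), window form: `y` is seen at level `H₁` by the rows `x_τ`, `τ ∈ [3/4, 1]`.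
* theorem b2 (hB : Base G) (hg : GoodAll G) {C : ℝ} (hC : 0 ≤ C) (hNS : NS1P G C) {u : M → ℝ} (hu : CConv u) {y₀ y : M} {H : ℝ} {q₀ q₁ : TangentSpace (𝓡 n) y₀} (h0 : q₀ ∈ QS G u y₀ H) (h1 : q₁ ∈ QS G u y₀ H) (hy : Dd u (G.ex y₀ (q₀ + (9 / 16 : ℝ) • (q₁ - q₀))) y ≤ 0) {R α : ℝ} (hα : 0 < α) (hrow : ∀ τ : ℝ, 3 / 4 ≤ τ → τ ≤ 1 → osc (ctr u) (G.ex y₀ (q₀ + τ • (q₁ - q₀))) H ≤ R) (hlev : ∀ τ : ℝ, 3 / 4 ≤ τ → τ ≤ 1 → α ≤ ‖q₀ …  -- (b2)

### R226/BAux_227 [ns Crest.Agent.R226.BAux227] ### curves and their velocities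
* theorem exists_fin_rep {V : Type*} [AddCommGroup V] [Module ℝ V] [FiniteDimensional ℝ V] {s : Set V} {x : V} (hx : x ∈ convexHull ℝ s) : ∃ (w : Fin (finrank ℝ V + 1) → ℝ) (z : Fin (finrank ℝ V + 1) → V), w ∈ stdSimplex ℝ (Fin (finrank ℝ V + 1)) ∧ (∀ i, z i ∈ s) ∧ ∑ i, w i • z i = x  -- Carathéodory representation with a fixed number of points.
* theorem isCompact_hull {V : Type*} [AddCommGroup V] [Module ℝ V] [TopologicalSpace V] [ContinuousAdd V] [ContinuousSMul ℝ V] [FiniteDimensional ℝ V] {s : Set V} (hs : IsCompact s) : IsCompact (convexHull ℝ s)  -- In finite dimension the convex hull of a compact set is compact.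
* abbrev TM2 (n : ℕ) (M : Type*) [MetricSpace M] [ChartedSpace (EuclideanSpace ℝ (Fin n)) M] : Type _  -- the Whitney sum, as a subspace of the product.
* def ip (r : TM2 n M) : ℝ  -- fibrewise inner product on the Whitney sum.
* theorem tendsto_inner {ι : Type*} {l : Filter ι} {b : ι → M} {v w : ∀ i, TangentSpace (𝓡 n) (b i)} {x : M} {v0 w0 : TangentSpace (𝓡 n) x} (hv : Tendsto (fun i => (⟨b i, v i⟩ : TangentBundle (𝓡 n) M)) l (𝓝 ⟨x, v0⟩)) (hw : Tendsto (fun i => (⟨b i, w i⟩ : TangentBundle (𝓡 n) M)) l (𝓝 ⟨x, w0⟩)) : Tendsto (fun i => inner ℝ (v i) (w i)) l (𝓝 (inner ℝ v0 w0))  -- inner products converge along filters of pairs of tangent vectors with common base points.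

### R226/BDefs_542 [ns Crest.Agent.R226] 
* structure SmallFlow (N : NearDiag n M) : Prop where cont_norm : Continuous (fun p : TangentBundle (𝓡 n) M => ‖p.2‖) zero : ∀ p, radial N.e 0 p = p norm : ∀ t p, |t| * ‖p.2‖ < N.r₀ → ‖(radial N.e t p).2‖ = ‖p.2‖ add : ∀ t s p, |t| * ‖p.2‖ < N.r₀ → |s| * ‖p.2‖ < N.r₀ → |t + s| * ‖p.2‖ < N.r₀ → radial N.e s (radial N.e t p) = radial N.e (t + s) p scale : ∀ a t p, radial N.e t (scaleT a p) = scaleT a (radial N.e (t * a)  …  -- (B1 output) the local geodesic flow `ψ_t = radial N.e t` of a `NearDiag`.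
* structure GlobalFlow (N : NearDiag n M) where Fl : ℝ → TangentBundle (𝓡 n) M → TangentBundle (𝓡 n) M small : ∀ t p, |t| * ‖p.2‖ < N.r₀ → Fl t p = radial N.e t p norm : ∀ t p, ‖(Fl t p).2‖ = ‖p.2‖ add : ∀ t s p, Fl s (Fl t p) = Fl (t + s) p scale : ∀ a t p, Fl t (scaleT a p) = scaleT a (Fl (t * a) p) smooth : ContMDiff (𝓘(ℝ, ℝ).prod (𝓡 n).tangent) (𝓡 n).tangent ∞ (fun q : ℝ × TangentBundle (𝓡 n) M => Fl q.1 q.2)  -- (B2 output) a global smooth flow on `TM` extending the local one.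
* structure GeoCore where ex : ∀ x : M, TangentSpace (𝓡 n) x → M smooth : ContMDiff (𝓡 n).tangent (𝓡 n) ∞ (fun p : TangentBundle (𝓡 n) M => ex p.1 p.2) ex_zero : ∀ x, ex x 0 = x vel_zero : ∀ x, ∀ v : TangentSpace (𝓡 n) x, curveVel n (fun t : ℝ => ex x (t • v)) 0 = v norm_vel : ∀ x, ∀ v : TangentSpace (𝓡 n) x, ∀ t : ℝ, ‖curveVel n (fun t : ℝ => ex x (t • v)) t‖ = ‖v‖ flow : ∀ x, ∀ v : TangentSpace (𝓡 n) x, ∀ t s : ℝ, ex …  -- (B3 output) everything in `GeoData` except `surj` and `injDomain_eq`, plus `radial ex` smooth flow.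
* def SpeedLip : Prop  -- (B5i) `C¹` curves of speed `c` on `[0,a]` are `c`-Lipschitz there
* def MinimiserGeodesic (C : GeoCore n M) : Prop  -- (B5ii) from `GeoCore`: a `C¹` curve with `dist (γ s) (γ t) = c |s-t|` on `[0,a]` and speed `c` is the geodesic.

### R226/Base_347 [ns Crest.Agent.R226.Base347] 
* structure Base (G : GeoData n M) : Prop where isCompact_KT : IsCompact G.KT star : ∀ x, ∀ v ∈ G.K x, ∀ t : ℝ, 0 ≤ t → t ≤ 1 → t • v ∈ G.K x I_subset : ∀ x, G.I x ⊆ G.K x rev : ∀ x, ∀ v ∈ G.K x, -(G.vel x v 1) ∈ G.K (G.ex x ((1 : ℝ) • v)) rev_I : ∀ x, ∀ v ∈ G.I x, -(G.vel x v 1) ∈ G.I (G.ex x ((1 : ℝ) • v)) rev_ex : ∀ x, ∀ v : TangentSpace (𝓡 n) x, ∀ t : ℝ, G.ex (G.ex x ((1 : ℝ) • v)) (t • (-(G.vel x v 1))) = G.ex x ( …  -- the fields of `CutFacts` used for `mono`, `seg` and `focal`.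
* theorem dist_of_mem_K {x : M} {v : TangentSpace (𝓡 n) x} (hv : v ∈ G.K x) {s t : ℝ} (h0 : 0 ≤ s) (hst : s ≤ t) (h1 : t ≤ 1) : dist (G.ex x (s • v)) (G.ex x (t • v)) = (t - s) * ‖v‖  -- distances along a minimising geodesic
* theorem Base.hess_F_mixed (hB : Base G) {x : M} {b : TangentSpace (𝓡 n) x} (hb : b ∈ G.I x) (ξ w : TangentSpace (𝓡 n) x) : hess (F G x) (0, b) (0, w) (ξ, 0) = -inner ℝ w ξ  -- the Hessian of `F` at `(0,b)`: mixed part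
* theorem Base.hess_F (hB : Base G) {x : M} {b : TangentSpace (𝓡 n) x} (hb : b ∈ G.I x) (ξ w : TangentSpace (𝓡 n) x) : hess (F G x) (0, b) (ξ, w) (ξ, w) = G.phi x ξ b - 2 * inner ℝ w ξ + ‖w‖ ^ 2  -- the full Hessian of `F` at `(0,b)`
* theorem Base.sec_F (hB : Base G) {x : M} {b : TangentSpace (𝓡 n) x} (hb : b ∈ G.I x) (ξ w : TangentSpace (𝓡 n) x) : Sec (fun s : ℝ => F G x (s • ξ, b + s • w)) (G.phi x ξ b - 2 * inner ℝ w ξ + ‖w‖ ^ 2)  -- second derivative of `s ↦ c(exp_x (s ξ), exp_x (b + s w))`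

### R226/BundleTop_345 [ns Crest.Agent.R226.BundleTop345] 
* theorem contMDiffAt_deriv_snd [IsManifold J ∞ N] (f : N → ℝ → F) (x₀ : N) (t₀ : ℝ) (hf : ContMDiffAt (J.prod 𝓘(ℝ, ℝ)) 𝓘(ℝ, F) ∞ (fun q : N × ℝ => f q.1 q.2) (x₀, t₀)) : ContMDiffAt (J.prod 𝓘(ℝ, ℝ)) 𝓘(ℝ, F) ∞ (fun q : N × ℝ => deriv (f q.1) q.2) (x₀, t₀)  -- Parametric derivative: if `(x,t) ↦ f x t` is smooth at `(x₀,t₀)` then so is `(x,t) ↦ deriv (f x) t`.
* theorem contMDiff_smul : ContMDiff ((𝓡 n).tangent.prod 𝓘(ℝ, ℝ)) (𝓡 n).tangent ∞ (fun q : TangentBundle (𝓡 n) M × ℝ => (⟨q.1.1, q.2 • q.1.2⟩ : TangentBundle (𝓡 n) M))  -- scalar multiplication `(p,t) ↦ ⟨p.1, t • p.2⟩` is smooth on `TM × ℝ`.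
* theorem isCompact_disc [CompactSpace M] (R : ℝ) : IsCompact {p : TangentBundle (𝓡 n) M | ‖p.2‖ ≤ R}  -- closed disc bundles over a compact manifold are compact
* theorem contMDiff_ex_smul (G : GeoData n M) : ContMDiff ((𝓡 n).tangent.prod 𝓘(ℝ, ℝ)) (𝓡 n) ∞ (fun q : TangentBundle (𝓡 n) M × ℝ => G.ex q.1.1 (q.2 • q.1.2))  -- `(p,t) ↦ exp_{p.1}(t p.2)` is smooth on `TM × ℝ`.
* theorem continuous_ex_smul (G : GeoData n M) : Continuous (fun q : TangentBundle (𝓡 n) M × ℝ => G.ex q.1.1 (q.2 • q.1.2))  -- `x ↦ ex x 0`, continuity of `(p,t) ↦ ex p.1 (t • p.2)`.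

### R226/CC0_227 [ns Crest.Agent.R226.CC0227] ### reversal
* def Conf (S : Set (TangentBundle (𝓡 n) M)) : Set ((Idx n → ℝ) × (Idx n → TangentBundle (𝓡 n) M))  -- the configurations: weights and points of `S` over one base point.
* def bary (S : Set (TangentBundle (𝓡 n) M)) (q : Conf S) : TangentBundle (𝓡 n) M  -- the barycentre of a configuration.
* theorem isCompact_fibHull (hS : IsCompact S) : IsCompact {p : TangentBundle (𝓡 n) M | p.2 ∈ convexHull ℝ {w : TangentSpace (𝓡 n) p.1 | (⟨p.1, w⟩ : TangentBundle (𝓡 n) M) ∈ S}}  -- the fibrewise convex hull of a compact set is compact.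
* theorem isCompact_PT (hK : IsCompact G.KT) {u : M → ℝ} (hu : Continuous u) : IsCompact {p : TangentBundle (𝓡 n) M | p.2 ∈ G.P u p.1}  -- `w ∈ P_u(x)` in terms of `TM`.
* theorem isCompact_fibre [IsManifold (𝓡 n) ∞ M] {S : Set (TangentBundle (𝓡 n) M)} (hS : IsCompact S) (x : M) : IsCompact {w : TangentSpace (𝓡 n) x | (⟨x, w⟩ : TangentBundle (𝓡 n) M) ∈ S}  -- compact sets of `TM` have compact fibres.

### R226/CC1_227 [ns Crest.Agent.R226.CC1227] 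
* theorem LB_H {C₁ : ℝ} (hC₁ : ∀ x, ∀ v ∈ G.K x, ∀ ξ : TangentSpace (𝓡 n) x, halfDistSq (G.ex x ξ) (G.ex x v) ≤ halfDistSq x (G.ex x v) - inner ℝ v ξ + C₁ * ‖ξ‖ ^ 2) {u : M → ℝ} {x : M} {p : TangentSpace (𝓡 n) x} (hp : p ∈ G.H u x) (ξ : TangentSpace (𝓡 n) x) : u x + inner ℝ p ξ - C₁ * ‖ξ‖ ^ 2 ≤ u (G.ex x ξ)  -- L-B.
* theorem danskin (hC : CutFacts G) {u : M → ℝ} (hu : CConv u) (x : M) (ξ : TangentSpace (𝓡 n) x) (m : ℝ) (hm : ∀ w ∈ G.P u x, inner ℝ w ξ < m) : ∀ᶠ t : ℝ in 𝓝[>] 0, u (G.ex x (t • ξ)) < u x + m * t  -- L-A (Danskin).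
* theorem LC (hC : CutFacts G) {u : M → ℝ} (hu : CConv u) {s : ℝ} (hs : 0 ≤ s) {T : ℝ} (hT : 0 < T) {x y : M} (hmin : ∀ x', s * u x + halfDistSq x y / T ≤ s * u x' + halfDistSq x' y / T) {v : TangentSpace (𝓡 n) x} (hv : v ∈ G.K x) (hvy : G.ex x v = y) : ∃ p ∈ G.H u x, (1 / T) • v = s • p  -- L-C.
* theorem good_small (hC : CutFacts G) : ∃ s₀ : ℝ, 0 < s₀ ∧ ∀ u : M → ℝ, CConv u → ∀ s : ℝ, 0 ≤ s → s ≤ s₀ → G.Good u s  -- `Good` for small `s`.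
* theorem dFacts (hC : CutFacts G) (hLE : ∃ ε₀ : ℝ, 0 < ε₀ ∧ ∀ u : M → ℝ, CConv u → ∀ ε : ℝ, 0 < ε → ε ≤ ε₀ → ∀ p q : TangentBundle (𝓡 n) M, p.2 ∈ G.H u p.1 → q.2 ∈ G.H u q.1 → G.ex p.1 (ε • p.2) = G.ex q.1 (ε • q.2) → p = q) : DFacts G  -- all the fields of `DFacts` except `LE`.

### R226/CC2_229 [ns Crest.Agent.R226.CC2229] 
* theorem real_aux {C₁ ε a b i j d A B : ℝ} (hε : 0 < ε) (hb : ε * (8 * C₁) ≤ 1) (h1 : (ε * a) ^ 2 / 2 - ε * i + d ^ 2 / 4 ≤ A) (h2 : (ε * b) ^ 2 / 2 - ε * j + d ^ 2 / 4 ≤ B) (hA : A ≤ (ε * b) ^ 2 / 2) (hB : B ≤ (ε * a) ^ 2 / 2) (h : i + j ≤ 2 * C₁ * d ^ 2) : d = 0  -- real arithmetic used in `inj_small`.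
* theorem inj_small {G : GeoData n M} (CF : CutFacts G) {D : ℝ} (hD : ∀ x y : M, dist x y ≤ D) : ∃ ε₀ : ℝ, 0 < ε₀ ∧ ∀ ε : ℝ, 0 < ε → ε ≤ ε₀ → ∀ u : M → ℝ, ∀ x x' : M, ∀ p ∈ G.H u x, ∀ p' ∈ G.H u x', G.ex x (ε • p) = G.ex x' (ε • p') → (⟨x, p⟩ : TangentBundle (𝓡 n) M) = ⟨x', p'⟩  -- (L-E): for small `ε` (uniform in `u`!), `(x, p ∈ H_u(x)) ↦ ex x (ε p)` is injective.
* theorem LE_field [CompactSpace M] {G : GeoData n M} (CF : CutFacts G) : ∃ ε₀ : ℝ, 0 < ε₀ ∧ ∀ u : M → ℝ, CConv u → ∀ ε : ℝ, 0 < ε → ε ≤ ε₀ → ∀ p q : TangentBundle (𝓡 n) M, p.2 ∈ G.H u p.1 → q.2 ∈ G.H u q.1 → G.ex p.1 (ε • p.2) = G.ex q.1 (ε • q.2) → p = q  -- field `LE` of `DFacts`.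
* theorem LB_field {G : GeoData n M} (CF : CutFacts G) : ∃ C₁ : ℝ, 0 < C₁ ∧ ∀ u : M → ℝ, ∀ x : M, ∀ p ∈ G.H u x, ∀ ξ : TangentSpace (𝓡 n) x, u x + inner ℝ p ξ - C₁ * ‖ξ‖ ^ 2 ≤ u (G.ex x ξ)  -- field `LB` of `DFacts`.
* theorem P_smul_field {G : GeoData n M} (CF : CutFacts G) (u : M → ℝ) (x : M) : ∀ w ∈ G.P u x, ∀ t : ℝ, 0 ≤ t → t ≤ 1 → t • w ∈ G.P (fun z => t * u z) x  -- field `P_smul` of `DFacts`.

### R226/Calc2_347 [ns Crest.Agent.R226.Calc347] 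
* theorem Sec.comp_line {g : E → ℝ} {a : E} (hg : ContDiffAt ℝ 2 g a) (v : E) : Sec (fun s : ℝ => g (a + s • v)) (hess g a v v)  -- second derivative along a line
* theorem fderiv_fst {g : E × F → ℝ} {a : E} {b : F} (hg : DifferentiableAt ℝ g (a, b)) (v : E) : fderiv ℝ g (a, b) (v, 0) = fderiv ℝ (fun a' => g (a', b)) a v  -- partial derivative in the first variable
* theorem hess_mixed {g : E × F → ℝ} {a : E} {b : F} (hg : ContDiffAt ℝ 2 g (a, b)) (v : E) (w : F) {d : ℝ} (h : HasDerivAt (fun s : ℝ => fderiv ℝ (fun a' => g (a', b + s • w)) a v) d 0) : hess g (a, b) (0, w) (v, 0) = d  -- mixed second derivative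
* theorem hess_expand {g : E × F → ℝ} {a : E} {b : F} (hg : ContDiffAt ℝ 2 g (a, b)) (v : E) (w : F) : hess g (a, b) (v, w) (v, w) = hess g (a, b) (v, 0) (v, 0) + 2 * hess g (a, b) (0, w) (v, 0) + hess g (a, b) (0, w) (0, w)  -- expansion of the Hessian on a product
* theorem sec_norm_sq {E : Type*} [NormedAddCommGroup E] [InnerProductSpace ℝ E] (b w : E) : Sec (fun s : ℝ => ‖b + s • w‖ ^ 2 / 2) (‖w‖ ^ 2)  -- the second derivative of `s ↦ ‖b + s w‖² / 2`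

### R226/CentGeo_700 [ns Crest.Agent.R226.CentGeo700] 
* def WQ (f : V → ℝ) (C : Set V) (t₀ : ℝ) : Prop  -- weak quantitative quasiconvexity of `f` on `C` with constant `t₀`
* theorem walk {f : V → ℝ} {C : Set V} (hconv : Convex ℝ C) {t₀ : ℝ} (ht0 : 0 < t₀) (ht1 : t₀ < 1) (hQ : WQ f C t₀) {h : ℝ} (hh : 0 ≤ h) {qe qx : V} (hqe : qe ∈ C) (hqx : qx ∈ C) {s₀ : ℝ} (hs0 : 0 < s₀) (hs1 : s₀ ≤ 1) (hup : f qe ≤ f (qe + s₀ • (qx - qe)) + h) : ∀ k : ℕ, ∀ s : ℝ, s₀ ≤ s → s ≤ 1 → s * (1 - t₀) ^ k ≤ s₀ → f (qe + s₀ • (qx - qe)) - f (qe + s • (qx - qe)) ≤ (2 ^ k - 1) * h  -- The walk: from `p(s₀) = q'` to `p(1) = qx` along `p(s) = qe + s (qx - qe)`.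
* theorem exists_steps (m : ℕ) (hm : 0 < m) {t₀ : ℝ} (ht0 : 0 < t₀) (ht1 : t₀ < 1) : ∃ k : ℕ, (1 - t₀) ^ k ≤ (1 / (2 * (m : ℝ))) / (1 + 1 / (2 * (m : ℝ)))  -- the constant of Step 1: number of steps
* theorem step1_of_center {C : Set V} (hconv : Convex ℝ C) {m : ℕ} (hm : 0 < m) {c : V} (hcC : c ∈ C) (hc : ∀ x ∈ C, c - (1 / (m : ℝ)) • (x - c) ∈ C) {t₀ : ℝ} (ht0 : 0 < t₀) (ht1 : t₀ < 1) {k : ℕ} (hk : (1 - t₀) ^ k ≤ (1 / (2 * (m : ℝ))) / (1 + 1 / (2 * (m : ℝ)))) {f : V → ℝ} (hQ : WQ f C t₀) {h : ℝ} (hh : 0 ≤ h) {z : V} (hz : z ∈ C) (hup : ∀ q ∈ C, f q ≤ f (c + (1 / 4 : ℝ) • (z - c)) + h) {q : V} (hq : q ∈ C) : f (c + …  -- Step 1 from a point `c` of asymmetry `≤ m`; `f` satisfies weak QQ on `C`, and its values on `C` do not exceed the value at an inner point `c + (1/4)(z - c)` by 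
* theorem step1_abs (m : ℕ) (hm : 0 < m) {t₀ : ℝ} (ht0 : 0 < t₀) (ht1 : t₀ < 1) : ∃ C₁ : ℝ, 1 ≤ C₁ ∧ ∀ (V : Type u) [AddCommGroup V] [Module ℝ V] [TopologicalSpace V] [T2Space V] [IsTopologicalAddGroup V] [ContinuousSMul ℝ V] [FiniteDimensional ℝ V], finrank ℝ V ≤ m → ∀ C : Set V, IsCompact C → Convex ℝ C → C.Nonempty → ∃ c ∈ C, ∀ (f : V → ℝ) (h : ℝ), 0 ≤ h → WQ f C t₀ → ∀ z ∈ C, (∀ q ∈ C, f q ≤ f (c + (1 / 4 : ℝ) • (z …  -- Abstract Step 1. A constant depending only on the dimension bound `m` and on `t₀`.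

### R226/ChartCost_77 [ns Crest.Agent.R226.ChartCost77] R226 (helper77), layer C1: the cost `c = d²/2` in charts.
* theorem fderiv_cc_fst {z y : M} {b : EE n} (hd : DifferentiableAt ℝ (cc (n := n) z y) (o z, b)) {w : TangentSpace (𝓡 n) z} (hw : w ∈ G.K z) (hwb : G.ex z w = (extChartAt (𝓡 n) y).symm b) (ξ : TangentSpace (𝓡 n) z) : fderiv ℝ (cc (n := n) z y) (o z, b) ((ξ : EE n), (0 : EE n)) = -inner ℝ w ξ  -- gradient of the cost in a chart: if the cost read in charts is differentiable at `(o z, b)` then its first partial derivative is `-⟨w, ·⟩_z` for every minim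
* def ec (z y : M) (w : TangentSpace (𝓡 n) z) : EE n  -- the exponential map of the fibre over `z`, read in the chart at `y`
* theorem exists_riesz (z : M) : ∃ e : TangentSpace (𝓡 n) z ≃ₗ[ℝ] (EE n →L[ℝ] ℝ), ∀ w ξ : TangentSpace (𝓡 n) z, e w (ξ : EE n) = inner ℝ w ξ  -- Riesz representation in the fibre over `z`, as functionals on the model space.
* theorem exists_right_inverse {z : M} {w : TangentSpace (𝓡 n) z} (hw : w ∈ G.K z) (hs : ContDiffAt ℝ ∞ (cc (n := n) z (G.ex z w)) (o z, o (G.ex z w))) : ∃ S : EE n →L[ℝ] TangentSpace (𝓡 n) z, (∀ k, fderiv ℝ (ec G z (G.ex z w)) w (S k) = k) ∧ ∀ (k : EE n) (ξ : TangentSpace (𝓡 n) z), inner ℝ (S k) ξ = -fderiv ℝ (fderiv ℝ (cc (n := n) z (G.ex z w))) (o z, o (G.ex z w)) (0, k) ((ξ : EE n), (0 : EE n))  -- nondegeneracy: where the cost is smooth, `exp_z` has a differentiable right inverse.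
* theorem mixed_nondeg {z : M} {w : TangentSpace (𝓡 n) z} (hw : w ∈ G.K z) (hs : ContDiffAt ℝ ∞ (cc (n := n) z (G.ex z w)) (o z, o (G.ex z w))) {h : EE n} (hh : ∀ k : EE n, fderiv ℝ (fderiv ℝ (cc (n := n) z (G.ex z w))) (o z, o (G.ex z w)) (0, k) (h, 0) = 0) : h = 0  -- nondegeneracy of the mixed second derivative of the cost (first argument).

### R226/ChartMet_842 [ns Crest.Agent.R226.ChartMet842] 
* def dS (x₀ : M) (a : 𝔼) : 𝔼 →L[ℝ] TangentSpace (𝓡 n) ((chartAt 𝔼 x₀).symm a)  -- the derivative of the inverse chart, as a map into the tangent space.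
* def dC (x₀ : M) (p : M) : TangentSpace (𝓡 n) p →L[ℝ] 𝔼  -- the derivative of the chart.
* theorem inner_eq_gm (x₀ : M) {p : M} (hp : p ∈ (chartAt 𝔼 x₀).source) (v w : TangentSpace (𝓡 n) p) : inner ℝ v w = gm x₀ (chartAt 𝔼 x₀ p) (dC x₀ p v) (dC x₀ p w)  -- inner product at a point in the chart
* theorem curveVel_symm (x₀ : M) {c : ℝ → 𝔼} {c' : 𝔼} {t : ℝ} (hc : HasDerivAt c c' t) (ha : c t ∈ (chartAt 𝔼 x₀).target) : curveVel n (fun s => (chartAt 𝔼 x₀).symm (c s)) t = dS x₀ (c t) c'  -- velocity of a curve given in the chart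
* theorem hasDerivAt_chart (x₀ : M) {γ : ℝ → M} {t : ℝ} (hγ : MDifferentiableAt 𝓘(ℝ, ℝ) (𝓡 n) γ t) (hp : γ t ∈ (chartAt 𝔼 x₀).source) : HasDerivAt (fun s => chartAt 𝔼 x₀ (γ s)) (dC x₀ (γ t) (curveVel n γ t)) t  -- derivative of the chart expression of a curve in `M`

### R226/CopiesGeo_301 [ns Crest.Agent.R226.CopiesGeo301] 
* theorem escape_AA (hC : CutFacts G) (hg : GoodAll G) {u : M → ℝ} (hu : CConv u) {x0 x1 : M} {h s : ℝ} (hh : 0 ≤ h) (ha : h < u x0 - u x1) (hs : 0 ≤ s) (hs1 : s ≤ 1) {p0 p : TangentSpace (𝓡 n) x1} (hp0 : p0 ∈ G.K x1) (h1 : Dd u x1 (G.ex x1 p0) ≤ h) (hp : p ∈ AA G u x0 x1 h p0) {t : ℝ} (ht : 0 ≤ t) (ht1 : t < 1) (hpt : con ((1 - s) • p0) t p ∈ AA G u x0 x1 h p0) : (1 - t) ^ 4 * (s * (u x0 - u x1) - 2 * h) ≤ 2 * h  -- escape: `p` and `con p_* t p` can both be in `AA` only for `t` close to `1`.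
* theorem mass_copies_AA (hC : CutFacts G) (hg : GoodAll G) {u : M → ℝ} (hu : CConv u) {x0 x1 : M} {h s κ c : ℝ} (hh : 0 ≤ h) (ha : h < u x0 - u x1) (hs : 0 ≤ s) (hs1 : s ≤ 1) {p0 : TangentSpace (𝓡 n) x1} (hp0 : p0 ∈ G.K x1) (h1 : Dd u x1 (G.ex x1 p0) ≤ h) {N : ℕ} (hN : 0 < N) (hgap : 2 * h < (1 / (2 * (N : ℝ))) ^ 4 * (s * (u x0 - u x1) - 2 * h)) [MeasurableSpace (TangentSpace (𝓡 n) x1)] [BorelSpace (TangentSpace (𝓡 n) …  -- (C), geometric form: `N` disjoint copies of `AA` towards `p_* = (1-s) p₀`.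
* theorem copies_subset_QS (hg : GoodAll G) {u : M → ℝ} (hu : CConv u) {x0 x1 : M} {h h' s : ℝ} (hhh : h ≤ h') (hs : 0 ≤ s) (hs1 : s ≤ 1) {p0 : TangentSpace (𝓡 n) x1} (hp0 : p0 ∈ G.K x1) (hpole : Dd u x1 (G.ex x1 ((1 - s) • p0)) ≤ h') {N : ℕ} (hN : 0 < N) : copies ((1 - s) • p0) N (AA G u x0 x1 h p0) ⊆ QS G (ctr u) x1 h'  -- the copies lie in the section `Y_{h'}(x₁)` of the far end.
* theorem tukey_full (hg : GoodAll G) {vol : Measure M} [IsFiniteMeasure vol] (hvol : vol ≪ (Measure.hausdorffMeasure (n : ℝ) : Measure M)) {u : M → ℝ} (hu : CConv u) {x0 x1 : M} {h h' L a' : ℝ} (hh : 0 ≤ h) (hhh : h < h') (hL : h + L < h') (hNG : ∀ x : M, (vol (SS u x0 x1 h)).toReal ≤ (n + 1) * (vol (SS u x0 x h')).toReal → u x0 - u x ≤ a') : ∃ p0 ∈ G.K x1, Dd u x1 (G.ex x1 p0) ≤ h ∧ (∀ x : M, Dd u x (G.ex x1 p0) ≤ L  …  -- Tukey point, full form: NG on its column *and* deep half-spaces: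 for every continuous linear functional `f`, the part `{p | f p₀ ≤ f p}` of `log_{x₁} S` has
* theorem vol_AA {vol : Measure M} {u : M → ℝ} {x0 x1 : M} {h : ℝ} {p0 : TangentSpace (𝓡 n) x1} (hdeep : ∀ f : TangentSpace (𝓡 n) x1 →L[ℝ] ℝ, vol (SS u x0 x1 h) ≤ ((n : ℝ≥0∞) + 1) * vol (G.ex x1 '' {p | p ∈ G.K x1 ∧ Dd u x0 (G.ex x1 p) ≤ h ∧ Dd u x1 (G.ex x1 p) ≤ h ∧ f p0 ≤ f p})) : vol (SS u x0 x1 h) ≤ ((n : ℝ≥0∞) + 1) * vol (G.ex x1 '' AA G u x0 x1 h p0)  -- the special half-space used for the copies.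

### R226/Copies_301 [ns Crest.Agent.R226.Copies301] 
* theorem copies_disjoint {A : Set E} {p₀ : E} {B Γ : ℝ} {N : ℕ} (hN : 0 < N) (hB : 0 ≤ B) (hesc : ∀ p ∈ A, ∀ t : ℝ, 0 ≤ t → t < 1 → con p₀ t p ∈ A → (1 - t) ^ 4 * Γ ≤ B) (hgap : B < (1 / (2 * (N : ℝ))) ^ 4 * Γ) : Pairwise (Function.onFun Disjoint (fun k : ℕ => con p₀ (rat N ^ k) '' A))  -- disjointness of the copies.
* def copies (p₀ : E) (N : ℕ) (A : Set E) : Set E  -- the union of the copies.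
* theorem exists_of_mem_copies {A : Set E} {p₀ : E} {N : ℕ} (hN : 0 < N) {v : E} (hv : v ∈ copies p₀ N A) : ∃ t : ℝ, 1 / 2 ≤ t ∧ t ≤ 1 ∧ ∃ p ∈ A, con p₀ t p = v  -- every copy point is `con p₀ t p` with `1/2 ≤ t ≤ 1`.
* theorem mass_copies {J : E → ℝ≥0∞} {A : Set E} (hA : MeasurableSet A) {p₀ : E} {B Γ c : ℝ} {N : ℕ} (hN : 0 < N) (hc : 0 ≤ c) (hB : 0 ≤ B) (hmono : ∀ p ∈ A, ∀ t : ℝ, 1 / 2 ≤ t → t ≤ 1 → ENNReal.ofReal c * J p ≤ J (con p₀ t p)) (hesc : ∀ p ∈ A, ∀ t : ℝ, 0 ≤ t → t < 1 → con p₀ t p ∈ A → (1 - t) ^ 4 * Γ ≤ B) (hgap : B < (1 / (2 * (N : ℝ))) ^ 4 * Γ) : (N : ℝ≥0∞) * (ENNReal.ofReal (c * (1 / 2) ^ finrank ℝ E) * ∫⁻ p in A, J …  -- (C): the masses of the copies add up.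
* theorem mass_copies_measure {J : E → ℝ≥0∞} {A : Set E} (hA : MeasurableSet A) {p₀ : E} {B Γ c : ℝ} {N : ℕ} (hN : 0 < N) (hc : 0 ≤ c) (hB : 0 ≤ B) (hmono : ∀ p ∈ A, ∀ t : ℝ, 1 / 2 ≤ t → t ≤ 1 → ENNReal.ofReal c * J p ≤ J (con p₀ t p)) (hesc : ∀ p ∈ A, ∀ t : ℝ, 0 ≤ t → t < 1 → con p₀ t p ∈ A → (1 - t) ^ 4 * Γ ≤ B) (hgap : B < (1 / (2 * (N : ℝ))) ^ 4 * Γ) : (N : ℝ≥0∞) * (ENNReal.ofReal (c * (1 / 2) ^ finrank ℝ E) * ∫⁻ p …  -- `(C)` for the measure `ν = (J μ)` restricted to the copies.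

### R226/Copy_977 [ns Crest.Agent.R226.Copy977] ### real analysis
* theorem slope_left {G : GeoData n M} (hC : CutFacts G) (hg : GoodAll G) {x xp : M} {p0 p1 : TangentSpace (𝓡 n) x} {s : ℝ} (hI : p0 + s • (p1 - p0) ∈ G.I x) (hs1 : s < 1) (hp1 : p1 ∈ G.K x) (hpos : 0 ≤ gg G x p0 p1 xp s) {r : ℝ} (hr : 4 * max 0 (gg G x p0 p1 xp 1 - gg G x p0 p1 xp s) / (1 - s) < r) : ∀ᶠ σ in 𝓝[<] s, gg G x p0 p1 xp s - gg G x p0 p1 xp σ ≤ r * (s - σ)  -- the slope of `f` at a point where `f ≥ 0`.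
* theorem slope_ineq {G : GeoData n M} (hC : CutFacts G) (hg : GoodAll G) {x xp : M} {p0 p1 : TangentSpace (𝓡 n) x} (hp0 : p0 ∈ G.K x) (hp1 : p1 ∈ G.K x) {a t : ℝ} (ha : 0 ≤ a) (hat : a ≤ t) (ht : t < 1) (hpos : ∀ s, a ≤ s → s ≤ t → 0 < gg G x p0 p1 xp s) : (1 - t) ^ 4 * (gg G x p0 p1 xp 1 - gg G x p0 p1 xp a) ≤ (1 - a) ^ 4 * max 0 (gg G x p0 p1 xp 1 - gg G x p0 p1 xp t)  -- the slope inequality (1752 (c)): on a chord of `K(x)` on which `f > 0`.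
* theorem core_escape {G : GeoData n M} (hC : CutFacts G) (hg : GoodAll G) {u : M → ℝ} (hu : CConv u) {xt xp y0 : M} {H B E N : ℝ} (hB : 0 ≤ B) (ht0 : Dd u xt y0 ≤ H) {ps : TangentSpace (𝓡 n) xt} (hps : ps ∈ G.K xt) (hps0 : Dd u xt (G.ex xt ps) = 0) (hE : E ≤ Dd u xp (G.ex xt ps)) (hN1 : N ≤ E - B) (hN2 : N ≤ halfDistSq xt y0 - halfDistSq xp y0 - B - H) (hpos : 0 < halfDistSq xt y0 - halfDistSq xp y0 - B - H) {p : Tang …  -- escape of the core (1752 (c)): `z = p* + t (p - p*)` leaves the set of `p`'s with gaps `≤ B` on both sides, unless `(1-t)⁴ N ≤ 2B`.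
* theorem copies_disjoint {G : GeoData n M} (hC : CutFacts G) (hg : GoodAll G) {u : M → ℝ} (hu : CConv u) {xt xp y0 : M} {H B E N : ℝ} (hB : 0 ≤ B) (ht0 : Dd u xt y0 ≤ H) {ps : TangentSpace (𝓡 n) xt} (hps : ps ∈ G.K xt) (hps0 : Dd u xt (G.ex xt ps) = 0) (hE : E ≤ Dd u xp (G.ex xt ps)) (hN0 : 0 ≤ N) (hN1 : N ≤ E - B) (hN2 : N ≤ halfDistSq xt y0 - halfDistSq xp y0 - B - H) (hpos : 0 < halfDistSq xt y0 - halfDistSq xp y0  …  -- the copies of the core are disjoint (1752 (c)). `xt` = far point, `xp` = nearest point, `ps` = contact `y*` of `xt`, `E ≤ D(xp,y*)`, `Z` = velocities at `xt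
* theorem far_contact {G : GeoData n M} (hg : GoodAll G) {u : M → ℝ} (hu : CConv u) {xt : M} {B : ℝ} (hB : 0 < B) {pF p : TangentSpace (𝓡 n) xt} (hF : pF ∈ QS G (ctr u) xt B) (hp : p ∈ QS G (ctr u) xt B) (hle : ‖p‖ ≤ ‖pF‖) {x : M} (hx : Dd u x (G.ex xt (WOff915.con pF (1 / 8) p)) = 0) : Dd u x (G.ex xt pF) ≤ 2 * B  -- (d): `p_F` a farthest point; if `x` is a contact of `exp(p_F + (p - p_F)/8)` then `D(x, exp p_F) ≤ 2B`.

### R226/Count_964 [ns Crest.Agent.R226.Count964] 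
* theorem walk {Q : Set V} (hQ : Convex ℝ Q) (g : V → ℝ) {τ : ℝ} (hτ0 : 0 < τ) (hτ1 : τ < 1) (hqq : ∀ p0 ∈ Q, ∀ p1 ∈ Q, ∀ t : ℝ, 0 ≤ t → t ≤ τ → g p0 - max (g p0 - g p1) 0 / 2 ≤ g ((1 - t) • p0 + t • p1)) {pL p : V} (hpL : pL ∈ Q) (hp : p ∈ Q) (hle : g p ≤ g pL) (k : ℕ) : ∀ s : ℝ, (1 - τ) ^ k ≤ s → s ≤ 1 → g p + (g pL - g p) / 2 ^ k ≤ g ((1 - s) • p + s • pL)  -- Walking from `pL` towards `p`: under the weak `QQ` inequality for `-g`, after `k` steps of ratio `1 - τ` at least the fraction `2⁻ᵏ` of the excess survives.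
* def ctrc (pL : V) (lam : ℝ) (p : V) : V  -- contraction to `pL` with factor `lam`.
* theorem count_bound (μ : Measure M) (e : V → M) (he : Continuous e) {K Q P : Set V} (hQ : Convex ℝ Q) (hQK : Q ⊆ K) (hPQ : P ⊆ Q) (hP : IsCompact P) (hinj : ∀ᵐ y ∂μ, ∀ p ∈ K, ∀ q ∈ K, e p = y → e q = y → p = q) (ν : M → ℝ) {τ : ℝ} (hτ0 : 0 < τ) (hτ1 : τ < 1) (hqq : ∀ p0 ∈ Q, ∀ p1 ∈ Q, ∀ t : ℝ, 0 ≤ t → t ≤ τ → ν (e p0) - max (ν (e p0) - ν (e p1)) 0 / 2 ≤ ν (e ((1 - t) • p0 + t • p1))) {C : ℝ} (hC : ∀ p ∈ P, |ν (e p)|  …  -- Step 3 (counting disjoint copies), abstract form.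

### R226/Crit_347 [ns Crest.Agent.R226.Crit347] 
* theorem hasDerivAt_line {x : M} {g : TangentSpace (𝓡 n) x × TangentSpace (𝓡 n) x → ℝ} {a b : TangentSpace (𝓡 n) x} (hg : DifferentiableAt ℝ g (a, b)) (η : TangentSpace (𝓡 n) x) : HasDerivAt (fun s : ℝ => g (a + s • η, b)) (fderiv ℝ g (a, b) (η, 0)) 0  -- derivative along a line in the first variable
* theorem crit_min {x : M} {v b : TangentSpace (𝓡 n) x} (hv : v ∈ G.K x) (hvb : G.ex x v = G.ex x b) (hd : DifferentiableAt ℝ (N G x) ((1 / 2 : ℝ) • v, b)) (η : TangentSpace (𝓡 n) x) : fderiv ℝ (N G x) ((1 / 2 : ℝ) • v, b) (η, 0) = 0  -- critical point of `N(·,b)` at the midpoint of a minimising geodesic to `exp_x b`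
* theorem hasDerivAt_nc (hB : Base G) {z : M} {b : TangentSpace (𝓡 n) z} (hb : b ∈ G.I z) (v : TangentSpace (𝓡 n) z) : HasDerivAt (fun s : ℝ => halfDistSq (G.ex z (s • v)) (G.ex z b)) (-inner ℝ b v) 0  -- derivative of the cost in the first normal coordinate
* theorem crit_vel (hB : Base G) {x : M} {w : TangentSpace (𝓡 n) x} (hw : w ∈ G.I x) (ha : radial G.ex 1 (⟨x, w⟩ : TangentBundle (𝓡 n) M) ∈ G.IT) (hd : DifferentiableAt ℝ (N G x) (w, (2 : ℝ) • w)) (η : TangentSpace (𝓡 n) x) : fderiv ℝ (N G x) (w, (2 : ℝ) • w) (η, 0) = 0  -- critical point of `N(·, 2w)` at `w`, when the geodesic from `exp_x w` to `exp_x (2w)` is strictly minimising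
* theorem radial_half_mem (hB : Base G) {x : M} {p : TangentSpace (𝓡 n) x} (hp : p ∈ G.K x) : radial G.ex 1 (⟨x, (1 / 2 : ℝ) • p⟩ : TangentBundle (𝓡 n) M) ∈ G.IT  -- the end velocity of the first half of a minimising geodesic is in `I`

### R226/CutAsm_823 [ns Crest.Agent.R226.CutAsm823] 
* theorem mtwFacts (G : GeoData n M) (hM : SatisfiesWeakMTW M n) : MTWFacts G  -- MTW facts.
* theorem dFacts (G : GeoData n M) : DFacts G  -- Elementary facts of Layer D.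
* theorem good_one (G : GeoData n M) (hM : SatisfiesWeakMTW M n) (u : M → ℝ) (hu : CConv u) : G.Good u 1  -- Good(1) for every `c`-convex function.
* theorem nonempty_geoData (n : ℕ) (M : Type*) [MetricSpace M] [ChartedSpace (EuclideanSpace ℝ (Fin n)) M] [IsManifold (𝓡 n) ∞ M] [RiemannianBundle (fun p : M => TangentSpace (𝓡 n) p)] [IsContMDiffRiemannianBundle (𝓡 n) ∞ (EuclideanSpace ℝ (Fin n)) (fun p : M => TangentSpace (𝓡 n) p)] [IsRiemannianManifold (𝓡 n) M] [CompactSpace M] : Nonempty (GeoData n M)  -- Layer B: existence of the global geodesic package.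
* theorem convex_injDomain (n : ℕ) (M : Type*) [MetricSpace M] [ChartedSpace (EuclideanSpace ℝ (Fin n)) M] [IsManifold (𝓡 n) ∞ M] [RiemannianBundle (fun p : M => TangentSpace (𝓡 n) p)] [IsContMDiffRiemannianBundle (𝓡 n) ∞ (EuclideanSpace ℝ (Fin n)) (fun p : M => TangentSpace (𝓡 n) p)] [IsRiemannianManifold (𝓡 n) M] [CompactSpace M] (hM : SatisfiesWeakMTW M n) (x : M) : Convex ℝ (injDomain n x)  -- S0349, without connectedness or `2 ≤ n`.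

### R226/CutFacts_484 [ns Crest.Agent.R226] 
* def GeoData.nc (G : GeoData n M) (x : M) (p ξ : TangentSpace (𝓡 n) x) : ℝ  -- the cost seen in normal coordinates at `x`: `nc x p ξ = c(exp_x ξ, exp_x p)`
* structure CutFacts (G : GeoData n M) : Prop where / -- C0 - / isCompact_KT : IsCompact G.KT star : ∀ x, ∀ v ∈ G.K x, ∀ t : ℝ, 0 ≤ t → t ≤ 1 → t • v ∈ G.K x I_subset : ∀ x, G.I x ⊆ G.K x uniq : ∀ x, ∀ v ∈ G.I x, ∀ w ∈ G.K x, G.ex x w = G.ex x v → w = v / -- second half of a minimiser - / tail : ∀ x, ∀ v ∈ G.K x, ∀ t : ℝ, 0 ≤ t → t ≤ 1 → (1 - t) • G.vel x v t ∈ G.K (G.ex x (t • v)) / -- reversal - / rev : ∀ x, ∀ v ∈ G.K x, - …  -- Facts not depending on MTW.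
* structure MTWFacts (G : GeoData n M) : Prop where / -- `φ_ξ` is concave along segments of `I(x)` orthogonal to `ξ` - / concave : ∀ x, ∀ p q ξ : TangentSpace (𝓡 n) x, segment ℝ p q ⊆ G.I x → inner ℝ (q - p) ξ = 0 → ∀ t : ℝ, 0 ≤ t → t ≤ 1 → (1 - t) * G.phi x ξ p + t * G.phi x ξ q ≤ G.phi x ξ ((1 - t) • p + t • q) / -- local Loeper maximum principle, uniform on compact subsets of `I ⊂ TM` - / loeper : ∀ S : Set (TangentBund …  -- Facts depending on MTW.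

### R226/CutNull_230 [ns Crest.Agent.R226.CutNull230] 
* theorem CConv_neg (x0 : M) : CConv (fun z : M => -halfDistSq z x0)  -- `z ↦ -c(z,x₀)` is `c`-convex.
* theorem eq_of_subsingleton (G : GeoData n M) {x0 y : M} (h : (G.P (fun z : M => -halfDistSq z x0) y).Subsingleton) {p q : TangentSpace (𝓡 n) x0} (hp : p ∈ G.K x0) (hq : q ∈ G.K x0) (hpy : G.ex x0 p = y) (hqy : G.ex x0 q = y) : p = q  -- Two minimising vectors at `x0` with the same endpoint `y` at which the reversed minimising vector is unique, coincide.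
* theorem ae_unique_preimage (G : GeoData n M) (x0 : M) : ∀ᵐ y ∂(Measure.hausdorffMeasure (n : ℝ) : Measure M), ∀ p ∈ G.K x0, ∀ q ∈ G.K x0, G.ex x0 p = y → G.ex x0 q = y → p = q  -- The cut locus is null: almost every `y` has at most one preimage in `K x0`.
* theorem aedisjoint_image (G : GeoData n M) (x0 : M) {A B : Set (TangentSpace (𝓡 n) x0)} (hA : A ⊆ G.K x0) (hB : B ⊆ G.K x0) (h : Disjoint A B) : AEDisjoint (Measure.hausdorffMeasure (n : ℝ) : Measure M) (G.ex x0 '' A) (G.ex x0 '' B)  -- images of disjoint subsets of `K x0` are almost everywhere disjoint.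

### R226/CutOpen_77 [ns Crest.Agent.R226.CutOpen77] R226 (helper77), layer C1b: `p ↦ (p.1, exp p)` is locally injective at every minimising vector where the cost is smooth, and `I` is open in the tangent bundle.
* def Th (p₀ : TangentBundle (𝓡 n) M) (q : EE n × EE n) : EE n × EE n  -- the map `p ↦ (p.1, exp p)` in charts
* theorem locally_injective {x : M} {w : TangentSpace (𝓡 n) x} (hw : w ∈ G.K x) (hs : SC n x (G.ex x w)) : ∃ N ∈ 𝓝 (⟨x, w⟩ : TangentBundle (𝓡 n) M), ∀ p ∈ N, ∀ p' ∈ N, p.1 = p'.1 → G.ex p.1 p.2 = G.ex p'.1 p'.2 → p = p'  -- local injectivity of `p ↦ (p.1, exp p)` at a minimising vector where the cost is smooth.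
* theorem isOpen_IT : IsOpen G.IT  -- exact field `CutFacts.isOpen_IT`: the injectivity domain is open in the tangent bundle.

### R226/CutSmooth_77 [ns Crest.Agent.R226.CutSmooth77] R226 (helper77), layer C1b: the cost is smooth at `(x, exp_x v)` for `v ∈ I(x)`; `exp` is a local diffeomorphism there; `I` is open in the tangent bundle.
* theorem index_pos {x : M} {v : TangentSpace (𝓡 n) x} (hv : v ∈ G.I x) {z y : M} (hz : G.ex x ((1 / 2 : ℝ) • v) = z) (hy : G.ex x v = y) (h1 : SC n x z) (h2 : SC n z y) {h : EE n} (hh : h ≠ 0) : 0 < fderiv ℝ (fderiv ℝ (cc (n := n) x z)) (o x, o z) (0, h) (0, h) + fderiv ℝ (fderiv ℝ (cc (n := n) z y)) (o z, o y) (h, 0) (h, 0)  -- index lemma (in charts)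
* theorem contMDiff_scale (t : ℝ) : ContMDiff (𝓡 n).tangent (𝓡 n).tangent ∞ (fun p : TangentBundle (𝓡 n) M => (⟨p.1, t • p.2⟩ : TangentBundle (𝓡 n) M))  -- scaling is smooth on the tangent bundle
* theorem sc_step {x : M} {v : TangentSpace (𝓡 n) x} (hv : v ∈ G.I x) {z y : M} (hz : G.ex x ((1 / 2 : ℝ) • v) = z) (hy : G.ex x v = y) (h1 : SC n x z) (h2 : SC n z y) : SC n x y  -- smoothness step
* theorem sc_of_mem_I (x : M) (v : TangentSpace (𝓡 n) x) (hv : v ∈ G.I x) : SC n x (G.ex x v)  -- F2: the cost is smooth at `(x, exp_x v)` for `v ∈ I(x)`.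
* theorem smooth_cost : ∀ x, ∀ v ∈ G.I x, ContMDiffAt ((𝓡 n).prod (𝓡 n)) 𝓘(ℝ) ∞ (fun q : M × M => halfDistSq q.1 q.2) (x, G.ex x v)  -- exact field `CutFacts.smooth_cost`

### R226/CutTop_478 [ns Crest.Agent.R226.CutTop478] 
* def idE (x : M) : TangentSpace (𝓡 n) x ≃L[ℝ] EuclideanSpace ℝ (Fin n)  -- the identity, as a continuous linear equivalence between the tangent space with its Riemannian norm and the model space with its usual norm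
* theorem contMDiff_geo (x : M) (v : TangentSpace (𝓡 n) x) : ContMDiff 𝓘(ℝ, ℝ) (𝓡 n) ∞ (fun t : ℝ => G.ex x (t • v))  -- geodesics are smooth
* theorem continuous_flow (x : M) (v : TangentSpace (𝓡 n) x) : Continuous (fun q : ℝ × ℝ => (⟨G.ex x (q.1 • v), q.2 • G.vel x v q.1⟩ : TangentBundle (𝓡 n) M))  -- continuity of `t ↦ (γ(t), b γ'(t))` along a geodesic, jointly in `(t, b)`
* theorem near_unique' {x : M} {v : TangentSpace (𝓡 n) x} (huniq : ∀ w ∈ G.K x, G.ex x w = G.ex x v → w = v) {N : Set (TangentBundle (𝓡 n) M)} (hN : N ∈ 𝓝 (⟨x, v⟩ : TangentBundle (𝓡 n) M)) : ∀ᶠ q : M × M in 𝓝 (x, G.ex x v), ∀ w ∈ G.K q.1, G.ex q.1 w = q.2 → (⟨q.1, w⟩ : TangentBundle (𝓡 n) M) ∈ N  -- Compactness + uniqueness: the minimising vectors between nearby points are nearby.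
* theorem exists_back (hopen : IsOpen G.IT) {x : M} {v : TangentSpace (𝓡 n) x} (hv : v ∈ G.I x) : ∃ ε : ℝ, 0 < ε ∧ dist (G.ex x ((-ε) • v)) (G.ex x ((1 : ℝ) • v)) = (1 + ε) * ‖v‖  -- If the injectivity domain bundle is open, a minimiser towards a non-cut point can also be extended backwards.

### R226/DDefs_267 [ns Crest.Agent.R226] 
* structure DFacts (G : GeoData n M) : Prop where / -- a uniform Lipschitz constant for `c`-convex functions - / lip : ∃ L : ℝ, 0 < L ∧ ∀ u : M → ℝ, CConv u → ∀ x x', |u x - u x'| ≤ L * dist x x' cont : ∀ u : M → ℝ, CConv u → Continuous u / -- `s u` is `c`-convex - / cconv_smul : ∀ u : M → ℝ, CConv u → ∀ s : ℝ, 0 ≤ s → s ≤ 1 → CConv (scal s u) cconv_ctr : ∀ u : M → ℝ, Continuous u → CConv (ctr u) P_nonempty : ∀ u : M → ℝ,  …  -- Elementary facts of Layer D (no MTW): outputs of D0, D1, D2.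
* def StepI (G : GeoData n M) : Prop  -- Output of D4 (I), given (H): `P_φ(y)` is a singleton.
* def StepJ (G : GeoData n M) : Prop  -- Output of D5 (J), given (I): `s H_u(x) ⊆ I(x)`.
* def StepK1 (G : GeoData n M) : Prop  -- Output of D6 (K, first half): uniform local support property slightly beyond `s`.
* def StepK (G : GeoData n M) : Prop  -- Output of D7 (K): openness.

### R226/Dasm_290 [ns Crest.Agent.R226.Dasm290] ### the gap function `D(x,y) = u(x) + u^c(y) + c(x,y)`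
* theorem quasi (hg : GoodAll G) {x : M} {p q : TangentSpace (𝓡 n) x} (hp : p ∈ G.K x) (hq : q ∈ G.K x) {a b : ℝ} (ha : 0 ≤ a) (hb : 0 ≤ b) (hab : a + b = 1) (x' : M) : ‖a • p + b • q‖ ^ 2 / 2 - halfDistSq x' (G.ex x (a • p + b • q)) ≤ max (‖p‖ ^ 2 / 2 - halfDistSq x' (G.ex x p)) (‖q‖ ^ 2 / 2 - halfDistSq x' (G.ex x q))  -- DASM (Loeper's maximum principle, global): for `p, q ∈ K(x)` and any `x'`, the function `w ↦ |w|²/2 - c(x', exp_x w)` is quasiconvex along `[p,q]`.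
* def secY (G : GeoData n M) (u : M → ℝ) (x : M) (h : ℝ) : Set (TangentSpace (𝓡 n) x)  -- the dual section `{p ∈ K(x) : D(x, exp_x p) ≤ h}`.
* theorem convex_polar (hg : GoodAll G) (S : Set M) (xh : M) (B : M → ℝ) : Convex ℝ {p : TangentSpace (𝓡 n) xh | p ∈ G.K xh ∧ ∀ x ∈ S, halfDistSq xh (G.ex xh p) - halfDistSq x (G.ex xh p) ≤ B x}  -- sets `{p ∈ K(x̂) : [c(x̂,y)-c(x̂,y₀)] - [c(x,y)-c(x,y₀)] ≤ B, ∀ x ∈ S}` are convex.
* theorem mem_P_of_localMin (hC : CutFacts G) (hD : DFacts G) (hg : GoodAll G) {u : M → ℝ} (hu : CConv u) {x : M} {v : TangentSpace (𝓡 n) x} (hv : v ∈ G.K x) (hmin : ∀ᶠ x' in 𝓝 x, u x + halfDistSq x (G.ex x v) ≤ u x' + halfDistSq x' (G.ex x v)) : v ∈ G.P u x  -- local ⇒ global: if `x` is a local minimum of `u + c(·,y)` then `y` is a global `c`-subgradient of `u` at `x`; moreover every minimising velocity from `x` to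
* theorem exists_mem_cSub_interior [CompactSpace M] (hC : CutFacts G) (hD : DFacts G) (hg : GoodAll G) {u : M → ℝ} (hu : CConv u) {S : Set M} (hS : IsClosed S) {xh y : M} (hxh : xh ∈ S) (hfr : ∀ x ∈ frontier S, u xh + halfDistSq xh y < u x + halfDistSq x y) : ∃ x ∈ interior S, y ∈ cSub u x  -- if on the frontier of the (compact) set `S` the function `u + c(·,y)` exceeds its value at some point `x̂ ∈ S`, then `y` is a `c`-subgradient at some interior p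

### R226/Defs_484 [ns Crest.Agent.R226 / GeoData] 
* structure NearDiag where / -- radius - / r₀ : ℝ r₀_pos : 0 < r₀ / -- the local exponential map - / e : ∀ x : M, TangentSpace (𝓡 n) x → M / -- `e` is smooth on the open disc bundle of radius `r₀` - / smooth : ContMDiffOn (𝓡 n).tangent (𝓡 n) ∞ (fun p : TangentBundle (𝓡 n) M => e p.1 p.2) {p | ‖p.2‖ < r₀} / -- the cost is smooth near the diagonal - / smooth_cost : ContMDiffOn ((𝓡 n).prod (𝓡 n)) 𝓘(ℝ) ∞ (fun q : M × M => halfDist …  -- Output of Layer A: uniform near-diagonal Riemannian geometry. `e x v` is only meaningful for `‖v‖ < r₀`.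
* structure GeoData where / -- the exponential map - / ex : ∀ x : M, TangentSpace (𝓡 n) x → M smooth : ContMDiff (𝓡 n).tangent (𝓡 n) ∞ (fun p : TangentBundle (𝓡 n) M => ex p.1 p.2) ex_zero : ∀ x, ex x 0 = x vel_zero : ∀ x, ∀ v : TangentSpace (𝓡 n) x, curveVel n (fun t : ℝ => ex x (t • v)) 0 = v norm_vel : ∀ x, ∀ v : TangentSpace (𝓡 n) x, ∀ t : ℝ, ‖curveVel n (fun t : ℝ => ex x (t • v)) t‖ = ‖v‖ / -- geodesic flow property …  -- Output of Layer B: the global exponential map of the compact manifold `M` and its basic properties.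
* def CConv (u : M → ℝ) : Prop  -- `u` is `c`-convex (on a compact space): it has a `c`-subgradient at every point.
* def Cset (U : M → ℝ) (y : M) : Set M  -- the contact set `C_y(U) = argmin (U + c(·,y))`
* def ctr (U : M → ℝ) (y : M) : ℝ  -- the `c`-transform with the sign convention `U^c(y) = sup_x (-U(x) - c(x,y))`, i.e. `-U^c(y) = min_x (U(x) + c(x,y))`.

### R226/DepthAbs_946 [ns Crest.Agent.R226.Depth946] 
* theorem hess_line_bound {f : E → ℝ} {B : ℝ} {z η : E} {σ : ℝ} (h : ContDiffAt ℝ ((4 : ℕ) : WithTop ℕ∞) f (z + σ • η)) (hb : ∀ j ≤ 4, ‖iteratedFDeriv ℝ j f (z + σ • η)‖ ≤ B) (u : E) : ContDiffAt ℝ 2 (fun σ : ℝ => hess f (z + σ • η) u u) σ ∧ |iteratedDeriv 2 (fun σ : ℝ => hess f (z + σ • η) u u) σ| ≤ B * ‖u‖ * ‖u‖ * ‖η‖ ^ 2  -- `C²` bounds of `σ ↦ hess f (z + σ η) u u`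
* theorem fderiv_line_bound {f : E → ℝ} {B : ℝ} {z η : E} {σ : ℝ} (h : ContDiffAt ℝ ((3 : ℕ) : WithTop ℕ∞) f (z + σ • η)) (hb : ∀ j ≤ 3, ‖iteratedFDeriv ℝ j f (z + σ • η)‖ ≤ B) (u : E) : ContDiffAt ℝ 2 (fun σ : ℝ => fderiv ℝ f (z + σ • η) u) σ ∧ |iteratedDeriv 2 (fun σ : ℝ => fderiv ℝ f (z + σ • η) u) σ| ≤ B * ‖u‖ * ‖η‖ ^ 2  -- `C²` bounds of `σ ↦ fderiv f (z + σ η) u`
* theorem taylor_right {ψ : ℝ → ℝ} {B : ℝ} (h : ∀ s ∈ Icc (0 : ℝ) 1, ContDiffAt ℝ 2 ψ s) (hB : ∀ s ∈ Icc (0 : ℝ) 1, |iteratedDeriv 2 ψ s| ≤ B) : ψ 1 - ψ 0 ≤ deriv ψ 0 + B  -- first order Taylor bound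
* theorem taylor_left {T : ℝ → ℝ} {τ B : ℝ} (hτ : 0 < τ) (h : ∀ s ∈ Icc (-τ) 0, ContDiffAt ℝ 2 T s) (hB : ∀ s ∈ Icc (-τ) 0, |iteratedDeriv 2 T s| ≤ B) : T (-τ) ≤ T 0 - τ * deriv T 0 + B * τ ^ 2  -- Taylor bound to the left of `0`
* theorem theta_step {T : ℝ → ℝ} {τ B V h : ℝ} (hτ : 0 < τ) (hτ4 : τ ≤ 1 / 4) (hV : 0 ≤ V) (hh : 0 ≤ h) (hT : ∀ s ∈ Icc (-τ) 0, ContDiffAt ℝ 2 T s) (hB : ∀ s ∈ Icc (-τ) 0, |iteratedDeriv 2 T s| ≤ B) (h0 : T 0 = 2 * h - V) (hpos : 0 ≤ (1 / 2 + τ) * V + (1 / 2 - τ) * T (-τ)) : deriv T 0 ≤ 4 * V + 16 * τ * V + B * τ + 2 * h / τ  -- the numerical step of the `θ`-minimality argument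

### R226/Depth_433 [ns Crest.Agent.R226.Depth433] Depth (Tukey) regions of a finite measure carried by a compact convex set: * `exists_deep` (centre point theorem): `(n+1) c < μ univ` ⟹ some `z ∈ K` with `Deep μ c z`; * `exists_mem_body`: the depth body meets every closed convex `T` of mass `≥ n c` (Helly); * `exists_tukey`: the form `μ univ ≤ (n+1) μ {w | ⟪θ,z⟫ ≤ ⟪θ,w⟫}` for all `θ`; * `outer_le`: an open half-space missing the depth body has mass `≤ n c`.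
* theorem finite_inter {μ : Measure E} {K : Set E} (h0 : μ Kᶜ = 0) {c : ℝ≥0∞} (S : Finset (E × ℝ)) (hS : ∀ p ∈ S, μ {w | p.2 < ⟪p.1, w⟫_ℝ} < c) (T : Set E) (hT : (S.card : ℝ≥0∞) * c ≤ μ T) (hT0 : μ T ≠ 0) : ∃ z ∈ K, z ∈ T ∧ ∀ p ∈ S, ⟪p.1, z⟫_ℝ ≤ p.2  -- Finite intersections: union bound.
* theorem exists_mem_body {μ : Measure E} {K : Set E} (hKc : IsCompact K) (hKconv : Convex ℝ K) (h0 : μ Kᶜ = 0) {c : ℝ≥0∞} (hc : ((finrank ℝ E : ℝ≥0∞) + 1) * c ≤ μ univ) {T : Set E} (hTcl : IsClosed T) (hTconv : Convex ℝ T) (hT : (finrank ℝ E : ℝ≥0∞) * c ≤ μ T) (hT0 : μ T ≠ 0) : ∃ z ∈ body μ K c, z ∈ T  -- Helly: the depth body meets every closed convex `T` of mass `≥ n c` (and `> 0`).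
* theorem exists_deep {μ : Measure E} [IsFiniteMeasure μ] {K : Set E} (hKc : IsCompact K) (hKconv : Convex ℝ K) (h0 : μ Kᶜ = 0) (hU0 : μ univ ≠ 0) {c : ℝ≥0∞} (hc : ((finrank ℝ E : ℝ≥0∞) + 1) * c ≤ μ univ) : ∃ z ∈ K, Deep μ c z  -- Centre point theorem.
* theorem exists_tukey {μ : Measure E} [IsFiniteMeasure μ] {K : Set E} (hKc : IsCompact K) (hKconv : Convex ℝ K) (h0 : μ Kᶜ = 0) (hU0 : μ univ ≠ 0) : ∃ z ∈ K, ∀ θ : E, μ univ ≤ ((finrank ℝ E : ℝ≥0∞) + 1) * μ {w | ⟪θ, z⟫_ℝ ≤ ⟪θ, w⟫_ℝ}  -- Centre point theorem, real-valued form: `μ univ ≤ (n+1) μ {w | ⟪θ,z⟫ ≤ ⟪θ,w⟫}` for all `θ`.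
* theorem outer_le {μ : Measure E} {K : Set E} (hKc : IsCompact K) (hKconv : Convex ℝ K) (h0 : μ Kᶜ = 0) {c : ℝ≥0∞} (hc : ((finrank ℝ E : ℝ≥0∞) + 1) * c ≤ μ univ) (θ : E) (s : ℝ) (h : ∀ z ∈ body μ K c, ⟪θ, z⟫_ℝ ≤ s) : μ {w | s < ⟪θ, w⟫_ℝ} ≤ (finrank ℝ E : ℝ≥0∞) * c  -- An open half-space that misses the depth body has small mass.

### R226/Depth_946 [ns Crest.Agent.R226.Depth946] 
* theorem ex_lower [CompactSpace M] (hB : Base G) : ∃ κ : ℝ, 0 < κ ∧ ∀ x : M, ∀ p v : TangentSpace (𝓡 n) x, p ∈ G.K x → ∀ᶠ s in 𝓝 (0 : ℝ), κ * |s| * ‖v‖ ≤ dist (G.ex x ((1 / 2 : ℝ) • p + s • v)) (G.ex x ((1 / 2 : ℝ) • p))  -- uniform lower bound of the differential of `exp_x` at `p/2`, `p ∈ K(x)`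
* theorem end_gauss [CompactSpace M] [IsRiemannianManifold (𝓡 n) M] (hB : Base G) : ∃ L : ℝ, 0 < L ∧ ∀ x : M, ∀ p : TangentSpace (𝓡 n) x, p ∈ G.K x → ∀ᶠ w in 𝓝 ((1 / 2 : ℝ) • p), (dist (G.ex x w) (G.ex x ((1 / 2 : ℝ) • p)) / L) ^ 2 ≤ 2 * F G x (w, p) + ‖p‖ ^ 2 / 4 - fderiv ℝ (F G x) (w, p) (0, p)  -- the Gauss identity at the end point: for `w` near `p/2`, `2 F(w,p) + |p|²/4 - D_b F(w,p) p ≥ dist(exp w, exp (p/2))² / L²`.
* theorem depth_D2 [CompactSpace M] [IsRiemannianManifold (𝓡 n) M] (hB : Base G) : ∃ c : ℝ, 0 < c ∧ ∃ C : ℝ, 0 ≤ C ∧ ∀ x : M, ∀ p ∈ G.K x, ∀ v : TangentSpace (𝓡 n) x, DHf G x p p v v ≤ -(c * ‖v‖ ^ 2) + C * Hf G x p v v  -- (D2) (`RadP`): `DHf(p)[p](v,v) ≤ -c|v|² + C Hf(p)(v,v)` for `p ∈ K(x)`, uniformly.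
* theorem depth_half [CompactSpace M] (hB : Base G) : ∃ c : ℝ, 0 < c ∧ ∀ x : M, ∀ p ∈ G.K x, ∀ s : ℝ, 0 ≤ s → s ≤ 1 / 2 → ∀ v : TangentSpace (𝓡 n) x, c * ‖v‖ ^ 2 ≤ Hf G x (s • p) v v  -- lower bound of `Hf` on `½ K`
* theorem depth_D1 [CompactSpace M] [IsRiemannianManifold (𝓡 n) M] (hB : Base G) : ∃ c : ℝ, 0 < c ∧ ∀ x : M, ∀ p ∈ G.K x, ∀ s : ℝ, 0 ≤ s → s ≤ 1 → ∀ v : TangentSpace (𝓡 n) x, c * (1 - s) * ‖v‖ ^ 2 ≤ Hf G x (s • p) v v  -- (D1): `Hf(s p)(v,v) ≥ c (1-s)|v|²`, `p ∈ K(x)`, `0 ≤ s ≤ 1`, uniformly.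

### R226/DiffAE_225 [ns Crest.Agent.R226.DiffAE225] R226, layer F3 (helper225). * The inverse extended charts of a Riemannian manifold are locally Lipschitz (`exists_lipschitzOnWith_symm`). * Rademacher: a Lipschitz function on a compact Riemannian manifold is manifold differentiable almost everywhere for the `n`-dimensional Hausdorff measure (`ae_mdifferentiableAt`). * `c`-convex functions are Lipschitz (`CConv.exists_lipschitzWith`). * At a differentiability point t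
* theorem ae_mdifferentiableAt [CompactSpace M] [MeasurableSpace M] [BorelSpace M] {u : M → ℝ} {K : ℝ≥0} (hu : LipschitzWith K u) : ∀ᵐ x ∂(μH[(n : ℝ)] : Measure M), MDifferentiableAt (𝓡 n) 𝓘(ℝ) u x  -- Rademacher's theorem on a compact Riemannian manifold.
* theorem subsingleton_cSub {u : M → ℝ} {x : M} (hu : MDifferentiableAt (𝓡 n) 𝓘(ℝ) u x) : {y | ∀ x', u x + halfDistSq x y ≤ u x' + halfDistSq x' y}.Subsingleton  -- At a differentiability point, the `c`-subdifferential has at most one element.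
* theorem ae_mdifferentiableAt_of_CConv {u : M → ℝ} (hu : CConv u) : ∀ᵐ x ∂(Measure.hausdorffMeasure (n : ℝ) : Measure M), MDifferentiableAt (𝓡 n) 𝓘(ℝ) u x  -- A `c`-convex function is differentiable almost everywhere.
* theorem ae_subsingleton_cSub (G : GeoData n M) {u : M → ℝ} (hu : CConv u) : ∀ᵐ x ∂(Measure.hausdorffMeasure (n : ℝ) : Measure M), {y | ∀ x', u x + halfDistSq x y ≤ u x' + halfDistSq x' y}.Subsingleton  -- F3. The `c`-subdifferential of a `c`-convex function is a singleton almost everywhere.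
* theorem ae_subsingleton_P (G : GeoData n M) {u : M → ℝ} (hu : CConv u) : ∀ᵐ x ∂(Measure.hausdorffMeasure (n : ℝ) : Measure M), (G.P u x).Subsingleton  -- Almost everywhere, `P_u(x)` has at most one element.

### R226/DistGeo_549 [ns Crest.Agent.R226.DistGeo549] R226, task A4 (helper549), second part: the distance of `M` near a point, from the chart-level local geometry `LocGeo` (helper577).
* theorem exists_radial {a : E} (ha : a ∈ L.W) {y : M} (hy : dist ((chartAt E x0).symm a) y < L.ρ) : ∃ v : E, g a v v < L.ρ ^ 2 ∧ Real.sqrt (g a v v) = dist ((chartAt E x0).symm a) y ∧ y ∈ (chartAt E x0).source ∧ y = (chartAt E x0).symm (L.Ex (a, v))  -- A4 (2): every point at distance `< ρ` is reached by a radial curve.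
* theorem dist_radial_two {a : E} (ha : a ∈ L.W') {v : E} (hv : g a v v < L.r' ^ 2) {s t : ℝ} (hs : |s| ≤ 1) (ht : |t| ≤ 1) : dist ((chartAt E x0).symm (L.Ex (a, s • v))) ((chartAt E x0).symm (L.Ex (a, t • v))) = |s - t| * Real.sqrt (g a v v)  -- A4 (3): two-sided radial curves.
* theorem halfDistSq_eq {a : E} (ha : a ∈ L.W) {v : E} (hv : g a v v < L.ρ ^ 2) : halfDistSq ((chartAt E x0).symm a) ((chartAt E x0).symm (L.Ex (a, v))) = L.h (a, L.Ex (a, v))  -- A4 (4): the cost is the chart energy.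
* theorem contMDiffAt_halfDistSq [IsManifold 𝓘(ℝ, E) (⊤ : ℕ∞) M] {a : E} (ha : a ∈ L.W) {v : E} (hv : g a v v < L.ρ ^ 2) : ContMDiffAt (𝓘(ℝ, E).prod 𝓘(ℝ, E)) 𝓘(ℝ) (⊤ : ℕ∞) (fun q : M × M => halfDistSq q.1 q.2) ((chartAt E x0).symm a, (chartAt E x0).symm (L.Ex (a, v)))  -- A4 (5): smoothness of the cost near the pairs reached by radial curves.
* theorem hasDerivAt_cost {a : E} (ha : a ∈ L.W) {v : E} (hv : g a v v < L.ρ ^ 2) {c : ℝ → E} {ξ : E} {t : ℝ} (hc : HasDerivAt c ξ t) (hct : c t = a) : HasDerivAt (fun s => halfDistSq ((chartAt E x0).symm (c s)) ((chartAt E x0).symm (L.Ex (a, v)))) (-(g a v ξ)) t  -- A4 (6): first variation of the cost at the base point along a chart curve.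

### R226/DistLoc_549 [ns Crest.Agent.R226.DistLoc549] R226, task A4 (helper549): transfer of local minimality from a chart to the distance of `M`. `lower`: if `h` is a function on an open subset `O` of the chart at `x0`, vanishing at `a`, with `(D h_b w)² ≤ 2 h(b) g_b(w,w)` (Gauss lemma for the energy), with compact sublevel sets `{2h ≤ r²}` for `r < ρ`, then every `y` with `dist (φ⁻¹ a) y < ρ` is in the chart domain `O` and `2 h (φ y) ≤ dist² `.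
* theorem sqrt_two_mul_le {f f' : ℝ → ℝ} {r T : ℝ} (hT : 0 ≤ T) (hr : 0 ≤ r) (h0 : f 0 = 0) (hnn : ∀ s ∈ Icc (0:ℝ) T, 0 ≤ f s) (hc : ContinuousOn f (Icc 0 T)) (hd : ∀ s ∈ Ioo (0:ℝ) T, HasDerivAt f (f' s) s) (hb : ∀ s ∈ Ioo (0:ℝ) T, (f' s) ^ 2 ≤ 2 * f s * r ^ 2) : Real.sqrt (2 * f T) ≤ r * T  -- real-variable core: `f' ² ≤ 2 f r²`, `f 0 = 0`, `f ≥ 0` implies `√(2 f t) ≤ r t`.
* theorem energy_le_of_path {x0 : M} {G : E → E →L[ℝ] E →L[ℝ] ℝ} (hG : IsChartMetric x0 G) {O : Set E} (hO : IsOpen O) (hOU : O ⊆ (chartAt E x0).target) {a : E} (ha : a ∈ O) {h : E → ℝ} (h0 : h a = 0) (hnn : ∀ b ∈ O, 0 ≤ h b) (hd : ∀ b ∈ O, DifferentiableAt ℝ h b ∧ ∀ w, (fderiv ℝ h b w) ^ 2 ≤ 2 * h b * G b w w) {r : ℝ} (hr : 0 < r) (hK : IsCompact {b ∈ O | 2 * h b ≤ r ^ 2}) {γ : ℝ → M} (hγ : ContMDiff 𝓘(ℝ, ℝ) 𝓘(ℝ, E) 1 …  -- Lower bound along a path. `h` is (half the square of) the chart energy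 from `a`.
* theorem lower {x0 : M} {G : E → E →L[ℝ] E →L[ℝ] ℝ} (hG : IsChartMetric x0 G) {O : Set E} (hO : IsOpen O) (hOU : O ⊆ (chartAt E x0).target) {a : E} (ha : a ∈ O) {h : E → ℝ} (h0 : h a = 0) (hnn : ∀ b ∈ O, 0 ≤ h b) (hd : ∀ b ∈ O, DifferentiableAt ℝ h b ∧ ∀ w, (fderiv ℝ h b w) ^ 2 ≤ 2 * h b * G b w w) {r : ℝ} (hr : 0 < r) (hK : IsCompact {b ∈ O | 2 * h b ≤ r ^ 2}) {y : M} {r' : ℝ} (hrr : r' < r) (hy : riemannianEDist 𝓘(ℝ …  -- Lower bound for the Riemannian distance.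
* theorem lower_dist {x0 : M} {G : E → E →L[ℝ] E →L[ℝ] ℝ} (hG : IsChartMetric x0 G) {O : Set E} (hO : IsOpen O) (hOU : O ⊆ (chartAt E x0).target) {a : E} (ha : a ∈ O) {h : E → ℝ} (h0 : h a = 0) (hnn : ∀ b ∈ O, 0 ≤ h b) (hd : ∀ b ∈ O, DifferentiableAt ℝ h b ∧ ∀ w, (fderiv ℝ h b w) ^ 2 ≤ 2 * h b * G b w w) {ρ : ℝ} (hK : ∀ r, 0 < r → r < ρ → IsCompact {b ∈ O | 2 * h b ≤ r ^ 2}) {y : M} (hy : dist ((chartAt E x0).symm a) y …  -- `dist` version of `lower`.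
* theorem dist_le_of_speed {x0 : M} {G : E → E →L[ℝ] E →L[ℝ] ℝ} (hG : IsChartMetric x0 G) {c : ℝ → E} {s t σ : ℝ} (hst : s ≤ t) (hσ : 0 ≤ σ) (hc : ContDiffOn ℝ 1 c (Icc s t)) (hcU : ∀ u ∈ Icc s t, c u ∈ (chartAt E x0).target) (hsp : ∀ u ∈ Ioo s t, G (c u) (deriv c u) (deriv c u) ≤ σ ^ 2) : dist ((chartAt E x0).symm (c s)) ((chartAt E x0).symm (c t)) ≤ σ * (t - s)  -- Upper bound: a chart curve of `G`-speed at most `σ` on `[s,t]` moves by at most `σ * (t - s)`.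

### R226/DomLin_344 [ns Crest.Agent.R226.DomLin344] 
* theorem exists_large {T : E →ₗ[ℝ] E} (hT : T.IsSymmetric) (hn : Module.finrank ℝ E = n) (i : Fin n) : ∃ V : Submodule ℝ E, (i : ℕ) + 1 ≤ Module.finrank ℝ V ∧ ∀ v ∈ V, hT.eigenvalues hn i * ‖v‖ ^ 2 ≤ inner ℝ (T v) v  -- subspace on which `T` is large
* theorem exists_common {U W : Submodule ℝ E} (hn : Module.finrank ℝ E = n) (h : n < Module.finrank ℝ U + Module.finrank ℝ W) : ∃ v ∈ U, v ∈ W ∧ v ≠ 0  -- two subspaces of large dimension meet.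
* theorem eigenvalues_le {S T : E →ₗ[ℝ] E} (hS : S.IsSymmetric) (hT : T.IsSymmetric) (hn : Module.finrank ℝ E = n) {A B : E →L[ℝ] E →L[ℝ] ℝ} (hA : ∀ v, inner ℝ (S v) v = A v v) (hB : ∀ v, inner ℝ (T v) v = B v v) {C : ℝ} (hC : 0 ≤ C) (hA0 : ∀ v, 0 ≤ A v v) (h : Dom A B C) (i : Fin n) : hT.eigenvalues hn i ≤ C * hS.eigenvalues hn i  -- domination gives domination of the ordered eigenvalues.
* def op (B : 𝔼 →L[ℝ] 𝔼 →L[ℝ] ℝ) : 𝔼 →L[ℝ] 𝔼  -- the endomorphism of a bilinear form on `ℝⁿ`.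
* theorem abs_detB_le_of_dom {A B : 𝔼 →L[ℝ] 𝔼 →L[ℝ] ℝ} (hA : ∀ v w, A v w = A w v) (hB : ∀ v w, B v w = B w v) (hA0 : ∀ v, 0 ≤ A v v) (hB0 : ∀ v, 0 ≤ B v v) {C : ℝ} (hC : 0 ≤ C) (h : Dom A B C) : |detB B| ≤ C ^ n * |detB A|  -- min-max domination implies domination of determinants.

### R226/E1Shape_964 [ns Crest.Agent.R226.E1Shape964] 
* def QCx (G : GeoData n M) : Prop  -- quasiconvexity (DASM): output of E1.1.
* def QQw (G : GeoData n M) (τ : ℝ) : Prop  -- weak (Q) with step `τ`.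
* def JMonoC [MeasurableSpace M] (G : GeoData n M) (vol : Measure M) (cW : ℝ) : Prop  -- (W'), volume form, for compact sets.
* def Step2P [MeasurableSpace M] (G : GeoData n M) (vol : Measure M) (B CB : ℝ) (u : M → ℝ) : Prop  -- output of E1.3 (Step 2) for one potential `u`.
* def CutNullP [MeasurableSpace M] (G : GeoData n M) (vol : Measure M) : Prop  -- a.e. injectivity of `ex x` on `K x` (cut locus is null).

### R226/EContact_486 [ns Crest.Agent.R226.EContact486] 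
* theorem contact_sees' (hg : GoodAll G) {u : M → ℝ} (hu : CConv u) {x1 x' : M} {pb pF : TangentSpace (𝓡 n) x1} (hpb : pb ∈ G.K x1) (hpF : pF ∈ G.K x1) {H τ : ℝ} (hH : 0 < H) (hDb : Dd u x1 (G.ex x1 pb) ≤ H) (hDF : Dd u x1 (G.ex x1 pF) ≤ H) (hout : 0 ≤ inner ℝ pb (pF - pb)) (hτ0 : 0 < τ) (hτ1 : τ ≤ 1) (hx : G.ex x1 (pb + τ • (pF - pb)) ∈ cSub u x') : Dd u x' (G.ex x1 pF) ≤ H / τ ^ 2  -- (E1) for contacts.
* theorem contact_top (hg : GoodAll G) (hS : SlopeLaw G) {u : M → ℝ} (hu : CConv u) {x1 x' : M} {ps p pF : TangentSpace (𝓡 n) x1} (hps : ps ∈ G.K x1) (hp : p ∈ G.K x1) (hpF : pF ∈ G.K x1) {α β t s h H1 ε : ℝ} (hα : 0 ≤ α) (hβ : 0 ≤ β) (hαβ : α + β ≤ t) (ht1 : t ≤ 1) (hs0 : 0 ≤ s) (hs1 : s ≤ 1) (hh : 0 ≤ h) (hε : 0 ≤ ε) (hstar : Dd u x1 (G.ex x1 ps) + s * (u x' - u x1) - h ≤ Dd u x' (G.ex x1 ps)) (hDs : Dd u x1 (G.ex x1 …  -- (E2) near-contacts `x'` of the point `p'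 = p* + α (p_F - p*) + β (p - p*)`, `α + β ≤ t`, are at top level.
* theorem contact_top' {b t s h H1 ε : ℝ} (ht1 : t < 1) (hs0 : 0 < s) (h1 : (1 - t) ^ 4 * (s * b - h - ε) ≤ H1 + ε) : b ≤ ((H1 + ε) / (1 - t) ^ 4 + h + ε) / s  -- (E2), solved for the level: `u(x') ≤ u(x₁) + C δ a`, `s = H/(δ a)`.
* theorem contact_height (u : M → ℝ) (x0 x' yF : M) : halfDistSq x' yF - halfDistSq x0 yF = (u x0 - u x') + Dd u x' yF - Dd u x0 yF  -- (E3) the level of `x'` in the column `y_F`, compared with a point `x₀` of the column.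
* theorem contact_height_vel {u : M → ℝ} {x0 yF : M} {H : ℝ} {qN q : TangentSpace (𝓡 n) yF} (hN : ∀ w ∈ QS G u yF H, ‖qN‖ ≤ ‖w‖) (h0 : Dd u x0 yF ≤ H) (hq : q ∈ G.K yF) {B : ℝ} (hB : u (G.ex yF q) ≤ B) (hDq : 0 ≤ Dd u (G.ex yF q) yF) : u x0 - B - H ≤ ‖q‖ ^ 2 / 2 - ‖qN‖ ^ 2 / 2  -- (E3), with the nearest velocity `q_N` of the section `Q_H(y_F) ∋ x₀`.

### R226/EGlue_915 [ns Crest.Agent.R226.EGlue915] 
* theorem estatement_of_GD (vol : Measure M) (m : ℝ) (hE : ∃ K0 : ℝ, ∀ u : M → ℝ, CConv u → AlexPinch vol u m → EngulfP K0 u) (hs : ∀ K0 : ℝ, ∀ u : M → ℝ, CConv u → EngulfP K0 u → ∀ x, (cSub u x).Subsingleton) (hGD : ∀ K0 : ℝ, 1 ≤ K0 → ∃ (Λ C r μ0 : ℝ) (ω : ℝ → ℝ), 1 ≤ Λ ∧ 1 ≤ C ∧ 0 < r ∧ 0 < μ0 ∧ (∀ ε, 0 < ε → 0 < ω ε) ∧ ∀ u : M → ℝ, CConv u → EngulfP K0 u → ∃ (X Y : M → M) (DX DY : M → M → ℝ) (ell : M → M → M → ℝ), G …  -- Glue: engulfing for the pinched class, single-valuedness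 and the `GD` instance (with constants depending only on the engulfing constant) give `EStatement`.

### R226/EMain_915 [ns Crest.Agent.R226.EMain915] 
* theorem step2P (hC : CutFacts G) (hD : DFacts G) (hg : GoodAll G) {τ : ℝ} (hτ0 : 0 < τ) (hτ1 : τ ≤ 1) (hQ : QQw G τ) {vol : Measure M} {cW : ℝ} (hcW : 0 < cW) (hJ : JMonoC G vol cW) (B : ℝ) : ∃ CB : ℝ, 0 < CB ∧ ∀ u : M → ℝ, CConv u → Step2P G vol B CB u  -- E1.3: Step 2 in the shape of `E1Shape_964`.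
* theorem engulf_main (G : GeoData n M) (hC : CutFacts G) (hD : DFacts G) (hg : GoodAll G) {τ : ℝ} (hτ0 : 0 < τ) (hτ1 : τ < 1) (hQ : QQw G τ) {cW : ℝ} (hcW : 0 < cW) (hJ : JMonoC G (Measure.hausdorffMeasure (n : ℝ) : Measure M) cW) {m : ℝ} (hm : 0 < m) : ∃ K0 : ℝ, 0 < K0 ∧ ∀ u : M → ℝ, CConv u → AlexPinch (Measure.hausdorffMeasure (n : ℝ) : Measure M) u m → EngulfP K0 u  -- E1, Theorem 1: uniform engulfing for the pinched class.
* theorem eStatement_main (hn : 0 < n) [Nonempty M] (G : GeoData n M) (hC : CutFacts G) (hD : DFacts G) (hg : GoodAll G) {τ : ℝ} (hτ0 : 0 < τ) (hτ1 : τ < 1) (hQ : QQw G τ) {cW : ℝ} (hcW : 0 < cW) (hJ : JMonoC G (Measure.hausdorffMeasure (n : ℝ) : Measure M) cW) {m : ℝ} (hm : 0 < m) : EStatement (Measure.hausdorffMeasure (n : ℝ) : Measure M) m  -- E1, main theorem: (Q) and (W') imply `EStatement`.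
* theorem s0350_of_engulf (hn : 2 ≤ n) [Nonempty M] (hMTW : SatisfiesWeakMTW M n) (hE : ∀ G : GeoData n M, CutFacts G → MTWFacts G → DFacts G → GoodAll G → ∀ m : ℝ, 0 < m → ∃ K0 : ℝ, ∀ u : M → ℝ, CConv u → AlexPinch (Measure.hausdorffMeasure (n : ℝ) : Measure M) u m → EngulfP K0 u) (lam Lam : ℝ) (hlam : 0 < lam) (hle : lam ≤ Lam) : ∃ α : ℝ, 0 < α ∧ α ≤ 1 ∧ ∃ C : ℝ, ∀ ρ₀ ρ₁ : M → ℝ, Measurable ρ₀ → Measurable ρ₁ → (∀ᵐ x …  -- S0350 from engulfing: the conclusion of S0350 if, under weak MTW, the engulfing property holds uniformly for the pinched class.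
* theorem s0350_of_QW (hn : 2 ≤ n) [Nonempty M] (hMTW : SatisfiesWeakMTW M n) (hQW : ∀ G : GeoData n M, CutFacts G → MTWFacts G → DFacts G → GoodAll G → (∃ τ : ℝ, 0 < τ ∧ τ < 1 ∧ QQw G τ) ∧ (∃ cW : ℝ, 0 < cW ∧ JMonoC G (Measure.hausdorffMeasure (n : ℝ) : Measure M) cW)) (lam Lam : ℝ) (hlam : 0 < lam) (hle : lam ≤ Lam) : ∃ α : ℝ, 0 < α ∧ α ≤ 1 ∧ ∃ C : ℝ, ∀ ρ₀ ρ₁ : M → ℝ, Measurable ρ₀ → Measurable ρ₁ → (∀ᵐ x ∂(Measure.h …  -- S0350 from (Q) and (W').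

### R226/EStep1P_700 [ns Crest.Agent.R226.EStep1P700] 

### R226/EStep1_700 [ns Crest.Agent.R226.EStep1700] 
* def fq (G : GeoData n M) (y₀ y : M) (q : TangentSpace (𝓡 n) y₀) : ℝ  -- the function of the weak QQ inequality: `q ↦ ‖q‖²/2 - c(y, exp_{y₀} q)`
* theorem step1 (n : ℕ) {t₀ : ℝ} (ht0 : 0 < t₀) (ht1 : t₀ < 1) : ∃ C₁ : ℝ, 1 ≤ C₁ ∧ ∀ {M : Type*} [MetricSpace M] [ChartedSpace (EuclideanSpace ℝ (Fin n)) M] [IsManifold (𝓡 n) ∞ M] [RiemannianBundle (fun p : M => TangentSpace (𝓡 n) p)] [CompactSpace M] (G : GeoData n M), CutFacts G → GoodAll G → (∀ y₀ y : M, WQ (fq G y₀ y) (G.K y₀) t₀) → ∀ (u : M → ℝ), CConv u → ∀ (y₀ : M) (h : ℝ), 0 ≤ h → ∃ c ∈ secX G u y₀ h, ∀ z ∈ se …  -- the constant of Step 1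
* def JM (G : GeoData n M) (vol : Measure M) (cW : ℝ) : Prop  -- `J`-monotonicity (compact version), `= JMono` of the plan.
* theorem vol_quarter (hg : GoodAll G) {vol : Measure M} {cW : ℝ} (hcW : 0 ≤ cW) (hJ : JM G vol cW) {x : M} {A : Set (TangentSpace (𝓡 n) x)} (hA : A ⊆ G.K x) (hAc : IsCompact A) {c : TangentSpace (𝓡 n) x} (hc : c ∈ G.K x) : ENNReal.ofReal (cW ^ 2) * vol (G.ex x '' A) ≤ vol (G.ex x '' (quarter c '' A))  -- contraction by `1/4` of a compact convex subset towards one of its points.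
* theorem vol_cSub_quarter (hg : GoodAll G) {vol : Measure M} {cW : ℝ} (hcW : 0 ≤ cW) (hJ : JM G vol cW) {u : M → ℝ} {m : ℝ} (hm : 0 ≤ m) (hP : AlexPinch vol u m) {x : M} {A : Set (TangentSpace (𝓡 n) x)} (hA : A ⊆ G.K x) (hAc : IsCompact A) {c : TangentSpace (𝓡 n) x} (hc : c ∈ G.K x) : ENNReal.ofReal (m ^ 2 * cW ^ 2) * vol (⋃ x' ∈ G.ex x '' A, cSub u x') ≤ vol (⋃ x' ∈ G.ex x '' (quarter c '' A), cSub u x')  -- the `c`-subdifferential of the core has a definite proportion of the volume of the `c`-subdifferential of the whole section.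

### R226/EngW_915 [ns Crest.Agent.R226.EngW915] 
* theorem step1P_conv (hC : CutFacts G) (hg : GoodAll G) {τ : ℝ} (hτ : 0 < τ) (hQ : QQw G τ) {vol : Measure M} (hJ : JConv G vol) : ∃ C1 c1 : ℝ, 0 < c1 ∧ ∀ u : M → ℝ, CConv u → Step1P vol C1 c1 u  -- Step 1 with `JConv`.
* theorem step2P_conv (hC : CutFacts G) (hD : DFacts G) (hg : GoodAll G) {τ : ℝ} (hτ0 : 0 < τ) (hτ1 : τ ≤ 1) (hQ : QQw G τ) {vol : Measure M} (hJ : JConv G vol) (B : ℝ) (hB : 0 ≤ B) : ∃ CB : ℝ, 0 < CB ∧ ∀ u : M → ℝ, CConv u → Step2P G vol B CB u  -- Step 2 with `JConv`.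
* theorem engulf_of_steps_woff (vol : Measure M) [IsFiniteMeasure vol] [vol.IsOpenPosMeasure] {τ : ℝ} (hτ0 : 0 < τ) (hτ1 : τ < 1) (hQ : QQw G τ) {C0 c0 : ℝ} (hC0 : 0 < C0) (hc0 : 0 < c0) (hW : ∀ x, WOffAt G vol C0 c0 x) {C1 c1 m B CB : ℝ} (hC1 : 0 ≤ C1) (hc1 : 0 < c1) (hm : 0 < m) (hCB : 0 < CB) (hB1 : 2 * C1 ≤ B) (hB2 : 3 / 2 ≤ B) {k : ℕ} (hk1 : 1 ≤ k) (hk : (1 - τ) ^ k ≤ (1 / 2) ^ n / (2 * (c0⁻¹ * (4 ^ n + 2 ^ n) * C …  -- Theorem 1 for one potential, from Steps 1, 2 and (W) off the foot.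
* theorem engulf_woff (vol : Measure M) [IsFiniteMeasure vol] [vol.IsOpenPosMeasure] (hC : CutFacts G) (hD : DFacts G) (hg : GoodAll G) {τ : ℝ} (hτ0 : 0 < τ) (hτ1 : τ < 1) (hQ : QQw G τ) {C0 c0 : ℝ} (hC0 : 0 < C0) (hc0 : 0 < c0) (hW : ∀ x, WOffAt G vol C0 c0 x) {m : ℝ} (hm : 0 < m) : ∃ K0 : ℝ, 0 < K0 ∧ ∀ u : M → ℝ, CConv u → AlexPinch vol u m → EngulfP K0 u  -- Theorem 1 from weak (Q) and (W) off the foot, uniform version.
* theorem s0350_of_QWoff (hn : 2 ≤ n) [Nonempty M] (hMTW : SatisfiesWeakMTW M n) (hQW : ∀ G : GeoData n M, CutFacts G → MTWFacts G → DFacts G → GoodAll G → (∃ τ : ℝ, 0 < τ ∧ τ < 1 ∧ QQw G τ) ∧ (∃ C c : ℝ, 0 < C ∧ 0 < c ∧ ∀ x, WOffAt G (Measure.hausdorffMeasure (n : ℝ) : Measure M) C c x)) (lam Lam : ℝ) (hlam : 0 < lam) (hle : lam ≤ Lam) : ∃ α : ℝ, 0 < α ∧ α ≤ 1 ∧ ∃ C : ℝ, ∀ ρ₀ ρ₁ : M → ℝ, Measurable ρ₀ → Measurable ρ₁  …  -- S0350 from (Q) and (W)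 off the foot.

### R226/Engulf_964 [ns Crest.Agent.R226.Engulf964] 
* theorem engulf_of_steps (vol : Measure M) [IsFiniteMeasure vol] [vol.IsOpenPosMeasure] {τ : ℝ} (hτ0 : 0 < τ) (hτ1 : τ < 1) (hQ : QQw G τ) {cW : ℝ} (hcW : 0 < cW) (hJ : JMonoC G vol cW) (hnull : CutNullP G vol) {C1 c1 m B CB : ℝ} (hC1 : 0 ≤ C1) (hc1 : 0 < c1) (hm : 0 < m) (hCB : 0 < CB) (hB1 : 2 * C1 ≤ B) (hB2 : 3 / 2 ≤ B) {k : ℕ} (hk1 : 1 ≤ k) (hk : (1 - τ) ^ k ≤ cW / (2 * (CB / (m * c1 * m)))) {u : M → ℝ} (hu : CCon …  -- Theorem 1 of doc 848, for one potential `u`, given Steps 1 and 2.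
* theorem engulf (vol : Measure M) [IsFiniteMeasure vol] [vol.IsOpenPosMeasure] {τ : ℝ} (hτ0 : 0 < τ) (hτ1 : τ < 1) (hQ : QQw G τ) {cW : ℝ} (hcW : 0 < cW) (hJ : JMonoC G vol cW) (hnull : CutNullP G vol) (h1 : ∃ C1 c1 : ℝ, 0 < c1 ∧ ∀ u : M → ℝ, CConv u → Step1P vol C1 c1 u) (h2 : ∀ B : ℝ, 1 ≤ B → ∃ CB : ℝ, 0 < CB ∧ ∀ u : M → ℝ, CConv u → Step2P G vol B CB u) {m : ℝ} (hm : 0 < m) : ∃ K0 : ℝ, 0 < K0 ∧ ∀ u : M → ℝ, CConv u …  -- Theorem 1 of doc 848 (engulfing), uniform version.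

### R226/EucMin_77 [ns Crest.Agent.R226.EucMin77] R226 (helper77): Euclidean calculus lemmas for the cut-locus layer. * `hess_nonneg_of_isLocalMin` : second order necessary condition * `contDiffAt_value` : smoothness of a value function `V p = min_z g (p, z)` at a nondegenerate minimiser * `cross_zero` : a positive semidefinite Hessian with a null vector in one block has zero cross term
* theorem hasDerivAt_line {f : E → ℝ} {p h : E} (hf : ContDiffAt ℝ 1 f p) : ∀ᶠ t : ℝ in 𝓝 0, HasDerivAt (fun t : ℝ => f (p + t • h)) (fderiv ℝ f (p + t • h) h) t  -- derivative along a line, `C²` at the point: near `0`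
* theorem cross_zero {Q : E →L[ℝ] E →L[ℝ] ℝ} (hsymm : ∀ u v, Q u v = Q v u) (hpos : ∀ u, 0 ≤ Q u u) {a b : E} (ha : Q a a = 0) : Q a b = 0  -- If `Q ≥ 0` is a symmetric bilinear form and `Q (a + s b, a + s b) ≥ 0` with `Q (a, a) = 0` then the cross term vanishes.
* theorem contDiffAt_value [CompleteSpace E₁] [FiniteDimensional ℝ E₂] {g : E₁ × E₂ → ℝ} {p₀ : E₁} {z₀ : E₂} (hg : ContDiffAt ℝ ∞ g (p₀, z₀)) (hpos : ∀ h : E₂, h ≠ 0 → 0 < fderiv ℝ (fderiv ℝ g) (p₀, z₀) (0, h) (0, h)) {V : E₁ → ℝ} {ζ : E₁ → E₂} (hζ : Tendsto ζ (𝓝 p₀) (𝓝 z₀)) (h0 : fderiv ℝ g (p₀, z₀) ∘L ContinuousLinearMap.inr ℝ E₁ E₂ = 0) (hV : ∀ᶠ p in 𝓝 p₀, V p = g (p, ζ p)) (hmin : ∀ᶠ p in 𝓝 p₀, IsLocalMin (fun z => …  -- Smoothness of a value function at a nondegenerate minimiser.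

### R226/ExLip_659 [ns Crest.Agent.R226.ExLip659] 
* theorem fiber_small {y : M} {q : TangentSpace (𝓡 n) y} {N : Set (TangentBundle (𝓡 n) M)} (hN : N ∈ 𝓝 (⟨y, q⟩ : TangentBundle (𝓡 n) M)) : ∃ O ∈ 𝓝 (⟨y, q⟩ : TangentBundle (𝓡 n) M), ∃ δ : ℝ, 0 < δ ∧ ∀ z : M, ∀ q₁ q₂ : TangentSpace (𝓡 n) z, (⟨z, q₁⟩ : TangentBundle (𝓡 n) M) ∈ O → ‖q₂ - q₁‖ < δ → (⟨z, q₂⟩ : TangentBundle (𝓡 n) M) ∈ N  -- tangent vectors of the same fibre at small distance are close in the tangent bundle.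
* theorem lip_local (G : GeoData n M) (y : M) (q : TangentSpace (𝓡 n) y) : ∃ N ∈ 𝓝 (⟨y, q⟩ : TangentBundle (𝓡 n) M), ∃ L : ℝ, 0 ≤ L ∧ ∀ z : M, ∀ q₁ q₂ : TangentSpace (𝓡 n) z, (⟨z, q₁⟩ : TangentBundle (𝓡 n) M) ∈ N → (⟨z, q₂⟩ : TangentBundle (𝓡 n) M) ∈ N → dist (G.ex z q₁) (G.ex z q₂) ≤ L * ‖q₁ - q₂‖  -- local Lipschitz bound of `exp` along the fibres.
* theorem ex_lip [CompactSpace M] (G : GeoData n M) (R : ℝ) : ∃ L : ℝ, 0 ≤ L ∧ ∀ z : M, ∀ q₁ q₂ : TangentSpace (𝓡 n) z, ‖q₁‖ ≤ R → dist (G.ex z q₁) (G.ex z q₂) ≤ L * ‖q₁ - q₂‖  -- uniform Lipschitz bound of `exp` on discs of the fibres.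

### R226/Far_977 [ns Crest.Agent.R226.Far977] ### linear algebra of the core
* theorem tri_ineq {G : GeoData n M} {xt : M} {p : TangentSpace (𝓡 n) xt} (hp : p ∈ G.K xt) {s : ℝ} (hs : 0 ≤ s) (hs1 : s ≤ 1) (x : M) : (1 - s) * (halfDistSq x (G.ex xt p) - halfDistSq xt (G.ex xt p)) ≤ halfDistSq x (G.ex xt ((1 - s) • p)) - halfDistSq xt (G.ex xt ((1 - s) • p))  -- Triangle inequality: pulling the target `y₀ = exp_x p` back to `exp_x ((1-s) p)` decreases the differences of the cost by at most the factor `1 - s`.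
* theorem exists_far' (hC : CutFacts G) (hD : DFacts G) (hg : GoodAll G) {u : M → ℝ} (hu : CConv u) (y0 : M) {h K δ : ℝ} (hh : 0 < h) (hK : 1 < K) (hδ : 0 < δ) (hA : (K - 1) * h ≤ 2 * δ * osc u y0 h) (hng : osc u y0 (K * h) ≤ (1 + δ) * osc u y0 h) : ∃ xt ys : M, Dd u xt y0 < K * h ∧ ys ∈ cSub u xt ∧ (∀ x, Dd u x y0 ≤ h → halfDistSq x y0 ≤ halfDistSq xt y0 + 2 * δ * osc u y0 h / (K - 1)) ∧ (∀ x, Dd u x y0 - Dd u xt y0 + …  -- the far point (1752 (a)). `K > 1`, `(K-1) h ≤ 2 δ A(y₀,h)` and `A(y₀,K h) ≤ (1+δ) A(y₀,h)`. There are `x~` in the open section of height `K h` and a contact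
* theorem fam (hg : GoodAll G) {y0 : M} (y : M) {μ : ℝ} (hμ : 0 ≤ μ) {p q : TangentSpace (𝓡 n) y0} (hp : p ∈ G.K y0) (hq : q ∈ G.K y0) {a b : ℝ} (ha : 0 ≤ a) (hb : 0 ≤ b) (hab : a + b = 1) : Fq G y0 y (a • p + b • q) + μ * (‖a • p + b • q‖ ^ 2 / 2) ≤ max (Fq G y0 y p + μ * (‖p‖ ^ 2 / 2)) (Fq G y0 y q + μ * (‖q‖ ^ 2 / 2))  -- (Fam) for `F_y`: `F_y + μ|q|²/2` is quasiconvex on `K(y₀)`, `μ ≥ 0`.
* theorem fam_bound (hg : GoodAll G) {y0 : M} (y : M) {H r N : ℝ} (hH : 0 < H) (hr : 0 < r) (hN : 0 ≤ N) {qe qx : TangentSpace (𝓡 n) y0} (hqe : qe ∈ G.K y0) (hqx : qx ∈ G.K y0) {a b : ℝ} (ha : 0 ≤ a) (hb : 0 ≤ b) (hab : a + b = 1) (hF : Fq G y0 y qe ≤ Fq G y0 y (a • qe + b • qx) + H) (h1 : r ≤ ‖a • qe + b • qx‖ ^ 2 / 2 - ‖qe‖ ^ 2 / 2) (h2 : ‖qx‖ ^ 2 / 2 - ‖a • qe + b • qx‖ ^ 2 / 2 ≤ N * r) : Fq G y0 y (a • qe + b • qx) …  -- three collinear velocities `q_e, q', q_x`, `q' = a q_e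 + b q_x`.
* theorem core_le (hg : GoodAll G) {u : M → ℝ} (hu : CConv u) {y0 : M} {H : ℝ} (hH : 0 < H) {qp qx q : TangentSpace (𝓡 n) y0} (hqp : qp ∈ QS G u y0 H) (hmin : ∀ w ∈ QS G u y0 H, ‖qp‖ ≤ ‖w‖) (hqx : qx ∈ QS G u y0 H) (hlt : ‖qp‖ < ‖qx‖) (hq : q ∈ QS G u y0 H) (hle : ‖q‖ ≤ ‖qx‖) {y : M} (hy : y ∈ cSub u (G.ex y0 (coreP qp qx q))) : Dd u (G.ex y0 qx) y ≤ 28 * H  -- the core (1752 (b1), 1855 (2)): `q_⊥` the nearest velocity of the section of height `H`, `q_x` and `q` in the section with `|q| ≤ |q_x|`. Every contact `y` 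

### R226/Final_267 [ns Crest.Agent.R226.Final267] 
* theorem good_one {G : GeoData n M} (hD : DFacts G) (hH : StepH G) (hI : StepI G) (hJ : StepJ G) (hK : StepK G) (u : M → ℝ) (hu : CConv u) : G.Good u 1  -- Good(1) for every `c`-convex function, from the leaves of Layer D.
* theorem two_mountains {G : GeoData n M} {x : M} {v w : TangentSpace (𝓡 n) x} (hv : v ∈ G.K x) (hw : w ∈ G.K x) : ∃ u : M → ℝ, CConv u ∧ v ∈ G.P u x ∧ w ∈ G.P u x  -- the maximum of two mountains with the same value at `x` is `c`-convex and has both feet in `P_u(x)`.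
* theorem convex_K {G : GeoData n M} (hg : ∀ u : M → ℝ, CConv u → G.Good u 1) (x : M) : Convex ℝ (G.K x)  -- convexity of `K(x)`.
* theorem convex_I {G : GeoData n M} (hC : CutFacts G) (hg : ∀ u : M → ℝ, CConv u → G.Good u 1) (x : M) : Convex ℝ (G.I x)  -- convexity of `I(x)`.
* theorem convex_injDomain {G : GeoData n M} (hC : CutFacts G) (hD : DFacts G) (hH : StepH G) (hI : StepI G) (hJ : StepJ G) (hK : StepK G) (x : M) : Convex ℝ (injDomain n x)  -- S0349 from the leaves of Layer D.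

### R226/Focal_347 [ns Crest.Agent.R226.Focal347] 
* theorem hess_N_fst {x : M} {a b : TangentSpace (𝓡 n) x} (h : ContDiffAt ℝ 2 (F G x) (a, b)) (hN : ContDiffAt ℝ 2 (N G x) (a, b)) (k : TangentSpace (𝓡 n) x) : hess (N G x) (a, b) (k, 0) (k, 0) = 2 * ‖k‖ ^ 2 + 2 * hess (F G x) (a, b) (k, 0) (k, 0)  -- Hessian of `N` in terms of the Hessian of `F`
* theorem fderiv_N_ray (hB : Base G) {x : M} {p : TangentSpace (𝓡 n) x} (hp : p ∈ G.K x) {θ : ℝ} (h0 : 0 < θ) (h1 : θ < 1) (η : TangentSpace (𝓡 n) x) : fderiv ℝ (N G x) (θ • p, p) (η, 0) = (4 * θ - 2) * inner ℝ p η  -- Gauss lemma for `N(·,p)` along the ray: `∂_w N(θ p, p) η = (4 θ - 2) ⟨p, η⟩`.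
* theorem hess_N_ray (hB : Base G) {x : M} {p : TangentSpace (𝓡 n) x} (hp : p ∈ G.K x) (η : TangentSpace (𝓡 n) x) : hess (N G x) ((1 / 2 : ℝ) • p, p) (p, 0) (η, 0) = 4 * inner ℝ p η  -- `D²_w N(p/2, p)(p, η) = 4 ⟨p, η⟩`
* theorem phi_le (hB : Base G) {x : M} {p : TangentSpace (𝓡 n) x} (hp : p ∈ G.K x) {r : ℝ} (h0 : 0 < r) (h1 : r < 1) (hF : ContDiffAt ℝ 2 (F G x) ((r / 2) • p, r • p)) (ξ w : TangentSpace (𝓡 n) x) : G.phi x ξ (r • p) ≤ 2 * G.phi x ξ ((r / 2) • p) - 4 * inner ℝ w ξ + 2 * ‖w‖ ^ 2 + 2 * hess (F G x) ((r / 2) • p, r • p) (w, 0) (w, 0)  -- the quadratic inequality behind the blow-up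
* theorem focal (hB : Base G) : ∀ x, ∀ p ∈ G.K x, p ∉ G.I x → (∀ w ∈ G.K x, G.ex x w = G.ex x p → w = p) → ∃ k : TangentSpace (𝓡 n) x, ‖k‖ = 1 ∧ inner ℝ k p = 0 ∧ ∃ C c r₁ : ℝ, 0 < c ∧ r₁ < 1 ∧ ∀ r : ℝ, r₁ < r → r < 1 → ∀ ξ : TangentSpace (𝓡 n) x, G.phi x ξ (r • p) ≤ C * ‖ξ‖ ^ 2 - c * (inner ℝ ξ k) ^ 2 / (1 - r)  -- F5, focal blow-up (exact field `CutFacts.focal`)

### R226/GDInst_659 [ns Crest.Agent.R226.GDInst659] 
* theorem IsMid.exists_vel {u : M → ℝ} (hu : Continuous u) {z : M} {w : TangentSpace (𝓡 n) z} (hm : IsMid G u z w) : ∃ v ∈ G.P u (G.ex z ((-(1 / 2 : ℝ)) • w)), G.ex (G.ex z ((-(1 / 2 : ℝ)) • w)) v = G.ex z ((1 / 2 : ℝ) • w) ∧ G.ex (G.ex z ((-(1 / 2 : ℝ)) • w)) ((1 / 2 : ℝ) • v) = z  -- the velocity at the initial point of a contact geodesic with midpoint `z`.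
* theorem exists_vel_X (hD : DFacts G) {u : M → ℝ} (hu : CConv u) (hg : G.Good u 1) (z : M) : ∃ v ∈ G.P u (X G u z), G.ex (X G u z) v = Y G u z ∧ G.ex (X G u z) ((1 / 2 : ℝ) • v) = z  -- the velocity at `X z` of the contact geodesic with midpoint `z`.
* theorem exists_GD (hC : CutFacts G) (hD : DFacts G) (hGood : ∀ u : M → ℝ, CConv u → G.Good u 1) (hn : 0 < n) [Nonempty M] : ∀ K0 : ℝ, 1 ≤ K0 → ∃ (Λ C r μ0 : ℝ) (om : ℝ → ℝ), 1 ≤ Λ ∧ 1 ≤ C ∧ 0 < r ∧ 0 < μ0 ∧ (∀ ε, 0 < ε → 0 < om ε) ∧ ∀ u : M → ℝ, CConv u → EngulfP K0 u → ∃ (X Y : M → M) (DX DY : M → M → ℝ) (ell : M → M → M → ℝ), GD K0 Λ C r μ0 om X Y (fun x y => u x + ctr u y + halfDistSq x y) DX DY ell ∧ (∀ x y, y ∈  …  -- the `GD` instance, in the shape consumed by `EGlue915.estatement_of_GD`.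

### R226/GaussI_299 [ns Crest.Agent.R226.GaussI299] ### the Gauss lemma
* theorem hess_left {x : M} {p : TangentSpace (𝓡 n) x} (hp : p ∈ G.K x) (hs : ContDiffAt ℝ 2 (G.nc x p) 0) (ξ : TangentSpace (𝓡 n) x) : fderiv ℝ (fderiv ℝ (G.nc x p)) 0 p ξ = inner ℝ p ξ  -- Gauss lemma for the Hessian of the cost: `A(p)(p,ξ) = ⟪p,ξ⟫`.
* theorem nc_zero {x : M} {ξ : TangentSpace (𝓡 n) x} (hξ : ‖ξ‖ < G.r₀) : G.nc x 0 ξ = ‖ξ‖ ^ 2 / 2  -- at `p = 0` the cost in normal coordinates is `‖ξ‖²/2` near `0`.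
* theorem phi_zero {x : M} (ξ : TangentSpace (𝓡 n) x) : G.phi x ξ 0 = ‖ξ‖ ^ 2  -- `φ_ξ(0) = ‖ξ‖²`.
* structure NcFacts (G : GeoData n M) : Prop where nc_smooth : ∀ x, ∀ v ∈ G.I x, ContDiffAt ℝ ∞ (G.nc x v) 0 nc_fderiv : ∀ x, ∀ v ∈ G.I x, ∀ ξ, fderiv ℝ (G.nc x v) 0 ξ = -inner ℝ v ξ nc_hess : ∀ x, ∀ v ∈ G.I x, ∀ ξ, fderiv ℝ (fderiv ℝ (G.nc x v)) 0 ξ ξ = G.phi x ξ v phi_smul : ∀ x, ∀ v ∈ G.I x, ∀ ξ, ∀ t : ℝ, G.phi x (t • ξ) v = t ^ 2 * G.phi x ξ v phi_cont : ∀ x, ContinuousOn (fun q : TangentSpace (𝓡 n) x × TangentSpac …  -- the fields of `CutFacts` delivered by task C4.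
* theorem ncFacts (hsc : ∀ x, ∀ v ∈ G.I x, ContMDiffAt ((𝓡 n).prod (𝓡 n)) 𝓘(ℝ) ∞ (fun q : M × M => halfDistSq q.1 q.2) (x, G.ex x v)) (hIK : ∀ x, G.I x ⊆ G.K x) : NcFacts G  -- C4: all of them follow from the smoothness of the cost on `I` and `I ⊆ K`.

### R226/GeoBasic_616 [ns Crest.Agent.R226.GeoBasic616] ### Smoothness
* theorem mem_K_of_norm_lt {x : M} {v : TangentSpace (𝓡 n) x} (h : ‖v‖ < G.r₀) : v ∈ G.K x  -- short vectors are minimising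
* theorem dist_eq_of_mem_K {x : M} {v : TangentSpace (𝓡 n) x} (hv : v ∈ G.K x) {s t : ℝ} (hs : 0 ≤ s) (hst : s ≤ t) (ht : t ≤ 1) : dist (G.ex x (s • v)) (G.ex x (t • v)) = (t - s) * ‖v‖  -- intermediate points of a minimiser
* theorem rev_mem_K {x : M} {v : TangentSpace (𝓡 n) x} (hv : v ∈ G.K x) : -(G.vel x v 1) ∈ G.K (G.ex x ((1 : ℝ) • v))  -- reversal preserves `K`
* theorem tail_mem_K {x : M} {v : TangentSpace (𝓡 n) x} (hv : v ∈ G.K x) {t : ℝ} (h0 : 0 ≤ t) (h1 : t ≤ 1) : (1 - t) • G.vel x v t ∈ G.K (G.ex x (t • v))  -- the remaining part of a minimiser is minimising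
* theorem rev_mem_K_gen {x : M} {v : TangentSpace (𝓡 n) x} (hv : v ∈ G.K x) {t : ℝ} (h0 : 0 ≤ t) (h1 : t ≤ 1) : t • (-(G.vel x v t)) ∈ G.K (G.ex x (t • v))  -- the initial part of a reversed minimiser is minimising

### R226/GeoCore_542 [ns Crest.Agent.R226 / GlobalFlow] 
* def bvel (n : ℕ) {M : Type*} [MetricSpace M] [ChartedSpace (EuclideanSpace ℝ (Fin n)) M] (γ : ℝ → M) (t : ℝ) : TangentBundle (𝓡 n) M  -- the velocity of a curve as an element of the tangent bundle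
* theorem bvel_comp_affine {γ : ℝ → M} {a b t : ℝ} (hγ : MDifferentiableAt 𝓘(ℝ, ℝ) (𝓡 n) γ (a * t + b)) : bvel n (fun s => γ (a * s + b)) t = scaleT a (bvel n γ (a * t + b))  -- affine reparametrisation
* theorem ex_smul_near (x : M) (v : TangentSpace (𝓡 n) x) (s t : ℝ) (h : |t - s| * ‖v‖ < N.r₀) : F.ex x (t • v) = N.e (F.Fl s ⟨x, v⟩).1 ((t - s) • (F.Fl s ⟨x, v⟩).2)  -- the geodesic `t ↦ ex x (t v)` near `t₀` in terms of the local exponential at time `t₀`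
* def geoCore (S : SmallFlow N) : GeoCore n M  -- B3: a global flow extending the local one gives the core of the geodesic package.

### R226/GeoLoc_577 [ns Crest.Agent.R226.GeoLoc577] 
* structure LocGeo {E : Type*} [NormedAddCommGroup E] [NormedSpace ℝ E] (U : Set E) (g : E → E →L[ℝ] E →L[ℝ] ℝ) (Γ : E → E →L[ℝ] E →L[ℝ] E) (p0 : E) where / -- base domain - / W : Set E / -- radius - / ρ : ℝ / -- the local exponential map `(a, v) ↦ exp_a v` - / Ex : E × E → E / -- `vel t (a, v)`: velocity at time `t` of the geodesic `t ↦ Ex (a, t • v)` - / vel : ℝ → E × E → E / -- the local energy `h (a, b) = d(a,b)^2/2` - / h : …  -- Uniform local Riemannian geometry near `p0` in an open set `U` of a normed space. All statements are for base points `a ∈ W` and vectors `v` with `g a v v < ρ ^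
* def J (U : Set E) (Γ : E → E →L[ℝ] E →L[ℝ] E) (z ζ : E × E) (s : ℝ) : E × E  -- the linearised flow
* theorem energy_J (hLC : IsLC U g Γ) {z : E × E} {t : ℝ} (hq : (z, t) ∈ D U Γ) (ζ : E × E) : 2 * g (F U Γ (z, t)).1 (F U Γ (z, t)).2 (Γ (F U Γ (z, t)).1 (F U Γ (z, t)).2 (J U Γ z ζ t).1 + (J U Γ z ζ t).2) = fderiv ℝ (fun y : E × E => g y.1 y.2 y.2) z ζ  -- energy conservation, differentiated
* theorem gauss (hLC : IsLC U g Γ) {z : E × E} (hq : (z, (1 : ℝ)) ∈ D U Γ) (ζ : E × E) : fderiv ℝ (fun y : E × E => g y.1 y.2 y.2) z ζ = 2 * (g (Ex U Γ z) (F U Γ (z, 1)).2 (fderiv ℝ (Ex U Γ) z ζ) - g z.1 z.2 ζ.1)  -- first variation of energy / Gauss lemma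
* theorem exists_elliptic (hLC : IsLC U g Γ) {p0 : E} (hp : p0 ∈ U) : ∃ c > 0, ∃ W : Set E, IsOpen W ∧ p0 ∈ W ∧ W ⊆ U ∧ ∀ a ∈ W, ∀ v, c ^ 2 * ‖v‖ ^ 2 ≤ g a v v  -- uniform ellipticity of the metric near a point

### R226/GeoThm_542 [ns Crest.Agent.R226.GeoThm542] 
* theorem nonempty_geoData (N : NearDiag n M) : Nonempty (GeoData n M)  -- Layer B: the uniform near-diagonal package gives the global geodesic package.

### R226/GlobalEx_415 [ns Crest.Agent.R226.GlobalEx415] 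
* def Flo (N : NearDiag n M) (t : ℝ) (p : TangentBundle (𝓡 n) M) : TangentBundle (𝓡 n) M  -- the global flow
* def globalFlow (h : SmallFlow N) : GlobalFlow N  -- B2 : the global flow.
* theorem radial_ex (h : SmallFlow N) (F : GlobalFlow N) (t : ℝ) (p : TangentBundle (𝓡 n) M) : radial F.ex t p = F.Fl t p  -- the radial lift of the global exponential map is the flow
* def geoCore (h : SmallFlow N) (F : GlobalFlow N) : GeoCore n M  -- B3 : the core geometry from a global flow.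
* theorem nonempty_geoCore {N : NearDiag n M} (h : SmallFlow N) : Nonempty (GeoCore n M)  -- B2 + B3

### R226/Good_272 [ns Crest.Agent.R226.Good272] 
* theorem CConv_smul {u : M → ℝ} (hu : CConv u) {t : ℝ} (h0 : 0 ≤ t) (h1 : t ≤ 1) : CConv (fun z => t * u z)  -- `t u` is `c`-convex for `t ∈ [0,1]`.
* theorem Good_mono {u : M → ℝ} {s s' : ℝ} (hs : G.Good u s) (h0 : 0 ≤ s') (h1 : s' ≤ s) : G.Good u s'  -- downward closedness.
* theorem isClosed_Good (u : M → ℝ) : IsClosed {s : ℝ | G.Good u s}  -- `{s | Good u s}` is closed.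
* theorem Good_of_lt {u : M → ℝ} {s : ℝ} (hs : 0 < s) (h : ∀ s', 0 ≤ s' → s' < s → G.Good u s') : G.Good u s  -- if `Good u s'` for all `0 ≤ s' < s` then `Good u s`
* theorem Good_one_iff (u : M → ℝ) : G.Good u 1 ↔ ∀ x, Convex ℝ (G.P u x)  -- `Good u 1` says exactly that `P_u(x)` is convex for every `x`.

### R226/GradSmooth_90 [ns Crest.Agent.R226.GradSmooth90] 
* theorem contMDiffAt_gradX {f : M × M → ℝ} {q₀ : M × M} (hf : ContMDiffAt ((𝓡 n).prod (𝓡 n)) 𝓘(ℝ) ∞ f q₀) {w : ∀ q : M × M, TangentSpace (𝓡 n) q.1} (hw : ∀ᶠ q in 𝓝 q₀, ∀ ξ : TangentSpace (𝓡 n) q.1, inner ℝ (w q) ξ = dL n (fun x' => f (x', q.2)) q.1 ξ) : ContMDiffAt ((𝓡 n).prod (𝓡 n)) (𝓡 n).tangent ∞ (fun q => (⟨q.1, w q⟩ : TangentBundle (𝓡 n) M)) q₀  -- smoothness of the gradient in the first variable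

### R226/GrowthDef_762 [ns Crest.Agent.R226.Growth762] 
* structure GD {M : Type*} [MetricSpace M] (K0 Λ C r μ0 : ℝ) (ω : ℝ → ℝ) (X Y : M → M) (D DX DY : M → M → ℝ) (ell : M → M → M → ℝ) : Prop where D_nn : ∀ x y, 0 ≤ D x y DX_nn : ∀ x z, 0 ≤ DX x z DY_nn : ∀ z y, 0 ≤ DY z y DX_self : ∀ z, DX (X z) z = 0 DY_self : ∀ z, DY z (Y z) = 0 surjX : ∀ x, ∃ z, X z = x surjY : ∀ y, ∃ z, Y z = y D_le : ∀ x z y, D x y ≤ DX x z + DY z y mid : ∀ x y, ∃ z, DX x z + DY z y = D x y engulf : …  -- The hypotheses of the growth claim. All of them are symmetric under the exchange `u ↔ u^c`, see `GD.swap`.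
* def Lf {M : Type*} [MetricSpace M] (X Y : M → M) (D : M → M → ℝ) (h : ℝ) : ℝ  -- `L(h)`: the largest distance of two midpoints whose (quasi-metric) discrepancy is `≤ h`.
* theorem GD.swap (G : GD K0 Λ C r μ0 ω X Y D DX DY ell) : GD K0 Λ C r μ0 ω Y X (fun y x => D x y) (fun y z => DY z y) (fun z x => DX x z) ell  -- exchange of `u` and `u^c`

### R226/GrowthFin_762 [ns Crest.Agent.R226.Growth762] 
* theorem rounds (G : GD K0 Λ C r μ0 ω X Y D DX DY ell) (hK : 1 ≤ K0) (hΛ : 1 ≤ Λ) (hC : 1 ≤ C) {N c ε0 L h : ℝ} (hc : 2 * K0 * c = 1) (hN : 12 * K0 ≤ N) (hε0 : 0 < ε0) (hε0r : ε0 ≤ r) (hε0C : C * ε0 ≤ 1) (hL : 0 < L) (hL1 : 400 * C * L ≤ c) (hLr : 4 * L ≤ r) (hh : 0 < h) {K : ℕ} (hμ : N * ((12 * N) ^ K * h) / L ≤ μ0) (hμω : 3 * Λ ^ 2 * (N * ((12 * N) ^ K * h) / L) ≤ ω ε0) {z1 z2 zs : M} (h12 : z1 ≠ z2) (hd1 : (1 - c / …  -- iteration of the rounds: after `k` rounds either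 growth happened or the component of the current point in the direction of `z2` has increased by `k c L / 3`.
* theorem rounds_growth (G : GD K0 Λ C r μ0 ω X Y D DX DY ell) (hK : 1 ≤ K0) (hΛ : 1 ≤ Λ) (hC : 1 ≤ C) {N c ε0 L h : ℝ} (hc : 2 * K0 * c = 1) (hN : 12 * K0 ≤ N) (hε0 : 0 < ε0) (hε0r : ε0 ≤ r) (hε0C : C * ε0 ≤ 1) (hL : 0 < L) (hL1 : 400 * C * L ≤ c) (hLr : 4 * L ≤ r) (hh : 0 < h) {K : ℕ} (hKc : 3 ≤ K * c) (hμ : N * ((12 * N) ^ K * h) / L ≤ μ0) (hμω : 3 * Λ ^ 2 * (N * ((12 * N) ^ K * h) / L) ≤ ω ε0) {z1 z2 zs : M} (h12 : …  -- the rounds lead to growth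
* theorem GD.low_Lf (G : GD K0 Λ C r μ0 ω X Y D DX DY ell) {h η : ℝ} (hh : 0 < h) (hη : 0 < η) (h1 : h ≤ η * r) (h2 : C * h ≤ η ^ 2) : h / η ≤ Lf X Y D h  -- lower bound of `L(h)`
* theorem growth (K0 Λ C r μ0 : ℝ) (ω : ℝ → ℝ) (hK : 1 ≤ K0) (hΛ : 1 ≤ Λ) (hC : 1 ≤ C) (hr : 0 < r) (hμ0 : 0 < μ0) (hω : ∀ ε, 0 < ε → 0 < ω ε) : ∃ h1 d0 N1 : ℝ, 0 < h1 ∧ 0 < d0 ∧ 0 < N1 ∧ ∀ {M : Type*} [MetricSpace M] (X Y : M → M) (D DX DY : M → M → ℝ) (ell : M → M → M → ℝ), GD K0 Λ C r μ0 ω X Y D DX DY ell → ∀ h : ℝ, 0 < h → h ≤ h1 → 0 < Lf X Y D h ∧ Lf X Y D h ≤ Λ ∧ ∃ R H : ℝ, 1 + d0 ≤ R ∧ 0 < H ∧ H ≤ N1 * R ^ 2 * h …  -- Growth claim (Theorem 3 of docs 848). The constants `h1, d0, N1` only depend on `K0, Λ, C, r, μ0` and the modulus `ω`.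

### R226/Growth_762 [ns Crest.Agent.R226.Growth762] 
* def Gr (X Y : M → M) (D : M → M → ℝ) (N1 d0 L h : ℝ) : Prop  -- a pair of midpoints witnessing growth
* theorem round (G : GD K0 Λ C r μ0 ω X Y D DX DY ell) (hK : 1 ≤ K0) (hΛ : 1 ≤ Λ) (hC : 1 ≤ C) {N c ε0 L h : ℝ} (hc : 2 * K0 * c = 1) (hN : 12 * K0 ≤ N) (hε0 : 0 < ε0) (hε0r : ε0 ≤ r) (hε0C : C * ε0 ≤ 1) (hL : 0 < L) (hL1 : 400 * C * L ≤ c) (hLr : 4 * L ≤ r) (hh : 0 < h) (hμ : N * h / L ≤ μ0) (hμω : 3 * Λ ^ 2 * (N * h / L) ≤ ω ε0) {z1 z2 zs : M} (h12 : z1 ≠ z2) (hd1 : (1 - c / 12) * L ≤ dist z1 z2) (hd2 : dist z1 z2 ≤  …  -- one round of the argument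

### R226/Half1Top_186 [ns Crest.Agent.R226.Half1Top186] 
* theorem parentSegC (n : ℕ) (c₁ : ℝ) (hc₁ : 0 < c₁) : ∃ C : ℝ, 0 < C ∧ ParentSegC (EuclideanSpace ℝ (Fin n)) c₁ C  -- `parent_seg` (helper464) in the form of `ParentSegC`.
* theorem half1Q_top [IsFiniteMeasure (Measure.hausdorffMeasure (n : ℝ) : Measure M)] (hC : CutFacts G) (hM : MTWFacts G) (hD : DFacts G) (hg : GoodAll G) {m : ℝ} (hm : 0 < m) : Half1Q (Measure.hausdorffMeasure (n : ℝ) : Measure M) m  -- Half 1.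
* theorem half1P_top [IsFiniteMeasure (Measure.hausdorffMeasure (n : ℝ) : Measure M)] (hC : CutFacts G) (hM : MTWFacts G) (hD : DFacts G) (hg : GoodAll G) {m : ℝ} (hm : 0 < m) : Plan619.Half1P (Measure.hausdorffMeasure (n : ℝ) : Measure M) m  -- Half 1 in the form of `Plan_619`.
* theorem pairDichR [IsFiniteMeasure (Measure.hausdorffMeasure (n : ℝ) : Measure M)] (hC : CutFacts G) (hM : MTWFacts G) (hD : DFacts G) (hg : GoodAll G) {m : ℝ} (hm : 0 < m) : PairDichR (Measure.hausdorffMeasure (n : ℝ) : Measure M) m  -- the dichotomy for pairs.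

### R226/Half1_186 [ns Crest.Agent.R226.Half1_186] 
* def Half1Q (vol : Measure M) (m : ℝ) : Prop  -- `Half1P` with a free level constant `K3`.
* theorem seg_split (hg : GoodAll G) {u : M → ℝ} (hu : CConv u) {x1 x' : M} {zN zF r : TangentSpace (𝓡 n) x1} (hN : zN ∈ G.K x1) (hF : zF ∈ G.K x1) (hr : r ∈ segment ℝ zN zF) {L h : ℝ} (hDN : Dd u x1 (G.ex x1 zN) ≤ h) (hDF : Dd u x1 (G.ex x1 zF) ≤ h) (hx : Dd u x' (G.ex x1 r) ≤ L) : Dd u x' (G.ex x1 zN) ≤ L + h ∨ Dd u x' (G.ex x1 zF) ≤ L + h  -- Loeper on a segment of `K(x₁)`: a point which sees `r ∈ [zN, zF]` at level `L` sees one of the ends at level `L + h`.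
* theorem contact_end (hg : GoodAll G) (hSL : SlopeLaw G) {u : M → ℝ} (hu : CConv u) {x1 x' : M} {ps p zN zF r pp : TangentSpace (𝓡 n) x1} {k h s δ a : ℝ} (hh : 0 < h) (hps : ps ∈ G.K x1) (hp : p ∈ G.K x1) (hzN : zN ∈ G.K x1) (hzF : zF ∈ G.K x1) (hk0 : 0 < k) (hk1 : k ≤ 1) (hr : r ∈ segment ℝ zN zF) (hDs : Dd u x1 (G.ex x1 ps) ≤ 2 * h) (hDp : Dd u x1 (G.ex x1 p) ≤ h) (hDN : Dd u x1 (G.ex x1 zN) ≤ h) (hDF : Dd u x1 (G.e …  -- the contacts of the moved points see one of the ends and are at top level.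
* theorem half1Q [IsFiniteMeasure (Measure.hausdorffMeasure (n : ℝ) : Measure M)] (hC : CutFacts G) (hM : MTWFacts G) (hD : DFacts G) (hg : GoodAll G) (hPS : ∀ c₁ : ℝ, 0 < c₁ → ∃ C : ℝ, 0 < C ∧ ParentSegC (EuclideanSpace ℝ (Fin n)) c₁ C) {m : ℝ} (hm : 0 < m) : Half1Q (Measure.hausdorffMeasure (n : ℝ) : Measure M) m  -- Half 1 of the pair dichotomy from the segment form of the common parent.

### R226/Half1_464 [ns Crest.Agent.R226.Half1_464] 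
* theorem AA_eq (G : GeoData n M) (u : M → ℝ) (x0 x1 : M) (p0 : TangentSpace (𝓡 n) x1) (h : ℝ) : TukeyMass544.AA G u x0 x1 p0 h = CopiesGeo301.AA G u x0 x1 h p0  -- the two definitions of the outer half agree.
* theorem half1P [IsFiniteMeasure (Measure.hausdorffMeasure (n : ℝ) : Measure M)] (hC : CutFacts G) (hD : DFacts G) (hM : MTWFacts G) (hg : GoodAll G) {m : ℝ} (hm : 0 < m) : Plan619.Half1P (Measure.hausdorffMeasure (n : ℝ) : Measure M) m  -- Half 1: new mass at top level.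

### R226/Half1_619 [ns Crest.Agent.R226.Half1_619] 
* theorem seg_split (hg : GoodAll G) {u : M → ℝ} (hu : CConv u) {x1 x' : M} {zN zF r : TangentSpace (𝓡 n) x1} (hN : zN ∈ G.K x1) (hF : zF ∈ G.K x1) (hr : r ∈ segment ℝ zN zF) {H h : ℝ} (hx : Dd u x' (G.ex x1 r) ≤ H) (hN1 : Dd u x1 (G.ex x1 zN) ≤ h) (hF1 : Dd u x1 (G.ex x1 zF) ≤ h) : Dd u x' (G.ex x1 zN) ≤ H + h ∨ Dd u x' (G.ex x1 zF) ≤ H + h  -- Loeper on a segment of the far chart: who sees `exp r`, `r ∈ [zN, zF]`, sees one end.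
* theorem contact_W (hg : GoodAll G) (hS : SlopeLaw G) {u : M → ℝ} (hu : CConv u) {x1 x' : M} {ps p r zN zF : TangentSpace (𝓡 n) x1} {h s k : ℝ} (hh : 0 < h) (hs0 : 0 < s) (hs1 : s ≤ 1) (hps : ps ∈ G.K x1) (hDs : Dd u x1 (G.ex x1 ps) ≤ 2 * h) (hstar : Dd u x1 (G.ex x1 ps) + s * (u x' - u x1) - h ≤ Dd u x' (G.ex x1 ps)) (hp : p ∈ G.K x1) (hDp : Dd u x1 (G.ex x1 p) ≤ h) (hN : zN ∈ G.K x1) (hDN : Dd u x1 (G.ex x1 zN) ≤ h) …  -- the two properties of a contact `x'` of a point of `W`.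
* theorem half1P [IsFiniteMeasure (Measure.hausdorffMeasure (n : ℝ) : Measure M)] (hB : Base347.Base G) (hC : CutFacts G) (hM : MTWFacts G) (hg : GoodAll G) {m : ℝ} (hm : 0 < m) : Plan619.Half1P (Measure.hausdorffMeasure (n : ℝ) : Measure M) m  -- Half 1 of Plan_619 (new mass at top level).

### R226/Half2_114 [ns Crest.Agent.R226.Half2_114] 
* theorem exists_WJ (hC : CutFacts G) (hM : MTWFacts G) (hg : GoodAll G) {c : ℝ} (hc : 0 < c) (hdep : DepthP G c) : ∃ cW : ℝ, 0 < cW ∧ WJ G cW  -- 344's W-nc with margin `1/8` and times `≤ 1/2`.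
* theorem half2P [IsFiniteMeasure (Measure.hausdorffMeasure (n : ℝ) : Measure M)] (hB : Base347.Base G) (hC : CutFacts G) (hg : GoodAll G) {CN : ℝ} (hCN : 0 ≤ CN) (hNS : NS1P G CN) {cW : ℝ} (hcW : 0 < cW) (hW : WJ G cW) {m : ℝ} (hm : 0 < m) : Plan619.Half2P (Measure.hausdorffMeasure (n : ℝ) : Measure M) m  -- Half 2 of Plan_619.
* theorem half2P_of_T1iP [IsFiniteMeasure (Measure.hausdorffMeasure (n : ℝ) : Measure M)] (hB : Base347.Base G) (hC : CutFacts G) (hM : MTWFacts G) (hg : GoodAll G) {CN : ℝ} (hCN : 0 ≤ CN) (hT : T1iP G CN) {m : ℝ} (hm : 0 < m) : Plan619.Half2P (Measure.hausdorffMeasure (n : ℝ) : Measure M) m  -- `Half2P` from the geometric facts and 115's `T1iP`.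

### R226/HolderEnd2_915 [ns Crest.Agent.R226.HolderEnd2_915] 
* def expo (d₀ N₁ : ℝ) : ℝ  -- the exponent attached to the growth constants.
* theorem iterateL {L : ℝ → ℝ} {Λ d₀ N₁ h₁ : ℝ} (hd : 0 < d₀) (hh₁ : 0 < h₁) (mono : ∀ h h', 0 < h → h ≤ h' → L h ≤ L h') (nn : ∀ h, 0 < h → 0 ≤ L h) (bdd : ∀ h, 0 < h → L h ≤ Λ) (grow : ∀ h, 0 < h → h ≤ h₁ → ∃ R H, 1 + d₀ ≤ R ∧ 0 < H ∧ H ≤ N₁ * R ^ 2 * h ∧ R * L h ≤ L H) : ∀ h, 0 < h → L h ≤ Λ * (h / h₁) ^ expo d₀ N₁  -- Iteration, function form, with explicit uniform constants.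
* theorem estatement_of_growthL (vol : Measure M) (m : ℝ) (hs : ∀ u ∈ Cls vol m, ∀ x, (cSub u x).Subsingleton) {Λ d₀ N₁ h₁ : ℝ} (hΛ : 0 ≤ Λ) (hd : 0 < d₀) (hh₁ : 0 < h₁) (hG : ∀ u ∈ Cls vol m, ∃ (X Y : M → M) (L : ℝ → ℝ), (∀ x y, y ∈ cSub u x → ∃ z, X z = x ∧ Y z = y) ∧ (∀ z z', dist (X z) (X z') ≤ Λ * dist z z') ∧ (∀ z z', dist (Y z) (Y z') ≤ Λ * dist z z') ∧ (∀ h z z', 0 < h → Dg u (X z) (Y z') ≤ h → dist z z' ≤ L h) …  -- E1.10, function form. For each `u` of the class there are Lipschitz maps `X, Y : M → M` covering all contact pairs, and a modulus `L` of the gap with the gr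

### R226/HolderEnd_915 [ns Crest.Agent.R226.HolderEnd915] ### the iteration
* theorem iterate {ι : Type*} (S : Set ι) (ρ d : ι → ℝ) {D δ δ₀ N₁ h₁ : ℝ} (hd0 : ∀ i ∈ S, 0 ≤ d i) (hd : ∀ i ∈ S, d i ≤ D) (hδ : 0 < δ) (hδ1 : δ < 1) (hδδ : 1 < (1 + δ₀) * (1 - δ)) (hN : 1 ≤ N₁) (hh₁ : 0 < h₁) (grow : ∀ h, 0 < h → h ≤ h₁ → ∀ i ∈ S, ρ i ≤ h → 0 < d i → (∀ j ∈ S, ρ j ≤ h → (1 - δ) * d j ≤ d i) → ∃ R, 1 + δ₀ ≤ R ∧ ∃ j ∈ S, ρ j ≤ N₁ * R ^ 2 * h ∧ R * d i ≤ d j) : ∃ α : ℝ, 0 < α ∧ α ≤ 1 ∧ ∃ C : ℝ, 0 ≤ C ∧  …  -- Iteration lemma: if every almost optimal pair at height `h ≤ h₁` produces a pair at height `≤ N₁ R² h` which is `R ≥ 1+δ₀` times further, then distances dec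
* def Dg (u : M → ℝ) (x y : M) : ℝ  -- the gap function `D(x,y) = u(x) + u^c(y) + c(x,y) ≥ 0`.
* def Cls (vol : Measure M) (m : ℝ) : Set (M → ℝ)  -- the class of pinched potentials.
* theorem estatement_of_decay (vol : Measure M) (m : ℝ) (hs : ∀ u ∈ Cls vol m, ∀ x, (cSub u x).Subsingleton) (hq : ∃ α : ℝ, 0 < α ∧ α ≤ 1 ∧ ∃ C : ℝ, ∀ u ∈ Cls vol m, ∀ x y x' y' : M, y ∈ cSub u x → y' ∈ cSub u x' → ∀ h : ℝ, 0 < h → Dg u x y' ≤ h → dist x x' ≤ C * h ^ α ∧ dist y y' ≤ C * h ^ α) : EStatement vol m  -- Final assembly: single-valuedness + power decay of the gap ⇒ `EStatement`.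
* theorem estatement_of_growth (vol : Measure M) (m : ℝ) (hs : ∀ u ∈ Cls vol m, ∀ x, (cSub u x).Subsingleton) (mid : (M → ℝ) → M → M → M) (Lz : ℝ) (hLz : 0 ≤ Lz) (hmid : ∀ u ∈ Cls vol m, ∀ x y x' y' : M, y ∈ cSub u x → y' ∈ cSub u x' → dist x x' ≤ Lz * dist (mid u x y) (mid u x' y') ∧ dist y y' ≤ Lz * dist (mid u x y) (mid u x' y')) {δ δ₀ N₁ h₁ : ℝ} (hδ : 0 < δ) (hδ1 : δ < 1) (hδδ : 1 < (1 + δ₀) * (1 - δ)) (hN : 1 ≤ N₁ …  -- E1.10: single-valuedness + a Lipschitz "midpoint" labelling of contact pairs + the growth claim of Theorem 3 ⇒ `EStatement`. `mid u x y` is the midpoint of 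

### R226/HopfRinow_114 [ns Crest.Agent.R226.HopfRinow114] ### (i) intermediate points
* theorem mid_unique (h0 : ∀ x, ex x 0 = x) (surj_near : ∀ x y, dist x y < r₀ → ∃ v : TangentSpace (𝓡 n) x, ‖v‖ = dist x y ∧ ex x v = y) (hd : ∀ x, ∀ v ξ : TangentSpace (𝓡 n) x, ‖v‖ < r₀ → ‖ξ‖ < r₀ → HasDerivAt (fun t : ℝ => halfDistSq (ex x (t • ξ)) (ex x v)) (-inner ℝ v ξ) 0) (x y m : M) (s : ℝ) (hs0 : 0 < s) (hs1 : s < 1) (hxy : dist x y < r₀) (h1 : dist x m = s * dist x y) (h2 : dist m y = (1 - s) * dist x y) (v :  …  -- Unique intermediate points near the diagonal (gradients at `x` of `c(·,y)` and `c(·,m)`).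
* theorem nearDiag_mid_unique (N : NearDiag n M) (x y m : M) (s : ℝ) (hs0 : 0 < s) (hs1 : s < 1) (hxy : dist x y < N.r₀) (h1 : dist x m = s * dist x y) (h2 : dist m y = (1 - s) * dist x y) (v : TangentSpace (𝓡 n) x) (hv : N.e x v = y) (hvn : ‖v‖ < N.r₀) : m = N.e x (s • v)  -- `mid_unique` for `NearDiag`.
* theorem geoCore_mid_unique (x y m : M) (s : ℝ) (hs0 : 0 < s) (hs1 : s < 1) (hxy : dist x y < P.r₀) (h1 : dist x m = s * dist x y) (h2 : dist m y = (1 - s) * dist x y) (v : TangentSpace (𝓡 n) x) (hv : P.ex x v = y) (hvn : ‖v‖ < P.r₀) : m = P.ex x (s • v)  -- `mid_unique` for `GeoCore`.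
* theorem geoCore_extend (x : M) (v : TangentSpace (𝓡 n) x) (a b : ℝ) (hb : 0 < b) (hsmall : 2 * b * ‖v‖ < P.r₀) (q : M) (h1 : dist (P.ex x ((a + b) • v)) q = b * ‖v‖) (h2 : dist (P.ex x (a • v)) q = 2 * b * ‖v‖) : q = P.ex x ((a + 2 * b) • v)  -- Extension step: if `p = ex x ((a+b) v)`, `p⁻ = ex x (a v)` and `q` satisfies `dist p q = b‖v‖`, `dist p⁻ q = 2b‖v‖ < r₀`, then `q = ex x ((a+2b) v)`.
* theorem geoCore_surj (hB : HasBetween M) (x y : M) : ∃ v : TangentSpace (𝓡 n) x, P.ex x v = y ∧ ‖v‖ = dist x y  -- Hopf–Rinow.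

### R226/Index_77 [ns Crest.Agent.R226.Index77] R226 (helper77), layer C1a: the index lemma (Euclidean form) and the smoothness step.
* theorem index_euc {f₁ f₂ : E × E → ℝ} {f₃ : E → ℝ} {a₀ ζ₀ β₀ : E} (h1 : ContDiffAt ℝ 2 f₁ (a₀, ζ₀)) (h2 : ContDiffAt ℝ 2 f₂ (ζ₀, β₀)) (h3 : ContDiffAt ℝ 2 f₃ β₀) (hmin : IsLocalMin (fun q : E × E => 2 * f₁ (a₀, q.1) + 2 * f₂ q + f₃ q.2) (ζ₀, β₀)) (hnd : ∀ h : E, (∀ k : E, fderiv ℝ (fderiv ℝ f₂) (ζ₀, β₀) (0, k) (h, 0) = 0) → h = 0) {h : E} (hh : h ≠ 0) : 0 < fderiv ℝ (fderiv ℝ f₁) (a₀, ζ₀) (0, h) (0, h) + fderiv ℝ (fd …  -- index lemma, Euclidean form.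
* theorem value_step [FiniteDimensional ℝ E] {f₁ f₂ : E × E → ℝ} {V : E × E → ℝ} {a₀ ζ₀ β₀ : E} (h1 : ContDiffAt ℝ ∞ f₁ (a₀, ζ₀)) (h2 : ContDiffAt ℝ ∞ f₂ (ζ₀, β₀)) (hpos : ∀ h : E, h ≠ 0 → 0 < fderiv ℝ (fderiv ℝ f₁) (a₀, ζ₀) (0, h) (0, h) + fderiv ℝ (fderiv ℝ f₂) (ζ₀, β₀) (h, 0) (h, 0)) {ζ : E × E → E} (hζ : Tendsto ζ (𝓝 (a₀, β₀)) (𝓝 ζ₀)) (hV : ∀ᶠ p in 𝓝 (a₀, β₀), V p = 2 * f₁ (p.1, ζ p) + 2 * f₂ (ζ p, p.2)) (hmin : ∀ᶠ …  -- smoothness step, Euclidean form.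

### R226/Jac1_344 [ns Crest.Agent.R226.Jac344] 
* def rho (G : GeoData n M) (x : M) (p p' : TangentSpace (𝓡 n) x) : ℝ  -- the midpoint function: `rho x p p' = ‖p'‖²/4 + 2 c(exp_x(p'/2), exp_x p) ≥ c(x, exp_x p)`, with equality at `p' = p` for `p ∈ K x`.
* def Hf (G : GeoData n M) (x : M) (p : TangentSpace (𝓡 n) x) : TangentSpace (𝓡 n) x →L[ℝ] TangentSpace (𝓡 n) x →L[ℝ] ℝ  -- the Hessian of `rho x p` at `p`.
* def bh (G : GeoData n M) (x₀ y₀ : M) (z : EE n × EE n × EE n) : ℝ  -- `rho` with the end point in a chart, in bundle coordinates at `x₀`.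
* def Eh (G : GeoData n M) (x₀ y₀ : M) (z : EE n × EE n) : EE n  -- the exponential map in bundle coordinates.

### R226/Jac2_344 [ns Crest.Agent.R226.Jac344] 
* def Nh (G : GeoData n M) (x₀ y₀ : M) (z : EE n × EE n) : EE n →L[ℝ] EE n →L[ℝ] ℝ  -- mixed derivative in coordinates
* def Jh (G : GeoData n M) (x₀ y₀ : M) (z : EE n × EE n) : EE n →L[ℝ] EE n  -- fibre derivative of `exp` in coordinates
* theorem crit (G : GeoData n M) {x₀ y₀ x : M} (hx : x ∈ (chartAt (EuclideanSpace ℝ (Fin n)) x₀).source) {p : TangentSpace (𝓡 n) x} (hp : p ∈ G.K x) (hy : G.ex x p ∈ (chartAt (EuclideanSpace ℝ (Fin n)) y₀).source) (hd : DifferentiableAt ℝ (bh G x₀ y₀) (P3 G x₀ y₀ (extChartAt (𝓡 n) x₀ x, dphi x₀ x p))) (h : EE n) : fderiv ℝ (bh G x₀ y₀) (P3 G x₀ y₀ (extChartAt (𝓡 n) x₀ x, dphi x₀ x p)) (0, h, 0) = 0  -- along `KT`, `w` is a critical point of `w' ↦ bh (x̂, w', Ê(x̂,w))`.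
* theorem Hf_eq (G : GeoData n M) {x₀ y₀ x : M} (hx : x ∈ (chartAt (EuclideanSpace ℝ (Fin n)) x₀).source) {p : TangentSpace (𝓡 n) x} (hy : G.ex x p ∈ (chartAt (EuclideanSpace ℝ (Fin n)) y₀).source) (hd : ContDiffAt ℝ 2 (bh G x₀ y₀) (P3 G x₀ y₀ (extChartAt (𝓡 n) x₀ x, dphi x₀ x p))) (ξ η : TangentSpace (𝓡 n) x) : Hf G x p ξ η = Hh G x₀ y₀ (extChartAt (𝓡 n) x₀ x, dphi x₀ x p) (dphi x₀ x ξ) (dphi x₀ x η)  -- the Hessian of `rho` in coordinates.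
* theorem ident_int {G : GeoData n M} (hC : CutFacts G) {x₀ y₀ x : M} (hx : x ∈ (chartAt (EuclideanSpace ℝ (Fin n)) x₀).source) {p : TangentSpace (𝓡 n) x} (hp : p ∈ G.I x) (hy : G.ex x p ∈ (chartAt (EuclideanSpace ℝ (Fin n)) y₀).source) (hd : ContDiffAt ℝ 2 (bh G x₀ y₀) (P3 G x₀ y₀ (extChartAt (𝓡 n) x₀ x, dphi x₀ x p))) (hE : DifferentiableAt ℝ (Eh G x₀ y₀) (extChartAt (𝓡 n) x₀ x, dphi x₀ x p)) : Hh G x₀ y₀ (extChartAt …  -- the identity at interior points.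

### R226/Jac3_344 [ns Crest.Agent.R226.Jac344] 
* def GoodPt (G : GeoData n M) (x₀ y₀ : M) (z : EE n × EE n) : Prop  -- the good conditions at a point of the bundle chart.
* theorem ident_K {G : GeoData n M} (hC : CutFacts G) {x₀ y₀ x : M} (hx : x ∈ (chartAt (EuclideanSpace ℝ (Fin n)) x₀).source) {p : TangentSpace (𝓡 n) x} (hp : p ∈ G.K x) (hg : GoodPt G x₀ y₀ (extChartAt (𝓡 n) x₀ x, dphi x₀ x p)) : Hh G x₀ y₀ (extChartAt (𝓡 n) x₀ x, dphi x₀ x p) = - (Nh G x₀ y₀ (extChartAt (𝓡 n) x₀ x, dphi x₀ x p)).comp (Jh G x₀ y₀ (extChartAt (𝓡 n) x₀ x, dphi x₀ x p))  -- the identity on `KT`.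
* theorem Nh_inj {G : GeoData n M} (hC : CutFacts G) {x₀ : M} {p₀ : TangentSpace (𝓡 n) x₀} (hp : p₀ ∈ G.K x₀) {y₀ : M} (hy : y₀ = G.ex x₀ p₀) {k : EE n} (hk : ∀ h, Nh G x₀ y₀ (extChartAt (𝓡 n) x₀ x₀, dphi x₀ x₀ p₀) k h = 0) : k = 0  -- nondegeneracy of `Nh` at the base point.

### R226/Jac4_344 [ns Crest.Agent.R226.Jac344] 
* def iL {x : M} (ι : EE n ≃ₗᵢ[ℝ] TangentSpace (𝓡 n) x) : EE n →L[ℝ] TangentSpace (𝓡 n) x  -- the isometry as a continuous linear map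
* def detH (G : GeoData n M) (x : M) (ι : EE n ≃ₗᵢ[ℝ] TangentSpace (𝓡 n) x) (a : EE n) : ℝ  -- determinant of the Hessian of `rho` at `ι a`, in an orthonormal basis.
* theorem null_K_diff_I [CompactSpace M] {G : GeoData n M} (hC : CutFacts G) (x : M) (ι : EE n ≃ₗᵢ[ℝ] TangentSpace (𝓡 n) x) : (volume : Measure (EE n)) {a | ι a ∈ G.K x ∧ ι a ∉ G.I x} = 0  -- boundary vectors are null in each fibre.

### R226/Jac5_344 [ns Crest.Agent.R226.Jac344] 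
* theorem exists_iso (n : ℕ) {M : Type*} [MetricSpace M] [ChartedSpace (EuclideanSpace ℝ (Fin n)) M] [IsManifold (𝓡 n) ∞ M] [RiemannianBundle (fun p : M => TangentSpace (𝓡 n) p)] (x : M) : Nonempty (EE n ≃ₗᵢ[ℝ] TangentSpace (𝓡 n) x)  -- isometries from the model space exist.
* theorem vol_global [CompactSpace M] [IsRiemannianManifold (𝓡 n) M] [MeasurableSpace M] [BorelSpace M] {G : GeoData n M} (hC : CutFacts G) : ∃ C : ℝ≥0, ∀ (x : M) (ι : EE n ≃ₗᵢ[ℝ] TangentSpace (𝓡 n) x) (A : Set (EE n)), MeasurableSet A → (∀ a ∈ A, ι a ∈ G.K x) → (Measure.hausdorffMeasure (n : ℝ) : Measure M) ((fun a => G.ex x (ι a)) '' A) ≤ C * ∫⁻ a in A, ENNReal.ofReal |detH G x ι a| ∧ ∫⁻ a in A, ENNReal.ofReal |detH  …  -- global volume comparison.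
* def DetMono (G : GeoData n M) (c : ℝ) : Prop  -- pointwise monotonicity of the Jacobian determinant (pointwise (W')).
* theorem jmonoC_of_detMono [CompactSpace M] [IsRiemannianManifold (𝓡 n) M] [MeasurableSpace M] [BorelSpace M] {G : GeoData n M} (hC : CutFacts G) (hconv : ∀ x, Convex ℝ (G.K x)) {c : ℝ} (hc : 0 < c) (h : DetMono G c) : ∃ cW : ℝ, 0 < cW ∧ JMonoC G (Measure.hausdorffMeasure (n : ℝ) : Measure M) cW  -- (W') in volume form from the pointwise inequality.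

### R226/Jac6_344 [ns Crest.Agent.R226.Jac344] 
* def jd (G : GeoData n M) (x : M) (p : TangentSpace (𝓡 n) x) : ℝ  -- `|det Hf|`, computed in any orthonormal frame.
* theorem abs_detB_frame {x : M} (B : TangentSpace (𝓡 n) x →L[ℝ] TangentSpace (𝓡 n) x →L[ℝ] ℝ) (ι ι' : EE n ≃ₗᵢ[ℝ] TangentSpace (𝓡 n) x) : |detB (B.bilinearComp (iL ι') (iL ι'))| = |detB (B.bilinearComp (iL ι) (iL ι))|  -- frame independence.
* theorem jd_le_of_dom {G : GeoData n M} (hC : CutFacts G) {x : M} {p q : TangentSpace (𝓡 n) x} (hp : p ∈ G.K x) (hq : q ∈ G.K x) {C : ℝ} (hC0 : 0 ≤ C) (h : Dom (Hf G x p) (Hf G x q) C) : jd G x q ≤ C ^ n * jd G x p  -- min-max domination of `Hf` implies domination of the Jacobians.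
* theorem exists_area [CompactSpace M] [IsRiemannianManifold (𝓡 n) M] [MeasurableSpace M] [BorelSpace M] {G : GeoData n M} (hC : CutFacts G) : ∃ C : ℝ, 0 < C ∧ ∀ x : M, ∃ (_ : MeasurableSpace (TangentSpace (𝓡 n) x)) (_ : BorelSpace (TangentSpace (𝓡 n) x)) (μ : Measure (TangentSpace (𝓡 n) x)) (_ : μ.IsAddHaarMeasure) (J : TangentSpace (𝓡 n) x → ℝ≥0∞), Measurable J ∧ (∀ p ∈ G.K x, J p = ENNReal.ofReal (jd G x p)) ∧ (∀ A  …  -- area formula on `T_xM`, uniform constant, all base points.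

### R226/JacCalc_344 [ns Crest.Agent.R226.JacCalc344] 
* theorem abs_det_le (L : 𝔼 →L[ℝ] 𝔼) {C : ℝ} (hC : 0 ≤ C) (h : ∀ v, ‖L v‖ ≤ C * ‖v‖) : |L.det| ≤ C ^ n  -- upper bound of the determinant by the norm bound.
* theorem le_abs_det (L : 𝔼 →L[ℝ] 𝔼) {C : ℝ} (hC : 0 < C) (h : ∀ v, ‖v‖ ≤ C * ‖L v‖) : (C ^ n)⁻¹ ≤ |L.det|  -- lower bound of the determinant.
* def bmat (B : 𝔼 →L[ℝ] 𝔼 →L[ℝ] ℝ) : Matrix (Fin n) (Fin n) ℝ  -- the matrix of a bilinear form in the standard basis.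
* def detB (B : 𝔼 →L[ℝ] 𝔼 →L[ℝ] ℝ) : ℝ  -- determinant of a bilinear form on `ℝⁿ`.
* def lmat (T : 𝔼 →L[ℝ] 𝔼) : Matrix (Fin n) (Fin n) ℝ  -- the matrix of an endomorphism in the standard basis

### R226/Kant_624 [ns Crest.Agent.R226.Kant624] 
* theorem exists_plan (μ ν : Measure M) [IsProbabilityMeasure μ] [IsProbabilityMeasure ν] : ∃ (u : M → ℝ) (q : Measure (M × M)), CConv u ∧ IsProbabilityMeasure q ∧ q.map Prod.fst = μ ∧ q.map Prod.snd = ν ∧ ∀ᵐ p ∂q, p.2 ∈ cSub u p.1  -- Kantorovich: there are a `c`-convex potential and a coupling concentrated on its contact set.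
* theorem exists_transport (vol μ ν : Measure M) [IsProbabilityMeasure μ] [IsProbabilityMeasure ν] (hμ : μ ≪ vol) (hν : ν ≪ vol) (hF3 : ∀ u : M → ℝ, CConv u → ∀ᵐ x ∂vol, (cSub u x).Subsingleton) : ∃ (u : M → ℝ) (S R : M → M), CConv u ∧ Measurable S ∧ Measurable R ∧ (∀ᵐ x ∂vol, cSub u x = {S x}) ∧ (∀ᵐ y ∂vol, cSub (ctr u) y = {R y}) ∧ μ.map S = ν ∧ ν.map R = μ  -- the structure of optimal transport between two absolutely continuous probability measures: potential, forward map, backward map.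
* theorem monge_mem (vol μ ν : Measure M) [IsProbabilityMeasure μ] [IsProbabilityMeasure ν] (hμ : μ ≪ vol) {u : M → ℝ} (hu : CConv u) {S : M → M} (hS : Measurable S) (hSu : ∀ᵐ x ∂vol, cSub u x = {S x}) (hmap : μ.map S = ν) {T : M → M} (hT : IsMongeOptimal μ ν T) : ∀ᵐ x ∂μ, T x ∈ cSub u x  -- Monge-optimal maps are `c`-subgradients of the Kantorovich potential a.e.
* theorem alex_eq {vol μ ν : Measure M} (hμ : μ ≪ vol) (hν : ν ≪ vol) {u : M → ℝ} (hu : CConv u) {S R : M → M} (hS : Measurable S) (hR : Measurable R) (hSu : ∀ᵐ x ∂vol, cSub u x = {S x}) (hRu : ∀ᵐ y ∂vol, cSub (ctr u) y = {R y}) (hmap : μ.map S = ν) (hmap' : ν.map R = μ) {B : Set M} (hB : MeasurableSet B) : ν (⋃ x ∈ B, cSub u x) = μ B  -- pushforward bounds: `μ B ≤ ν(∂u(B)) ≤ μ B`.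
* theorem alexPinch_of {vol μ ν : Measure M} (hμ : μ ≪ vol) (hν : ν ≪ vol) {u : M → ℝ} (hu : CConv u) {S R : M → M} (hS : Measurable S) (hR : Measurable R) (hSu : ∀ᵐ x ∂vol, cSub u x = {S x}) (hRu : ∀ᵐ y ∂vol, cSub (ctr u) y = {R y}) (hmap : μ.map S = ν) (hmap' : ν.map R = μ) {lam Lam : ℝ} (hlam : 0 < lam) (hle : lam ≤ Lam) (h1 : ENNReal.ofReal lam • vol ≤ μ) (h2 : μ ≤ ENNReal.ofReal Lam • vol) (h3 : ENNReal.ofReal lam …  -- pinched densities give the Alexandrov pinching.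

### R226/Kink_683 [ns Crest.Agent.R226.NS683] 
* theorem le_of_ae_deriv_nonneg {E : ℝ → ℝ} {K a b : ℝ} (hab : a ≤ b) (hm : MonotoneOn (fun s => E s + K * s) (Icc a b)) (hd : ∀ᵐ s : ℝ, s ∈ Ioo a b → DifferentiableAt ℝ E s → 0 ≤ deriv E s) : E a ≤ E b  -- an almost monotone function with a.e. nonnegative derivative does not decrease
* theorem convexOn_of_parabola {g : ℝ → ℝ} {K a b : ℝ} (h : ∀ s₀ ∈ Icc a b, ∃ κ : ℝ, ∀ s ∈ Icc a b, g s₀ + κ * (s - s₀) - K * (s - s₀) ^ 2 ≤ g s) : ConvexOn ℝ (Icc a b) (fun s => g s + K * s ^ 2)  -- supporting parabolas on `[a,b]` make `g + K s²` convex.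
* theorem kink {g : ℝ → ℝ} {K w S : ℝ} (hK : 0 ≤ K) (hw : 0 ≤ w) (hS : S ≤ 1) (hsub : ∀ s₀ ∈ Icc (-1 : ℝ) 2, ∃ κ : ℝ, ∀ s ∈ Icc (-1 : ℝ) 2, g s₀ + κ * (s - s₀) - K * (s - s₀) ^ 2 ≤ g s) (ha : ∀ᵐ s : ℝ, s ∈ Ioo 0 S → ContDiffAt ℝ 2 g s ∧ -(w * |deriv g s|) ≤ deriv (deriv g) s) {a a' : ℝ} (ha0 : 0 ≤ a) (haa : a < a') (haS : a' ≤ S) : g a' - g S ≤ (S - a') * (Real.exp (w * S) * max 0 (K * (a' - a) - (g a' - g a) / (a' - a …  -- kink lemma, in a form stable under pointwise limits.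

### R226/LinMass_486 [ns Crest.Agent.R226.LinMass486] ### cones
* theorem det_ge (L : E →L[ℝ] E) {R : ℝ} (hR : 0 < R) (h : ∀ v, ‖v‖ ≤ R * ‖L v‖) : (1 / R) ^ finrank ℝ E ≤ |L.det|  -- lower bound for the determinant of an expanding map.
* theorem lin_mass (μ : Measure E) [μ.IsAddHaarMeasure] {J : E → ℝ≥0∞} (L : E →L[ℝ] E) {R c : ℝ} (hR : 0 < R) (h : ∀ v, ‖v‖ ≤ R * ‖L v‖) {T : E → E} {a : E} (hT : ∀ p, T p = a + L p) {A : Set E} (hA : MeasurableSet A) (hJ : ∀ p ∈ A, ENNReal.ofReal c * J p ≤ J (T p)) : ENNReal.ofReal ((1 / R) ^ finrank ℝ E) * (ENNReal.ofReal c * ∫⁻ p in A, J p ∂μ) ≤ ∫⁻ p in T '' A, J p ∂μ  -- Linear mass lemma.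
* theorem exists_piece {ι : Type*} (μ : Measure E) (J : E → ℝ≥0∞) {G : Set E} (t : Finset ι) (ht : t.Nonempty) (P : ι → Set E) (h : ∀ q ∈ G, ∃ i ∈ t, q ∈ P i) : ∃ i ∈ t, ∫⁻ p in G, J p ∂μ ≤ (t.card : ℝ≥0∞) * ∫⁻ p in P i, J p ∂μ  -- one piece of a finite cover carries a fixed part of the integral.

### R226/LocFlow_415 [ns Crest.Agent.R226.LocFlow415 / LocalFlow] 
* structure LocalFlow (ν : X → ℝ) (ρ : ℝ) (S : ℝ → X → X) : Prop where rho_pos : 0 < ρ nu_nonneg : ∀ p, 0 ≤ ν p zero : ∀ p, S 0 p = p nu : ∀ t p, |t| * ν p < ρ → ν (S t p) = ν p add : ∀ s t p, |s| * ν p < ρ → |t| * ν p < ρ → |s + t| * ν p < ρ → S s (S t p) = S (s + t) p  -- A local flow `S` on `X`, defined (meaningful) at `(t,p)` when `|t| * ν p < ρ`, preserving `ν`.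
* def steps (ν : X → ℝ) (ρ : ℝ) (t : ℝ) (p : X) : ℕ  -- the number of steps used in the definition of the global flow
* def Fl (ν : X → ℝ) (ρ : ℝ) (S : ℝ → X → X) (t : ℝ) (p : X) : X  -- the global flow

### R226/LocalNearThm_996 [ns Crest.Agent.R226.LocalNearThm996] 
* abbrev LG (x₀ : M)  -- local geometry of the metric of `M` in the chart at `x₀`
* def eloc (x₀ : M) (L : LG (n := n) x₀) (x : M) (v : TangentSpace (𝓡 n) x) : M  -- the local exponential map in the chart at `x₀`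
* def Wd : Set M  -- base domain
* theorem curveVel_line {x : M} (hx : x ∈ (chartAt 𝔼 x₀).source) (ξ : TangentSpace (𝓡 n) x) : curveVel n (fun s : ℝ => (chartAt 𝔼 x₀).symm (chartAt 𝔼 x₀ x + s • dC x₀ x ξ)) 0 = (ξ : 𝔼)  -- curve through `x` in direction `ξ`, in the chart
* structure DistFacts : Prop where radial : ∀ a ∈ L.W, ∀ v, gm x₀ a v v < L.ρ ^ 2 → dist ((chartAt 𝔼 x₀).symm a) ((chartAt 𝔼 x₀).symm (L.Ex (a, v))) = √(gm x₀ a v v) surj : ∀ a ∈ L.W, ∀ y : M, dist ((chartAt 𝔼 x₀).symm a) y < L.ρ → ∃ v, gm x₀ a v v < L.ρ ^ 2 ∧ √(gm x₀ a v v) = dist ((chartAt 𝔼 x₀).symm a) y ∧ y = (chartAt 𝔼 x₀).symm (L.Ex (a, v)) radial_two : ∀ a ∈ L.W', ∀ v, gm x₀ a v v < L.r' ^ 2 → ∀ s t : ℝ, |s| ≤ 1 …  -- the facts about `dist` on `M` in the chart (layer A4)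

### R226/LoeperCalc_128 [ns Crest.Agent.R226.LoeperCalc128] 
* def D1 (f : ℝ × ℝ → ℝ) (z : ℝ × ℝ) : ℝ  -- `∂₁`
* def D2 (f : ℝ × ℝ → ℝ) (z : ℝ × ℝ) : ℝ  -- `∂₂`
* theorem iteratedDeriv_two_right {s t : ℝ} (hf : ContDiffAt ℝ 2 f (s, t)) : iteratedDeriv 2 (fun τ => f (s, τ)) t = D2 (D2 f) (s, t)  -- second derivative in the second variable
* theorem hasDerivAt_iteratedDeriv_two {s₀ t₀ a b : ℝ} (hf : ContDiffAt ℝ 3 f (s₀, t₀)) (haff : ∀ᶠ τ in 𝓝 t₀, HasDerivAt (fun s => f (s, τ)) (a + τ * b) s₀) : HasDerivAt (fun s => iteratedDeriv 2 (fun τ => f (s, τ)) t₀) 0 s₀  -- If `∂₁ f (s₀, τ)` is affine in `τ` near `t₀`, then `s ↦ ∂₂² f (s, t₀)` has zero derivative at `s₀`.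
* theorem exists_lip_second {H : E × E × E → ℝ} {a Q : E} (hH : ContDiffAt ℝ 3 H (a, 0, Q)) : ∃ t ∈ 𝓝 (a, Q), ∃ K : ℝ, 0 ≤ K ∧ ∀ z₁ ∈ t, ∀ z₂ ∈ t, ∀ Z : E, |iteratedDeriv 2 (fun s : ℝ => H (z₁.1, s • Z, z₁.2)) 0 - iteratedDeriv 2 (fun s : ℝ => H (z₂.1, s • Z, z₂.2)) 0| ≤ K * ‖Z‖ ^ 2 * dist z₁ z₂  -- local Lipschitz bound for second derivatives in the middle variable.

### R226/LoeperMfd_128 [ns Crest.Agent.R226.LoeperMfd128] 
* def md (h : M → ℝ) (x : M) : EE n →L[ℝ] ℝ  -- manifold derivative of a function as a linear form on the model space.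
* def cv (γ : ℝ → M) (t : ℝ) : EE n  -- velocity of a curve as an element of the model space.
* theorem hasDerivAt_comp_curve' {E : Type*} [NormedAddCommGroup E] [NormedSpace ℝ E] {h : M → E} {γ : ℝ → M} {t : ℝ} {x : M} (hx : γ t = x) (hh : MDifferentiableAt (𝓡 n) 𝓘(ℝ, E) h x) (hγ : MDifferentiableAt 𝓘(ℝ, ℝ) (𝓡 n) γ t) : HasDerivAt (fun s => h (γ s)) ((mfderiv (𝓡 n) 𝓘(ℝ, E) h x : EE n →L[ℝ] E) (cv (n := n) γ t)) t  -- chain rule for a chart-valued map.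
* theorem second_deriv_two_curves {y : M} {Y Z : ℝ → M} (hY : ContMDiffAt 𝓘(ℝ, ℝ) (𝓡 n) 2 Y 0) (hZ : ContMDiffAt 𝓘(ℝ, ℝ) (𝓡 n) 2 Z 0) (hY0 : Y 0 = y) (hZ0 : Z 0 = y) (hv : cv (n := n) Y 0 = cv (n := n) Z 0) : ∃ A : EE n, ∀ h : M → ℝ, ContMDiffAt (𝓡 n) 𝓘(ℝ, ℝ) 2 h y → iteratedDeriv 2 (fun τ => h (Y τ)) 0 = iteratedDeriv 2 (fun τ => h (Z τ)) 0 + md (n := n) h y A  -- the second derivatives of `h` along two curves with the same velocity differ by a linear function of `dh`.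

### R226/LoeperPt_128 [ns Crest.Agent.R226.LoeperPt128] 
* def ff (G : GeoData n M) (x y : M) (w η : TangentSpace (𝓡 n) x) (q₀ dq : TangentSpace (𝓡 n) y) (z : ℝ × ℝ) : ℝ  -- the two-parameter cost function
* theorem iteratedDeriv_ff {G : GeoData n M} (hC : CutFacts G) {x y : M} {w η : TangentSpace (𝓡 n) x} (q₀ dq : TangentSpace (𝓡 n) y) (hy : G.ex x w = y) {ζ : TangentSpace (𝓡 n) y} (hζ : ζ = cv (n := n) (fun τ : ℝ => G.ex x (w + τ • η)) 0) : ∃ A : TangentSpace (𝓡 n) y, ∀ s : ℝ, q₀ + s • dq ∈ G.I y → iteratedDeriv 2 (fun τ => ff G x y w η q₀ dq (s, τ)) 0 = G.phi y ζ (q₀ + s • dq) - inner ℝ (q₀ + s • dq) A  -- `F(s) = φ_ζ(q_s) - ⟪q_s, A⟫`.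
* def gg (G : GeoData n M) (x x' : M) (w η : TangentSpace (𝓡 n) x) (τ : ℝ) : ℝ  -- the function of the Loeper principle along a line in `T_x M`
* theorem iteratedDeriv_gg_ge {G : GeoData n M} (hC : CutFacts G) (hconc : ∀ x, ∀ p q ξ : TangentSpace (𝓡 n) x, segment ℝ p q ⊆ G.I x → inner ℝ (q - p) ξ = 0 → ∀ t : ℝ, 0 ≤ t → t ≤ 1 → (1 - t) * G.phi x ξ p + t * G.phi x ξ q ≤ G.phi x ξ ((1 - t) • p + t • q)) {x y : M} {w η : TangentSpace (𝓡 n) x} {q₀ q₁ : TangentSpace (𝓡 n) y} (hy : G.ex x w = y) (hx : G.ex y q₀ = x) (hw : w ∈ G.I x) {ζ : TangentSpace (𝓡 n) y} (hζ : ζ …  -- the pointwise inequality.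

### R226/LoeperUnif_128 [ns Crest.Agent.R226.LoeperUnif128] 
* theorem dphi_bounds (y : M) : ∃ C : ℝ, 0 < C ∧ ∀ᶠ z in 𝓝 y, z ∈ (chartAt (EuclideanSpace ℝ (Fin n)) y).source ∧ ∀ v : TangentSpace (𝓡 n) z, ‖dphi y z v‖ ≤ C * ‖v‖ ∧ ‖v‖ ≤ C * ‖dphi y z v‖  -- the derivative of the chart is the trivialization, locally bounded in both directions.
* theorem fiber_ball {y : M} {q : TangentSpace (𝓡 n) y} {N : Set (TangentBundle (𝓡 n) M)} (hN : N ∈ 𝓝 (⟨y, q⟩ : TangentBundle (𝓡 n) M)) : ∃ O ∈ 𝓝 (⟨y, q⟩ : TangentBundle (𝓡 n) M), ∀ z : M, ∀ q₀ q₁ q' : TangentSpace (𝓡 n) z, (⟨z, q₀⟩ : TangentBundle (𝓡 n) M) ∈ O → (⟨z, q₁⟩ : TangentBundle (𝓡 n) M) ∈ O → ‖q' - q₀‖ ≤ ‖q₁ - q₀‖ → (⟨z, q'⟩ : TangentBundle (𝓡 n) M) ∈ N  -- small fibre balls around points near `p` stay near `p`.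
* def exT (G : GeoData n M) (p : TangentBundle (𝓡 n) M) : M  -- the exponential map on the tangent bundle
* theorem contDiffAt_H {G : GeoData n M} (hC : CutFacts G) {y : M} {q : TangentSpace (𝓡 n) y} (hq : q ∈ G.I y) : ContDiffAt ℝ ∞ (fun z : EE n × EE n × EE n => halfDistSq (exT G (tmci y (z.1, z.2.1))) (exT G (tmci y (z.1, z.2.2)))) (extChartAt (𝓡 n) y y, 0, dphi y y q)  -- the cost in bundle coordinates
* theorem lip_local {G : GeoData n M} (hC : CutFacts G) {y : M} {q : TangentSpace (𝓡 n) y} (hq : q ∈ G.I y) : ∃ N ∈ 𝓝 (⟨y, q⟩ : TangentBundle (𝓡 n) M), ∃ L : ℝ, 0 ≤ L ∧ ∀ z : M, ∀ q₁ q₂ : TangentSpace (𝓡 n) z, (⟨z, q₁⟩ : TangentBundle (𝓡 n) M) ∈ N → (⟨z, q₂⟩ : TangentBundle (𝓡 n) M) ∈ N → ∀ ζ : TangentSpace (𝓡 n) z, |G.phi z ζ q₁ - G.phi z ζ q₂| ≤ L * ‖ζ‖ ^ 2 * ‖q₁ - q₂‖  -- local Lipschitz bound of `φ` on the fibres.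

### R226/Loeper_128 [ns Crest.Agent.R226.Loeper128] 
* def nrm (a : M) (v : EE n) : ℝ  -- norm of a vector of the model space seen as a tangent vector at `a`.
* def rv (G : GeoData n M) (p : TangentBundle (𝓡 n) M) : TangentBundle (𝓡 n) M  -- reversal map on the tangent bundle
* theorem local_unif {G : GeoData n M} (hC : CutFacts G) (hconc : ∀ x, ∀ p q ξ : TangentSpace (𝓡 n) x, segment ℝ p q ⊆ G.I x → inner ℝ (q - p) ξ = 0 → ∀ t : ℝ, 0 ≤ t → t ≤ 1 → (1 - t) * G.phi x ξ p + t * G.phi x ξ q ≤ G.phi x ξ ((1 - t) • p + t • q)) {x : M} {w : TangentSpace (𝓡 n) x} (hw : w ∈ G.I x) : ∃ N ∈ 𝓝 (⟨x, w⟩ : TangentBundle (𝓡 n) M), ∃ r : ℝ, 0 < r ∧ ∃ L : ℝ, 0 ≤ L ∧ ∀ x₁ : M, ∀ w₁ : TangentSpace (𝓡 n) x₁, ( …  -- local version with uniform constants.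
* theorem compact_unif {G : GeoData n M} (hC : CutFacts G) (hconc : ∀ x, ∀ p q ξ : TangentSpace (𝓡 n) x, segment ℝ p q ⊆ G.I x → inner ℝ (q - p) ξ = 0 → ∀ t : ℝ, 0 ≤ t → t ≤ 1 → (1 - t) * G.phi x ξ p + t * G.phi x ξ q ≤ G.phi x ξ ((1 - t) • p + t • q)) {S : Set (TangentBundle (𝓡 n) M)} (hS : IsCompact S) (hSI : S ⊆ G.IT) : ∃ r : ℝ, 0 < r ∧ ∃ L : ℝ, 0 ≤ L ∧ ∀ x₁ : M, ∀ w₁ : TangentSpace (𝓡 n) x₁, (⟨x₁, w₁⟩ : TangentBund …  -- uniform version on compact sets.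
* theorem loeper {G : GeoData n M} (hC : CutFacts G) (hconc : ∀ x, ∀ p q ξ : TangentSpace (𝓡 n) x, segment ℝ p q ⊆ G.I x → inner ℝ (q - p) ξ = 0 → ∀ t : ℝ, 0 ≤ t → t ≤ 1 → (1 - t) * G.phi x ξ p + t * G.phi x ξ q ≤ G.phi x ξ ((1 - t) • p + t • q)) : ∀ S : Set (TangentBundle (𝓡 n) M), IsCompact S → S ⊆ G.IT → ∃ r : ℝ, 0 < r ∧ ∀ x, ∀ p q : TangentSpace (𝓡 n) x, (∀ w ∈ segment ℝ p q, (⟨x, w⟩ : TangentBundle (𝓡 n) M) ∈ S) → …  -- Local Loeper maximum principle (field `MTWFacts.loeper`).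

### R226/MTWConc_117 [ns Crest.Agent.R226.MTWConc117] ### Pure calculus on `ℝ × ℝ`
* theorem iteratedFDeriv_four_eq {f : ℝ × ℝ → ℝ} {s t : ℝ} (hf : ContDiffAt ℝ 4 f (s, t)) : iteratedFDeriv ℝ 4 f (s, t) ![((1 : ℝ), (0 : ℝ)), (1, 0), (0, 1), (0, 1)] = iteratedDeriv 2 (fun s' => iteratedDeriv 2 (fun t' => f (s', t')) t) s  -- fourth mixed derivative: the fourth Fréchet derivative on `ℝ²` in directions `e_s, e_s, e_t, e_t` is the iterated partial derivative `∂²_s ∂²_t`.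
* theorem contDiffAt_two_param (x : M) (v ξ η : TangentSpace (𝓡 n) x) (s₀ : ℝ) (hs : ContMDiffAt ((𝓡 n).prod (𝓡 n)) 𝓘(ℝ) ∞ (fun q : M × M => halfDistSq q.1 q.2) (x, G.ex x (v + s₀ • η))) : ContDiffAt ℝ ∞ (fun p : ℝ × ℝ => halfDistSq (G.ex x (p.2 • ξ)) (G.ex x (v + p.1 • η))) (s₀, 0)  -- the two-parameter function of the MTW form is smooth wherever the cost is
* theorem contDiffAt_phi_slice (x : M) (v ξ η : TangentSpace (𝓡 n) x) (s₀ : ℝ) (hs : ContMDiffAt ((𝓡 n).prod (𝓡 n)) 𝓘(ℝ) ∞ (fun q : M × M => halfDistSq q.1 q.2) (x, G.ex x (v + s₀ • η))) : ContDiffAt ℝ 2 (fun s : ℝ => G.phi x ξ (v + s • η)) s₀  -- smoothness of `s ↦ φ_ξ(v + s η)`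
* theorem mtwForm_eq (x : M) (v ξ η : TangentSpace (𝓡 n) x) (hs : ContMDiffAt ((𝓡 n).prod (𝓡 n)) 𝓘(ℝ) ∞ (fun q : M × M => halfDistSq q.1 q.2) (x, G.ex x v)) : mtwForm n x (G.ex x) v ξ η = -(3 / 2) * iteratedDeriv 2 (fun s : ℝ => G.phi x ξ (v + s • η)) 0  -- the MTW form is `-(3/2)` times the second derivative of `φ_ξ` in direction `η`
* theorem concave_of_mtw (hM : SatisfiesWeakMTW M n) (hexp : ∀ x, IsExpMapAt n x (G.ex x)) (hI : ∀ x, G.I x ⊆ injDomain n x) (hs : ∀ x, ∀ v ∈ G.I x, ContMDiffAt ((𝓡 n).prod (𝓡 n)) 𝓘(ℝ) ∞ (fun q : M × M => halfDistSq q.1 q.2) (x, G.ex x v)) : ∀ x, ∀ p q ξ : TangentSpace (𝓡 n) x, segment ℝ p q ⊆ G.I x → inner ℝ (q - p) ξ = 0 → ∀ t : ℝ, 0 ≤ t → t ≤ 1 → (1 - t) * G.phi x ξ p + t * G.phi x ξ q ≤ G.phi x ξ ((1 - t) • p + t • …  -- MTW ⟹ concavity of `φ_ξ` along segments orthogonal to `ξ` (exact field `MTWFacts.concave`).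

### R226/MidFacts_659 [ns Crest.Agent.R226.Mid659] 
* theorem exists_midpoint (G : GeoData n M) (x y : M) : ∃ z, dist x z = dist x y / 2 ∧ dist z y = dist x y / 2  -- midpoints exist
* theorem exists_dist_eq (G : GeoData n M) (hn : 0 < n) (z : M) {t : ℝ} (h0 : 0 ≤ t) (ht : t < G.r₀) : ∃ z', dist z z' = t  -- pairs of points at prescribed small distance
* theorem low {C₁ : ℝ} (hS : SC G C₁) (hD : DFacts G) (hn : 0 < n) [Nonempty M] {u : M → ℝ} (hu : CConv u) (hg : G.Good u 1) {t : ℝ} (h0 : 0 ≤ t) (ht : t < G.r₀) : ∃ z z', dist z z' = t ∧ DD u (X G u z) (Y G u z') ≤ 4 * C₁ * t ^ 2  -- `L(h) ≥ c √h`.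
* theorem exists_lip_Y (hC : CutFacts G) (hD : DFacts G) : ∃ L : ℝ, 0 ≤ L ∧ ∀ u : M → ℝ, CConv u → G.Good u 1 → ∀ z z', dist (Y G u z) (Y G u z') ≤ L * dist z z'  -- `Y` is Lipschitz, uniformly in `u`.
* theorem exists_lip (hC : CutFacts G) (hD : DFacts G) : ∃ L : ℝ, 0 ≤ L ∧ ∀ u : M → ℝ, CConv u → G.Good u 1 → G.Good (ctr u) 1 → ∀ z z', dist (X G u z) (X G u z') ≤ L * dist z z' ∧ dist (Y G u z) (Y G u z') ≤ L * dist z z'  -- `X` and `Y` are Lipschitz, uniformly in `u`.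

### R226/Midpoint_659 [ns Crest.Agent.R226.Mid659] ### Metric part
* structure IsMid (G : GeoData n M) (u : M → ℝ) (z : M) (w : TangentSpace (𝓡 n) z) : Prop where left : (-(1 / 2 : ℝ)) • w ∈ G.K z right : (1 / 2 : ℝ) • w ∈ G.K z dist_eq : dist (G.ex z ((-(1 / 2 : ℝ)) • w)) (G.ex z ((1 / 2 : ℝ) • w)) = ‖w‖ contact : DD u (G.ex z ((-(1 / 2 : ℝ)) • w)) (G.ex z ((1 / 2 : ℝ) • w)) = 0  -- `z` is the midpoint of the contact geodesic from `exp_z(-w/2)` to `exp_z(w/2)`.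
* theorem mv_of_contact (hC : CutFacts G) (hD : DFacts G) {u : M → ℝ} (hu : CConv u) (hg : G.Good u 1) {x : M} {v : TangentSpace (𝓡 n) x} (hv : v ∈ G.K x) (h : DD u x (G.ex x v) = 0) : mv G u (G.ex x ((1 / 2 : ℝ) • v)) = G.vel x v (1 / 2)  -- the midpoint of a contact geodesic
* theorem exists_mid_of_contact (hC : CutFacts G) (hD : DFacts G) {u : M → ℝ} (hu : CConv u) (hg : G.Good u 1) {x y : M} (h : DD u x y = 0) : ∃ z, X G u z = x ∧ Y G u z = y ∧ dist x z = dist x y / 2 ∧ dist z y = dist x y / 2  -- every contact pair has a midpoint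
* theorem rho_le {C₁ : ℝ} (hS : SC G C₁) (hD : DFacts G) {u : M → ℝ} (hu : CConv u) (hg : G.Good u 1) (z z' : M) : DD u (X G u z) (Y G u z') ≤ 4 * C₁ * dist z z' ^ 2  -- `ρ(z,z') = D(X z, Y z') ≤ 4 C₁ d(z,z')²`.
* theorem norm_dir_Y {C₁ : ℝ} (hS : SC G C₁) (hD : DFacts G) {u : M → ℝ} (hu : CConv u) (hg : G.Good u 1) (z z' : M) (b : TangentSpace (𝓡 n) z) (hb : b ∈ G.K z) (hbe : G.ex z b = Y G u z') : ‖b - (1 / 2 : ℝ) • mv G u z‖ ≤ 4 * C₁ * dist z z'  -- the direction at `z` of the point `Y z'` is `4 C₁ d(z,z')`-close to that of `Y z`.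

### R226/Minimiser_114 [ns Crest.Agent.R226.Minimiser114] ### (i) curves of speed `c` are `c`-Lipschitz
* theorem curveVel_eq_of_eqOn {γ σ : ℝ → M} {b : ℝ} (hb : 0 < b) (h : EqOn γ σ (Icc 0 b)) (hγ : MDifferentiableAt 𝓘(ℝ, ℝ) (𝓡 n) γ 0) (hσ : MDifferentiableAt 𝓘(ℝ, ℝ) (𝓡 n) σ 0) : (curveVel n γ 0 : EuclideanSpace ℝ (Fin n)) = curveVel n σ 0  -- two curves which agree on `[0,b]` and are differentiable at `0` have the same velocity there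
* theorem minimiserGeodesic (C : GeoCore n M) : MinimiserGeodesic n M C  -- task B5ii
* theorem dist_eq_of_minimising {γ : ℝ → M} {a c : ℝ} (ha : 0 ≤ a) (hL : ∀ s ∈ Icc (0 : ℝ) a, ∀ t ∈ Icc (0 : ℝ) a, dist (γ s) (γ t) ≤ c * |s - t|) (hd : dist (γ 0) (γ a) = a * c) : ∀ s ∈ Icc (0 : ℝ) a, ∀ t ∈ Icc (0 : ℝ) a, dist (γ s) (γ t) = c * |s - t|  -- a curve of speed `c` on `[0,a]` whose endpoints are at distance `a c` minimises on subintervals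
* theorem injDomain_eq (C : GeoCore n M) (hS : SpeedLip n M) (x : M) : injDomain n x = {v : TangentSpace (𝓡 n) x | ∃ a : ℝ, 1 < a ∧ dist x (C.ex x (a • v)) = a * ‖v‖}  -- task B5iii: `injDomain` in terms of `ex`
* def geoData (C : GeoCore n M) (hB : HasBetween M) (hS : SpeedLip n M) : GeoData n M  -- assembly of `GeoData` from `GeoCore` (task B7, modulo `GeoCore`)

### R226/ModulusGeo_619 [ns Crest.Agent.R226.Mod619] 
* def GMid (G : GeoData n M) : Set (M × M × M)  -- geometric midpoint relation: `(x, exp_x (w/2), exp_x w)` for `w ∈ K(x)`.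
* theorem modulus_geo (hK : IsCompact G.KT) {K₀ : ℝ} (hP : ∀ u : M → ℝ, CConv u → Eng K₀ u → ∀ x, (G.P u x).Subsingleton) : ∀ ε : ℝ, 0 < ε → ∃ h₁ : ℝ, 0 < h₁ ∧ ∀ u : M → ℝ, CConv u → Eng K₀ u → ∀ x x' : M, ∀ w ∈ G.P u x, ∀ w' ∈ G.P u x', D u x (G.ex x' w') ≤ h₁ → dist x x' ≤ ε ∧ dist (G.ex x ((1 / 2 : ℝ) • w)) (G.ex x' ((1 / 2 : ℝ) • w')) ≤ ε ∧ dist (G.ex x w) (G.ex x' w') ≤ ε  -- E1.6, geometric form.

### R226/Modulus_619 [ns Crest.Agent.R226.Mod619] 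
* def D (u : M → ℝ) (x y : M) : ℝ  -- `D_u(x,y) = u(x) + u^c(y) + c(x,y) ≥ 0`.
* def Eng (K₀ : ℝ) (u : M → ℝ) : Prop  -- the engulfing inequality (E) with constant `K₀`.
* def CT (R : Set (M × M × M)) (u : M → ℝ) (x z y : M) : Prop  -- `(x, z, y)` is a contact triple of `u`: `y ∈ ∂_c u (x)` and `z` is a midpoint (in the sense of the closed relation `R`).
* theorem exists_limit (l : Ultrafilter ℕ) (u : ℕ → M → ℝ) (hu : ∀ k, CConv (u k)) (x₀ : M) (h0 : ∀ k, u k x₀ = 0) : ∃ v : M → ℝ, CConv v ∧ v x₀ = 0 ∧ (∀ x : ℕ → M, ∀ a : M, Tendsto x l (𝓝 a) → Tendsto (fun k => u k (x k)) l (𝓝 (v a))) ∧ (∀ y : ℕ → M, ∀ b : M, Tendsto y l (𝓝 b) → Tendsto (fun k => ctr (u k) (y k)) l (𝓝 (ctr v b)))  -- Compactness of the class of normalised `c`-convex functions, in ultrafilter form.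
* theorem modulus {K₀ : ℝ} {R : Set (M × M × M)} (hR : IsClosed R) (huniq : ∀ u : M → ℝ, CConv u → Eng K₀ u → ∀ x y y', D u x y = 0 → D u x y' = 0 → y = y') (hmid : ∀ u : M → ℝ, CConv u → Eng K₀ u → ∀ x z z' y, CT R u x z y → CT R u x z' y → z = z') : ∀ ε : ℝ, 0 < ε → ∃ h₁ : ℝ, 0 < h₁ ∧ ∀ u : M → ℝ, CConv u → Eng K₀ u → ∀ x z y x' z' y' : M, CT R u x z y → CT R u x' z' y' → D u x y' ≤ h₁ → dist x x' ≤ ε ∧ dist z z' ≤ ε …  -- E1.6: uniform modulus. `huniq` is the output of Theorem 2 (`Engulf ⟹ C¹`): for every `c`-convex `u` with the engulfing inequality, the contact point `y` of 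

### R226/Mono_347 [ns Crest.Agent.R226.Mono347] 
* theorem key (hB : Base G) {x : M} {p : TangentSpace (𝓡 n) x} (hp : p ∈ G.I x) (ξ w : TangentSpace (𝓡 n) x) {t : ℝ} (h0 : 0 < t) (h1 : t < 1) : 0 ≤ t⁻¹ * (G.phi x ξ (t • p) - 2 * inner ℝ w ξ + ‖w‖ ^ 2) + (1 - t)⁻¹ * hess (F G x) (t • p, p) (w, 0) (w, 0) - G.phi x ξ p  -- second order inequality from the weighted triangle inequality with a moving intermediate point
* theorem mono (hB : Base G) : ∀ x, ∀ p ∈ G.I x, ∀ ξ : TangentSpace (𝓡 n) x, ξ ≠ 0 → ∀ t : ℝ, 0 < t → t < 1 → G.phi x ξ p < G.phi x ξ (t • p) / t  -- F3 (exact field `CutFacts.mono`)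

### R226/NF1_946 [ns Crest.Agent.R226.NF946] 
* theorem Hf_gauss (hB : Base G) {x : M} {p : TangentSpace (𝓡 n) x} (hp : p ∈ G.K x) (η : TangentSpace (𝓡 n) x) : Hf G x p p η = inner ℝ p η  -- Gauss lemma `Hf(p) p = p`
* theorem le_of_le_on_I (hB : Base G) {x : M} {p : TangentSpace (𝓡 n) x} (hp : p ∈ G.K x) {f g : TangentSpace (𝓡 n) x → ℝ} (hf : ContinuousAt f p) (hg : ContinuousAt g p) (h : ∀ q ∈ G.I x, f q ≤ g q) : f p ≤ g p  -- inequality on `I` passes to `K`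
* theorem Hf_mixed (hB : Base G) {x : M} {p : TangentSpace (𝓡 n) x} (hp : p ∈ G.K x) (θ η : TangentSpace (𝓡 n) x) : hess (F G x) ((1 / 2 : ℝ) • p, p) (0, θ) (η, 0) = -Hf G x p θ η  -- mixed identity on `I`, then on `K`: `D_w D_b F(p/2, p)(η, θ) = -Hf(p)(θ, η)`
* theorem phi_le_Hf (hB : Base G) {x : M} {p : TangentSpace (𝓡 n) x} (hp : p ∈ G.I x) (ξ w : TangentSpace (𝓡 n) x) : G.phi x ξ p ≤ 2 * G.phi x ξ ((1 / 2 : ℝ) • p) - 4 * inner ℝ w ξ + 4 * Hf G x p w w  -- the basic upper bound for `phi`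
* theorem Hf_pos (hB : Base G) {x : M} {p : TangentSpace (𝓡 n) x} (hp : p ∈ G.I x) {v : TangentSpace (𝓡 n) x} (hv : v ≠ 0) : 0 < Hf G x p v v  -- `Hf > 0` on `I`

### R226/NF2_946 [ns Crest.Agent.R226.NF946] 
* theorem tendsto_fiber {α : Type*} {l : Filter α} {x : M} {f : α → TangentSpace (𝓡 n) x} {v : TangentSpace (𝓡 n) x} (h : Tendsto (fun a => (⟨x, f a⟩ : TangentBundle (𝓡 n) M)) l (𝓝 ⟨x, v⟩)) : Tendsto f l (𝓝 v)  -- convergence in a fibre from convergence in the tangent bundle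
* theorem exists_mid {x : M} {p : TangentSpace (𝓡 n) x} (hp : p ∈ G.I x) : ∃ ζ : TangentSpace (𝓡 n) x → TangentSpace (𝓡 n) x, Tendsto ζ (𝓝 0) (𝓝 ((1 / 2 : ℝ) • p)) ∧ ∀ ξ, F G x (ξ, p) = 2 * F G x (ξ, ζ ξ) + 2 * F G x (ζ ξ, p)  -- midpoints of minimisers, in normal coordinates
* theorem phi_eq_ex (hB : Base G) {x : M} {p : TangentSpace (𝓡 n) x} (hp : p ∈ G.I x) (ξ : TangentSpace (𝓡 n) x) : ∃ om : TangentSpace (𝓡 n) x, G.phi x ξ p = 2 * G.phi x ξ ((1 / 2 : ℝ) • p) - 4 * inner ℝ om ξ + 4 * Hf G x p om om  -- `phi` as the minimum of the two-step Hessian: attained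
* theorem phi_eq (hB : Base G) {x : M} {p : TangentSpace (𝓡 n) x} (hp : p ∈ G.I x) {ξ v : TangentSpace (𝓡 n) x} (hv : ∀ η, Hf G x p v η = inner ℝ ξ η) : G.phi x ξ p = 2 * G.phi x ξ ((1 / 2 : ℝ) • p) - Hf G x p v v  -- the normal form of `phi` : `phi x ξ p = 2 phi x ξ (p/2) - ⟪Hf(p)⁻¹ ξ, ξ⟫` for `p ∈ I`.
* theorem exists_Hf_eq (hB : Base G) {x : M} {p : TangentSpace (𝓡 n) x} (hp : p ∈ G.I x) (ξ : TangentSpace (𝓡 n) x) : ∃ v, ∀ η, Hf G x p v η = inner ℝ ξ η  -- surjectivity of `Hf(p)`, `p ∈ I`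

### R226/NF3_946 [ns Crest.Agent.R226.NF946] 
* def Lh : E →L[ℝ] E × E  -- `q ↦ (q/2, q)`
* def ip : E →L[ℝ] E →L[ℝ] ℝ  -- the inner product as a bilinear map
* def CkB (F : E × E → ℝ) (k : ℕ) (B : ℝ) (q : E) : Prop  -- `C^k` bound of the normal form Hessian at `q`
* def PfA (F : E × E → ℝ) (q : E) : E →L[ℝ] E →L[ℝ] ℝ  -- the Hessian in the first variable at `(0, q)`
* def PkB (F : E × E → ℝ) (k : ℕ) (B : ℝ) (q : E) : Prop  -- `C^k` bound of `PfA` at `q`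

### R226/NF4_946 [ns Crest.Agent.R226.NF946] 
* def Am (y x : M) (C : ℝ) (hC : 0 ≤ C) (hb : ∀ v : TangentSpace (𝓡 n) x, ‖dphi y x v‖ ≤ C * ‖v‖) : (TangentSpace (𝓡 n) x × TangentSpace (𝓡 n) x) →L[ℝ] (EE n × EE n × EE n)  -- the linear map `(w, b) ↦ (0, dphi w, dphi b)`, built from a norm bound
* theorem unif_F_local {y : M} {w₀ b₀ : TangentSpace (𝓡 n) y} (h : ContMDiffAt ((𝓡 n).prod (𝓡 n)) 𝓘(ℝ) ∞ (fun q : M × M => halfDistSq q.1 q.2) (G.ex y w₀, G.ex y b₀)) (k : ℕ) : ∃ ε B C : ℝ, 0 < ε ∧ 0 ≤ B ∧ 0 < C ∧ ∀ᶠ x in 𝓝 y, x ∈ (chartAt (EuclideanSpace ℝ (Fin n)) y).source ∧ (∀ v : TangentSpace (𝓡 n) x, ‖dphi y x v‖ ≤ C * ‖v‖ ∧ ‖v‖ ≤ C * ‖dphi y x v‖) ∧ ∀ w b : TangentSpace (𝓡 n) x, dist (dphi y x w) (dphi y y w₀) < …  -- local uniform bounds around a pair `(w₀, b₀)` of velocities at `y` with smooth cost.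
* theorem unif_F_near (hB : Base G) {y : M} {q : TangentSpace (𝓡 n) y} (hq : q ∈ G.K y) (k : ℕ) : ∃ N ∈ 𝓝 (⟨y, q⟩ : TangentBundle (𝓡 n) M), ∃ δ B : ℝ, 0 < δ ∧ 0 ≤ B ∧ ∀ x : M, ∀ p w b : TangentSpace (𝓡 n) x, (⟨x, p⟩ : TangentBundle (𝓡 n) M) ∈ N → ‖w - (1 / 2 : ℝ) • p‖ < δ → ‖b - p‖ < δ → ContDiffAt ℝ k (F G x) (w, b) ∧ ∀ j ≤ k, ‖iteratedFDeriv ℝ j (F G x) (w, b)‖ ≤ B  -- local uniform bounds near `(y, q)`, `q ∈ K(y)`
* theorem unif_F (hB : Base G) (k : ℕ) : ∃ δ B : ℝ, 0 < δ ∧ 0 ≤ B ∧ ∀ x : M, ∀ p w b : TangentSpace (𝓡 n) x, p ∈ G.K x → ‖w - (1 / 2 : ℝ) • p‖ < δ → ‖b - p‖ < δ → ContDiffAt ℝ k (F G x) (w, b) ∧ ∀ j ≤ k, ‖iteratedFDeriv ℝ j (F G x) (w, b)‖ ≤ B  -- (N7) for `F`: uniform `C^k` bounds near `(p/2, p)`, `p ∈ K(x)`.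
* theorem unif_Hf (hB : Base G) (k : ℕ) : ∃ δ B : ℝ, 0 < δ ∧ 0 ≤ B ∧ ∀ x : M, ∀ p q : TangentSpace (𝓡 n) x, p ∈ G.K x → ‖q - p‖ < δ → CkB (F G x) k B q  -- (N7) for `Hf`: uniform `C^k` bounds in a uniform neighbourhood of `K(x)`.

### R226/NF5_946 [ns Crest.Agent.R226.NF946] 
* theorem CkB.line {F : E × E → ℝ} {k : ℕ} {B : ℝ} {p η : E} {s : ℝ} (h : CkB F k B (p + s • η)) (u v : E) : ContDiffAt ℝ k (fun s : ℝ => HfA F (p + s • η) u v) s ∧ ∀ j ≤ k, |iteratedDeriv j (fun s : ℝ => HfA F (p + s • η) u v) s| ≤ B * ‖u‖ * ‖v‖ * ‖η‖ ^ j  -- `C^k` bounds of the entries of `Hf` along lines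
* theorem CkB.lip {F : E × E → ℝ} {B : ℝ} {p q : E} (h : ∀ s : ℝ, 0 ≤ s → s ≤ 1 → CkB F 1 B (p + s • (q - p))) (u v : E) : |HfA F q u v - HfA F p u v| ≤ B * ‖u‖ * ‖v‖ * ‖q - p‖  -- Lipschitz bound of the entries
* theorem unif_Hf_line (hB : Base G) (k : ℕ) : ∃ δ B : ℝ, 0 < δ ∧ 0 ≤ B ∧ ∀ x : M, ∀ p q η : TangentSpace (𝓡 n) x, ∀ s : ℝ, p ∈ G.K x → ‖q + s • η - p‖ < δ → ∀ u v : TangentSpace (𝓡 n) x, ContDiffAt ℝ k (fun s : ℝ => Hf G x (q + s • η) u v) s ∧ ∀ j ≤ k, |iteratedDeriv j (fun s : ℝ => Hf G x (q + s • η) u v) s| ≤ B * ‖u‖ * ‖v‖ * ‖η‖ ^ j  -- (N7) along lines : uniform `C^k` bounds of `s ↦ Hf(p + s η)(u, v)`.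
* theorem unif_Hf_bdd (hB : Base G) : ∃ δ B : ℝ, 0 < δ ∧ 0 ≤ B ∧ ∀ x : M, ∀ p q : TangentSpace (𝓡 n) x, p ∈ G.K x → ‖q - p‖ < δ → ∀ u v : TangentSpace (𝓡 n) x, |Hf G x q u v| ≤ B * ‖u‖ * ‖v‖  -- boundedness of `Hf` near `K`
* theorem unif_Hf_lip (hB : Base G) : ∃ δ B : ℝ, 0 < δ ∧ 0 ≤ B ∧ ∀ x : M, ∀ p q q' : TangentSpace (𝓡 n) x, p ∈ G.K x → ‖q - p‖ < δ → ‖q' - p‖ < δ → ∀ u v : TangentSpace (𝓡 n) x, |Hf G x q' u v - Hf G x q u v| ≤ B * ‖u‖ * ‖v‖ * ‖q' - q‖  -- Lipschitz continuity of `Hf` near `K`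

### R226/NF6_946 [ns Crest.Agent.R226.NF946] 
* theorem unif_phi (hB : Base G) {θ : ℝ} (h0 : 0 ≤ θ) (h1 : θ < 1) (k : ℕ) : ∃ δ B : ℝ, 0 < δ ∧ 0 ≤ B ∧ ∀ x : M, ∀ p q η ξ : TangentSpace (𝓡 n) x, ∀ s : ℝ, p ∈ G.K x → ‖q + s • η - θ • p‖ < δ → ContDiffAt ℝ k (fun s : ℝ => G.phi x ξ (q + s • η)) s ∧ ∀ j ≤ k, |iteratedDeriv j (fun s : ℝ => G.phi x ξ (q + s • η)) s| ≤ B * ‖ξ‖ ^ 2 * ‖η‖ ^ j  -- uniform `C^k` bounds of `phi` near `θ K(x)` along lines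
* theorem unif_phi_bdd (hB : Base G) {θ : ℝ} (h0 : 0 ≤ θ) (h1 : θ < 1) : ∃ B : ℝ, 0 ≤ B ∧ ∀ x : M, ∀ p ξ : TangentSpace (𝓡 n) x, p ∈ G.K x → |G.phi x ξ (θ • p)| ≤ B * ‖ξ‖ ^ 2  -- boundedness of `phi` on `θ K(x)`
* def Rf (G : GeoData n M) (x : M) (ξ p : TangentSpace (𝓡 n) x) : ℝ  -- `⟪Hf(p)⁻¹ ξ, ξ⟫` for `p ∈ I`
* theorem le_Rf (hB : Base G) {x : M} {p : TangentSpace (𝓡 n) x} (hp : p ∈ G.I x) (ξ w : TangentSpace (𝓡 n) x) : 2 * inner ℝ w ξ - Hf G x p w w ≤ Rf G x ξ p  -- lower bound of `Rf` by test vectors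
* theorem Rf_semiconvex (hB : Base G) (hM : MTWFacts G) : ∃ C : ℝ, 0 ≤ C ∧ ∀ x : M, ∀ p q ξ : TangentSpace (𝓡 n) x, segment ℝ p q ⊆ G.I x → inner ℝ (q - p) ξ = 0 → ∀ t : ℝ, 0 ≤ t → t ≤ 1 → Rf G x ξ ((1 - t) • p + t • q) ≤ (1 - t) * Rf G x ξ p + t * Rf G x ξ q + C * ‖ξ‖ ^ 2 * ‖q - p‖ ^ 2 * (t * (1 - t))  -- (N4), convexity form : `Rf` is uniformly semiconvex along segments orthogonal to `ξ`.

### R226/NF7A_946 [ns Crest.Agent.R226.NF946] 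
* def DHfA (F : E × E → ℝ) (p θ u v : E) : ℝ  -- directional derivative of the entries of `HfA`
* def D2HfA (F : E × E → ℝ) (p θ u v : E) : ℝ  -- second directional derivative of the entries of `HfA`
* theorem DHfA_gauss {F : E × E → ℝ} {p : E} (h : ∀ u v, DifferentiableAt ℝ (fun q => HfA F q u v) p) (hG : ∀ᶠ q in 𝓝 p, ∀ η, HfA F q q η = inner ℝ q η) (θ η : E) : DHfA F p θ p η = inner ℝ θ η - HfA F p θ η  -- derivative of the Gauss identity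
* theorem sec_HfA_line {F : E × E → ℝ} {p u v : E} (h : ContDiffAt ℝ 2 (fun q => HfA F q u v) p) (θ : E) : Sec (fun s : ℝ => HfA F (p + s • θ) u v) (D2HfA F p θ u v)  -- bounds of the directional derivatives from `CkB` along the line
* theorem second_deriv_ge {ψ : ℝ → ℝ} {d C K : ℝ} (hψ : Sec ψ d) (h : ∀ᶠ s in 𝓝 (0 : ℝ), 2 * ψ 0 ≤ ψ s + ψ (-s) + C * s ^ 2 + K * |s| ^ 3) : -C ≤ d  -- one-dimensional comparison: if `ψ ≤ r` near `0` up to a small error and `r` is semiconvex at `0`, then `ψ''(0) ≥ -2C`.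

### R226/NF7_946 [ns Crest.Agent.R226.NF946] 
* def DHf (G : GeoData n M) (x : M) (p θ u v : TangentSpace (𝓡 n) x) : ℝ  -- directional derivative of the normal form: `DHf G x p θ u v = D_θ (Hf(·)(u,v))(p)`
* theorem DHf_symm (hB : Base G) {x : M} {p : TangentSpace (𝓡 n) x} (hp : p ∈ G.K x) (θ u v : TangentSpace (𝓡 n) x) : DHf G x p θ u v = DHf G x p θ v u  -- symmetry on the open set `I`, hence on `K`
* theorem DHf_gauss (hB : Base G) {x : M} {p : TangentSpace (𝓡 n) x} (hp : p ∈ G.K x) (θ η : TangentSpace (𝓡 n) x) : DHf G x p θ p η = inner ℝ θ η - Hf G x p θ η  -- (N3') : `(D_θ Hf)(p, η) = ⟪θ, η⟫ - Hf(θ, η)` for `p ∈ K`.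
* theorem DHf_gauss' (hB : Base G) {x : M} {p : TangentSpace (𝓡 n) x} (hp : p ∈ G.K x) (θ η : TangentSpace (𝓡 n) x) : DHf G x p θ η p = inner ℝ θ η - Hf G x p θ η  -- `D_θ Hf(p, v) = ⟪θ, v⟫ - Hf(θ, v)`, version with `p` in the second slot

### R226/NFAbs_946 [ns Crest.Agent.R226.NF946] 
* theorem hess_NA {F : E × E → ℝ} {q : E × E} (h : ContDiffAt ℝ 2 F q) (u v : E) : hess (fun q : E × E => ‖q.1‖ ^ 2 + 2 * F q) q (u, 0) (v, 0) = 2 * inner ℝ u v + 2 * hess F q (u, 0) (v, 0)  -- the derivatives of `N(q) = ‖q.1‖² + 2 F q`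
* theorem contDiffAt_fderiv_rhoA {F : E × E → ℝ} {p p' : E} (h : ContDiffAt ℝ ∞ F ((1 / 2 : ℝ) • p', p)) : ContDiffAt ℝ ∞ (fun q : E × E => fderiv ℝ (rhoA F q.1) q.2) (p, p')  -- joint smoothness of the first derivative of `rhoA`
* theorem contDiffAt_HfA {F : E × E → ℝ} {p : E} (h : ContDiffAt ℝ ∞ F ((1 / 2 : ℝ) • p, p)) : ContDiffAt ℝ ∞ (HfA F) p  -- smoothness of the normal form Hessian
* theorem HfA_mixed {F : E × E → ℝ} {p : E} (h : ContDiffAt ℝ 2 F ((1 / 2 : ℝ) • p, p)) {η : E} (hrel : ∀ᶠ q in 𝓝 p, fderiv ℝ F ((1 / 2 : ℝ) • q, q) (η, 0) = -(inner ℝ q η) / 2) (θ : E) : hess F ((1 / 2 : ℝ) • p, p) (0, θ) (η, 0) = -HfA F p θ η  -- derivative of the relation `D_w F(p/2, p) η = -⟪p, η⟫/2` : the mixed derivative is `-HfA`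
* theorem contDiffAt_minimiser [CompleteSpace E₁] [FiniteDimensional ℝ E₂] {g : E₁ × E₂ → ℝ} {p₀ : E₁} {z₀ : E₂} (hg : ContDiffAt ℝ ∞ g (p₀, z₀)) (hpos : ∀ h : E₂, h ≠ 0 → 0 < fderiv ℝ (fderiv ℝ g) (p₀, z₀) (0, h) (0, h)) {ζ : E₁ → E₂} (hζ : Tendsto ζ (𝓝 p₀) (𝓝 z₀)) (h0 : fderiv ℝ g (p₀, z₀) ∘L ContinuousLinearMap.inr ℝ E₁ E₂ = 0) (hmin : ∀ᶠ p in 𝓝 p₀, IsLocalMin (fun z => g (p, z)) (ζ p)) : ContDiffAt ℝ ∞ ζ p₀  -- Smoothness of a nondegenerate minimiser (same proof as `EucMin77.contDiffAt_value`).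

### R226/NFDef_946 [ns Crest.Agent.R226.NF946] 
* def rho (G : GeoData n M) (x : M) (p p' : TangentSpace (𝓡 n) x) : ℝ  -- `rho(p') = ‖p'‖²/4 + 2 c(exp_x (p'/2), exp_x p)`
* def Hf (G : GeoData n M) (x : M) (p : TangentSpace (𝓡 n) x) : TangentSpace (𝓡 n) x →L[ℝ] TangentSpace (𝓡 n) x →L[ℝ] ℝ  -- the normal form Hessian: the second derivative of `rho G x p` at `p`

### R226/NGcol_487 [ns Crest.Agent.R226.NG487] 
* theorem halfspace (hg : GoodAll G) {x1 : M} (x : M) (p0 : TangentSpace (𝓡 n) x1) {ε : ℝ} (hε : 0 < ε) : ∃ f : TangentSpace (𝓡 n) x1 →L[ℝ] ℝ, ∀ p ∈ G.K x1, f p0 ≤ f p → Fq G x1 x p0 - ε < Fq G x1 x p  -- Loeper half-spaces: through every `p₀ ∈ K(x₁)` passes a closed half-space on which `F_x > F_x(p₀) - ε`.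
* theorem exists_log (G : GeoData n M) {vol : Measure M} (hvol : vol ≪ (Measure.hausdorffMeasure (n : ℝ) : Measure M)) (x : M) [MeasurableSpace (TangentSpace (𝓡 n) x)] [BorelSpace (TangentSpace (𝓡 n) x)] : ∃ L : M → TangentSpace (𝓡 n) x, Measurable L ∧ (∀ y, L y ∈ G.K x) ∧ ∀ᵐ y ∂vol, G.ex x (L y) = y ∧ ∀ p ∈ G.K x, G.ex x p = y → p = L y  -- measurable a.e. logarithm at `x`.
* def SS (u : M → ℝ) (x0 x1 : M) (h : ℝ) : Set M  -- `S = Y_h(x₀) ∩ Y_h(x₁)`.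
* theorem tukey_column (hg : GoodAll G) {vol : Measure M} [IsFiniteMeasure vol] (hvol : vol ≪ (Measure.hausdorffMeasure (n : ℝ) : Measure M)) {u : M → ℝ} (hu : CConv u) (x0 x1 : M) {h : ℝ} (hh : 0 ≤ h) : ∃ p0 ∈ G.K x1, Dd u x1 (G.ex x1 p0) ≤ h ∧ ∀ (x : M) (ε : ℝ), 0 < ε → (vol (SS u x0 x1 h)).toReal ≤ (n + 1) * (vol {y | Dd u x0 y ≤ h ∧ Dd u x y ≤ h + Dd u x (G.ex x1 p0) + ε}).toReal  -- Tukey column (579 (1)): there is a point `y₀` seen by `x₁` such that every `x` sees, at the level `h + D(x,y₀) + ε`, at least the fraction `1/(n+1)` of `S =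
* theorem ng_column (hg : GoodAll G) {vol : Measure M} [IsFiniteMeasure vol] (hvol : vol ≪ (Measure.hausdorffMeasure (n : ℝ) : Measure M)) {u : M → ℝ} (hu : CConv u) {x0 x1 : M} {h h' L a' : ℝ} (hh : 0 ≤ h) (hhh : h < h') (hL : h + L < h') (hNG : ∀ x : M, (vol (SS u x0 x1 h)).toReal ≤ (n + 1) * (vol (SS u x0 x h')).toReal → u x0 - u x ≤ a') : ∃ p0 ∈ G.K x1, Dd u x1 (G.ex x1 p0) ≤ h ∧ ∀ x : M, Dd u x (G.ex x1 p0) ≤ L →  …  -- NG on the column: if the pair functional does not grow, every `x` with `D(x,y₀) ≤ L` has `u(x) ≥ u(x₁) - δ a`.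

### R226/NS1A_683 [ns Crest.Agent.R226.NS683] 
* theorem exists_delta_chord (G : GeoData n M) (x : M) (R : ℝ) {ρ : ℝ} (hρ0 : 0 < ρ) : ∃ δ : ℝ, 0 < δ ∧ δ ≤ 1 ∧ ∀ p Δ : EE n, ‖p‖ ≤ R → ‖Δ‖ ≤ R → ∀ t : ℝ, |t| ≤ δ → dist (G.ex x (p + t • Δ : EE n)) (G.ex x p) ≤ ρ  -- uniform continuity of the chords
* theorem exists_bound_Ph [CompactSpace M] (G : GeoData n M) (x : M) (R : ℝ) : ∃ B : ℝ, 0 ≤ B ∧ ∀ q ∈ SPh G x R, |deriv (deriv (Ph G x q.1)) q.2| ≤ B ∧ |deriv (Ph G x q.1) q.2| ≤ B  -- bounds of the derivatives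
* theorem taylor_two {f f' f'' : ℝ → ℝ} {δ B : ℝ} (h1 : ∀ t : ℝ, |t| ≤ δ → HasDerivAt f (f' t) t) (h2 : ∀ t : ℝ, |t| ≤ δ → HasDerivAt f' (f'' t) t) (h3 : ∀ t : ℝ, |t| ≤ δ → f'' t ≤ B) {t : ℝ} (ht : |t| ≤ δ) : f t ≤ f 0 + f' 0 * t + B * t ^ 2 / 2  -- two-sided Taylor upper bound
* theorem semi_near [CompactSpace M] (G : GeoData n M) (x : M) (R : ℝ) {δ B ε D : ℝ} (hδ1 : δ ≤ 1) (hδ : ∀ p Δ : EE n, ‖p‖ ≤ R → ‖Δ‖ ≤ R → ∀ t : ℝ, |t| ≤ δ → dist (G.ex x (p + t • Δ : EE n)) (G.ex x p) ≤ G.r₀ / 4) (hB : ∀ q ∈ SPh G x R, |deriv (deriv (Ph G x q.1)) q.2| ≤ B ∧ |deriv (Ph G x q.1) q.2| ≤ B) (hδ0 : 0 < δ) (hε0 : 0 < ε) (hε1 : ε ≤ 1 / 2) (hεD : ε * D ≤ G.r₀ / 4) (hD : ∀ x y : M, dist x y ≤ D) (p Δ : EE n) ( …  -- local part of the semiconcavity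
* theorem semiE [CompactSpace M] (G : GeoData n M) (x : M) (R : ℝ) : ∃ K : ℝ, 0 ≤ K ∧ ∀ p Δ : EE n, ‖p‖ ≤ R → ‖Δ‖ ≤ R → ∀ x₁ : M, ∃ κ : ℝ, ∀ t : ℝ, halfDistSq x₁ (G.ex x (p + t • Δ : EE n)) ≤ halfDistSq x₁ (G.ex x p) + κ * t + K * t ^ 2  -- semiconcavity of the cost along chords of a ball of `T_xM` (model norm), uniform in the other point.

### R226/NS1B_683 [ns Crest.Agent.R226.NS683] 
* def CS (G : GeoData n M) : Set (M × M)  -- pairs `(x', y)` with `x'` a cut point of `y` (a velocity in `K(y) \ I(y)`).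
* theorem ae_not_cut [MeasurableSpace M] [BorelSpace M] {G : GeoData n M} (hC : CutFacts G) {c : ℝ → M} (hc : Continuous c) : ∀ᵐ z ∂(Measure.hausdorffMeasure (n : ℝ) : Measure M), ∀ᵐ s : ℝ, (z, c s) ∉ CS G  -- for almost every `z`, almost no point of the curve is a cut point of `z`.
* theorem exists_good [MeasurableSpace M] [BorelSpace M] {G : GeoData n M} (hC : CutFacts G) {c : ℝ → M} (hc : Continuous c) {U : Set M} (hU : IsOpen U) (hne : U.Nonempty) : ∃ z ∈ U, ∀ᵐ s : ℝ, (z, c s) ∉ CS G  -- good points are dense.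

### R226/NS1C_683 [ns Crest.Agent.R226.NS683] 
* theorem continuous_gg (G : GeoData n M) {x : M} (p₀ p₁ : TangentSpace (𝓡 n) x) : Continuous (fun q : (ℝ × M) × ℝ => gg G x (q.1.1 • p₀) (q.1.1 • p₁) q.1.2 q.2)  -- joint continuity of `gg` in the scaling, the far point and the time.
* theorem exists_parabola [CompactSpace M] (G : GeoData n M) {x : M} (p₀ p₁ : TangentSpace (𝓡 n) x) : ∃ K : ℝ, 0 ≤ K ∧ ∀ r : ℝ, 0 ≤ r → r ≤ 1 → ∀ x₁ : M, ∀ s₀ ∈ Icc (-1 : ℝ) 2, ∃ κ : ℝ, ∀ s ∈ Icc (-1 : ℝ) 2, gg G x (r • p₀) (r • p₁) x₁ s₀ + κ * (s - s₀) - K * (s - s₀) ^ 2 ≤ gg G x (r • p₀) (r • p₁) x₁ s  -- supporting parabolas of `gg`, uniform in the scaling and in the far point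
* theorem kink_pert {G : GeoData n M} (hC : CutFacts G) {C : ℝ} (hC0 : 0 ≤ C) (hT : T1iP G C) {x : M} {p₀ p₁ : TangentSpace (𝓡 n) x} (hp₀ : p₀ ∈ G.K x) (hp₁ : p₁ ∈ G.K x) {K : ℝ} (hK0 : 0 ≤ K) (hK : ∀ r : ℝ, 0 ≤ r → r ≤ 1 → ∀ x₁ : M, ∀ s₀ ∈ Icc (-1 : ℝ) 2, ∃ κ : ℝ, ∀ s ∈ Icc (-1 : ℝ) 2, gg G x (r • p₀) (r • p₁) x₁ s₀ + κ * (s - s₀) - K * (s - s₀) ^ 2 ≤ gg G x (r • p₀) (r • p₁) x₁ s) {r : ℝ} (hr0 : 0 ≤ r) (hr1 : r < 1)  …  -- the kink lemma for the perturbed chord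
* theorem kink_limit [MeasurableSpace M] [BorelSpace M] {G : GeoData n M} (hC : CutFacts G) {C : ℝ} (hC0 : 0 ≤ C) (hT : T1iP G C) {x : M} {p₀ p₁ : TangentSpace (𝓡 n) x} (hp₀ : p₀ ∈ G.K x) (hp₁ : p₁ ∈ G.K x) {K : ℝ} (hK0 : 0 ≤ K) (hK : ∀ r : ℝ, 0 ≤ r → r ≤ 1 → ∀ x₁ : M, ∀ s₀ ∈ Icc (-1 : ℝ) 2, ∃ κ : ℝ, ∀ s ∈ Icc (-1 : ℝ) 2, gg G x (r • p₀) (r • p₁) x₁ s₀ + κ * (s - s₀) - K * (s - s₀) ^ 2 ≤ gg G x (r • p₀) (r • p₁) x₁ s)  …  -- passage to the limit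
* theorem ns1P_of_T1iP [MeasurableSpace M] [BorelSpace M] {G : GeoData n M} (hC : CutFacts G) {C : ℝ} (hC0 : 0 ≤ C) (hT : T1iP G C) : NS1P G C  -- L3: the pointwise inequality implies the one-variable inequality.

### R226/NS1Def_683 [ns Crest.Agent.R226.NS683] 
* def gg (G : GeoData n M) (x : M) (p₀ p₁ : TangentSpace (𝓡 n) x) (x₁ : M) (s : ℝ) : ℝ  -- `gg s = ‖p_s‖²/2 - c(x₁, exp_x p_s)`, `p_s = p₀ + s (p₁ - p₀)`; for `p_s ∈ K(x)` this is `c(x, y_s) - c(x₁, y_s)`, `y_s = exp_x p_s`.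
* def T1iP (G : GeoData n M) (C : ℝ) : Prop  -- (T1)(i) of doc 1735, pointwise, at smooth points only (`p₀, p₁ ∈ I(x)`, `y_s ∉ cut(x₁)`), in the consumer form of doc 1855 (1)(iii): while `g > 0`, `g'' ≥ -
* def NS1P (G : GeoData n M) (C : ℝ) : Prop  -- NS1: if `g ≥ fs > 0` on `[0, S]` and `-g'(0+) ≤ m` then `g 0 - g S ≤ S exp(C ‖p₁ - p₀‖ (1 + 1/√fs)) max(0, m)`.

### R226/NS1Top_115 [ns Crest.Agent.R226.NS1Top115] 
* theorem exists_radP (hC : CutFacts G) : ∃ c C : ℝ, 0 < c ∧ 0 ≤ C ∧ RadP G c C  -- `RadP` (946)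
* theorem exists_t1iP (hC : CutFacts G) (hM : MTWFacts G) (hg : GoodAll G) : ∃ C : ℝ, 0 ≤ C ∧ T1iP G C  -- (T1)(i)
* theorem exists_ns1P [MeasurableSpace M] [BorelSpace M] (hC : CutFacts G) (hM : MTWFacts G) (hg : GoodAll G) : ∃ C : ℝ, 0 ≤ C ∧ NS1P G C  -- NS1
* theorem half2P [MeasurableSpace M] [BorelSpace M] [IsFiniteMeasure (Measure.hausdorffMeasure (n : ℝ) : Measure M)] (hC : CutFacts G) (hM : MTWFacts G) (hg : GoodAll G) {m : ℝ} (hm : 0 < m) : Plan619.Half2P (Measure.hausdorffMeasure (n : ℝ) : Measure M) m  -- Half 2 of the pair dichotomy, unconditionally (114's `half2P_of_T1iP`).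

### R226/NearDiagFinal_996 [ns Crest.Agent.R226.NearDiagFinal996] 
* theorem g_cs (hLC : CF.IsLC U g Γ) {a : E} (ha : a ∈ U) (v w : E) : (g a v w) ^ 2 ≤ g a v v * g a w w  -- Cauchy–Schwarz for `g a`
* def Disc : Set (E × E)  -- the disc bundle
* def DiscImg : Set (E × E)  -- the image of the disc bundle
* def Ob (a : E) : Set E  -- the local ball
* theorem nonempty_nearDiag {n : ℕ} {M : Type*} [MetricSpace M] [ChartedSpace (EuclideanSpace ℝ (Fin n)) M] [IsManifold (𝓡 n) ∞ M] [RiemannianBundle (fun p : M => TangentSpace (𝓡 n) p)] [IsContMDiffRiemannianBundle (𝓡 n) ∞ (EuclideanSpace ℝ (Fin n)) (fun p : M => TangentSpace (𝓡 n) p)] [IsRiemannianManifold (𝓡 n) M] [CompactSpace M] : Nonempty (NearDiag n M)  -- Layer A: near-diagonal Riemannian geometry of a compact Riemannian manifold.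

### R226/NearDiagThm_996 [ns Crest.Agent.R226.NearDiagThm996] 
* structure LocalNear (x₀ : M) where W : Set M isOpen_W : IsOpen W mem_W : x₀ ∈ W r : ℝ r_pos : 0 < r e : ∀ x : M, TangentSpace (𝓡 n) x → M smooth : ∀ p : TangentBundle (𝓡 n) M, p.1 ∈ W → ‖p.2‖ < r → ContMDiffAt (𝓡 n).tangent (𝓡 n) ∞ (fun p : TangentBundle (𝓡 n) M => e p.1 p.2) p smooth_cost : ∀ x ∈ W, ∀ y, dist x y < r → ContMDiffAt ((𝓡 n).prod (𝓡 n)) 𝓘(ℝ) ∞ (fun q : M × M => halfDistSq q.1 q.2) (x, y) e_zero : ∀ x ∈  …  -- Near-diagonal geometry around one point `x₀`: base points in the open set `W ∋ x₀`, velocities of norm `< r`.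
* theorem LocalNear.agree {a b : M} (A : LocalNear n M a) (B : LocalNear n M b) {x : M} (hxa : x ∈ A.W) (hxb : x ∈ B.W) {v : TangentSpace (𝓡 n) x} (hva : ‖v‖ < A.r) (hvb : ‖v‖ < B.r) : A.e x v = B.e x v  -- the local exponential maps agree where both are defined
* theorem nonempty_nearDiag_of_localNear [CompactSpace M] [IsContMDiffRiemannianBundle (𝓡 n) ∞ (EuclideanSpace ℝ (Fin n)) (fun p : M => TangentSpace (𝓡 n) p)] (hL : ∀ x₀ : M, Nonempty (LocalNear n M x₀)) : Nonempty (NearDiag n M)  -- A5: local near-diagonal geometry around every point gives `NearDiag`.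

### R226/NearLem_90 [ns Crest.Agent.R226.NearLem90] 
* def dL (f : M → ℝ) (x : M) : TangentSpace (𝓡 n) x →L[ℝ] ℝ  -- the differential of a real function, as a real-valued functional
* theorem hasDerivAt_comp_curve {f : M → ℝ} {γ : ℝ → M} {t : ℝ} {x : M} (hx : γ t = x) (hf : MDifferentiableAt (𝓡 n) 𝓘(ℝ) f x) (hγ : MDifferentiableAt 𝓘(ℝ, ℝ) (𝓡 n) γ t) : HasDerivAt (fun t' => f (γ t')) (dL n f x (curveVel n γ t)) t  -- chain rule along a curve, in `HasDerivAt` form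
* theorem mfderiv_cost_left {x : M} {v : TangentSpace (𝓡 n) x} (hv : ‖v‖ < N.r₀) (ξ : TangentSpace (𝓡 n) x) : dL n (fun x' : M => halfDistSq x' (N.e x v)) x ξ = -inner ℝ v ξ  -- differential of the cost at the base point: `d_x c(·, e x v) = -⟪v, ·⟫`.
* theorem hasDerivAt_cost_curve {γ : ℝ → M} {t : ℝ} (hγ : MDifferentiableAt 𝓘(ℝ, ℝ) (𝓡 n) γ t) {v : TangentSpace (𝓡 n) (γ t)} (hv : ‖v‖ < N.r₀) : HasDerivAt (fun t' => halfDistSq (γ t') (N.e (γ t) v)) (-inner ℝ v (curveVel n γ t)) t  -- first variation along any differentiable curve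
* theorem dist_e_smul {x : M} {v : TangentSpace (𝓡 n) x} (hv : ‖v‖ < N.r₀) {t : ℝ} (ht : |t| ≤ 1) : dist x (N.e x (t • v)) = |t| * ‖v‖  -- distance from the centre along the radial curve

### R226/NearLog_90 [ns Crest.Agent.R226.NearLog90] 
* theorem lg_reversal {x : M} {v : TangentSpace (𝓡 n) x} (hv : ‖v‖ < N.r₀) : lg N (N.e x ((1 : ℝ) • v)) x = -(curveVel n (fun t : ℝ => N.e x (t • v)) 1)  -- the logarithm at the end point is minus the end velocity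
* theorem dL_cost_right {x : M} {v : TangentSpace (𝓡 n) x} (hv : ‖v‖ < N.r₀) (η : TangentSpace (𝓡 n) (N.e x ((1 : ℝ) • v))) : dL n (fun y' : M => halfDistSq x y') (N.e x ((1 : ℝ) • v)) η = inner ℝ (curveVel n (fun t : ℝ => N.e x (t • v)) 1) η  -- first variation at the end point: `d/dy c(x,·) at exp_x v = ⟪vel_1, ·⟫`
* theorem contMDiffAt_neg_gradX {f : M × M → ℝ} {q₀ : M × M} (hf : ContMDiffAt ((𝓡 n).prod (𝓡 n)) 𝓘(ℝ) ∞ f q₀) {w : ∀ q : M × M, TangentSpace (𝓡 n) q.1} (hw : ∀ᶠ q in 𝓝 q₀, ∀ ξ : TangentSpace (𝓡 n) q.1, dL n (fun x' => f (x', q.2)) q.1 ξ = -inner ℝ (w q) ξ) : ContMDiffAt ((𝓡 n).prod (𝓡 n)) (𝓡 n).tangent ∞ (fun q => (⟨q.1, w q⟩ : TangentBundle (𝓡 n) M)) q₀  -- smoothness of minus the gradient in the first variable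
* theorem contMDiffAt_lg {x y : M} (h : dist x y < N.r₀) : ContMDiffAt ((𝓡 n).prod (𝓡 n)) (𝓡 n).tangent ∞ (fun q : M × M => (⟨q.1, lg N q.1 q.2⟩ : TangentBundle (𝓡 n) M)) (x, y)  -- the logarithm is smooth near the diagonal
* theorem mid_unique {x y m : M} {s : ℝ} (h : dist x y < N.r₀) (hs : 0 ≤ s) (hs1 : s ≤ 1) (h1 : dist x m = s * dist x y) (h2 : dist m y = (1 - s) * dist x y) : m = N.e x (s • lg N x y)  -- uniqueness of near intermediate points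

### R226/OscEnd_977 [ns Crest.Agent.R226.Osc977] 
* def QS (G : GeoData n M) (u : M → ℝ) (y : M) (h : ℝ) : Set (TangentSpace (𝓡 n) y)  -- the section `X_h(y)` in the tangent space at `y`: `Q_h(y) ⊆ K(y)`.
* theorem norm_sub_sq_le {G : GeoData n M} (hg : GoodAll G) {u : M → ℝ} (hu : CConv u) {y : M} {h : ℝ} {p q : TangentSpace (𝓡 n) y} (hp : p ∈ QS G u y h) (hq : q ∈ QS G u y h) : ‖p - q‖ ^ 2 ≤ 8 * osc u y h  -- `diam(Q_h(y))² ≤ 8 A(y,h)`.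
* theorem norm_sub_sq_le_of_nearest {E : Type*} [NormedAddCommGroup E] [InnerProductSpace ℝ E] {Q : Set E} (hQ : Convex ℝ Q) {p q : E} (hp : p ∈ Q) (hmin : ∀ w ∈ Q, ‖p‖ ≤ ‖w‖) (hq : q ∈ Q) : ‖q - p‖ ^ 2 ≤ ‖q‖ ^ 2 - ‖p‖ ^ 2  -- nearest point: `|q - q_⊥|² ≤ |q|² - |q_⊥|²` on a convex set whose norm is minimal at `q_⊥`.
* theorem dist_le_sqrt_osc (G : GeoData n M) (hg : GoodAll G) : ∃ L : ℝ, 0 ≤ L ∧ ∀ u : M → ℝ, CConv u → ∀ (y : M) (h : ℝ) (x x' : M), Dd u x y ≤ h → Dd u x' y ≤ h → dist x x' ≤ L * Real.sqrt (osc u y h)  -- points of a section at height `h` are `C √(osc)`-close.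
* theorem estatement_of_osc (G : GeoData n M) (hg : GoodAll G) (vol : Measure M) (m : ℝ) (hA : ∃ C g : ℝ, 0 < g ∧ ∀ u : M → ℝ, CConv u → AlexPinch vol u m → AlexPinch vol (ctr u) m → ∀ (y : M) (h : ℝ), 0 < h → h ≤ 1 → osc u y h ≤ C * h ^ g) : EStatement vol m  -- (L8): a uniform power bound for the oscillations `A(y,h)` in the (symmetric) class of pinched potentials implies `EStatement`.

### R226/PairLem_433 [ns Crest.Agent.R226.PairLem433] The PAIR lemma (crossing-free selection of the base point). `Sees n0 th v z` : the chord `n0 + th v → n0 + z` is outward from its start. * `three` : of three vectors (pairwise angles `≤ 60°`, `⟪n0, ·⟫ ≥ 0`) one ordered pair sees; * `exists_base` : for a finite measure on `{⟪n0, ·⟫ ≥ 0}` there is a base point `z` of the carrier seen by a fixed proportion of the mass.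
* theorem three_ord {n0 : E} {th : ℝ} (h0 : 0 ≤ th) (h1 : th ≤ 1 / 4) {v1 v2 v3 : E} (g1 : 0 ≤ ⟪n0, v1⟫_ℝ) (g12 : ⟪n0, v1⟫_ℝ ≤ ⟪n0, v2⟫_ℝ) (g23 : ⟪n0, v2⟫_ℝ ≤ ⟪n0, v3⟫_ℝ) (c12 : ‖v1‖ * ‖v2‖ ≤ 2 * ⟪v1, v2⟫_ℝ) (c23 : ‖v2‖ * ‖v3‖ ≤ 2 * ⟪v2, v3⟫_ℝ) : Sees n0 th v1 v2 ∨ Sees n0 th v2 v1 ∨ Sees n0 th v2 v3 ∨ Sees n0 th v3 v2  -- Three vectors, ordered by `⟪n0, ·⟫`.
* theorem three {n0 : E} {th : ℝ} (h0 : 0 ≤ th) (h1 : th ≤ 1 / 4) {v1 v2 v3 : E} (g1 : 0 ≤ ⟪n0, v1⟫_ℝ) (g2 : 0 ≤ ⟪n0, v2⟫_ℝ) (g3 : 0 ≤ ⟪n0, v3⟫_ℝ) (c12 : ‖v1‖ * ‖v2‖ ≤ 2 * ⟪v1, v2⟫_ℝ) (c13 : ‖v1‖ * ‖v3‖ ≤ 2 * ⟪v1, v3⟫_ℝ) (c23 : ‖v2‖ * ‖v3‖ ≤ 2 * ⟪v2, v3⟫_ℝ) : Sees n0 th v1 v2 ∨ Sees n0 th v2 v1 ∨ Sees n0 th v1 v3 ∨ Sees n0 th v3 v1 ∨ Sees n0 th v2 v3 ∨ Sees n0 th v3 v2  -- The pair lemma.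
* def cone (u : E) : Set E  -- A closed cone of opening `≤ 60°` around `u`.
* theorem exists_of_triple {α : Type*} [MeasurableSpace α] (ν : Measure α) [IsFiniteMeasure ν] (hν : ν ≠ 0) {S : Set (α × α)} (hS : MeasurableSet S) {B : Set α} (hB : ν Bᶜ = 0) (h3 : ∀ a ∈ B, ∀ b ∈ B, ∀ c ∈ B, (a, b) ∈ S ∨ (b, a) ∈ S ∨ (a, c) ∈ S ∨ (c, a) ∈ S ∨ (b, c) ∈ S ∨ (c, b) ∈ S) : ∃ z ∈ B, ν univ ≤ 6 * ν {v | (v, z) ∈ S}  -- Triple counting: if among any three points of the carrier some ordered pair is in `S`, then some point of the carrier is the second entry for a sixth of the mas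
* theorem exists_base : ∃ C : ℝ≥0∞, C ≠ ∞ ∧ ∀ (n0 : E) (th : ℝ), 0 ≤ th → th ≤ 1 / 4 → ∀ (μ : Measure E) [IsFiniteMeasure μ] (A : Set E), MeasurableSet A → μ Aᶜ = 0 → μ univ ≠ 0 → (∀ v ∈ A, 0 ≤ ⟪n0, v⟫_ℝ) → ∃ z ∈ A, μ univ ≤ C * μ {v | v ∈ A ∧ Sees n0 th v z}  -- Base point selection: a fixed proportion of the mass sees one point of the carrier.

### R226/ParentSeg_464 [ns Crest.Agent.R226.ParentSeg464] 
* theorem exists_class (t : Finset E) (ht : ∀ v : E, ∃ u ∈ t, v ∈ cone u) (ν : Measure E) (ps : E) (𝒢 : Set E) (hc : IsCompact 𝒢) (h0 : ν 𝒢 ≠ 0) (hf : ν 𝒢 ≠ ∞) : ∃ (u : E) (S : Set E), S ⊆ 𝒢 ∧ IsCompact S ∧ ν 𝒢 ≤ (2 * t.card + 1) * ν S ∧ (∀ q ∈ S, q - ps ∈ cone u) ∧ ((∀ q ∈ S, ‖q - ps‖ ^ 2 ≤ 8 * ⟪ps, q - ps⟫) ∨ ∃ δ : ℝ, 0 < δ ∧ ∀ q ∈ S, 8 * ⟪ps, q - ps⟫ ≤ ‖q - ps‖ ^ 2 ∧ δ ≤ ‖q - ps‖)  -- the classes (radial or lateral, in a cone), in compact form.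
* def SegC (c₁ C : ℝ) : Prop  -- the body of the statement `parent_seg`.
* theorem segC_of_cones {c₁ : ℝ} (hc₁ : 0 < c₁) (t : Finset E) (ht : ∀ v : E, ∃ u ∈ t, v ∈ cone u) {N : ℕ} (hN : t.card ≤ N) {L : ℝ} (hL : L = (1 / 2 : ℝ) ^ finrank ℝ E * c₁ * ((1 / 4 : ℝ) ^ finrank ℝ E * c₁)) : SegC E c₁ ((3 * (2 * (N : ℝ) + 1) + 1) / L)  -- Common parent on a segment, explicit constant in terms of a family of cones.
* theorem parent_seg {c₁ : ℝ} (hc₁ : 0 < c₁) : ∃ C : ℝ, 0 < C ∧ ∀ (μ : Measure E) [μ.IsAddHaarMeasure] (K : Set E) (J : E → ℝ≥0∞), Convex ℝ K → WNcP K J (1 / 1024) (1 / 4) c₁ → ∀ ps ∈ K, ∀ A ⊆ K, (∀ p ∈ A, 0 ≤ ⟪ps, p - ps⟫) → ∀ 𝒢 ⊆ K, IsCompact 𝒢 → (∀ q ∈ 𝒢, ∃ p ∈ A, ∃ k : ℝ, 1 / 2 ≤ k ∧ k ≤ 1 ∧ q = con ps k p) → ∫⁻ p in 𝒢, J p ∂μ ≠ 0 → ∫⁻ p in 𝒢, J p ∂μ ≠ ∞ → ∃ zN ∈ A, ∃ zF ∈ A, ∃ W ⊆ K, IsCompact W ∧ ∫⁻ p in 𝒢, J p ∂ …  -- Common parent on a segment.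
* theorem parent_seg_unif (n : ℕ) {c₁ : ℝ} (hc₁ : 0 < c₁) : ∃ C : ℝ, 0 < C ∧ ∀ (F : Type*) [NormedAddCommGroup F] [InnerProductSpace ℝ F] [FiniteDimensional ℝ F] [MeasurableSpace F] [BorelSpace F], finrank ℝ F = n → SegC F c₁ C  -- Common parent on a segment, with a constant which depends only on the dimension.

### R226/ParentSeg_486 [ns Crest.Agent.R226.ParentSeg486] ### the affine map
* theorem margin_rad {ps z w : E} (hw : ‖w‖ ^ 2 ≤ 8 * ⟪ps, w⟫) (hzw : 0 ≤ ⟪z, w⟫) (h1 : ⟪ps, w⟫ ≤ ⟪ps, z⟫) (h2 : ‖z‖ ^ 2 ≤ 32 * ⟪ps, z⟫) : 1 / 1024 * ‖z - (1 / 4 : ℝ) • w‖ ^ 2 ≤ ⟪ps + (1 / 4 : ℝ) • w, z - (1 / 4 : ℝ) • w⟫  -- margin in the radial class.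
* def lin (e z : E) : E →L[ℝ] E  -- its linear part.
* def Concl (μ : Measure E) (K : Set E) (J : E → ℝ≥0∞) (ps : E) (A P : Set E) (C : ℝ) : Prop  -- the conclusion of the parent step for the piece `P` with constant `C`.
* def cst (E : Type*) [NormedAddCommGroup E] [InnerProductSpace ℝ E] (c₁ : ℝ) : ℝ  -- the constant of one piece.
* theorem parent_seg {c₁ : ℝ} (hc₁ : 0 < c₁) : ∃ C : ℝ, 0 < C ∧ ∀ (μ : Measure E) [μ.IsAddHaarMeasure] (K : Set E) (J : E → ℝ≥0∞), Convex ℝ K → WNcP K J (1 / 1024) (1 / 4) c₁ → ∀ ps ∈ K, ∀ A ⊆ K, (∀ p ∈ A, 0 ≤ ⟪ps, p - ps⟫) → ∀ 𝒢 ⊆ K, IsCompact 𝒢 → (∀ q ∈ 𝒢, ∃ p ∈ A, ∃ k : ℝ, 1 / 2 ≤ k ∧ k ≤ 1 ∧ q = con ps k p) → ∫⁻ p in 𝒢, J p ∂μ ≠ 0 → ∫⁻ p in 𝒢, J p ∂μ ≠ ∞ → ∃ zN ∈ A, ∃ zF ∈ A, ∃ W ⊆ K, IsCompact W ∧ ∫⁻ p in 𝒢, J p ∂ …  -- Common parents on a segment (helper881, msg 12332).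

### R226/ParentSeg_881 [ns Crest.Agent.R226.ParentSeg881] 
* theorem target {w zN zF : E} (h1 : ‖w‖ ≤ ‖zF‖) (h2 : ‖zN‖ ≤ 2 * ‖w‖) (cF : 7 / 8 * (‖w‖ * ‖zF‖) ≤ ⟪w, zF⟫) (cN : 7 / 8 * (‖w‖ * ‖zN‖) ≤ ⟪w, zN⟫) : 0 ≤ fz zF w ∧ fz zF w ≤ 1 ∧ 49 / 64 * ‖w‖ ^ 2 ≤ ⟪w, (1 - fz zF w) • zN + fz zF w • zF⟫ ∧ ‖(1 - fz zF w) • zN + fz zF w • zF‖ ≤ 3 * ‖w‖  -- facts about the moving target `r = (1-τ) zN + τ zF`, `τ = fz zF w`.
* theorem affine_ge (μ : Measure E) [μ.IsAddHaarMeasure] {J : E → ℝ≥0∞} (a ps : E) (f : Dual ℝ E) (v : E) (hf : 0 ≤ f v) {V : Set E} (hV : MeasurableSet V) {c : ℝ} (h : ∀ q ∈ V, ENNReal.ofReal c * J q ≤ J (a + (1 / 8 : ℝ) • LinearMap.transvection f v (q - ps))) : ENNReal.ofReal ((1 / 8 : ℝ) ^ finrank ℝ E) * (ENNReal.ofReal c * ∫⁻ p in V, J p ∂μ) ≤ ∫⁻ p in (fun q => a + (1 / 8 : ℝ) • LinearMap.transvection f v (q - ps)) …  -- an affine change of variables with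 a pointwise comparison of the density.
* theorem two_moves (μ : Measure E) [μ.IsAddHaarMeasure] {K : Set E} {J : E → ℝ≥0∞} {c₁ : ℝ} (hc₁ : 0 < c₁) (hK : Convex ℝ K) (hW : WNcP K J (1 / 1024) (1 / 4) c₁) {ps : E} (hps : ps ∈ K) {V : Set E} (hVc : IsCompact V) (hVK : V ⊆ K) (r : E → E) (hr : ∀ q ∈ V, r q ∈ K) (hin : ∀ q ∈ V, 0 ≤ ⟪ps, q - ps⟫) (hm : ∀ q ∈ V, 1 / 1024 * ‖r q - con ps (1 / 4) q‖ ^ 2 ≤ ⟪con ps (1 / 4) q, r q - con ps (1 / 4) q⟫) (a : E) (f : Dual …  -- two moves with a strict margin.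
* theorem piece (μ : Measure E) [μ.IsAddHaarMeasure] {K : Set E} {J : E → ℝ≥0∞} {c₁ : ℝ} (hc₁ : 0 < c₁) (hK : Convex ℝ K) (hW : WNcP K J (1 / 1024) (1 / 4) c₁) {ps : E} (hps : ps ∈ K) {A : Set E} (hAK : A ⊆ K) (hA : ∀ p ∈ A, 0 ≤ ⟪ps, p - ps⟫) {u : E} {V : Set E} (hVc : IsCompact V) (hVne : V.Nonempty) (hVK : V ⊆ K) (hVA : ∀ q ∈ V, ∃ p ∈ A, ∃ k : ℝ, 1 / 2 ≤ k ∧ k ≤ 1 ∧ q = con ps k p) (hcone : ∀ q ∈ V, q - ps ∈ ncone u) …  -- a compact piece moves by one affine map.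
* theorem parent_seg {c₁ : ℝ} (hc₁ : 0 < c₁) : ∃ C : ℝ, 0 < C ∧ ∀ (μ : Measure E) [μ.IsAddHaarMeasure] (K : Set E) (J : E → ℝ≥0∞), Convex ℝ K → WNcP K J (1 / 1024) (1 / 4) c₁ → ∀ ps ∈ K, ∀ A ⊆ K, (∀ p ∈ A, 0 ≤ ⟪ps, p - ps⟫) → ∀ 𝒢 ⊆ K, IsCompact 𝒢 → (∀ q ∈ 𝒢, ∃ p ∈ A, ∃ k : ℝ, 1 / 2 ≤ k ∧ k ≤ 1 ∧ q = con ps k p) → ∫⁻ p in 𝒢, J p ∂μ ≠ 0 → ∫⁻ p in 𝒢, J p ∂μ ≠ ∞ → ∃ zN ∈ A, ∃ zF ∈ A, ∃ W ⊆ K, IsCompact W ∧ ∫⁻ p in 𝒢, J p ∂ …  -- Common parents, without (W0).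

### R226/Parent_433 [ns Crest.Agent.R226.Parent433] 
* def W0P (K : Set E) (J : E → ℝ≥0∞) (τ c : ℝ) : Prop  -- (W0): chords that start at or behind the foot.
* theorem lintegral_con_ge (μ : Measure E) [μ.IsAddHaarMeasure] {J : E → ℝ≥0∞} (z : E) {a : ℝ} (ha : 0 < a) {A : Set E} (hA : MeasurableSet A) {c : ℝ} (h : ∀ p ∈ A, ENNReal.ofReal c * J p ≤ J (con z a p)) : ENNReal.ofReal (a ^ finrank ℝ E) * (ENNReal.ofReal c * ∫⁻ p in A, J p ∂μ) ≤ ∫⁻ p in con z a '' A, J p ∂μ  -- one homothety with a pointwise comparison of the density.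
* theorem parent {c₀ c₁ : ℝ} (hc₀ : 0 < c₀) (hc₁ : 0 < c₁) : ∃ C : ℝ, 0 < C ∧ ∀ (μ : Measure E) [μ.IsAddHaarMeasure] (K : Set E) (J : E → ℝ≥0∞), Convex ℝ K → WNcP K J (1 / 4) (1 / 4) c₁ → W0P K J (1 / 2) c₀ → ∀ ps ∈ K, ∀ A ⊆ K, (∀ p ∈ A, 0 ≤ ⟪ps, p - ps⟫) → ∀ 𝒢 ⊆ K, IsCompact 𝒢 → (∀ q ∈ 𝒢, ∃ p ∈ A, ∃ k : ℝ, 0 < k ∧ k ≤ 1 ∧ q = con ps k p) → ∫⁻ p in 𝒢, J p ∂μ ≠ 0 → ∫⁻ p in 𝒢, J p ∂μ ≠ ∞ → ∃ pF ∈ A, ∃ W ⊆ K, IsCompact W  …  -- Common parent.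

### R226/Plan_619 [ns Crest.Agent.R226.Plan619] 
* def Half1P (vol : Measure M) (m : ℝ) : Prop  -- Half 1 (new mass): at a pair `(x₀, x₁)` without growth there are a column `y_F` seen by `x₀` and a compact set `X` of points seeing `y_F`, at the level of `
* def Half2P (vol : Measure M) (m : ℝ) : Prop  -- Half 2 (tall column): a column `y` seen by `x₀` and by a compact set `X` of points whose potential is `≥ a` below `u x₀` produces a pair (of `u` or of `ctr 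

### R226/RadialSmooth_542 [ns Crest.Agent.R226] 
* theorem contMDiff_scale : ContMDiff (𝓘(ℝ, ℝ).prod (𝓡 n).tangent) (𝓡 n).tangent ∞ (fun q : ℝ × TangentBundle (𝓡 n) M => (⟨q.2.1, q.1 • q.2.2⟩ : TangentBundle (𝓡 n) M))  -- joint smoothness of the fibrewise scaling on the tangent bundle
* theorem contMDiff_scaleT_left (p : TangentBundle (𝓡 n) M) : ContMDiff 𝓘(ℝ, ℝ) (𝓡 n).tangent ∞ (fun t : ℝ => (⟨p.1, t • p.2⟩ : TangentBundle (𝓡 n) M))  -- the scaling, pointwise version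
* theorem contMDiffAt_radial {e : ∀ x : M, TangentSpace (𝓡 n) x → M} {q₀ : ℝ × TangentBundle (𝓡 n) M} (he : ContMDiffAt (𝓡 n).tangent (𝓡 n) ∞ (fun p : TangentBundle (𝓡 n) M => e p.1 p.2) (⟨q₀.2.1, q₀.1 • q₀.2.2⟩ : TangentBundle (𝓡 n) M)) : ContMDiffAt (𝓘(ℝ, ℝ).prod (𝓡 n).tangent) (𝓡 n).tangent ∞ (fun q : ℝ × TangentBundle (𝓡 n) M => radial e q.1 q.2) q₀  -- Smoothness of `radial e` at a point `q₀ = (t₀,p₀)` such that `e` is smooth at `⟨x₀, t₀ v₀⟩`.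
* theorem contMDiffAt_radial_curve {e : ∀ x : M, TangentSpace (𝓡 n) x → M} {x : M} {v : TangentSpace (𝓡 n) x} {t : ℝ} (he : ContMDiffAt (𝓡 n).tangent (𝓡 n) ∞ (fun p : TangentBundle (𝓡 n) M => e p.1 p.2) (⟨x, t • v⟩ : TangentBundle (𝓡 n) M)) : ContMDiffAt 𝓘(ℝ, ℝ) (𝓡 n) ∞ (fun s : ℝ => e x (s • v)) t  -- radial curves are smooth where `e` is
* theorem NearDiag.contMDiffOn_radial (N : NearDiag n M) : ContMDiffOn (𝓘(ℝ, ℝ).prod (𝓡 n).tangent) (𝓡 n).tangent ∞ (fun q : ℝ × TangentBundle (𝓡 n) M => radial N.e q.1 q.2) {q | |q.1| * ‖q.2.2‖ < N.r₀}  -- the field `smooth` of `SmallFlow`.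

### R226/Reduction_624 [ns Crest.Agent.R226.Reduction624] 
* def AEUnique (vol : Measure M) : Prop  -- F3: a.e. uniqueness of `c`-subgradients of `c`-convex functions.
* def EStatement (vol : Measure M) (m : ℝ) : Prop  -- Target of group E (`m = lam / Lam`): uniform bi-Hölder regularity of Alexandrov solutions.
* theorem uniform_biHolder [CompactSpace M] (vol : Measure M) {lam Lam : ℝ} (hlam : 0 < lam) (hle : lam ≤ Lam) (hF3 : AEUnique vol) (hE : EStatement vol (lam / Lam)) : ∃ α : ℝ, 0 < α ∧ α ≤ 1 ∧ ∃ C : ℝ, ∀ ρ₀ ρ₁ : M → ℝ, Measurable ρ₀ → Measurable ρ₁ → (∀ᵐ x ∂vol, lam ≤ ρ₀ x ∧ ρ₀ x ≤ Lam ∧ lam ≤ ρ₁ x ∧ ρ₁ x ≤ Lam) → (∫⁻ x, ENNReal.ofReal (ρ₀ x) ∂vol) = 1 → (∫⁻ x, ENNReal.ofReal (ρ₁ x) ∂vol) = 1 → ∀ T : M → M, IsMongeOpti …  -- Reduction of S0350 for an arbitrary Borel measure `vol` on a compact metric space.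

### R226/RowBd_487 [ns Crest.Agent.R226.Row487] 
* theorem col_halfspace (hg : GoodAll G) {u : M → ℝ} {yF : M} (y2 : M) {qt : TangentSpace (𝓡 n) yF} (hqt : qt ∈ G.K yF) {ε : ℝ} (hε : 0 < ε) : ∃ f : TangentSpace (𝓡 n) yF →L[ℝ] ℝ, ∀ q ∈ G.K yF, f qt ≤ f q → Dd u (G.ex yF q) y2 ≤ Dd u (G.ex yF q) yF + Dd u (G.ex yF qt) y2 - Dd u (G.ex yF qt) yF + ε  -- the Loeper half-space in a column: targets in it see `y₂` as well as `x_t` does.
* theorem row_pair (hg : GoodAll G) {vol : Measure M} [IsFiniteMeasure vol] {u : M → ℝ} (hu : CConv u) {yF : M} {H m' : ℝ} {W : Set (TangentSpace (𝓡 n) yF)} (hW : W ⊆ QS G u yF H) {qt : TangentSpace (𝓡 n) yF} (hqt : qt ∈ G.K yF) (hmass : ∀ f : TangentSpace (𝓡 n) yF →L[ℝ] ℝ, m' ≤ (vol (G.ex yF '' {q | q ∈ W ∧ f qt ≤ f q})).toReal) (y2 : M) {ε : ℝ} (hε : 0 < ε) : m' ≤ (vol {x | Dd u x yF ≤ H ∧ Dd u x y2 ≤ H + Dd u (G.ex  …  -- (R1)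
* theorem row_pair_Vp (hg : GoodAll G) {vol : Measure M} [IsFiniteMeasure vol] {u : M → ℝ} (hu : CConv u) {yF : M} {H H1 h' m' : ℝ} {W : Set (TangentSpace (𝓡 n) yF)} (hW : W ⊆ QS G u yF H) {qt : TangentSpace (𝓡 n) yF} (hqt : qt ∈ G.K yF) (hmass : ∀ f : TangentSpace (𝓡 n) yF →L[ℝ] ℝ, m' ≤ (vol (G.ex yF '' {q | q ∈ W ∧ f qt ≤ f q})).toReal) {y2 : M} (hy2 : Dd u (G.ex yF qt) y2 ≤ H1) (hH1 : 0 ≤ H1) (hh' : H + H1 < h') : m …  -- the same in terms of the pair volume of the dual potential.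
* theorem row_osc (hg : GoodAll G) {vol : Measure M} [IsFiniteMeasure vol] {u : M → ℝ} (hu : CConv u) {yF : M} {H H1 h' m' B : ℝ} {W : Set (TangentSpace (𝓡 n) yF)} (hW : W ⊆ QS G u yF H) {qt : TangentSpace (𝓡 n) yF} (hqt : qt ∈ G.K yF) (hmass : ∀ f : TangentSpace (𝓡 n) yF →L[ℝ] ℝ, m' ≤ (vol (G.ex yF '' {q | q ∈ W ∧ f qt ≤ f q})).toReal) (hH1 : 0 ≤ H1) (hh' : H + H1 < h') (hB : 0 ≤ B) (hNG : ∀ y2 : M, (m' ≤ Vp vol (ctr  …  -- (R2), the row bound: no growth for the pairs containing `y_F` bounds the oscillation of the row of `x_t`.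
* theorem hmass_of_lintegral {vol : Measure M} [IsFiniteMeasure vol] {yF : M} [MeasurableSpace (TangentSpace (𝓡 n) yF)] [BorelSpace (TangentSpace (𝓡 n) yF)] {μ : Measure (TangentSpace (𝓡 n) yF)} {J : TangentSpace (𝓡 n) yF → ℝ≥0∞} {C : ℝ} (hC : 0 < C) (harea : ∀ A ⊆ G.K yF, IsCompact A → ∫⁻ p in A, J p ∂μ ≤ ENNReal.ofReal C * vol (G.ex yF '' A)) {W : Set (TangentSpace (𝓡 n) yF)} (hWc : IsCompact W) (hWK : W ⊆ G.K yF) {q …  -- (R3) from the area formula (shape of `Jac344.exists_area`): mass of the weight on every half-space gives the hypothesis `hmass`.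

### R226/S350Glue_484 [ns Crest.Agent.R226.S350Glue484] 
* theorem s0350_of_pairDichR (hMTW : SatisfiesWeakMTW M n) (hPD : ∀ G : GeoData n M, CutFacts G → MTWFacts G → DFacts G → GoodAll G → ∀ m : ℝ, 0 < m → PairDichR (Measure.hausdorffMeasure (n : ℝ) : Measure M) m) (lam Lam : ℝ) (hlam : 0 < lam) (hle : lam ≤ Lam) : ∃ α : ℝ, 0 < α ∧ α ≤ 1 ∧ ∃ C : ℝ, ∀ ρ₀ ρ₁ : M → ℝ, Measurable ρ₀ → Measurable ρ₁ → (∀ᵐ x ∂(Measure.hausdorffMeasure (n : ℝ) : Measure M), lam ≤ ρ₀ x ∧ ρ₀ x ≤ La …  -- S0350 from the pair dichotomy `PairDichR`.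
* theorem s0350_of_half1 (hMTW : SatisfiesWeakMTW M n) (hH1 : ∀ G : GeoData n M, CutFacts G → MTWFacts G → DFacts G → GoodAll G → ∀ m : ℝ, 0 < m → Half1P (Measure.hausdorffMeasure (n : ℝ) : Measure M) m) (lam Lam : ℝ) (hlam : 0 < lam) (hle : lam ≤ Lam) : ∃ α : ℝ, 0 < α ∧ α ≤ 1 ∧ ∃ C : ℝ, ∀ ρ₀ ρ₁ : M → ℝ, Measurable ρ₀ → Measurable ρ₁ → (∀ᵐ x ∂(Measure.hausdorffMeasure (n : ℝ) : Measure M), lam ≤ ρ₀ x ∧ ρ₀ x ≤ Lam ∧ lam …  -- S0350 from `Half1P`.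

### R226/SegIso_186 [ns Crest.Agent.R226.SegIso186] 
* def ParentSegC (E : Type*) [NormedAddCommGroup E] [InnerProductSpace ℝ E] [FiniteDimensional ℝ E] [MeasurableSpace E] [BorelSpace E] (c₁ C : ℝ) : Prop  -- the conclusion of `parent_seg` with the constants `c₁` (of `WNcP`) and `C`.
* theorem ParentSegC.of_iso (ι : E ≃ₗᵢ[ℝ] F) {c₁ C : ℝ} (h : ParentSegC E c₁ C) : ParentSegC F c₁ C  -- transport of `parent_seg` by a linear isometry

### R226/SegSplit_879 [ns Crest.Agent.R226.SegSplit879] 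
* theorem seg_loeper (hg : GoodAll G) {u : M → ℝ} (hu : CConv u) {x1 x' : M} {zN zF r : TangentSpace (𝓡 n) x1} (hN : zN ∈ G.K x1) (hF : zF ∈ G.K x1) (hr : r ∈ segment ℝ zN zF) : Dd u x' (G.ex x1 zN) - Dd u x1 (G.ex x1 zN) ≤ Dd u x' (G.ex x1 r) - Dd u x1 (G.ex x1 r) ∨ Dd u x' (G.ex x1 zF) - Dd u x1 (G.ex x1 zF) ≤ Dd u x' (G.ex x1 r) - Dd u x1 (G.ex x1 r)  -- Loeper on the segment: `min_i (D(x',y_i) - D(x₁,y_i)) ≤ D(x',exp r) - D(x₁,exp r)`.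
* theorem seg_split (hg : GoodAll G) {u : M → ℝ} (hu : CConv u) {x1 x' : M} {zN zF r : TangentSpace (𝓡 n) x1} (hN : zN ∈ G.K x1) (hF : zF ∈ G.K x1) (hr : r ∈ segment ℝ zN zF) {h H' : ℝ} (hDN : Dd u x1 (G.ex x1 zN) ≤ h) (hDF : Dd u x1 (G.ex x1 zF) ≤ h) (hx : Dd u x' (G.ex x1 r) ≤ H') : Dd u x' (G.ex x1 zN) ≤ H' + h ∨ Dd u x' (G.ex x1 zF) ≤ H' + h  -- the split: `x'` sees `y_N` or `y_F`, at height `H' + h`.
* theorem contact_split (hg : GoodAll G) {u : M → ℝ} (hu : CConv u) {x1 x' : M} {pb zN zF r : TangentSpace (𝓡 n) x1} (hpb : pb ∈ G.K x1) (hN : zN ∈ G.K x1) (hF : zF ∈ G.K x1) (hr : r ∈ segment ℝ zN zF) {h τ : ℝ} (hh : 0 < h) (hDb : Dd u x1 (G.ex x1 pb) ≤ h) (hDN : Dd u x1 (G.ex x1 zN) ≤ h) (hDF : Dd u x1 (G.ex x1 zF) ≤ h) (hout : 0 ≤ inner ℝ pb (r - pb)) (hτ0 : 0 < τ) (hτ1 : τ ≤ 1) (hx : G.ex x1 (pb + τ • (r - pb)) ∈ c …  -- the contacts of `p' = (1-τ) p_b + τ r`,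 `r ∈ [z_N, z_F]`, see `y_N` or `y_F`, at height `h/τ² + h`.
* theorem contact_split_eps (hg : GoodAll G) {u : M → ℝ} (hu : CConv u) {x1 x' : M} {pb zN zF r : TangentSpace (𝓡 n) x1} (hpb : pb ∈ G.K x1) (hN : zN ∈ G.K x1) (hF : zF ∈ G.K x1) (hr : r ∈ segment ℝ zN zF) {h ε τ : ℝ} (hh : 0 < h) (hε : 0 ≤ ε) (hDb : Dd u x1 (G.ex x1 pb) ≤ h) (hDN : Dd u x1 (G.ex x1 zN) ≤ h) (hDF : Dd u x1 (G.ex x1 zF) ≤ h) (hout : 0 ≤ inner ℝ pb (r - pb)) (hτ0 : 0 < τ) (hτ1 : τ ≤ 1) (hx : Dd u x' (G.e …  -- near-contact version.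
* theorem vol_split [MeasurableSpace M] [BorelSpace M] (vol : Measure M) [IsFiniteMeasure vol] {u : M → ℝ} (huc : Continuous u) {X : Set M} (hX : IsCompact X) {yN yF : M} {H : ℝ} (h : ∀ x ∈ X, Dd u x yN ≤ H ∨ Dd u x yF ≤ H) : ∃ y, (y = yN ∨ y = yF) ∧ ∃ X' ⊆ X, IsCompact X' ∧ (∀ x ∈ X', Dd u x y ≤ H) ∧ (vol X).toReal ≤ 2 * (vol X').toReal  -- the volume split: of the points of a compact set that see `y_N` or `y_F`, at least half (in volume) see the same one.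

### R226/Seg_347 [ns Crest.Agent.R226.Seg347] 
* theorem sec_curve (hB : Base G) {x : M} {b : TangentSpace (𝓡 n) x} (hb : b ∈ G.I x) {ζ : ℝ → TangentSpace (𝓡 n) x} (hζ : ContDiffAt ℝ 2 ζ 0) (h0 : ζ 0 = 0) : Sec (fun τ => F G x (ζ τ, b)) (G.phi x (deriv ζ 0) b - inner ℝ b (deriv (deriv ζ) 0))  -- the partial second derivative of the cost along a curve in normal coordinates
* theorem seg (hB : Base G) : ∀ y, ∀ q₀ q' : TangentSpace (𝓡 n) y, (∀ᶠ τ : ℝ in 𝓝 0, q₀ + τ • q' ∈ G.K y) → ∀ ζ : ℝ → TangentSpace (𝓡 n) (G.ex y ((1 : ℝ) • q₀)), ContDiffAt ℝ 2 ζ 0 → ζ 0 = 0 → (∀ᶠ τ : ℝ in 𝓝 0, G.ex (G.ex y ((1 : ℝ) • q₀)) (ζ τ) = G.ex y (q₀ + τ • q')) → ∀ ε : ℝ, 0 < ε → ∃ r₁ : ℝ, r₁ < 1 ∧ ∀ r : ℝ, r₁ < r → r < 1 → G.phi (G.ex y ((1 : ℝ) • q₀)) (deriv ζ 0) (r • (-(G.vel y q₀ 1))) ≤ ‖q'‖ ^ 2 + inner ℝ ( …  -- two-point version of F3 (exact field `CutFacts.seg`)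

### R226/Semiconcave_345 [ns Crest.Agent.R226.Semiconcave345] 
* theorem cost_taylor [CompactSpace M] (G : GeoData n M) : ∃ B : ℝ, 0 ≤ B ∧ ∀ x, ∀ w ξ : TangentSpace (𝓡 n) x, ‖w‖ ≤ G.r₀ / 2 → ‖ξ‖ ≤ G.r₀ / 4 → |halfDistSq (G.ex x ξ) (G.ex x w) - (‖w‖ ^ 2 / 2 - inner ℝ w ξ)| ≤ B * ‖ξ‖ ^ 2  -- Second order expansion of the cost near the diagonal, uniform in all data.
* theorem cost_lipschitz (D : ℝ) (hD : ∀ x y : M, dist x y ≤ D) (x x' y : M) : |halfDistSq x y - halfDistSq x' y| ≤ D * dist x x'  -- the cost is Lipschitz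
* theorem cost_triangle (x y z : M) {ε : ℝ} (h0 : 0 < ε) (h1 : ε < 1) : halfDistSq x y ≤ halfDistSq x z / ε + halfDistSq z y / (1 - ε)  -- triangle inequality for the cost
* theorem semiconcave [CompactSpace M] (G : GeoData n M) : ∃ C₁ : ℝ, 0 < C₁ ∧ ∀ x, ∀ v ∈ G.K x, ∀ ξ : TangentSpace (𝓡 n) x, halfDistSq (G.ex x ξ) (G.ex x v) ≤ halfDistSq x (G.ex x v) - inner ℝ v ξ + C₁ * ‖ξ‖ ^ 2  -- (F1) uniform semiconcavity of the cost, across the cut locus.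
* theorem convex_near [CompactSpace M] (G : GeoData n M) : ∃ r₁ : ℝ, 0 < r₁ ∧ ∀ x, ∀ v ξ : TangentSpace (𝓡 n) x, ‖v‖ ≤ r₁ → ‖ξ‖ ≤ r₁ → ‖v‖ ^ 2 / 2 - inner ℝ v ξ + ‖ξ‖ ^ 2 / 4 ≤ halfDistSq (G.ex x ξ) (G.ex x v)  -- strong convexity near the diagonal

### R226/SlopeLaw_977 [ns Crest.Agent.R226.SlopeLaw977] 
* theorem gg_eq_Fq (G : GeoData n M) (x : M) (p q : TangentSpace (𝓡 n) x) (x₁ : M) (s : ℝ) : gg G x p q x₁ s = Fq G x x₁ (p + s • (q - p))  -- `gg` is `Fq` along the chord.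
* theorem Fq_le_max [CompactSpace M] {G : GeoData n M} (hg : GoodAll G) {x : M} (x₁ : M) {p q : TangentSpace (𝓡 n) x} (hp : p ∈ G.K x) (hq : q ∈ G.K x) {t : ℝ} (h0 : 0 ≤ t) (h1 : t ≤ 1) : Fq G x x₁ (p + t • (q - p)) ≤ max (Fq G x x₁ p) (Fq G x x₁ q)  -- Loeper quasiconvexity along a chord.
* theorem slope_law {G : GeoData n M} (hC : CutFacts G) (hg : GoodAll G) : ∀ (x₁ x : M) (p q : TangentSpace (𝓡 n) x₁), p ∈ G.K x₁ → q ∈ G.K x₁ → ∀ t : ℝ, 0 ≤ t → t ≤ 1 → (∀ r : ℝ, 0 ≤ r → r ≤ t → 0 ≤ Fq G x₁ x (p + r • (q - p))) → Fq G x₁ x p ≤ Fq G x₁ x q → (1 - t) ^ 4 * (Fq G x₁ x q - Fq G x₁ x p) ≤ Fq G x₁ x q - Fq G x₁ x (p + t • (q - p))  -- the slope law: `(1-t)⁴ (F(1) - F(0)) ≤ F(1) - F(t)` on a chord of `K(x₁)` if `F ≥ 0` on `[0,t]` and `F(0) ≤ F(1)`.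
* theorem slope_law_min {G : GeoData n M} (hC : CutFacts G) (hg : GoodAll G) {x₁ x : M} {p q : TangentSpace (𝓡 n) x₁} (hp : p ∈ G.K x₁) (hq : q ∈ G.K x₁) {t : ℝ} (ht0 : 0 ≤ t) (ht1 : t ≤ 1) (hle : Fq G x₁ x p ≤ Fq G x₁ x q) : (1 - t) ^ 4 * min (Fq G x₁ x q - Fq G x₁ x p) (Fq G x₁ x q) ≤ Fq G x₁ x q - Fq G x₁ x (p + t • (q - p))  -- the unconditional slope law: on every chord of `K(x₁)` with `F(0) ≤ F(1)`, `(1-t)⁴ min (F(1) - F(0)) (F(1)) ≤ F(1) - F(t)` (no sign condition on `F`).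

### R226/SmallFlow2_90 [ns Crest.Agent.R226.SmallFlow90] 
* theorem exists_scale (p : TangentBundle (𝓡 n) M) (T : ℝ) (hT : 0 ≤ T) (h : T * ‖p.2‖ < N.r₀) : ∃ a : ℝ, ∃ q : TangentBundle (𝓡 n) M, 0 < a ∧ p = scaleT a q ∧ ‖q.2‖ < N.r₀ ∧ T * a ≤ 1  -- normalisation: if `|t|‖v‖<r₀` then `p = scaleT a q` with `‖q.2‖ < r₀`, `|t a| ≤ 1`, `a > 0`
* theorem radial_zero (p : TangentBundle (𝓡 n) M) : radial N.e 0 p = p  -- field `zero`
* theorem radial_norm (t : ℝ) (p : TangentBundle (𝓡 n) M) (h : |t| * ‖p.2‖ < N.r₀) : ‖(radial N.e t p).2‖ = ‖p.2‖  -- field `norm`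
* theorem radial_add_fst (t s : ℝ) (p : TangentBundle (𝓡 n) M) (ht : |t| * ‖p.2‖ < N.r₀) (hs : |s| * ‖p.2‖ < N.r₀) (hts : |t + s| * ‖p.2‖ < N.r₀) : (radial N.e s (radial N.e t p)).1 = (radial N.e (t + s) p).1  -- field `add`, first component
* theorem radial_add (t s : ℝ) (p : TangentBundle (𝓡 n) M) (ht : |t| * ‖p.2‖ < N.r₀) (hs : |s| * ‖p.2‖ < N.r₀) (hts : |t + s| * ‖p.2‖ < N.r₀) : radial N.e s (radial N.e t p) = radial N.e (t + s) p  -- field `add`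

### R226/SmallFlow3_90 [ns Crest.Agent.R226.SmallFlow90] 
* theorem smallFlow (N : NearDiag n M) : SmallFlow N  -- (B1) the local geodesic flow of a `NearDiag`.

### R226/SmallFlow_90 [ns Crest.Agent.R226.SmallFlow90] 
* theorem curveVel_const (x : M) (t : ℝ) : curveVel n (fun _ : ℝ => x) t = 0  -- the velocity of the zero radial curve is zero
* theorem eq_of_inner {V : Type*} [NormedAddCommGroup V] [InnerProductSpace ℝ V] {w u : V} {s a : ℝ} (hw : ‖w‖ = |s| * a) (hu : ‖u‖ = a) (h : inner ℝ w u = s * a ^ 2) : w = s • u  -- equality case of Cauchy–Schwarz, in the form needed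
* theorem small_flow (x : M) (v : TangentSpace (𝓡 n) x) (hv : ‖v‖ < N.r₀) (t s : ℝ) (ht : |t| ≤ 1) (hs : |s| ≤ 1) (hts : |t + s| ≤ 1) : N.e (N.e x (t • v)) (s • curveVel n (fun t : ℝ => N.e x (t • v)) t) = N.e x ((t + s) • v)  -- the small flow property

### R226/Step2_892 [ns Crest.Agent.R226.Step2_892] 
* theorem So_quarter_subset {u : M → ℝ} (hu : CConv u) (hLG : LocGlob u) {y₀ xh : M} {h : ℝ} (hh : 0 < h) (hxh : DD u xh y₀ ≤ h / 2) : So (Sec u y₀ h) y₀ xh (h / 4) ⊆ ⋃ x ∈ Sec u y₀ h, cSub u x  -- Step 2 (b): `So_{1/4} ⊆ ∂_c u (S)`.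
* theorem vol_contract {vol : Measure M} {cW : ℝ} (hcW : 0 < cW) (hJ : JMonoc G vol (ENNReal.ofReal cW)) (hKc : ∀ x, Convex ℝ (G.K x)) {a : ℝ} (ha : 0 < a) (ha1 : a ≤ 1) : ∃ c : ℝ, 0 < c ∧ ∀ x : M, ∀ A : Set (TangentSpace (𝓡 n) x), IsCompact A → A ⊆ G.K x → ∀ p₁ ∈ G.K x, ENNReal.ofReal c * vol (G.ex x '' A) ≤ vol (G.ex x '' (hom a p₁ '' A))  -- contraction by any factor `a ∈ (0,1]` changes the volume of the image at most by a factor.
* theorem continuous_ex (x : M) : Continuous (G.ex x)  -- fibre maps `exp_x` are continuous.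
* theorem step2 {vol : Measure M} {cW t₀ : ℝ} (hcW : 0 < cW) (hJ : JMonoc G vol (ENNReal.ofReal cW)) (ht₀ : 0 < t₀) (ht₁ : t₀ ≤ 1) (hQ : QQc G t₀) (hKc : ∀ x, Convex ℝ (G.K x)) (B : ℝ) : ∃ c : ℝ, 0 < c ∧ ∀ u : M → ℝ, CConv u → LocGlob u → ∀ y₀ xh : M, ∀ h : ℝ, 0 < h → DD u xh y₀ ≤ h / 2 → ENNReal.ofReal c * vol (So (Sec u y₀ h) y₀ xh (B * h)) ≤ vol (⋃ x ∈ Sec u y₀ h, cSub u x)  -- Step 2: `vol (So_B) ≤ C_B vol (∂_c u (S))`, uniformly in `u`, `y₀`, `x̂`, `h`.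
* theorem step2' {vol : Measure M} {cW t₀ : ℝ} (hcW : 0 < cW) (hJ : JMonoc G vol (ENNReal.ofReal cW)) (ht₀ : 0 < t₀) (ht₁ : t₀ ≤ 1) (hQ : QQc G t₀) (hKc : ∀ x, Convex ℝ (G.K x)) (B : ℝ) {m c' : ℝ} (hm : 0 < m) (hc' : 0 < c') : ∃ c : ℝ, 0 < c ∧ ∀ u : M → ℝ, CConv u → LocGlob u → AlexPinch vol u m → ∀ y₀ xh : M, ∀ h : ℝ, 0 < h → DD u xh y₀ ≤ h / 2 → ∀ S' : Set M, MeasurableSet S' → ENNReal.ofReal c' * vol (Sec u y₀ h) ≤  …  -- the combination with the Alexandrov pinching: if `S' ⊆ M` is a Borel set with `vol S' ≥ c' vol S`, then `vol So_B ≤ C vol (∂_c u (S'))`.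

### R226/StepH_229 [ns Crest.Agent.R226.StepH229] 
* theorem rev_mem_P_ctr [CompactSpace M] {G : GeoData n M} (CF : CutFacts G) {U : M → ℝ} (hU : Continuous U) {x : M} {w : TangentSpace (𝓡 n) x} (hw : w ∈ G.P U x) : -(G.vel x w 1) ∈ G.P (ctr U) (G.ex x ((1 : ℝ) • w))  -- the reversed vector of `w ∈ P_U(x)` is in `P_φ(exp_x w)`, `φ = U^c`.
* theorem exists_min [CompactSpace M] {U : M → ℝ} (hU : Continuous U) (z : M) (T : ℝ) : ∃ x, ∀ x', U x + halfDistSq x z / T ≤ U x' + halfDistSq x' z / T  -- existence of a minimiser of `U + c(·,z)/T`.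
* theorem H_ctr_subset [CompactSpace M] {G : GeoData n M} (CF : CutFacts G) (hLC : LC G) {u : M → ℝ} (hu : CConv u) {s : ℝ} (hs : 0 < s) (hgood : G.Good u s) (y : M) : G.H (ctr fun z => s * u z) y ⊆ G.P (ctr fun z => s * u z) y  -- Step (H), pointwise form: `H_φ(y) ⊆ P_φ(y)` for `φ = (s u)^c`.
* theorem convex_P_ctr [CompactSpace M] {G : GeoData n M} (CF : CutFacts G) (hLC : LC G) {u : M → ℝ} (hu : CConv u) {s : ℝ} (hs : 0 < s) (hgood : G.Good u s) (y : M) : Convex ℝ (G.P (ctr fun z => s * u z) y)  -- Step (H): `P_φ(y)` is convex for `φ = (s u)^c`, if `Good u s`.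
* theorem stepH [CompactSpace M] {G : GeoData n M} (CF : CutFacts G) (DF : DFacts G) : StepH G  -- Output of D3 in the interface form of `DDefs_267`.

### R226/StepIFin_371 [ns Crest.Agent.R226.StepI371] 
* theorem stepI_fin {G : GeoData n M} (hC : CutFacts G) (hM : MTWFacts G) (hD : DFacts G) : StepI G  -- Step (I) from the interface structures.

### R226/StepI_371 [ns Crest.Agent.R226.StepI371] ### one-dimensional calculus
* def exc (G : GeoData n M) (x : M) (v : TangentSpace (𝓡 n) x) : EE n  -- the exponential map read in the chart at `x`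
* theorem stepI {G : GeoData n M} (hC : CutFacts G) (hM : MTWFacts G) {u : M → ℝ} {s : ℝ} (hs0 : 0 < s) (hs1 : s < 1) (hgood : G.Good u s) (y : M) (hLC : ∀ x, x ∈ Cset (fun z => s * u z) y → ∀ v ∈ G.K x, G.ex x v = y → ∃ w ∈ G.H u x, v = s • w) (hconv : Convex ℝ {q | q ∈ G.K y ∧ G.ex y q ∈ Cset (fun z => s * u z) y}) : {q | q ∈ G.K y ∧ G.ex y q ∈ Cset (fun z => s * u z) y}.Subsingleton  -- Step (I): `P_φ(y)` is a singleton.

### R226/StepJ2D_416 [ns Crest.Agent.R226.StepJ2D416] R226, layer D, task D5 (step J), helper416: the pure two-dimensional lemma. `f` is a function on the open triangle `0 < x < R`, `|y| ≤ m x`, such that along every segment `[q₀,q₁]` of the triangle the function `τ ↦ ⟪q_τ, q₁-q₀⟫² f(q_τ)` is convex. If `f(R-t,0) ≥ c/t` and `f(R-t, m(R-t)) ≤ C` for small `t > 0`, we get a contradiction.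
* def PlaneConv (R m : ℝ) (f : ℝ → ℝ → ℝ) : Prop  -- the convexity hypothesis of the plane lemma
* theorem plane_contradiction {R m c C t₀ : ℝ} (hR : 0 < R) (hm : 0 < m) (hc : 0 < c) (ht₀ : 0 < t₀) (f : ℝ → ℝ → ℝ) (hconv : PlaneConv R m f) (hblow : ∀ t, 0 < t → t < t₀ → c / t ≤ f (R - t) 0) (hbd : ∀ t, 0 < t → t < t₀ → f (R - t) (m * (R - t)) ≤ C) : False  -- the plane lemma

### R226/StepJA_416 [ns Crest.Agent.R226.StepJA416] R226, layer D, task D5 (step J), helper416: the abstract inner-product-space part.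
* def ConcHyp (I : Set V) (φ : V → V → ℝ) : Prop  -- the concavity hypothesis, at a fixed base point
* def Blow (φ : V → V → ℝ) (p k : V) : Prop  -- the blow-up hypothesis
* theorem mem_span {ι : Type*} [Fintype ι] {I : Set V} {φ : V → V → ℝ} (hcont : ∀ ξ, ContinuousOn (φ ξ) I) (hIo : IsOpen I) (hconc : ConcHyp I φ) (z : ι → V) (θ : ι → ℝ) (hθ : ∀ i, 0 ≤ θ i) (hθ1 : ∑ i, θ i = 1) {p : V} (hp : ∑ i, θ i • z i = p) (hz : ∀ i, z i ∈ I) (hI : ∀ r : ℝ, 0 < r → r < 1 → convexHull ℝ (range fun i => r • z i) ⊆ I) {k : V} (hblow : Blow φ p k) : k ∈ Submodule.span ℝ (range fun i => z i - p)  -- The blow-up direction lies in the span of the differences.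
* theorem exists_sigma {ι : Type*} [Fintype ι] (z : ι → V) (θ : ι → ℝ) (hθ : ∀ i, 0 < θ i) (hθ1 : ∑ i, θ i = 1) {p : V} (hp : ∑ i, θ i • z i = p) {k : V} (hk : k ∈ Submodule.span ℝ (range fun i => z i - p)) : ∃ σ : ℝ, 0 < σ ∧ ∀ τ : ℝ, |τ| ≤ σ → p + τ • k ∈ convexHull ℝ (range z)  -- if `k` is in the span of the `z i - p` then `p ± σ k` is in the hull for small `σ`.

### R226/StepJB_416 [ns Crest.Agent.R226.StepJB416] R226, layer D, task D5 (step J), helper416: the plane spanned by `p` and the focal direction `k`, and the abstract form of step (J).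
* def pl (p k : V) (x y : ℝ) : V  -- the plane parametrised by coordinates
* def ff (φ : V → V → ℝ) (p k : V) (x y : ℝ) : ℝ  -- the function `f` of step (J) in the coordinates of the plane
* theorem plane_false {I : Set V} {φ : V → V → ℝ} (hp : p ≠ 0) (hk1 : ‖k‖ = 1) (hkp : inner ℝ k p = 0) (hIo : IsOpen I) (hcont : ContinuousOn (fun q : V × V => φ q.1 q.2) {q | q.2 ∈ I}) (hsmul : ∀ v ∈ I, ∀ ξ : V, ∀ t : ℝ, φ (t • ξ) v = t ^ 2 * φ ξ v) (hgauss : ∀ q ∈ I, ∀ η : V, inner ℝ q η = 0 → ∀ a : ℝ, φ (a • q + η) q = a ^ 2 * ‖q‖ ^ 2 + φ η q) (hconc : ConcHyp I φ) {σ : ℝ} (hσ : 0 < σ) (hT : ∀ τ : ℝ, |τ| ≤ σ → ∀ r : …  -- the plane argument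
* theorem stepJ_abs {K I : Set V} {φ : V → V → ℝ} (hIo : IsOpen I) (hKI : ∀ v ∈ K, ∀ r : ℝ, 0 ≤ r → r < 1 → r • v ∈ I) (hcont : ContinuousOn (fun q : V × V => φ q.1 q.2) {q | q.2 ∈ I}) (hsmul : ∀ v ∈ I, ∀ ξ : V, ∀ t : ℝ, φ (t • ξ) v = t ^ 2 * φ ξ v) (hgauss : ∀ q ∈ I, ∀ η : V, inner ℝ q η = 0 → ∀ a : ℝ, φ (a • q + η) q = a ^ 2 * ‖q‖ ^ 2 + φ η q) (hconc : ConcHyp I φ) {Q : Set V} (hQ : Q ⊆ K) {s : ℝ} (hs0 : 0 ≤ s) (hs1  …  -- Step (J), abstract form at a fixed base point: `Q ⊆ K`, `0 ≤ s < 1`, `s • conv Q ⊆ K` compact, and every focal point of `s • conv Q` has a blow-up direction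

### R226/StepJFin_416 [ns Crest.Agent.R226.StepJ416] R226, layer D, task D5, helper416: **step (J)** in the interface form of `DDefs_267`.
* theorem stepJ_fin {G : GeoData n M} (hC : CutFacts G) (hM : MTWFacts G) (hD : DFacts G) : StepJ G  -- Step (J), interface form.

### R226/StepJ_416 [ns Crest.Agent.R226.StepJ416] R226, layer D, task D5, helper416: **step (J)** of docs 350 on the manifold: `s • conv Q ⊆ I(x)`.
* theorem stepJ {G : GeoData n M} (hC : CutFacts G) (hM : MTWFacts G) (x : M) {Q : Set (TangentSpace (𝓡 n) x)} (hQ : Q ⊆ G.K x) {s : ℝ} (hs0 : 0 ≤ s) (hs1 : s < 1) (hSK : ∀ w ∈ convexHull ℝ Q, s • w ∈ G.K x) (hcomp : IsCompact (convexHull ℝ Q)) (huniq : ∀ w ∈ convexHull ℝ Q, ∀ w' ∈ G.K x, G.ex x w' = G.ex x (s • w) → w' = s • w) : ∀ w ∈ convexHull ℝ Q, s • w ∈ G.I x  -- Step (J).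
* theorem stepJ_H {G : GeoData n M} (hC : CutFacts G) (hM : MTWFacts G) (u : M → ℝ) (x : M) {s : ℝ} (hs0 : 0 ≤ s) (hs1 : s < 1) (hSK : ∀ w ∈ G.H u x, s • w ∈ G.K x) (hcomp : IsCompact (G.H u x)) (huniq : ∀ w ∈ G.H u x, ∀ w' ∈ G.K x, G.ex x w' = G.ex x (s • w) → w' = s • w) : ∀ w ∈ G.H u x, s • w ∈ G.I x  -- Step (J) for `H_u(x)`.

### R226/StepKFin_881 [ns Crest.Agent.R226.StepK881] 
* theorem stepK1 (hC : CutFacts G) (hM : MTWFacts G) (hD : DFacts G) : StepK1 G  -- Step (K), first half: uniform local supports slightly beyond `s`.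
* theorem cset_subsingleton (hD : DFacts G) {u : M → ℝ} (hu : CConv u) {y : M} (h : (G.P (ctr u) y).Subsingleton) : (Cset u y).Subsingleton  -- uniqueness of minimising velocities at `y` gives uniqueness of contact points
* theorem stepK [CompactSpace M] (hC : CutFacts G) (hM : MTWFacts G) (hD : DFacts G) : StepK G  -- Step (K) in the form of `DDefs_267`.
* theorem stepK_of_stepK1 [CompactSpace M] (hC : CutFacts G) (hD : DFacts G) (hK1 : StepK1 G) : StepK G  -- the second half of step (K) from the first (no MTW).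

### R226/StepK_881 [ns Crest.Agent.R226.StepK881] 
* theorem openness [CompactSpace M] (hC : CutFacts G) (hM : MTWFacts G) {u : M → ℝ} (hu : Continuous u) (hHT : IsCompact {p : TangentBundle (𝓡 n) M | p.2 ∈ G.H u p.1}) {s : ℝ} (hs0 : 0 ≤ s) (hs1 : s < 1) (hgood : G.Good u s) (hI : ∀ y, (Cset (fun z => s * u z) y).Subsingleton) (hJ : ∀ x, ∀ w ∈ G.H u x, s • w ∈ G.I x) : ∃ δ : ℝ, 0 < δ ∧ ∀ t, s ≤ t → t < s + δ → G.Good u t  -- Step (K), openness.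
* theorem good_all [CompactSpace M] (hC : CutFacts G) (hM : MTWFacts G) {u : M → ℝ} (hu : Continuous u) (hHT : IsCompact {p : TangentBundle (𝓡 n) M | p.2 ∈ G.H u p.1}) (hI : ∀ s : ℝ, 0 < s → s < 1 → G.Good u s → ∀ y, (Cset (fun z => s * u z) y).Subsingleton) (hJ : ∀ s : ℝ, 0 < s → s < 1 → G.Good u s → ∀ x, ∀ w ∈ G.H u x, s • w ∈ G.I x) : ∀ s : ℝ, 0 ≤ s → s ≤ 1 → G.Good u s  -- The continuity argument.
* theorem convex_K (hall : ∀ u : M → ℝ, CConv u → G.Good u 1) (x : M) : Convex ℝ (G.K x)  -- Conclusion. If `Good u 1` holds for every `c`-convex `u`, then every `K(x)` is convex.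
* theorem I_eq_injDomain (x : M) : G.I x = injDomain n x  -- `G.I x` is the frozen `injDomain n x`.
* theorem convex_injDomain [CompactSpace M] (hC : CutFacts G) (hM : MTWFacts G) (hcont : ∀ u : M → ℝ, CConv u → Continuous u) (hHT : ∀ u : M → ℝ, CConv u → IsCompact {p : TangentBundle (𝓡 n) M | p.2 ∈ G.H u p.1}) (hI : ∀ u : M → ℝ, CConv u → ∀ s : ℝ, 0 < s → s < 1 → G.Good u s → ∀ y, (Cset (fun z => s * u z) y).Subsingleton) (hJ : ∀ u : M → ℝ, CConv u → ∀ s : ℝ, 0 < s → s < 1 → G.Good u s → ∀ x, ∀ w ∈ G.H u x, s • w ∈  …  -- Layer D, final theorem modulo steps (I), (J) and the elementary facts D0.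

### R226/SupIter_413 [ns Crest.Agent.R226.SupIter413] 
* theorem iter_decay {Ψ : ℝ → ℝ} {K q C1 B g : ℝ} (hK : 1 < K) (hq : 1 < q) (hB : 0 ≤ B) (hC1 : 0 ≤ C1) (hb : ∀ h, 0 < h → Ψ h ≤ B) (hg0 : 0 < g) (hg1 : g ≤ 1) (hg : K ^ g ≤ q) (h0 : 0 < (1 : ℝ) / K) (hstep : ∀ h, 0 < h → K * h ≤ 1 → q * Ψ h ≤ Ψ (K * h) ∨ Ψ h ≤ C1 * h) : ∀ h, 0 < h → h ≤ 1 → Ψ h ≤ (B * K + C1) * h ^ g  -- iteration of `Ψ h ≤ max (q⁻¹ Ψ (K h)) (C h)`.
* theorem sup_iter_num [Nonempty ι] {A V : ι → ℝ → ℝ} {d : ℕ} {A1 V1 c0 K c δ C1 M ε δ' g : ℝ} (hK : 1 < K) (hA1 : 0 ≤ A1) (hV1 : 0 ≤ V1) (hc0 : 0 < c0) (hc : 0 < c) (hδ : 0 < δ) (hC1 : 0 < C1) (hM : 0 < M) (hε : 0 < ε) (hδ' : 0 < δ') (hA0 : ∀ w h, 0 < h → 0 ≤ A w h) (hAb : ∀ w h, 0 < h → A w h ≤ A1) (hVb : ∀ w h, 0 < h → V w h ≤ V1) (hVmono : ∀ w h h', 0 < h → h ≤ h' → V w h ≤ V w h') (hAmono : ∀ w h h', 0 < h → h ≤ h …  -- sup-functional iteration,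 with the numerical conditions as hypotheses.
* theorem exp_half_le {x : ℝ} (h0 : 0 ≤ x) (h1 : x ≤ 1) : Real.exp (x / 2) ≤ 1 + x  -- exponent bookkeeping for `sup_iter`.
* theorem sup_iter [Nonempty ι] {A V : ι → ℝ → ℝ} {d : ℕ} {A1 V1 c0 K c : ℝ} (hK : 1 < K) (hA1 : 0 ≤ A1) (hV1 : 0 ≤ V1) (hc0 : 0 < c0) (hc : 0 < c) (hA0 : ∀ w h, 0 < h → 0 ≤ A w h) (hAb : ∀ w h, 0 < h → A w h ≤ A1) (hVb : ∀ w h, 0 < h → V w h ≤ V1) (hVmono : ∀ w h h', 0 < h → h ≤ h' → V w h ≤ V w h') (hAmono : ∀ w h h', 0 < h → h ≤ h' → A w h ≤ A w h') (hVlow : ∀ w h, 0 < h → h ≤ 1 → c0 * h ^ d ≤ V w h) (hD : ∀ B δm :  …  -- L7, sup-functional iteration (helper847's functional `Ψ h = sup A V^ε`).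

### R226/SupPair_413 [ns Crest.Agent.R226.SupPair413] 
* def PairDichR (vol : Measure M) (m : ℝ) : Prop  -- the dichotomy for pairs, R-form (helper227/619)
* def PairDich (vol : Measure M) (m : ℝ) : Prop  -- the dichotomy for pairs
* theorem estatement_of_pairsR' [Nonempty M] (G : GeoData n M) (hg : GoodAll G) (vol : Measure M) [IsFiniteMeasure vol] (m : ℝ) (hball : ∃ c : ℝ, 0 < c ∧ ∀ (x : M) (r : ℝ), 0 < r → r ≤ 1 → c * r ^ n ≤ (vol (Metric.ball x r)).toReal) (hD : PairDichR vol m) : EStatement vol m  -- L7p + L8p: the dichotomy for pairs (R-form) implies `EStatement`.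
* theorem estatement_of_pairsR [Nonempty M] (G : GeoData n M) (hg : GoodAll G) (m : ℝ) (hD : PairDichR (Measure.hausdorffMeasure (n : ℝ) : Measure M) m) : EStatement (Measure.hausdorffMeasure (n : ℝ) : Measure M) m  -- L7p + L8p for the Riemannian volume, R-form.
* theorem estatement_of_pairs [Nonempty M] (G : GeoData n M) (hg : GoodAll G) (m : ℝ) (hD : PairDich (Measure.hausdorffMeasure (n : ℝ) : Measure M) m) : EStatement (Measure.hausdorffMeasure (n : ℝ) : Measure M) m  -- L7p + L8p for the Riemannian volume.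

### R226/SymExp_413 [ns Crest.Agent.R226.SymExp413] 
* theorem half (hB : Base G) {x y z : M} {q q' : TangentSpace (𝓡 n) y} (hq : q ∈ G.K y) (hqx : G.ex y q = x) (hqz : G.ex y ((1 / 2 : ℝ) • q) = z) (hqK : ∀ᶠ σ : ℝ in 𝓝[>] 0, q + σ • q' ∈ G.K y) {p p' : TangentSpace (𝓡 n) x} (hp : p ∈ G.K x) (hpz : G.ex x ((1 / 2 : ℝ) • p) = z) (hpK : ∀ᶠ s : ℝ in 𝓝[>] 0, p + s • p' ∈ G.K x) {ζ : ℝ → TangentSpace (𝓡 n) x} {ζ' : TangentSpace (𝓡 n) x} (hζ : HasDerivAt ζ ζ' 0) (hζ0 : ζ 0 = 0 …  -- half lemma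
* theorem exists_rev (hB : Base G) {x y : M} {q : TangentSpace (𝓡 n) y} (hq : q ∈ G.K y) (hx : G.ex y q = x) : ∃ p ∈ G.K x, ∀ t : ℝ, G.ex x (t • p) = G.ex y ((1 - t) • q)  -- reversal with a free base point
* theorem sym (hB : Base G) {x y : M} {q q' : TangentSpace (𝓡 n) y} (hq : q ∈ G.K y) (hqx : G.ex y q = x) (hqK : ∀ᶠ σ : ℝ in 𝓝[>] 0, q + σ • q' ∈ G.K y) {p p' : TangentSpace (𝓡 n) x} (hp : p ∈ G.K x) (hpy : G.ex x p = y) (hmid : G.ex x ((1 / 2 : ℝ) • p) = G.ex y ((1 / 2 : ℝ) • q)) (hpK : ∀ᶠ s : ℝ in 𝓝[>] 0, p + s • p' ∈ G.K x) {ζ : ℝ → TangentSpace (𝓡 n) x} {ζ' : TangentSpace (𝓡 n) x} (hζ : HasDerivAt ζ ζ' 0) (hζ0 : ζ  …  -- symmetry: `⟨ṗ, D(exp_y) q̇⟩ = ⟨q̇, D(exp_x) ṗ⟩` for one-sided minimising chords at the two ends of a minimising geodesic (possibly cut or focal), with the t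
* theorem ev_ge {f : ℝ → ℝ} {f' c : ℝ} (hf : HasDerivAt f f' 0) (hc : c < f') : ∀ᶠ s : ℝ in 𝓝[>] 0, f 0 + c * s ≤ f s  -- a differentiable function lies above a line of smaller slope, on the right
* theorem slope_comparison (hB : Base G) {x y x₁ : M} {q q₁ : TangentSpace (𝓡 n) y} (hq : q ∈ G.K y) (hqx : G.ex y q = x) (hq₁ : q₁ ∈ G.K y) (hq₁x : G.ex y q₁ = x₁) (hqK : ∀ᶠ σ : ℝ in 𝓝[>] 0, q + σ • (q - q₁) ∈ G.K y) {p₀ p₁ : TangentSpace (𝓡 n) x} (hp₀ : p₀ ∈ G.K x) (hrev : ∀ t : ℝ, G.ex x (t • p₀) = G.ex y ((1 - t) • q)) (hp₁ : p₁ ∈ G.K x) (hpK : ∀ᶠ s : ℝ in 𝓝[>] 0, p₀ + s • (p₁ - p₀) ∈ G.K x) {m : ℝ} (hm : ∃ᶠ σ : ℝ  …  -- slope comparison between the `K(y)`-chord through `q` and the `K(x)`-chord `p₀ → p₁`.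

### R226/T1iAlg_115 [ns Crest.Agent.R226.T1i115] 
* theorem alg_o2 (hs1' : ∀ u v, H1' u v = H1' v u) (hm : ∀ u, H1' m u = H0' ζ u - H1' ζ u) : H1' m m = (-(P' ξ' ξ') + H1' (ζ + m) (ζ + m) - H0' ζ ζ + G0' ζ ζ) + (H1' ζ ζ - H0' ζ ζ - G0' ζ ζ) + P' ξ' ξ'  -- `H1' m m = T' + e' ζ ζ + P' ξ' ξ'`
* theorem alg_o3 {lam : ℝ} (hs0' : ∀ u v, H0' u v = H0' v u) (hs1' : ∀ u v, H1' u v = H1' v u) (hsG : ∀ u v, G0' u v = G0' v u) (hsP : ∀ u v, P' u v = P' v u) (hm : ∀ u, H1' m u = H0' ζ u - H1' ζ u) (hξ' : ∀ u, H0' ζ u = ⟪ξ', u⟫) (hz : ∀ u, H1' z u = ⟪d, u⟫) (hg0 : ∀ u, H0' a0 u = ⟪a0, u⟫) (hg1 : ∀ u, H1' (a0 + d) u = ⟪a0 + d, u⟫) (hgG : ∀ u, G0' a0 u = ⟪d, u⟫ - H0' d u) : -(P' (ξ' + lam • a0) (ξ' + lam • a0)) + H1' (( …  -- the quadratic polynomial of the radial moves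
* theorem alg_final {B c r ρ T κ X : ℝ} (hB : 1 ≤ B) (hc : 0 < c) (hρ : 0 < ρ) (hρB : ρ * B ≤ 1) (hρ2 : ρ ≤ 1 / 2) {q0 D v : E} (hr : r = 1 - ρ) (hv : v = ζ + m) (ha0 : a0 = r • q0) (hd : d = r • D) (hs0' : ∀ u v, H0' u v = H0' v u) (hs1' : ∀ u v, H1' u v = H1' v u) (hs1 : ∀ u v, H1 u v = H1 v u) (hsG : ∀ u v, G0' u v = G0' v u) (hsP : ∀ u v, P' u v = P' v u) (hm : ∀ u, H1' m u = H0' ζ u - H1' ζ u) (hξ : ∀ u, H0 ζ u =  …  -- the static inequality, from the bounds of the two stages.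

### R226/T1iDef_115 [ns Crest.Agent.R226.T1i115] 
* def RadP (G : GeoData n M) (c C : ℝ) : Prop  -- strict radial monotonicity: `D_p Hf(p)(v,v) ≤ - c ‖v‖² + C Hf(p)(v,v)` for `p ∈ K(x)`
* def ZetaP (G : GeoData n M) (C : ℝ) : Prop  -- `w ∈ I(x)`, `y = exp_x w`, `exp_y q₀ = x`, `ξ = D exp_x(w) η`, `Hf_y(q₀) ζ = ξ` ⟹ `‖ζ‖ ≤ C ‖η‖`. (`ζ` is characterised by `D exp_y(q₀/2) ζ = D exp_x(w/2) η`.)
* def T1iStat (G : GeoData n M) (C : ℝ) : Prop  -- (T1)(i), static form at one point `y`: `D = q₁ - q₀`, `Hf(q₀) ζ = ξ`, `a = D_D φ_ξ(q₀)`, `X ‖D‖ = ⟨q₀, D⟩`: `φ_ξ(q₀) - φ_ξ(q₁) + a ≥ - C |⟨D, ξ⟩| ‖D‖ ‖ζ‖ (1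

### R226/T1iFin_683 [ns Crest.Agent.R226.T1iFin683] 
* theorem iteratedDeriv_gg_eq {G : GeoData n M} (hC : CutFacts G) {x y : M} {w η : TangentSpace (𝓡 n) x} {q₀ q₁ : TangentSpace (𝓡 n) y} (hy : G.ex x w = y) (hx : G.ex y q₀ = x) (hw : w ∈ G.I x) (hq : q₀ ∈ G.I y) (hq1 : q₁ ∈ G.I y) {ζ : TangentSpace (𝓡 n) y} (hζ : ζ = cv (n := n) (fun τ : ℝ => G.ex x (w + τ • η)) 0) : ∃ a : ℝ, HasDerivAt (fun s : ℝ => G.phi y ζ (q₀ + s • (q₁ - q₀))) a 0 ∧ iteratedDeriv 2 (LoeperPt128.gg …  -- second derivative of `gg` in static form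
* theorem real_est {g L D : ℝ} (hg : 0 < g) (hL : 0 ≤ L) (hLD : L ≤ D) : L * (1 + L ^ 2 / (g + L ^ 2 / 2) ^ 2) ≤ (D + 2) * (1 + 1 / √g)  -- the real-number estimate
* theorem exists_rev {G : GeoData n M} (hC : CutFacts G) {x y : M} {w : TangentSpace (𝓡 n) x} (hw : w ∈ G.I x) (hy : G.ex x w = y) : ∃ q₀ : TangentSpace (𝓡 n) y, q₀ ∈ G.I y ∧ G.ex y q₀ = x  -- the reversed velocity as an element of `I(y)`
* theorem t1iP_of_stat' [CompactSpace M] {G : GeoData n M} (hB : Base G) (hC : CutFacts G) (hg : GoodAll G) {C₁ C₂ : ℝ} (hC1 : 0 ≤ C₁) (hC2 : 0 ≤ C₂) (hS : T1iStat G C₁) (hZ : ZetaP G C₂) : ∃ C : ℝ, 0 ≤ C ∧ T1iP G C  -- the same under `GoodAll`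

### R226/T1iMain_115 [ns Crest.Agent.R226.T1i115] 
* theorem radial (hB : Base G) {c0 C0 : ℝ} (hc0 : 0 < c0) (hC0 : 0 ≤ C0) (hR : RadP G c0 C0) {B1 Dm : ℝ} (hB1 : 0 ≤ B1) (hDm : 0 ≤ Dm) (h1 : ∀ y : M, ∀ q ∈ G.K y, C3B (Hf G y) B1 q) (h2 : ∀ y : M, ∀ q ∈ G.K y, ‖q‖ ≤ Dm) {y : M} {q : TangentSpace (𝓡 n) y} (hq : q ∈ G.K y) (v : TangentSpace (𝓡 n) y) {ρ r : ℝ} (hρ : 0 < ρ) (hρ2 : ρ ≤ 1 / 2) (hr : r = 1 - ρ) (hρ3 : C0 * B1 * Dm * ρ ≤ c0 / 2) (hρ4 : 2 * C0 * ρ ≤ 1) : ρ * (c …  -- the radial increment of `Hf` from `RadP`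
* theorem stat_triv (hB : Base G) {B : ℝ} (hB1 : 1 ≤ B) {y : M} {q₀ q₁ : TangentSpace (𝓡 n) y} (hq₀ : q₀ ∈ G.I y) (hq₁ : q₁ ∈ G.I y) {ξ ζ : TangentSpace (𝓡 n) y} (hζ : ∀ θ, Hf G y q₀ ζ θ = ⟪ξ, θ⟫) (hP : DifferentiableAt ℝ (Pf G y) ((1 / 2 : ℝ) • q₀)) {a : ℝ} (ha : HasDerivAt (fun s : ℝ => G.phi y ξ (q₀ + s • (q₁ - q₀))) a 0) (bH0 : ‖Hf G y q₀‖ ≤ B) (bP : ‖(2 : ℝ) • rem (Pf G y) ((1 / 2 : ℝ) • q₀) ((1 / 2 : ℝ) • q₁)‖ ≤  …  -- the trivial case `|κ| ≥ ρ₀ L Λ`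
* structure Consts (G : GeoData n M) (B c ρ₀ : ℝ) : Prop where hB1 : 1 ≤ B hc : 0 < c hρ₀ : 0 < ρ₀ hρB : ρ₀ * B ≤ 1 hρ2 : ρ₀ ≤ 1 / 2 norm : ∀ y : M, ∀ q ∈ G.K y, ‖q‖ ≤ B nH : ∀ y : M, ∀ q ∈ G.K y, ‖Hf G y q‖ ≤ B dP : ∀ y : M, ∀ q ∈ G.K y, DifferentiableAt ℝ (Pf G y) ((1 / 2 : ℝ) • q) rP : ∀ y : M, ∀ q₀ q₁ : TangentSpace (𝓡 n) y, segment ℝ q₀ q₁ ⊆ G.K y → ‖(2 : ℝ) • rem (Pf G y) ((1 / 2 : ℝ) • q₀) ((1 / 2 : ℝ) • q₁)‖ ≤  …  -- the constants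

### R226/T1iReal_115 [ns Crest.Agent.R226.T1i115] 
* theorem amgm {p x y : ℝ} (hp : 0 < p) : 2 * x * y ≤ p * x ^ 2 + y ^ 2 / p  -- arithmetic-geometric mean with a weight

### R226/T1iRem_115 [ns Crest.Agent.R226.T1i115] 
* def rem (Φ : E → V) (a b : E) : V  -- the remainder
* theorem mv_ray {f f' : ℝ → V} {r₀ C : ℝ} (h0 : r₀ ≤ 1) (hf : ∀ r ∈ Icc r₀ 1, HasDerivAt f (f' r) r) (hb : ∀ r ∈ Icc r₀ 1, ‖f' r‖ ≤ C) : ‖f 1 - f r₀‖ ≤ C * (1 - r₀)  -- mean value inequality on `[r₀, 1]`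
* theorem scale_le (hB : 0 ≤ B) (h0 : 0 ≤ r₀) (h1 : r₀ ≤ 1) (hS : ∀ r ∈ Icc r₀ 1, C3B Φ B (r • a)) : ‖Φ a - Φ (r₀ • a)‖ ≤ B * ‖a‖ * (1 - r₀)  -- variation of the value under dilation
* theorem diff_scale_le (hB : 0 ≤ B) (h0 : 0 ≤ r₀) (h1 : r₀ ≤ 1) (hS : ∀ r ∈ Icc r₀ 1, ∀ q ∈ segment ℝ a b, C3B Φ B (r • q)) : ‖(Φ b - Φ a) - (Φ (r₀ • b) - Φ (r₀ • a))‖ ≤ B * (‖b‖ + 1) * ‖b - a‖ * (1 - r₀)  -- variation of a difference under dilation
* theorem rem_scale_le (hB : 0 ≤ B) (h0 : 0 ≤ r₀) (h1 : r₀ ≤ 1) (hS : ∀ r ∈ Icc r₀ 1, ∀ q ∈ segment ℝ a b, C3B Φ B (r • q)) : ‖rem Φ a b - rem Φ (r₀ • a) (r₀ • b)‖ ≤ B * (‖b‖ + 1) * ‖b - a‖ ^ 2 * (1 - r₀)  -- variation of the remainder under dilation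

### R226/T1iStat_115 [ns Crest.Agent.R226.T1i115] 
* theorem deriv_phi (hB : Base G) {y : M} {q₀ : TangentSpace (𝓡 n) y} (hq₀ : q₀ ∈ G.I y) {ξ ζ : TangentSpace (𝓡 n) y} (hζ : ∀ θ, Hf G y q₀ ζ θ = ⟪ξ, θ⟫) (D : TangentSpace (𝓡 n) y) (hP : DifferentiableAt ℝ (Pf G y) ((1 / 2 : ℝ) • q₀)) {a : ℝ} (ha : HasDerivAt (fun s : ℝ => G.phi y ξ (q₀ + s • D)) a 0) : a = 2 * fderiv ℝ (Pf G y) ((1 / 2 : ℝ) • q₀) ((1 / 2 : ℝ) • D) ξ ξ + fderiv ℝ (Hf G y) q₀ D ζ ζ  -- the derivative of `φ_ξ` in the direction `D`, in normal form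
* theorem T_formula (hB : Base G) {y : M} {q₀ q₁ : TangentSpace (𝓡 n) y} (hq₀ : q₀ ∈ G.I y) (hq₁ : q₁ ∈ G.I y) {ξ ζ : TangentSpace (𝓡 n) y} (hζ : ∀ θ, Hf G y q₀ ζ θ = ⟪ξ, θ⟫) (hP : DifferentiableAt ℝ (Pf G y) ((1 / 2 : ℝ) • q₀)) {a : ℝ} (ha : HasDerivAt (fun s : ℝ => G.phi y ξ (q₀ + s • (q₁ - q₀))) a 0) : G.phi y ξ q₀ - G.phi y ξ q₁ + a = -(((2 : ℝ) • rem (Pf G y) ((1 / 2 : ℝ) • q₀) ((1 / 2 : ℝ) • q₁)) ξ ξ) + Rf G y ξ  …  -- normal form of `T`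
* theorem T_nonneg (hM : MTWFacts G) {y : M} {q₀ q₁ : TangentSpace (𝓡 n) y} (hseg : segment ℝ q₀ q₁ ⊆ G.I y) {ξ : TangentSpace (𝓡 n) y} (h0 : ⟪q₁ - q₀, ξ⟫ = 0) {a : ℝ} (ha : HasDerivAt (fun s : ℝ => G.phi y ξ (q₀ + s • (q₁ - q₀))) a 0) : 0 ≤ G.phi y ξ q₀ - G.phi y ξ q₁ + a  -- MTW: `T ≥ 0` if `⟪D, ξ⟫ = 0`
* theorem exists_deriv_phi (hB : Base G) {y : M} {q₀ : TangentSpace (𝓡 n) y} (hq₀ : q₀ ∈ G.I y) (ξ D : TangentSpace (𝓡 n) y) : ∃ a : ℝ, HasDerivAt (fun s : ℝ => G.phi y ξ (q₀ + s • D)) a 0  -- existence of the derivative of `φ_ξ` on lines of `I`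
* theorem T_ge_trivial (hB : Base G) {y : M} {q₀ q₁ : TangentSpace (𝓡 n) y} (hq₀ : q₀ ∈ G.I y) (hq₁ : q₁ ∈ G.I y) {ξ ζ : TangentSpace (𝓡 n) y} (hζ : ∀ θ, Hf G y q₀ ζ θ = ⟪ξ, θ⟫) (hP : DifferentiableAt ℝ (Pf G y) ((1 / 2 : ℝ) • q₀)) {a : ℝ} (ha : HasDerivAt (fun s : ℝ => G.phi y ξ (q₀ + s • (q₁ - q₀))) a 0) : -(((2 : ℝ) • rem (Pf G y) ((1 / 2 : ℝ) • q₀) ((1 / 2 : ℝ) • q₁)) ξ ξ) - rem (Hf G y) q₀ q₁ ζ ζ ≤ G.phi y ξ q₀ -  …  -- the trivial lower bound `T ≥ -C L² Λ²`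

### R226/T1iTop_115 [ns Crest.Agent.R226.T1i115] 
* theorem rem_Pf_symm (hB : Base G) {y : M} {a b : TangentSpace (𝓡 n) y} (ha : a ∈ G.I y) (hb : b ∈ G.I y) (hd : DifferentiableAt ℝ (Pf G y) a) (u v : TangentSpace (𝓡 n) y) : ((2 : ℝ) • rem (Pf G y) a b) u v = ((2 : ℝ) • rem (Pf G y) a b) v u  -- symmetry of the remainder of `Pf`
* theorem stat_main (hB : Base G) (hM : MTWFacts G) {B c ρ₀ : ℝ} (hC : Consts G B c ρ₀) {y : M} {q₀ q₁ : TangentSpace (𝓡 n) y} (hseg : segment ℝ q₀ q₁ ⊆ G.I y) {ξ ζ : TangentSpace (𝓡 n) y} (hζ : ∀ θ, Hf G y q₀ ζ θ = ⟪ξ, θ⟫) {a : ℝ} (ha : HasDerivAt (fun s : ℝ => G.phi y ξ (q₀ + s • (q₁ - q₀))) a 0) {ρ : ℝ} (hρ : 0 < ρ) (hρρ : ρ ≤ ρ₀) (hX0 : ⟪q₀, q₁ - q₀⟫ ≠ 0) (hρκ : ρ * (‖q₁ - q₀‖ * ‖ζ‖) = |⟪q₁ - q₀, ξ⟫|) (hD0 : 0 < ‖q …  -- the main case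
* theorem t1iStat (hB : Base G) (hM : MTWFacts G) (hconv : ∀ y, Convex ℝ (G.I y)) {c0 C0 : ℝ} (hc0 : 0 < c0) (hR : RadP G c0 C0) : ∃ C : ℝ, 0 ≤ C ∧ T1iStat G C  -- (T1)(i), static form, from the radial monotonicity `RadP` and MTW

### R226/TB_616 [ns Crest.Agent.R226.TB616] ### Fibrewise linear operations on the tangent bundle
* theorem contMDiff_norm_sq : ContMDiff (𝓡 n).tangent 𝓘(ℝ) ∞ (fun p : TangentBundle (𝓡 n) M => ‖p.2‖ ^ 2)  -- `p ↦ ‖p‖²` is smooth on the tangent bundle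
* theorem continuous_norm : Continuous (fun p : TangentBundle (𝓡 n) M => ‖p.2‖)  -- the norm is continuous on the tangent bundle
* def toFib (x : M) : EuclideanSpace ℝ (Fin n) ≃L[ℝ] TangentSpace (𝓡 n) x  -- the identity from the model space to the tangent space with its Riemannian norm
* theorem contMDiff_fibre' (x : M) : ContMDiff 𝓘(ℝ, TangentSpace (𝓡 n) x) (𝓡 n).tangent ∞ (fun v : TangentSpace (𝓡 n) x => (⟨x, v⟩ : TangentBundle (𝓡 n) M))  -- the inclusion of a fibre (with its Riemannian norm) is smooth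
* theorem exists_subseq [CompactSpace M] {R : ℝ} (p : ℕ → TangentBundle (𝓡 n) M) (hp : ∀ k, ‖(p k).2‖ ≤ R) : ∃ (q : TangentBundle (𝓡 n) M) (φ : ℕ → ℕ), StrictMono φ ∧ ‖q.2‖ ≤ R ∧ Tendsto (fun k => p (φ k)) atTop (𝓝 q)  -- bounded sequences of tangent vectors subconverge

### R226/TMSmooth_771 [ns Crest.Agent.R226.TMSmooth771] Layer A5: the chart of the tangent bundle at `x₀`, written with `mfderiv` of the charts of `M`, and smoothness of maps `TM → M` which are given in such a chart by a smooth function.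
* def tmci (x₀ : M) (q : EE n × EE n) : TangentBundle (𝓡 n) M  -- the inverse of the tangent bundle chart at `x₀`
* def zpt (n : ℕ) {M : Type*} [MetricSpace M] [ChartedSpace (EuclideanSpace ℝ (Fin n)) M] [IsManifold (𝓡 n) ∞ M] (x₀ : M) : TangentBundle (𝓡 n) M  -- the base point `(x₀, 0)`
* theorem contMDiffAt_of_chart {x₀ x₁ : M} {p : TangentBundle (𝓡 n) M} (hp : p.1 ∈ (chartAt (EuclideanSpace ℝ (Fin n)) x₀).source) {F : EE n × EE n → EE n} (hF : ContDiffAt ℝ ∞ F (tmc x₀ p)) (hFt : F (tmc x₀ p) ∈ (extChartAt (𝓡 n) x₁).target) {f : TangentBundle (𝓡 n) M → M} (hf : ∀ᶠ q in 𝓝 p, f q = (extChartAt (𝓡 n) x₁).symm (F (tmc x₀ q))) : ContMDiffAt (𝓡 n).tangent (𝓡 n) ∞ f p  -- A map `TM → M` which, near `p`, is of the form `φ₁⁻¹ ∘ F ∘ (bundle chart at x₀)` with `F` smooth, is smooth at `p`.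
* theorem contMDiffAt_tangent_of_chart {x₀ x₁ : M} {p : TangentBundle (𝓡 n) M} (hp : p.1 ∈ (chartAt (EuclideanSpace ℝ (Fin n)) x₀).source) {F : EE n × EE n → EE n × EE n} (hF : ContDiffAt ℝ ∞ F (tmc x₀ p)) (hFt : (F (tmc x₀ p)).1 ∈ (extChartAt (𝓡 n) x₁).target) {f : TangentBundle (𝓡 n) M → TangentBundle (𝓡 n) M} (hf : ∀ᶠ q in 𝓝 p, f q = tmci x₁ (F (tmc x₀ q))) : ContMDiffAt (𝓡 n).tangent (𝓡 n).tangent ∞ f p  -- A map `TM → TM` given in bundle charts by a smooth map is smooth.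
* theorem contMDiffAt_real_of_chart {V : Type*} [NormedAddCommGroup V] [NormedSpace ℝ V] {x₀ : M} {p : TangentBundle (𝓡 n) M} (hp : p.1 ∈ (chartAt (EuclideanSpace ℝ (Fin n)) x₀).source) {F : EE n × EE n → V} (hF : ContDiffAt ℝ ∞ F (tmc x₀ p)) {f : TangentBundle (𝓡 n) M → V} (hf : ∀ᶠ q in 𝓝 p, f q = F (tmc x₀ q)) : ContMDiffAt (𝓡 n).tangent 𝓘(ℝ, V) ∞ f p  -- A real function on `TM` given in a bundle chart by a smooth function is smooth.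

### R226/TallFin_114 [ns Crest.Agent.R226.TallFin114] 
* def QT (G : GeoData n M) (u : M → ℝ) (y : M) (H : ℝ) (qN : TangentSpace (𝓡 n) y) (T : ℝ) : Set (TangentSpace (𝓡 n) y)  -- the truncated section
* theorem u_sub (u : M → ℝ) (x x' y : M) : u x - u x' = halfDistSq x' y - halfDistSq x y + Dd u x y - Dd u x' y  -- levels: `u x - u x' = c(x',y) - c(x,y) + D(x,y) - D(x',y)`.
* theorem mass_real {V J1 mQ : ℝ≥0∞} {CA cW κ : ℝ} (hCA : 0 < CA) (hcW : 0 ≤ cW) (hκ : 0 ≤ κ) {j : ℕ} (hVt : V ≠ ⊤) (hV : V ≤ 2 ^ (j + 1) * (ENNReal.ofReal CA * (J1 * mQ))) : ENNReal.ofReal (cW * κ / (CA * 2 ^ (j + 1)) * V.toReal) ≤ ENNReal.ofReal cW * J1 * (ENNReal.ofReal κ * mQ)  -- numbers of the mass transfer.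
* theorem exp_bound {CN B0 T H D2 : ℝ} (hCN : 0 ≤ CN) (hB0 : 0 ≤ B0) (hT : 0 < T) (hH : 0 ≤ H) (hHT : H ≤ T) (hTD : T ≤ D2) : 4 * Real.exp (CN * √(8 * (2 * (B0 * T) + H)) * (1 + √(2 / (T / 5)))) ≤ 4 * Real.exp (CN * (√(8 * (2 * B0 + 1) * D2) + √(80 * (2 * B0 + 1))))  -- the exponent of `b2` is bounded.
* theorem tall_pair [IsFiniteMeasure (Measure.hausdorffMeasure (n : ℝ) : Measure M)] (hB : Base347.Base G) (hC : CutFacts G) (hg : GoodAll G) {CN : ℝ} (hCN : 0 ≤ CN) (hNS : NS1P G CN) {cW : ℝ} (hcW : 0 < cW) (hW : WJ G cW) {m : ℝ} (hm : 0 < m) {B0 : ℝ} (hB0 : 0 ≤ B0) : ∃ c c1 C1 K : ℝ, 0 < c ∧ 0 < c1 ∧ 0 < C1 ∧ 1 < K ∧ ∀ u : M → ℝ, CConv u → AlexPinch (Measure.hausdorffMeasure (n : ℝ) : Measure M) u m → ∀ (yF xN : M) ( …  -- the tall section (leaf (F)).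

### R226/TallGeo_114 [ns Crest.Agent.R226.TallGeo114 / Tall] ### masses
* structure Tall (Q : Set E) (qN q1 : E) (T : ℝ) : Prop where conv : Convex ℝ Q memN : qN ∈ Q min : ∀ w ∈ Q, ‖qN‖ ≤ ‖w‖ mem1 : q1 ∈ Q pos : 0 < T lo : T ≤ ‖q1‖ ^ 2 / 2 - ‖qN‖ ^ 2 / 2 hi : ∀ w ∈ Q, ‖w‖ ^ 2 / 2 - ‖qN‖ ^ 2 / 2 ≤ 2 * T  -- a tall convex set with a heavy point.
* theorem inward (h : Tall Q qN q1 T) {m : E} (hm : m ∈ Q) {s b : ℝ} (hs : 0 ≤ s) (hs' : s ≤ 1 / 8) (hb' : b ≤ 1 / 2) : ⟪q1 + b • (((1 - s) • qN + s • m) - q1), ((1 - s) • qN + s • m) - q1⟫ ≤ -(1 / 8) * ‖((1 - s) • qN + s • m) - q1‖ ^ 2  -- inwardness of the chords `q1 → (1-s) qN + s m`, `s ≤ 1/8`, up to time `1/2`.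
* theorem J_row (h : Tall Q qN q1 T) {J : E → ℝ≥0∞} {c : ℝ≥0∞} (hJ : ∀ z ∈ Q, ∀ t : ℝ, 0 ≤ t → t ≤ 1 / 2 → (∀ b : ℝ, 0 ≤ b → b ≤ t → (1 / 8) * ‖z - q1‖ ^ 2 ≤ |⟪q1 + b • (z - q1), z - q1⟫|) → c * J q1 ≤ J (q1 + t • (z - q1))) {m : E} (hm : m ∈ Q) {τ : ℝ} (h0 : 9 / 16 ≤ τ) (h1 : τ ≤ 1) : c * J q1 ≤ J (row qN q1 m τ)  -- `c J(q1) ≤ J` on the rows, from the one base point comparison.
* theorem mass_core (h : Tall Q qN q1 T) (hQm : MeasurableSet Q) {J : E → ℝ≥0∞} {c : ℝ≥0∞} (hJ : ∀ z ∈ Q, ∀ t : ℝ, 0 ≤ t → t ≤ 1 / 2 → (∀ b : ℝ, 0 ≤ b → b ≤ t → (1 / 8) * ‖z - q1‖ ^ 2 ≤ |⟪q1 + b • (z - q1), z - q1⟫|) → c * J q1 ≤ J (q1 + t • (z - q1))) {g : E} (hg : g ∈ Q) : c * J q1 * (ENNReal.ofReal ((1 / 256) ^ finrank ℝ E) * μ Q) ≤ ∫⁻ q in core Q qN q1 g, J q ∂μ  -- mass of the core.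
* theorem mass_half (h : Tall Q qN q1 T) (hQc : IsCompact Q) {J : E → ℝ≥0∞} {c : ℝ≥0∞} (hJ : ∀ z ∈ Q, ∀ t : ℝ, 0 ≤ t → t ≤ 1 / 2 → (∀ b : ℝ, 0 ≤ b → b ≤ t → (1 / 8) * ‖z - q1‖ ^ 2 ≤ |⟪q1 + b • (z - q1), z - q1⟫|) → c * J q1 ≤ J (q1 + t • (z - q1))) {g : E} (hga : ∀ a : E →L[ℝ] ℝ, μ Q ≤ ENNReal.ofReal (finrank ℝ E + 1) * μ (Q ∩ {q | a g ≤ a q})) {m : E} (hm : m ∈ Q) {τ : ℝ} (h0 : 9 / 16 ≤ τ) (h1 : τ ≤ 1) (a : E →L[ℝ] ℝ) …  -- mass of the half-spaces through the rows `3/4 ≤ τ ≤ 1`.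

### R226/TallSel_227 [ns Crest.Agent.R226.TallSel227] ### dyadic pigeonhole
* theorem exists_window {α : Type*} [MeasurableSpace α] (vol : Measure α) {X : Set α} (hfin : vol X ≠ ⊤) {f : α → ℝ} {a : ℝ} (ha : 0 < a) (hf : ∀ x ∈ X, a ≤ f x) (h0 : vol X ≠ 0) : ∃ j : ℕ, vol X ≤ 2 ^ (j + 1) * vol {x | x ∈ X ∧ 2 ^ j * a ≤ f x ∧ f x ≤ 2 ^ (j + 1) * a}  -- dyadic pigeonhole: a set of finite measure with a height `f ≥ a > 0` has a window `2^j a ≤ f ≤ 2^(j+1) a` carrying the fraction `2^-(j+1)`.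
* theorem far_sees {G : GeoData n M} [CompactSpace M] (hg : GoodAll G) {u : M → ℝ} (hu : CConv u) {y : M} {H : ℝ} (hH : 0 < H) {q₁ z : TangentSpace (𝓡 n) y} (hq₁ : q₁ ∈ QS G u y H) (hz : z ∈ QS G u y H) {t t' : ℝ} (ht : 0 ≤ t) (htt : t < t') (ht' : t' ≤ 1) {r N : ℝ} (hr : 0 < r) (hN : 0 ≤ N) (h1 : r ≤ ‖q₁ + t • (z - q₁)‖ ^ 2 / 2 - ‖q₁ + t' • (z - q₁)‖ ^ 2 / 2) (h2 : ‖q₁‖ ^ 2 / 2 - ‖q₁ + t • (z - q₁)‖ ^ 2 / 2 ≤ N * r) { …  -- (b1): chord `q₁ → z` in the section, `t < t'`, levels strictly decreasing from `t` to `t'` by `r`, `ρ(q₁) - ρ(q_t) ≤ N r`. Every contact `y'` of `exp q_t` s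
* theorem continuousOn_jd {G : GeoData n M} (hC : CutFacts G) (x : M) : ContinuousOn (fun p => jd G x p) (G.K x)  -- continuity of the Jacobian determinant on `K(x)`.
* theorem exists_heavy {G : GeoData n M} (hC : CutFacts G) [MeasurableSpace M] [BorelSpace M] {vol : Measure M} [IsFiniteMeasure vol] {u : M → ℝ} {y : M} [MeasurableSpace (TangentSpace (𝓡 n) y)] [BorelSpace (TangentSpace (𝓡 n) y)] {μ : Measure (TangentSpace (𝓡 n) y)} {J : TangentSpace (𝓡 n) y → ℝ≥0∞} {C : ℝ} (hJ : ∀ p ∈ G.K y, J p = ENNReal.ofReal (jd G y p)) (harea : ∀ A ⊆ G.K y, IsCompact A → vol (G.ex y '' A) ≤ ENNR …  -- (F1): the dyadic window of heights and the heavy point `q₁`.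

### R226/TangentTools_415 [ns Crest.Agent.R226.GlobalEx415] 
* def unitT (q : ℝ × TangentBundle (𝓡 n) M) : TangentBundle (𝓘(ℝ, ℝ).prod (𝓡 n).tangent) (ℝ × TangentBundle (𝓡 n) M)  -- the vector `((t,p),(1,0))` of the tangent space of `ℝ × TM`
* theorem contMDiffAt_radialCurve {e : ∀ x : M, TangentSpace (𝓡 n) x → M} {O : Set (TangentBundle (𝓡 n) M)} (hO : IsOpen O) (he : ContMDiffOn (𝓡 n).tangent (𝓡 n) ∞ (fun p : TangentBundle (𝓡 n) M => e p.1 p.2) O) (p : TangentBundle (𝓡 n) M) (t : ℝ) (ht : scaleT t p ∈ O) : ContMDiffAt 𝓘(ℝ, ℝ) (𝓡 n) ∞ (fun t : ℝ => e p.1 (t • p.2)) t  -- the radial curve `t ↦ e (t p)` is smooth where `t p ∈ O`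
* theorem contMDiffOn_radial {e : ∀ x : M, TangentSpace (𝓡 n) x → M} {O : Set (TangentBundle (𝓡 n) M)} (hO : IsOpen O) (he : ContMDiffOn (𝓡 n).tangent (𝓡 n) ∞ (fun p : TangentBundle (𝓡 n) M => e p.1 p.2) O) : ContMDiffOn (𝓘(ℝ, ℝ).prod (𝓡 n).tangent) (𝓡 n).tangent ∞ (fun q : ℝ × TangentBundle (𝓡 n) M => radial e q.1 q.2) {q | scaleT q.1 q.2 ∈ O}  -- joint smoothness of the radial lift
* theorem nearDiag_radial_smooth (N : NearDiag n M) : ContMDiffOn (𝓘(ℝ, ℝ).prod (𝓡 n).tangent) (𝓡 n).tangent ∞ (fun q : ℝ × TangentBundle (𝓡 n) M => radial N.e q.1 q.2) {q | |q.1| * ‖q.2.2‖ < N.r₀}  -- `SmallFlow.smooth`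
* theorem contMDiff_radial_of_contMDiff {e : ∀ x : M, TangentSpace (𝓡 n) x → M} (he : ContMDiff (𝓡 n).tangent (𝓡 n) ∞ (fun p : TangentBundle (𝓡 n) M => e p.1 p.2)) : ContMDiff (𝓘(ℝ, ℝ).prod (𝓡 n).tangent) (𝓡 n).tangent ∞ (fun q : ℝ × TangentBundle (𝓡 n) M => radial e q.1 q.2)  -- `GeoCore.smooth_radial`

### R226/Taylor2_344 [ns Crest.Agent.R226.Taylor344] ### Lipschitz bound of the exponential map along the fibres
* def Sym (G : GeoData n M) (z : M) : Set (TangentSpace (𝓡 n) z)  -- symmetric minimisers at `z`: the geodesic from `exp_z (-v)` to `exp_z v` is minimising.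
* def SymT (G : GeoData n M) : Set (TangentBundle (𝓡 n) M)  -- the same as a subset of the tangent bundle
* theorem mem_I_of_curve {G : GeoData n M} {z : M} {w : TangentSpace (𝓡 n) z} {z' : M} (hz : z' = z) {q' : TangentSpace (𝓡 n) z'} (hq : q' ∈ G.I z') (h : ∀ t : ℝ, G.ex z' (t • q') = G.ex z (t • w)) : w ∈ G.I z  -- transport of reversed vectors
* theorem exists_mid {G : GeoData n M} {x : M} {p : TangentSpace (𝓡 n) x} (hp : p ∈ G.K x) : ∃ (z : M) (v : TangentSpace (𝓡 n) z), v ∈ Sym G z ∧ G.ex z (-v) = x ∧ G.ex z v = G.ex x p ∧ ‖v‖ = ‖p‖ / 2 ∧ z = G.ex x ((1 / 2 : ℝ) • p)  -- every minimiser has a midpoint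
* theorem ex_lip_uniform (G : GeoData n M) {S : Set (TangentBundle (𝓡 n) M)} (hS : IsCompact S) : ∃ C r : ℝ, 0 ≤ C ∧ 0 < r ∧ ∀ (z : M) (v : TangentSpace (𝓡 n) z), (⟨z, v⟩ : TangentBundle (𝓡 n) M) ∈ S → ∀ v' : TangentSpace (𝓡 n) z, ‖v' - v‖ ≤ r → dist (G.ex z v') (G.ex z v) ≤ C * ‖v' - v‖  -- uniform Lipschitz bound of `exp` along fibres, on a compact subset of `TM`.

### R226/Taylor3_344 [ns Crest.Agent.R226.Taylor344] 
* def ell (G : GeoData n M) (z1 z2 z : M) : ℝ  -- `ell z1 z2 z = ⟪w, log_{z1} z⟫`, `w` the unit vector at `z1` towards `z2`.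
* theorem near_zero {G : GeoData n M} (hC : CutFacts G) : ∃ C r : ℝ, 0 < C ∧ 0 < r ∧ ∀ (z : M) (v ζ : TangentSpace (𝓡 n) z), ‖v‖ ≤ r → ‖ζ‖ ≤ r → v ∈ G.K z ∧ |dist (G.ex z ζ) (G.ex z v) ^ 2 - ‖v‖ ^ 2 - ‖ζ‖ ^ 2 + 2 * inner ℝ v ζ| ≤ C * ‖v‖ * ‖ζ‖ ^ 2  -- comparison of the distance with the euclidean one near `0`.
* theorem ell_est {G : GeoData n M} (hC : CutFacts G) : ∃ C r : ℝ, 0 < C ∧ 0 < r ∧ ∀ z1 z2 z : M, z1 ≠ z2 → dist z1 z2 ≤ r → dist z z1 ≤ r → |ell G z1 z2 z - (dist z z1 ^ 2 + dist z1 z2 ^ 2 - dist z z2 ^ 2) / (2 * dist z1 z2)| ≤ C * dist z z1 ^ 2  -- law of cosines for `ell`.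
* theorem geo {G : GeoData n M} (hC : CutFacts G) : ∃ C r : ℝ, 0 < C ∧ 0 < r ∧ ∀ z1 z2 z : M, z1 ≠ z2 → dist z1 z2 ≤ r → dist z z1 ≤ r → dist z1 z2 - ell G z1 z2 z ≤ dist z z2 + C * (dist z z1 + dist z1 z2) ^ 2 ∧ dist z1 z2 ≤ ell G z1 z2 z + ell G z2 z1 z + C * (dist z z1 + dist z1 z2) ^ 2  -- the two geometric inequalities.
* theorem taylor_pair {G : GeoData n M} (hC : CutFacts G) : ∃ Λ C r : ℝ, 0 < Λ ∧ 0 < C ∧ 0 < r ∧ ∀ (z1 : M), ∀ v ∈ Sym G z1, ∀ z2 : M, z1 ≠ z2 → ∀ μ : ℝ, |μ| ≤ r → ∃ x y : M, dist x (G.ex z1 (-v)) ≤ Λ * |μ| ∧ dist y (G.ex z1 v) ≤ Λ * |μ| ∧ ∀ z : M, dist z z1 ≤ r → |(2 * halfDistSq x z - 2 * halfDistSq (G.ex z1 (-v)) z) - (2 * halfDistSq x z1 - 2 * halfDistSq (G.ex z1 (-v)) z1) + 2 * μ * ell G z1 z2 z| ≤ C * |μ| * dist  …  -- the pair expansion of Theorem 3.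

### R226/TaylorCalc_344 [ns Crest.Agent.R226.TaylorCalc344] 
* theorem abs_taylor_le {φ φ' : ℝ → ℝ} {B : ℝ} (h1 : ∀ s ∈ Icc (0 : ℝ) 1, HasDerivAt φ (φ' s) s) (h2 : ∀ s ∈ Icc (0 : ℝ) 1, |φ' s - φ' 0| ≤ B) : |φ 1 - φ 0 - φ' 0| ≤ B  -- second order Taylor estimate on `[0,1]` with a bound on the variation of the first derivative.
* theorem exists_taylor {H : E × E × E → ℝ} {a Q : E} (hH : ContDiffAt ℝ 3 H (a, 0, Q)) : ∃ ε : ℝ, 0 < ε ∧ ∃ K : ℝ, 0 ≤ K ∧ ∀ x z V V' : E, ‖x - a‖ < ε → ‖z‖ < ε → ‖V - Q‖ < ε → ‖V' - Q‖ < ε → DifferentiableAt ℝ H (x, 0, V) ∧ |(H (x, z, V') - H (x, 0, V') - fderiv ℝ H (x, 0, V') (0, z, 0)) - (H (x, z, V) - H (x, 0, V) - fderiv ℝ H (x, 0, V) (0, z, 0))| ≤ K * ‖V' - V‖ * ‖z‖ ^ 2  -- Taylor estimate in the middle variable with Lipschitz dependence on the last one.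
* theorem exists_quad {H : E × E × E → ℝ} {a Q : E} (hH : ContDiffAt ℝ 2 H (a, Q, Q)) (h0 : ∀ x A : E, H (x, A, A) = 0) (hnn : ∀ p, 0 ≤ H p) : ∃ ε : ℝ, 0 < ε ∧ ∃ K : ℝ, 0 ≤ K ∧ ∀ x A B : E, ‖x - a‖ < ε → ‖A - Q‖ < ε → ‖B - Q‖ < ε → H (x, A, B) ≤ K * ‖B - A‖ ^ 2  -- a nonnegative `C²` function vanishing on the diagonal is bounded by the squared distance.

### R226/Taylor_344 [ns Crest.Agent.R226.Taylor344] 
* def rem (G : GeoData n M) (z : M) (v ζ : TangentSpace (𝓡 n) z) : ℝ  -- second order Taylor remainder of the cost in normal coordinates at `z`.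
* theorem rem_local {G : GeoData n M} (hC : CutFacts G) {y : M} {q : TangentSpace (𝓡 n) y} (hq : q ∈ G.I y) : ∃ N ∈ 𝓝 (⟨y, q⟩ : TangentBundle (𝓡 n) M), ∃ C r : ℝ, 0 ≤ C ∧ 0 < r ∧ ∀ (z : M) (v : TangentSpace (𝓡 n) z), (⟨z, v⟩ : TangentBundle (𝓡 n) M) ∈ N → ∀ v' ζ : TangentSpace (𝓡 n) z, ‖v' - v‖ ≤ r → ‖ζ‖ ≤ r → v' ∈ G.I z ∧ |rem G z v' ζ - rem G z v ζ| ≤ C * ‖v' - v‖ * ‖ζ‖ ^ 2  -- local form of the uniform Taylor lemma.
* theorem rem_uniform {G : GeoData n M} (hC : CutFacts G) {S : Set (TangentBundle (𝓡 n) M)} (hS : IsCompact S) (hSI : S ⊆ G.IT) : ∃ C r : ℝ, 0 ≤ C ∧ 0 < r ∧ ∀ (z : M) (v : TangentSpace (𝓡 n) z), (⟨z, v⟩ : TangentBundle (𝓡 n) M) ∈ S → ∀ v' ζ : TangentSpace (𝓡 n) z, ‖v' - v‖ ≤ r → ‖ζ‖ ≤ r → v' ∈ G.I z ∧ |rem G z v' ζ - rem G z v ζ| ≤ C * ‖v' - v‖ * ‖ζ‖ ^ 2  -- uniform form on compact subsets of `I ⊆ TM`.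

### R226/Thm2_887 [ns Crest.Agent.R226.Thm2_887] 
* theorem cost_danskin (hC : CutFacts G) (x y : M) (ξ : TangentSpace (𝓡 n) x) (m : ℝ) (hm : ∀ w ∈ G.K x, G.ex x w = y → inner ℝ w ξ < m) : ∀ᶠ t : ℝ in 𝓝[>] 0, halfDistSq x y - m * t < halfDistSq (G.ex x (t • ξ)) y  -- one-sided directional derivative of the cost (lower bound): if every minimising velocity `w` from `x` to `y` has `⟪w, ξ⟫ < m`, then `c(exp_x(tξ), y) > c(x,y) - 
* theorem isCompact_W (hC : CutFacts G) (x y : M) : IsCompact {w : TangentSpace (𝓡 n) x | w ∈ G.K x ∧ G.ex x w = y}  -- the set of minimising velocities from `x` to `y` is compact.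
* theorem cSub_subsingleton (hC : CutFacts G) {u : M → ℝ} (hu : CConv u) {K₀ : ℝ} (hE : ∀ x xh y y₀ : M, u x + ctr u y + halfDistSq x y ≤ K₀ * max (u x + ctr u y₀ + halfDistSq x y₀) (max (u xh + ctr u y₀ + halfDistSq xh y₀) (u xh + ctr u y + halfDistSq xh y))) (x₁ : M) : (cSub u x₁).Subsingleton  -- Theorem 2 (first half). Under the engulfing inequality the `c`-subdifferential of `u` is at most one point everywhere.
* theorem P_subsingleton (hC : CutFacts G) {u : M → ℝ} (hu : CConv u) {K₀ : ℝ} (hE : ∀ x xh y y₀ : M, u x + ctr u y + halfDistSq x y ≤ K₀ * max (u x + ctr u y₀ + halfDistSq x y₀) (max (u xh + ctr u y₀ + halfDistSq xh y₀) (u xh + ctr u y + halfDistSq xh y))) (hgood : G.Good u 1) (x₁ : M) : (G.P u x₁).Subsingleton  -- Theorem 2 (second half). If moreover `P_u(x)` is convex (`Good u 1`), it is a singleton.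

### R226/TukeyMass_544 [ns Crest.Agent.R226.TukeyMass544] 
* def AA (G : GeoData n M) (u : M → ℝ) (x0 x1 : M) (p0 : TangentSpace (𝓡 n) x1) (h : ℝ) : Set (TangentSpace (𝓡 n) x1)  -- the outer half (with respect to `p₀`) of `log S`, `S = Y_h(x₀) ∩ Y_h(x₁)`.
* theorem tukey_mass (hg : GoodAll G) {vol : Measure M} [IsFiniteMeasure vol] (hvol : vol ≪ (Measure.hausdorffMeasure (n : ℝ) : Measure M)) {u : M → ℝ} (hu : CConv u) (x0 x1 : M) {h : ℝ} (hh : 0 ≤ h) : ∃ p0 ∈ G.K x1, Dd u x1 (G.ex x1 p0) ≤ h ∧ (∀ (x : M) (ε : ℝ), 0 < ε → (vol (SS u x0 x1 h)).toReal ≤ (n + 1) * (vol {y | Dd u x0 y ≤ h ∧ Dd u x y ≤ h + Dd u x (G.ex x1 p0) + ε}).toReal) ∧ (vol (SS u x0 x1 h)).toReal ≤ (n  …  -- Tukey column with mass: 487's `tukey_column` with the mass of the outer half of `log S`.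
* theorem mass_of_area {vol : Measure M} [IsFiniteMeasure vol] {u : M → ℝ} (hu : CConv u) {x0 x1 : M} {p0 : TangentSpace (𝓡 n) x1} {h C : ℝ} [MeasurableSpace (TangentSpace (𝓡 n) x1)] {μ : Measure (TangentSpace (𝓡 n) x1)} {J : TangentSpace (𝓡 n) x1 → ℝ≥0∞} (harea : ∀ A ⊆ G.K x1, IsCompact A → vol (G.ex x1 '' A) ≤ ENNReal.ofReal C * ∫⁻ p in A, J p ∂μ) (hmass : (vol (SS u x0 x1 h)).toReal ≤ (n + 1) * (vol (G.ex x1 '' AA G …  -- `∫`-form of the mass: `J` any density with the area inequality at `x₁` (second clause of `Jac344.exists_area`).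
* theorem ng_mass (hg : GoodAll G) {vol : Measure M} [IsFiniteMeasure vol] (hvol : vol ≪ (Measure.hausdorffMeasure (n : ℝ) : Measure M)) {u : M → ℝ} (hu : CConv u) {x0 x1 : M} {h h' L a' : ℝ} (hh : 0 ≤ h) (hhh : h < h') (hL : h + L < h') (hNG : ∀ x : M, (vol (SS u x0 x1 h)).toReal ≤ (n + 1) * (vol (SS u x0 x h')).toReal → u x0 - u x ≤ a') : ∃ p0 ∈ G.K x1, Dd u x1 (G.ex x1 p0) ≤ h ∧ (∀ x : M, Dd u x (G.ex x1 p0) ≤ L → u …  -- (A'): no growth of the pair functional (`R = 1`) gives one point `p₀` with * `D(x₁, exp p₀) ≤ h`, `u(x₀) - u(x) ≤ a'` for all `x` with `D(x, exp p₀) ≤ L`; *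
* theorem start_pair (hC : CutFacts G) (hD : DFacts G) (hg : GoodAll G) {vol : Measure M} [IsFiniteMeasure vol] (hvol : vol ≪ (Measure.hausdorffMeasure (n : ℝ) : Measure M)) {u : M → ℝ} (hu : CConv u) {x0 x1 : M} {h δ a s : ℝ} (hh : 0 < h) (hδ : 0 < δ) (ha : a = u x0 - u x1) (hs : s = h / (δ * a)) (hha : 2 * h ≤ δ * a) (hNG : ∀ x : M, 1 / (n + 1) * Vp vol u x0 x1 h ≤ Vp vol u x0 x (6 * h) → u x0 - u x ≤ (1 + δ) * a) :  …  -- (A') + (B): the start of the first half. No growth of the pair functional at `(x₀, x₁)` (fraction `1/(n+1)`, level `6h`) gives `p₀ ∈ K(x₁)` with the mass of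

### R226/Tukey_229 [ns Crest.Agent.R226.Tukey229] 
* def up (a : E →L[ℝ] ℝ) (z : E) : Set E  -- the closed half-space beyond `z` in direction `a`
* theorem exists_trunc (μ : Measure E) [IsFiniteMeasure μ] (a : E →L[ℝ] ℝ) (s : ℝ) {m : ℝ} (h : μ.real {w | s ≤ a w} < m) : ∃ k : ℕ, μ.real ({w | s - 1 / ((k : ℝ) + 1) < a w} ∪ {w | (k : ℝ) < ‖w‖}) < m  -- continuity from above of half-spaces, with truncation.
* theorem tukey (μ : Measure E) [IsFiniteMeasure μ] {K : Set E} (hK : IsClosed K) (hKc : Convex ℝ K) (hKne : K.Nonempty) (hK0 : μ Kᶜ = 0) : ∃ z ∈ K, ∀ a : E →L[ℝ] ℝ, μ.real univ ≤ (finrank ℝ E + 1) * μ.real (up a z)  -- Tukey's centre (centre point theorem).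

### R226/VolChartB_767 [ns Crest.Agent.R226.VolChart767 / GoodChart] R226, Layer F, task F2 (helper767). Part 2: the Riemannian volume `vol = μH[n]` in the extended charts: null sets, bi-Lipschitz charts, finiteness, positivity on open sets.
* structure GoodChart (n : ℕ) {M : Type*} [MetricSpace M] [ChartedSpace (EuclideanSpace ℝ (Fin n)) M] (x : M) (K : ℝ≥0) (r : ℝ) : Prop where one_le : 1 ≤ K r_pos : 0 < r ball_subset : ball (extChartAt (𝓡 n) x x) r ⊆ (extChartAt (𝓡 n) x).target lip : LipschitzOnWith K (extChartAt (𝓡 n) x) (dom n x r) lip_symm : LipschitzOnWith K (extChartAt (𝓡 n) x).symm (ball (extChartAt (𝓡 n) x x) r)  -- A good chart at `x` of constant `K` and radius `r`: the inverse extended chart is defined on the ball of radius `r` and both it and the chart are `K`-Lipschitz 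
* theorem ae_iff_forall_chart [SecondCountableTopology M] {p : M → Prop} : (∀ᵐ z ∂(μH[(n : ℝ)] : Measure M), p z) ↔ ∀ x : M, ∀ᵐ y ∂(volume : Measure (EuclideanSpace ℝ (Fin n))), y ∈ (extChartAt (𝓡 n) x).target → p ((extChartAt (𝓡 n) x).symm y)  -- A property holds `vol`-almost everywhere iff it holds Lebesgue-almost everywhere in charts.
* theorem isLocallyFiniteMeasure : IsLocallyFiniteMeasure (μH[(n : ℝ)] : Measure M)  -- `vol` is locally finite.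
* theorem isFiniteMeasure [CompactSpace M] : IsFiniteMeasure (μH[(n : ℝ)] : Measure M)  -- `vol` is finite on a compact manifold.
* theorem isOpenPosMeasure : (μH[(n : ℝ)] : Measure M).IsOpenPosMeasure  -- `vol` is positive on nonempty open sets.

### R226/VolChartC_767 [ns Crest.Agent.R226.VolChart767] R226, Layer F, task F2 (helper767). Part 3: uniform families of good charts on a compact manifold, uniform volume bounds for balls, doubling.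
* theorem exists_uniform_charts [CompactSpace M] : ∃ (K : ℝ≥0) (δ ρ : ℝ) (t : Finset M) (R : M → ℝ), 1 ≤ K ∧ 0 < δ ∧ 0 < ρ ∧ (∀ i ∈ t, GoodChart n i K (R i)) ∧ ∀ x : M, ∃ i ∈ t, ball x δ ⊆ dom n i (R i) ∧ ball (extChartAt (𝓡 n) i x) ρ ⊆ ball (extChartAt (𝓡 n) i i) (R i)  -- On a compact manifold there is a finite family of good charts with the same constant `K` such that every ball of radius `δ` is in the domain of one of them, and
* theorem exists_vol_closedBall_le [CompactSpace M] : ∃ C : ℝ≥0, ∀ (x : M) (r : ℝ), 0 < r → μH[(n : ℝ)] (closedBall x r) ≤ C * ENNReal.ofReal (r ^ n)  -- Upper volume bound for balls, uniform on a compact manifold.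
* theorem exists_le_vol_ball [CompactSpace M] (R₀ : ℝ) : ∃ c : ℝ≥0, 0 < c ∧ ∀ (x : M) (r : ℝ), 0 < r → r ≤ R₀ → c * ENNReal.ofReal (r ^ n) ≤ μH[(n : ℝ)] (ball x r)  -- Lower volume bound for balls, uniform on a compact manifold.
* theorem isUnifLocDoublingMeasure [CompactSpace M] : IsUnifLocDoublingMeasure (μH[(n : ℝ)] : Measure M)  -- `vol` is a doubling measure on a compact manifold (uniformly at small scales).

### R226/VolChart_767 [ns Crest.Agent.R226.VolChart767] R226, Layer F, task F2 (helper767). The Riemannian volume `vol = μH[n]` of a compact Riemannian manifold in charts. Part 1: the inverse extended charts are locally Lipschitz for the Riemannian distance; `C¹` maps between Riemannian manifolds and normed spaces are locally Lipschitz.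
* theorem exists_lipschitzOnWith_of_contMDiffAt_to [IsRiemannianManifold I M] {F : Type*} [NormedAddCommGroup F] [NormedSpace ℝ F] {f : M → F} {x : M} (hf : ContMDiffAt I 𝓘(ℝ, F) 1 f x) : ∃ C : ℝ≥0, ∃ V ∈ 𝓝 x, LipschitzOnWith C f V  -- A `C¹` map from a Riemannian manifold to a normed space is locally Lipschitz.
* theorem exists_lipschitzOnWith_of_contMDiffAt_from [IsRiemannianManifold I M] {F : Type*} [NormedAddCommGroup F] [NormedSpace ℝ F] {f : F → M} {x : F} (hf : ContMDiffAt 𝓘(ℝ, F) I 1 f x) : ∃ C : ℝ≥0, ∃ V ∈ 𝓝 x, LipschitzOnWith C f V  -- A `C¹` map from a normed space to a Riemannian manifold is locally Lipschitz.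
* theorem exists_lipschitzOnWith_of_contMDiffAt [IsRiemannianManifold I M] [IsRiemannianManifold I' N] {f : M → N} {x : M} (hf : ContMDiffAt I I' 1 f x) : ∃ C : ℝ≥0, ∃ V ∈ 𝓝 x, LipschitzOnWith C f V  -- A `C¹` map between Riemannian manifolds is locally Lipschitz.
* theorem exists_lipschitzOnWith_extChartAt_of_mem [IsRiemannianManifold I M] {x z : M} (hz : z ∈ (extChartAt I x).source) : ∃ C : ℝ≥0, ∃ V ∈ 𝓝 z, LipschitzOnWith C (extChartAt I x) V  -- The extended chart is locally Lipschitz on its whole source.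
* theorem exists_lipschitzOnWith_extChartAt_symm_of_mem [I.Boundaryless] [IsRiemannianManifold I M] {x : M} {y : E} (hy : y ∈ (extChartAt I x).target) : ∃ C : ℝ≥0, ∃ V ∈ 𝓝 y, LipschitzOnWith C (extChartAt I x).symm V  -- The inverse extended chart is locally Lipschitz on its whole target (boundaryless case).

### R226/VolGlue_487 [ns Crest.Agent.R226.VolGlue487] 
* def contacts (G : GeoData n M) (w : M → ℝ) (z : M) (Q : Set (TangentSpace (𝓡 n) z)) : Set M  -- the set of contacts of the points `exp_z q`, `q ∈ Q`.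
* theorem vol_contacts_ge {vol : Measure M} {w : M → ℝ} {m : ℝ} (hA : AlexPinch vol w m) {z : M} {Q : Set (TangentSpace (𝓡 n) z)} (hQ : IsCompact Q) : ENNReal.ofReal m * vol (G.ex z '' Q) ≤ vol (contacts G w z Q)  -- volume of the contacts against the volume of the image.
* theorem lintegral_le_contacts {vol : Measure M} {w : M → ℝ} {m : ℝ} (hA : AlexPinch vol w m) {z : M} [MeasurableSpace (TangentSpace (𝓡 n) z)] {μ : Measure (TangentSpace (𝓡 n) z)} {J : TangentSpace (𝓡 n) z → ℝ≥0∞} {C : ℝ} (harea : ∀ A ⊆ G.K z, IsCompact A → ∫⁻ p in A, J p ∂μ ≤ ENNReal.ofReal C * vol (G.ex z '' A)) {Q : Set (TangentSpace (𝓡 n) z)} (hQ : IsCompact Q) (hQK : Q ⊆ G.K z) : ENNReal.ofReal m * ∫⁻ p in Q, J p …  -- volume of the contacts against the mass `∫_Q J` (`harea` is the last clause of `Jac344.exists_area`).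
* theorem toReal_contacts_ge {vol : Measure M} [IsFiniteMeasure vol] {w : M → ℝ} {m : ℝ} (hm : 0 < m) (hA : AlexPinch vol w m) {z : M} [MeasurableSpace (TangentSpace (𝓡 n) z)] {μ : Measure (TangentSpace (𝓡 n) z)} {J : TangentSpace (𝓡 n) z → ℝ≥0∞} {C : ℝ} (hC : 0 < C) (harea : ∀ A ⊆ G.K z, IsCompact A → ∫⁻ p in A, J p ∂μ ≤ ENNReal.ofReal C * vol (G.ex z '' A)) {Q : Set (TangentSpace (𝓡 n) z)} (hQ : IsCompact Q) (hQK : Q …  -- real version: `m * m' / C ≤ vol (contacts)` if `m' ≤ ∫_Q J`.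
* theorem pair_of_contacts {vol : Measure M} [IsFiniteMeasure vol] {w : M → ℝ} {m : ℝ} (hm : 0 < m) (hA : AlexPinch vol w m) {z : M} [MeasurableSpace (TangentSpace (𝓡 n) z)] {μ : Measure (TangentSpace (𝓡 n) z)} {J : TangentSpace (𝓡 n) z → ℝ≥0∞} {C : ℝ} (hC : 0 < C) (harea : ∀ A ⊆ G.K z, IsCompact A → ∫⁻ p in A, J p ∂μ ≤ ENNReal.ofReal C * vol (G.ex z '' A)) {Q : Set (TangentSpace (𝓡 n) z)} (hQ : IsCompact Q) (hQK : Q ⊆ …  -- new pair from contacts: if all contacts of the points of `Q` see `a₀` and `a₁` at the level `h'`, then the pair volume is `≥ (m/C) m'`.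

### R226/WNcAbs_344 [ns Crest.Agent.R226.WNc344] 
* structure Inv (H : E →L[ℝ] E →L[ℝ] ℝ) (R : E → ℝ) : Prop where symm : ∀ u v, H u v = H v u pos : ∀ v, v ≠ 0 → 0 < H v v ex : ∀ ξ, ∃ v, (∀ η, H v η = inner ℝ ξ η) val : ∀ ξ v, (∀ η, H v η = inner ℝ ξ η) → R ξ = H v v  -- `R ξ = ⟪H⁻¹ ξ, ξ⟫` for a positive definite symmetric form `H`.
* theorem Inv.exists_lin (i : Inv H R) : ∃ T : E →ₗ[ℝ] E, ∀ ξ η, H (T ξ) η = inner ℝ ξ η  -- the inverse as a linear map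
* theorem step_abs [FiniteDimensional ℝ E] (i₀ : Inv H₀ R₀) (i₁ : Inv H₁ R₁) (i₂ : Inv H₂ R₂) {q₀ q₁ q₂ η : E} {l : ℝ} (hl0 : 0 ≤ l) (hl1 : l ≤ 1) (e₁ : q₁ = q₂ - l • η) (e₀ : q₀ = q₂ - η) (g₀ : ∀ v, H₀ q₀ v = inner ℝ q₀ v) (g₁ : ∀ v, H₁ q₁ v = inner ℝ q₁ v) (g₂ : ∀ v, H₂ q₂ v = inner ℝ q₂ v) {D B c ρ κ M : ℝ} (hD : 0 < D) (hB : 0 < B) (hc : 0 < c) (hρ : 0 < ρ) (hκ : 0 < κ) (hκ1 : κ ≤ 1) (hM : 0 ≤ M) (d₀ : ‖q₀‖ ≤ D) (d …  -- the comparison step: `q₁` between `q₀` and `q₂`, close to `q₂`, away from the foot.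

### R226/WNcGeo_344 [ns Crest.Agent.R226.WNc344] 
* def DepthP (G : GeoData n M) (c : ℝ) : Prop  -- the depth bound
* theorem end_le (hB : Base G) (hK : ∀ x, Convex ℝ (G.K x)) : ∃ B : ℝ, 0 ≤ B ∧ ∀ x : M, ∀ q₀ ∈ G.K x, ∀ q₂ ∈ G.K x, ∀ l : ℝ, 0 ≤ l → l ≤ 1 / 2 → ∀ v : TangentSpace (𝓡 n) x, Hf G x q₂ v v ≤ 2 * Hf G x (q₂ - l • (q₂ - q₀)) v v + B * ‖q₂ - q₀‖ ^ 2 * ‖v‖ ^ 2  -- chord bound: `Hf` at the end of a segment of `K` from `Hf` at an interior point.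
* theorem step [CompactSpace M] (hC : CutFacts G) (hM : MTWFacts G) (hg : GoodAll G) {c : ℝ} (hc : 0 < c) (hdep : DepthP G c) {κ : ℝ} (hκ : 0 < κ) (hκ1 : κ ≤ 1) : ∃ l₀ C : ℝ, 0 < l₀ ∧ l₀ ≤ 1 / 2 ∧ 1 ≤ C ∧ ∀ x : M, ∀ q₀ ∈ G.K x, ∀ q₂ ∈ G.K x, ∀ l : ℝ, 0 ≤ l → l ≤ l₀ → κ * ‖q₂ - q₀‖ ^ 2 ≤ |inner ℝ (q₂ - l • (q₂ - q₀)) (q₂ - q₀)| → Dom (Hf G x (q₂ - l • (q₂ - q₀))) (Hf G x q₂) C  -- the comparison step (W without crossing).

### R226/WNc_344 [ns Crest.Agent.R226.WNc344] 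
* theorem Off.outward {κ : ℝ} {p₀ p₁ : E} {t : ℝ} (h : κ * ‖p₁ - p₀‖ ^ 2 ≤ inner ℝ p₀ (p₁ - p₀)) : Off κ p₀ p₁ t  -- outward motion, starting strictly beyond the foot
* def WNcP (K : Set E) (J : E → ℝ≥0∞) (κ τ c : ℝ) : Prop  -- (W) without crossing, for a density `J`
* theorem dom_wnc [CompactSpace M] (hC : CutFacts G) (hM : MTWFacts G) (hg : GoodAll G) {c : ℝ} (hc : 0 < c) (hdep : DepthP G c) {κ τ : ℝ} (hκ : 0 < κ) (hτ : 0 < τ) : ∃ C : ℝ, 1 ≤ C ∧ ∀ x : M, ∀ p₀ ∈ G.K x, ∀ p₁ ∈ G.K x, ∀ t : ℝ, 0 ≤ t → t ≤ 1 - τ → Off κ p₀ p₁ t → Dom (Hf G x (p₀ + t • (p₁ - p₀))) (Hf G x p₀) C  -- (W) without crossing the foot, min-max form.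
* theorem jd_wnc [CompactSpace M] (hC : CutFacts G) (hM : MTWFacts G) (hg : GoodAll G) {c : ℝ} (hc : 0 < c) (hdep : DepthP G c) {κ τ : ℝ} (hκ : 0 < κ) (hτ : 0 < τ) : ∃ C : ℝ, 1 ≤ C ∧ ∀ x : M, ∀ p₀ ∈ G.K x, ∀ p₁ ∈ G.K x, ∀ t : ℝ, 0 ≤ t → t ≤ 1 - τ → Off κ p₀ p₁ t → Jac344.jd G x p₀ ≤ C * Jac344.jd G x (p₀ + t • (p₁ - p₀))  -- (W) without crossing the foot, Jacobian determinants.
* theorem wncP [CompactSpace M] (hC : CutFacts G) (hM : MTWFacts G) (hg : GoodAll G) {c : ℝ} (hc : 0 < c) (hdep : DepthP G c) {κ τ : ℝ} (hκ : 0 < κ) (hτ : 0 < τ) : ∃ c' : ℝ, 0 < c' ∧ c' ≤ 1 ∧ ∀ x : M, ∀ J : TangentSpace (𝓡 n) x → ℝ≥0∞, (∀ p ∈ G.K x, J p = ENNReal.ofReal (Jac344.jd G x p)) → WNcP (G.K x) J κ τ c'  -- `WNcP` for every density which is the Jacobian of the exponential map on `K(x)`.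

### R226/WOff_915 [ns Crest.Agent.R226.WOff915] 
* structure WArea (K : Set E) (e : E → M) (vol : Measure M) (μ : Measure E) (J : E → ℝ≥0∞) (C c : ℝ) : Prop where meas : Measurable J le : ∀ A ⊆ K, IsCompact A → vol (e '' A) ≤ ENNReal.ofReal C * ∫⁻ p in A, J p ∂μ ge : ∀ A ⊆ K, IsCompact A → ∫⁻ p in A, J p ∂μ ≤ ENNReal.ofReal C * vol (e '' A) woff : WOffP K J c  -- the Jacobian data of `e` on `K`.
* theorem exists_contract {d : ℕ} {C c : ℝ} (hC : 0 < C) (hc : 0 < c) {a : ℝ} (ha : 0 < a) : ∃ c' : ℝ, 0 < c' ∧ ∀ {E : Type*} [NormedAddCommGroup E] [InnerProductSpace ℝ E] [FiniteDimensional ℝ E] [MeasurableSpace E] [BorelSpace E] {M : Type*} [MeasurableSpace M] {μ : Measure E} [μ.IsAddHaarMeasure] {K : Set E} {e : E → M} {vol : Measure M} {J : E → ℝ≥0∞}, finrank ℝ E = d → WArea K e vol μ J C c → ∀ Q ⊆ K, Convex ℝ Q → …  -- L1: contraction of convex sets.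
* theorem sup_le (hJ : Measurable J) (hc : 0 < c) (h : WOffP K J c) {Q : Set E} (hQ : Convex ℝ Q) (hQc : IsCompact Q) (hQK : Q ⊆ K) {p₀ : E} (h₀ : p₀ ∈ Q) : J p₀ * μ Q ≤ ENNReal.ofReal (c⁻¹ * (4 ^ finrank ℝ E + 2 ^ finrank ℝ E)) * ∫⁻ p in Q, J p ∂μ  -- L2: `sup_Q J ≤ C avg_Q J`.
* theorem leb (hC : 0 < C) (hc : 0 < c) (h : WArea K e vol μ J C c) {Q A : Set E} (hQ : Convex ℝ Q) (hQc : IsCompact Q) (hQK : Q ⊆ K) (hAQ : A ⊆ Q) (hA : IsCompact A) {B : ℝ} (hB : 0 < B) (hvol : vol (e '' Q) ≤ ENNReal.ofReal B * vol (e '' A)) (hpos : vol (e '' A) ≠ 0) (hfin : vol (e '' A) ≠ ∞) : μ Q ≤ ENNReal.ofReal ((c⁻¹ * (4 ^ finrank ℝ E + 2 ^ finrank ℝ E)) * C ^ 2 * B) * μ A  -- L3: comparison of Lebesgue measures.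
* theorem le_copy (pL : E) {P : Set E} {t : ℝ} (ht : 0 ≤ t) (ht' : t ≤ 1 / 2) : ENNReal.ofReal ((1 / 2) ^ finrank ℝ E) * μ P ≤ μ ((fun p => (1 - t) • p + t • pL) '' P)  -- Lebesgue measure of a copy.

### R226/YStar_544 [ns Crest.Agent.R226.YStar544] 
* theorem ystar (hC : CutFacts G) (hD : DFacts G) (hg : GoodAll G) {u : M → ℝ} (hu : CConv u) {x1 : M} {p0 : TangentSpace (𝓡 n) x1} (hp0 : p0 ∈ G.K x1) {h H L s : ℝ} (hH : 0 ≤ H) (hs : 0 ≤ s) (hs1 : s ≤ 1 / 2) (h1 : Dd u x1 (G.ex x1 p0) ≤ h) (hL : 2 * H + h < L) (hNG : ∀ x, Dd u x (G.ex x1 p0) ≤ L → s * (u x1 - u x) ≤ H) : Dd u x1 (G.ex x1 ((1 - s) • p0)) ≤ H + (1 - s) * h ∧ ∀ x, Dd u x1 (G.ex x1 ((1 - s) • p0)) + s *  …  -- (B): the pole of a column without growth at the end `x₁`.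
* def SlopeLaw (G : GeoData n M) : Prop  -- the slope law (exact slope inequality, power 4) on the chords of `K(x₁)`, along which the test point `x` is nearer than `x₁`.
* theorem Fq_eq {u : M → ℝ} {x1 x : M} {p : TangentSpace (𝓡 n) x1} (hp : p ∈ G.K x1) : Fq G x1 x p = u x - u x1 + Dd u x1 (G.ex x1 p) - Dd u x (G.ex x1 p)  -- `F_x(p) = u(x) - u(x₁) + D(x₁,exp p) - D(x,exp p)`.
* theorem slope_top (hg : GoodAll G) (hS : SlopeLaw G) {x1 x : M} {p q : TangentSpace (𝓡 n) x1} (hp : p ∈ G.K x1) (hq : q ∈ G.K x1) {t b e : ℝ} (ht0 : 0 ≤ t) (ht1 : t ≤ 1) (hb : 0 < b) (he : 0 < e) (hcb : e ≤ b) (hF0 : Fq G x1 x p ≤ Fq G x1 x (p + t • (q - p)) - e) (hFt : b ≤ Fq G x1 x (p + t • (q - p))) : (1 - t) ^ 4 * e ≤ Fq G x1 x q - Fq G x1 x (p + t • (q - p))  -- abstract top level lemma on a chord `p → q` of `K(x₁)`.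
* theorem toplevel (hg : GoodAll G) (hS : SlopeLaw G) {u : M → ℝ} (hu : CConv u) {x1 x : M} {ps p : TangentSpace (𝓡 n) x1} (hps : ps ∈ G.K x1) (hp : p ∈ G.K x1) {t s h H1 ε : ℝ} (ht0 : 0 ≤ t) (ht1 : t ≤ 1) (hs0 : 0 ≤ s) (hs1 : s ≤ 1) (hh : 0 ≤ h) (hε : 0 ≤ ε) (hstar : Dd u x1 (G.ex x1 ps) + s * (u x - u x1) - h ≤ Dd u x (G.ex x1 ps)) (hH1 : Dd u x1 (G.ex x1 p) ≤ H1) (hx : Dd u x (G.ex x1 (ps + t • (p - ps))) ≤ ε) : (1  …  -- (iv) top level: `p*` a velocity with `D(x,y*) ≥ D(x₁,y*) + s(u(x)-u(x₁)) - h`, `p` with `D(x₁,exp p) ≤ H₁`; then every `x` with `D(x, exp p_t) ≤ ε`, `p_t = 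

### R226/ZetaP_186 [ns Crest.Agent.R226.Zeta186] 
* theorem half_lower (hB : Base G) : ∃ C δ : ℝ, 0 ≤ C ∧ 0 < δ ∧ ∀ (y : M) (q₀ U : TangentSpace (𝓡 n) y), q₀ ∈ G.K y → ‖U‖ < δ → (1 / 2 : ℝ) • q₀ + U ∈ G.I y → ‖U‖ ^ 2 ≤ C * dist (G.ex y ((1 / 2 : ℝ) • q₀)) (G.ex y ((1 / 2 : ℝ) • q₀ + U)) ^ 2  -- uniform lower Lipschitz bound of `exp_y` near `q₀/2`, `q₀ ∈ K(y)`.
* theorem hess_Phi_snd (hB : Base G) {x y : M} {w η : TangentSpace (𝓡 n) x} {q₀ : TangentSpace (𝓡 n) y} (hy : G.ex x w = y) (hq : q₀ ∈ G.K y) (u v : TangentSpace (𝓡 n) y) : hess (Phi G x y w η q₀) (0, q₀) (0, u) (0, v) = Hf G y q₀ u v  -- vertical part of the Hessian of `Phi`: the normal form `Hf`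
* theorem hess_Phi_mixed (hC : CutFacts G) {x y : M} {w η : TangentSpace (𝓡 n) x} {q₀ : TangentSpace (𝓡 n) y} (hy : G.ex x w = y) (hq : q₀ ∈ G.K y) {ξ : TangentSpace (𝓡 n) y} (hξ : ξ = LoeperMfd128.cv (n := n) (fun τ : ℝ => G.ex x (w + τ • η)) 0) (v : TangentSpace (𝓡 n) y) : hess (Phi G x y w η q₀) (0, q₀) (1, 0) (0, v) = -inner ℝ ξ v  -- mixed part of the Hessian of `Phi`
* theorem Phi_ge {x y : M} {w η : TangentSpace (𝓡 n) x} {q₀ : TangentSpace (𝓡 n) y} (hx : G.ex y q₀ = x) {τ : ℝ} (hτ : w + τ • η ∈ G.K x) (p' : TangentSpace (𝓡 n) y) : ‖w + τ • η‖ ^ 2 / 2 ≤ Phi G x y w η q₀ (τ, p')  -- minimality of the midpoints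
* theorem zetaP [IsRiemannianManifold (𝓡 n) M] (hC : CutFacts G) : ∃ C : ℝ, 0 ≤ C ∧ T1i115.ZetaP G C  -- (L1b) `ZetaP`

==================== R244

### R244/Alg [ns Crest.Agent.R244 / QuadLength] # R244 package B3 : lengths on groups satisfying the quadrilateral inequality
* structure QuadLength {G : Type*} [Group G] (ℓ : G → ℝ) : Prop where nonneg : ∀ g, 0 ≤ ℓ g one : ℓ 1 = 0 inv : ∀ g, ℓ g⁻¹ = ℓ g mul_le : ∀ g h, ℓ (g * h) ≤ ℓ g + ℓ h quad : ∀ a b c, ℓ (a * b) ^ 2 + ℓ (b * c) ^ 2 ≤ ℓ a ^ 2 + ℓ b ^ 2 + ℓ c ^ 2 + ℓ (a * b * c) ^ 2  -- A length function on a group satisfying the weak quadrilateral (CAT(0)) inequality.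
* def stabIp {G : Type*} [Group G] (ℓ : G → ℝ) (f z : G) : ℝ  -- The (pre-)inner product of two commuting elements.
* theorem phi_add (h : QuadLength ℓ) {g z : G} (hz : Commute g z) (w : G) : |(ℓ (g * (z * w)) ^ 2 - ℓ g ^ 2) - (ℓ (g * z) ^ 2 - ℓ g ^ 2) - (ℓ (g * w) ^ 2 - ℓ g ^ 2)| ≤ ℓ z ^ 2 + ℓ w ^ 2  -- The difference `ℓ (F z)² - ℓ (F)²` as an approximate homomorphism in `z`.
* theorem stableLength_eq_zero {G : Type*} [Group G] {ℓ : G → ℝ} (h : QuadLength ℓ) (c e₁ e₃ α β α₁ β₁ α₃ β₃ : G) (hcα : Commute c α) (hcβ : Commute c β) (hc1 : Commute c e₁) (hc3 : Commute c e₃) (hrel : e₃ * e₁ = α * β * α⁻¹ * β⁻¹) (h1α : Commute e₁ α₁) (h1β : Commute e₁ β₁) (hrel1 : c * e₁ = α₁ * β₁ * α₁⁻¹ * β₁⁻¹) (h3α : Commute e₃ α₃) (h3β : Commute e₃ β₃) (hrel3 : c * e₃ = α₃ * β₃ * α₃⁻¹ * β₃⁻¹) : Tendsto (fun n :  …  -- The graph-manifold relations force the stable length of `e₁` to vanish.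
* theorem stableLength_eq_zero₂ {G : Type*} [Group G] {ℓ : G → ℝ} (h : QuadLength ℓ) (f₁ f₂ a₁ c₁ a₂ c₂ : G) (h1a : Commute f₁ a₁) (h1c : Commute f₁ c₁) (hrel1 : f₂ = a₁ * c₁ * a₁⁻¹ * c₁⁻¹) (h2a : Commute f₂ a₂) (h2c : Commute f₂ c₂) (hrel2 : f₁ * f₂⁻¹ = a₂ * c₂ * a₂⁻¹ * c₂⁻¹) : Tendsto (fun n : ℕ => ℓ (f₂ ^ n) / n) atTop (𝓝 0)  -- Package B3, FINAL statement v2 (2-block version): the graph-manifold relations force the stable length of `f₂` to vanish.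

### R244/B1Conn [ns Crest.Agent.R244] # R244, package B1: connection of the parts (a), (b), (c)
* theorem exists_localCN_of_npcData [T2Space M] [CompactSpace M] [ConnectedSpace M] (g : ContMDiffRiemannianMetric 𝓘(ℝ, E) ∞ E (fun x : M => TangentSpace 𝓘(ℝ, E) x)) (h : ∀ x0 : M, ∃ (G : E → E →L[ℝ] E →L[ℝ] ℝ) (Γ : E → E →L[ℝ] E →L[ℝ] E), IsNPCData (chartAt E x0).target G Γ ∧ (∀ y ∈ (chartAt E x0).target, ∀ u : E, G y u u = g.inner ((chartAt E x0).symm y) (mfderiv 𝓘(ℝ, E) 𝓘(ℝ, E) (chartAt E x0).symm y u) (mfderiv 𝓘(ℝ, …  -- Nonpositively curved coordinate data in the chart at every point give a metric satisfying the uniform local CN inequality.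
* theorem gB_metricInChart (g : ContMDiffRiemannianMetric 𝓘(ℝ, EuclideanSpace ℝ (Fin n)) ∞ (EuclideanSpace ℝ (Fin n)) (fun x : M => TangentSpace 𝓘(ℝ, EuclideanSpace ℝ (Fin n)) x)) (x0 : M) (y u v : EuclideanSpace ℝ (Fin n)) : CF.gB (metricInChart g x0) y u v = g.inner ((chartAt (EuclideanSpace ℝ (Fin n)) x0).symm y) (mfderiv 𝓘(ℝ, EuclideanSpace ℝ (Fin n)) 𝓘(ℝ, EuclideanSpace ℝ (Fin n)) (chartAt (EuclideanSpace ℝ (Fin n …  -- The bilinear form of `metricInChart` is the metric on the push-forwards of the vectors.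
* theorem exists_localCN_of_chartNPC [T2Space M] [CompactSpace M] [ConnectedSpace M] (g : ContMDiffRiemannianMetric 𝓘(ℝ, EuclideanSpace ℝ (Fin n)) ∞ (EuclideanSpace ℝ (Fin n)) (fun x : M => TangentSpace 𝓘(ℝ, EuclideanSpace ℝ (Fin n)) x)) (h : ∀ x0 : M, IsNPCData (chartAt (EuclideanSpace ℝ (Fin n)) x0).target (CF.gB (metricInChart g x0)) (CF.Gam (metricInChart g x0))) : ∃ ms : MetricSpace M, ms.toPseudoMetricSpace.toUni …  -- Everything in terms of `metricInChart`: what remains is `IsNPCData` on every chart target.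

### R244/B1Final [ns Crest.Agent.R244] # R244 package B1 : FINAL statement
* theorem exists_localCN {n : ℕ} {M : Type} [t : TopologicalSpace M] [ChartedSpace (EuclideanSpace ℝ (Fin n)) M] [IsManifold 𝓘(ℝ, EuclideanSpace ℝ (Fin n)) ∞ M] [T2Space M] [SecondCountableTopology M] [CompactSpace M] [ConnectedSpace M] (g : ContMDiffRiemannianMetric 𝓘(ℝ, EuclideanSpace ℝ (Fin n)) ∞ (EuclideanSpace ℝ (Fin n)) (fun x : M => TangentSpace 𝓘(ℝ, EuclideanSpace ℝ (Fin n)) x)) (hg : HasNonposSectionalCurvatur …  -- Package B1, final statement: a compact connected Riemannian manifold of nonpositive sectional curvature carries a metric, compatible with the topology, sati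

### R244/B2Final [ns Crest.Agent.R244] # R244 package B2 : FINAL statement (owner helper264)
* def DP {M : Type*} [MetricSpace M] {ρ : ℝ} (hρ : 0 < ρ) {x y : M} (γ : Path x y) : ℝ  -- the length of the homotopy class of a path (at scale `ρ`)
* theorem exists_pathLength₂ {M : Type*} [MetricSpace M] [CompactSpace M] {r : ℝ} (h : LocalCN M r) (hU : UnifLSC M) : ∃ D : ∀ {x y : M}, Path x y → ℝ, PathLength M (fun {_ _} γ => D γ) ∧ ∃ r₀ > 0, ∀ (x : M) (γ : Path x x), D γ < r₀ → γ.Homotopic (Path.refl x)  -- Discrete Cartan-Hadamard theorem (package B2, FINAL statement v2).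

### R244/B4Block [ns Crest.Agent.R244.B4] # Relations in the fundamental group coming from a (torus minus disc) × circle block Row 244, package B4. `Out S ρ` is the plane minus the closed discs of radius `ρ` around the points `S ((m+1/2) + (n+1/2) i)`. A block in `M` is a continuous map `Out S ρ × ℝ → M`, periodic under `S`, `S i` and `2π`.
* def ctr (S : ℝ) : ℂ  -- centre of the reference hole
* def Out (S ρ : ℝ) : Set ℂ  -- the periodic plane region outside the discs of radius `ρ`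
* structure Block (M : Type*) [TopologicalSpace M] (S ρ : ℝ) where φ : C(Out S ρ × ℝ, M) per1 : ∀ (w w' : Out S ρ) (x : ℝ), (w' : ℂ) = w + (S : ℂ) → φ (w', x) = φ (w, x) per2 : ∀ (w w' : Out S ρ) (x : ℝ), (w' : ℂ) = w + (S : ℂ) * I → φ (w', x) = φ (w, x) per3 : ∀ (w : Out S ρ) (x : ℝ), φ (w, x + 2 * Real.pi) = φ (w, x)  -- a (torus minus disc) × circle block in a space
* def Block.F (B : Block M S ρ) (x0 : M) (x1 : ℝ) (w : Out S ρ) : FundamentalGroup M x0  -- the x-loop at `w`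
* def Block.H (B : Block M S ρ) (x0 : M) (x1 : ℝ) {E : Type*} [TopologicalSpace E] [SimplyConnectedSpace E] (c : C(E, Out S ρ)) (p q : E) : FundamentalGroup M x0  -- the transport along a path in the region at height `x1`

### R244/B4Det [ns Crest.Agent.R244.B4] # Detection of `f₂ ≠ 1` for the 2-block manifold: the map to `Nil` on the three patches Row 244, package B4b. Conventions (DECISIONS v2): block 1 patch `(u,v,x)`, collar patch `(t,x,y)`, block 2 patch `(u,v,z)`. For `t ≤ tL` the collar point `(t,x,y)` is glued to `(S/2 + (c1-t) cos y, S/2 + (c1-t) sin y, x)`, for `tR ≤ t` to `(S/2 + (t+c2) cos x, S/2 + (t+c2) sin x, x+y)`.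
* def nilC (S c1 tL tR t x y : ℝ) : Nil  -- the map on the collar
* def nil2 (z : ℝ) : Nil  -- the map on block 2
* theorem nilC_left {S c1 tL tR t : ℝ} (hS : 0 < S) (h : tL < tR) (ht : t ≤ tL) (x y : ℝ) : nilC S c1 tL tR t x y = nil1 S (S / 2 + (c1 - t) * Real.cos y) (S / 2 + (c1 - t) * Real.sin y) x  -- gluing on the left end
* theorem nilC_right {S c1 tL tR t : ℝ} (h : tL < tR) (ht : tR ≤ t) (x y : ℝ) : nilC S c1 tL tR t x y = nil2 (x + y)  -- gluing on the right end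
* theorem th_ne_one_of_nil2 (x0 : M) (Γ : C(ℝ, M)) (a x : ℝ) (F : C(M, Nil)) (hF : ∀ y : ℝ, F (Γ y) = nil2 (x + y)) (hΓ : Γ (a + 2 * Real.pi) = Γ a) : th x0 Γ a (a + 2 * Real.pi) ≠ 1  -- Detection, final form: if `F : M → Nil` is `nil2 (x + y)` on the loop `y ↦ Γ y`, then the loop is nontrivial.

### R244/B4Ne [ns Crest.Agent.R244.B4] # The `y`-loop of the collar is not null-homotopic (row 244, package B4b)
* theorem not_homotopic_refl_of_nil (K : ℝ × ℝ × ℝ → M) (t0 t1 : ℝ) (hT : t0 ≤ t1) (hK : ContinuousOn K {p | t0 ≤ p.1 ∧ p.1 ≤ t1}) (hper : ∀ t y : ℝ, t0 ≤ t → t ≤ t1 → K (t, 0, y + 2 * Real.pi) = K (t, 0, y)) (F : C(M, Nil)) (hF : ∀ y : ℝ, F (K (t1, 0, y)) = nil2 y) (γ : Path (K (t0, 0, 0)) (K (t0, 0, 0))) (hγ : ∀ s : I, γ s = K (t0, 0, 2 * Real.pi * s)) : ¬ γ.Homotopic (Path.refl _)  -- Output of B4b.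

### R244/B4Nil [ns Crest.Agent.R244.B4] # The Nil quotient and its covering, used to detect `f₂ ≠ 1` (row 244, package B4b) `NT = ℂ × ℂ*` with the action `(k,l)·(w,ζ) = (w + k + l i, exp (2 π i k Im w) ζ)` of `ℤ × ℤ`; `Nil` is the quotient.
* def NT : Type  -- the plane times the punctured plane
* def Lat : Type  -- the lattice group
* def Nil : Type  -- The quotient.
* def nilMk : NT → Nil  -- The projection.
* theorem th_ne_one_of_nil (x0 : M) (Γ : C(ℝ, M)) (a : ℝ) (F : C(M, Nil)) (w : ℂ) (c : ℝ) (hF : ∀ y : ℝ, F (Γ y) = nilMk (w, ⟨cexp ((c + y : ℝ) * I), Complex.exp_ne_zero _⟩)) (hΓ : Γ (a + 2 * Real.pi) = Γ a) : th x0 Γ a (a + 2 * Real.pi) ≠ 1  -- Detection. If a continuous map to `Nil` sends the loop `y ↦ Γ y`, `a ≤ y ≤ a + 2π`, to the central fibre, this loop is nontrivial.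

### R244/B4Sec [ns Crest.Agent.R244.B4] # The quasi-periodic section used to detect `f₂ ≠ 1` (row 244, package B4b)
* def sec (u v : ℝ) : ℂ  -- `sec u v = (1-u) + u e^{2πiv}` for `0 ≤ u ≤ 1`, continued by `sec (u+1) v = e^{2πiv} sec u v`.
* theorem sec_homotopy_ne_zero {r τ y : ℝ} (hr : 0 ≤ r) (hr2 : r < 1 / 2) (h0 : 0 ≤ τ) (h1 : τ ≤ 1) (hrt : τ < 1 → 0 < r) : (1 - τ : ℝ) * sec (1 / 2 + r * Real.cos y) (1 / 2 + r * Real.sin y) + (-τ : ℝ) * (Real.cos y + Real.sin y * I) ≠ 0  -- the homotopy on small circles around the hole centre does not vanish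

### R244/B4Theta [ns Crest.Agent.R244.B4] # Loop calculus for explicit relations in a fundamental group (row 244, package B4) For a path connected space `M` with base point `x0`, a continuous map `Γ : E → M` from a simply connected space and two points `p q : E` we get an element `th x0 Γ p q` of the fundamental group `FundamentalGroup M x0` such that * `th x0 Γ p q * th x0 Γ q r = th x0 Γ p r` * `th x0 (Γ.comp j) p q = th x0 Γ (j p) (j q)`. All relations be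
* def eta (x0 z : M) : Path.Homotopic.Quotient x0 z  -- A chosen path class from the base point.
* def Th (x0 : M) {x y : M} (q : Path.Homotopic.Quotient x y) : FundamentalGroup M x0  -- Turn a path class into an element of the fundamental group.
* def cl (p q : E) : Path.Homotopic.Quotient p q  -- the class of paths from `p` to `q` in a simply connected space
* def th (x0 : M) (Γ : C(E, M)) (p q : E) : FundamentalGroup M x0  -- the basic symbol of the loop calculus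
* def Null {X : Type*} [TopologicalSpace X] (Γ : C(E, X)) (p q : E) : Prop  -- The loop `Γ` restricted to a path from `p` to `q` is closed and null-homotopic.

### R244/BVP [ns Crest.Agent.R244] The two-point boundary value problem for geodesics in a chart, via the flow of the geodesic spray and the inverse function theorem; the midpoint map and its infinitesimal CN inequality.
* structure IsLocalFlow (V : Set E) (G : E → E →L[ℝ] E →L[ℝ] E) (Φ : ℝ × (E × E) → E × E) (D : Set (ℝ × (E × E))) (N : Set (E × E)) : Prop where isOpen_dom : IsOpen D contDiff : ContDiffOn ℝ 2 Φ D isOpen : IsOpen N memD : ∀ z ∈ N, ∀ s ∈ Icc (0:ℝ) 1, (s, z) ∈ D zero : ∀ z ∈ N, Φ (0, z) = z rest : ∀ s ∈ Icc (0:ℝ) 1, ∀ p, ((p, 0) : E × E) ∈ N → Φ (s, ((p, 0) : E × E)) = (p, 0) mem : ∀ z ∈ N, ∀ s ∈ Icc (0:ℝ) 1, (Φ (s, z)). …  -- A `C^2` map `Φ (s, z)` which for `z ∈ N`, `s ∈ [0,1]` is the geodesic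 flow.
* def endpt (Φ : ℝ × (E × E) → E × E) (z : E × E) : E × E  -- The endpoint map `(a, v) ↦ (a, exp_a v)`.
* theorem IsLocalFlow.exists_bvp [CompleteSpace E] (hΦ : IsLocalFlow V G Φ D N) {p0 : E} (hp : (p0, (0:E)) ∈ N) {V' : Set E} (hV' : V' ∈ 𝓝 p0) : ∃ (W : Set E) (θ : E × E → E × E), IsOpen W ∧ p0 ∈ W ∧ W ⊆ V' ∧ (∀ x ∈ W ×ˢ W, ContDiffAt ℝ 2 θ x ∧ (θ x).1 = x.1 ∧ (Φ (1, θ x)).1 = x.2 ∧ θ x ∈ N) ∧ ∀ p ∈ W, θ (p, p) = (p, 0)  -- The solution of the two point boundary value problem near a point of the chart.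
* theorem IsLocalFlow.exists_curve (hΦ : IsLocalFlow V G Φ D N) {z : E × E} (hz : z ∈ N) : ∃ c : ℝ → E, ContDiff ℝ 1 c ∧ ∀ s ∈ Icc (0:ℝ) 1, c =ᶠ[𝓝 s] fun s => (Φ (s, z)).1  -- The base curve of a flow line agrees near `[0,1]` with a globally `C^1` curve.
* theorem IsLocalFlow.exists_midpoint_map [CompleteSpace E] (hΦ : IsLocalFlow V G Φ D N) (h : IsNPCData U g G) (hVU : V ⊆ U) {p0 : E} (hp : (p0, (0:E)) ∈ N) {V' : Set E} (hV' : V' ∈ 𝓝 p0) : ∃ (W : Set E) (mid : E × E → E) (q : E × E → ℝ), IsOpen W ∧ p0 ∈ W ∧ W ⊆ V' ∧ W ⊆ V ∧ ContDiffOn ℝ 1 mid (W ×ˢ W) ∧ ContDiffOn ℝ 1 q (W ×ˢ W) ∧ (∀ p ∈ W, mid (p, p) = p ∧ q (p, p) = 0) ∧ (∀ a ∈ W, ∀ b ∈ W, 0 ≤ q (a, b) ∧ mid (a, b)  …  -- The midpoint map of a nonpositively curved chart and its infinitesimal CN inequality.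

### R244/Bridge [ns Crest.Agent.R244] # R244 : bridge between the path length `D` (package B2) and the group algebra (package B3) * `PathLength.quadLength` : the length induced on the fundamental group is a `QuadLength`. * `PathLength.halving` : displacement of the midpoint loop. * `ContUpToSign.exists_lift`, `Reverses.conj` : lifting of paths through the two-valued map. * `contradiction_of_tendsto` : a reversing loop cannot have zero stable length.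
* theorem PathLength.halving {x : M} (γ : Path.Homotopic.Quotient x x) : ∃ (m : M) (ρ : Path.Homotopic.Quotient x m), hD.DQ (ρ.symm.trans (γ.trans ρ)) ≤ hD.DQ (γ.trans γ) / 2  -- Moving a loop to its midpoint at least halves the displacement of its square.
* theorem PathLength.exists_conj_le {x : M} (γ : FundamentalGroup M x) (k : ℕ) : ∃ (m : M) (τ : Path.Homotopic.Quotient x m), hD.DQ (τ.symm.trans ((FundamentalGroup.toPath γ).trans τ)) ≤ hD.len x (γ ^ (2 ^ k)) / 2 ^ k  -- Powers of a loop class.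
* def posDet (L : M → EuclideanSpace ℝ (Fin 4)) (p : EuclideanSpace ℝ (Fin 4)) (y : M) : EuclideanSpace ℝ (Fin 4)  -- The determination of `L` which is positive against `p`.
* theorem ContUpToSign.exists_lift (hL : ContUpToSign L) {x y : M} (τ : Path x y) {u : EuclideanSpace ℝ (Fin 4)} (hu : u = L x ∨ u = - L x) : ∃ (u' : EuclideanSpace ℝ (Fin 4)) (v : Path u u'), ∀ t, v t = L (τ t) ∨ v t = - L (τ t)  -- Lifting of a path through the two-valued map `L`.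
* theorem contradiction_of_tendsto (hD : PathLength M (fun {_ _} γ => D γ)) (hL : ContUpToSign L) {r₀ : ℝ} (hr₀ : 0 < r₀) (hsys : ∀ (x : M) (γ : Path x x), Reverses L γ → r₀ ≤ D γ) {x : M} (γ : Path x x) (hrev : Reverses L γ) (hlim : Tendsto (fun n : ℕ => hD.len x (FundamentalGroup.fromPath (Path.Homotopic.Quotient.mk γ) ^ n) / n) atTop (𝓝 0)) : False  -- A loop reversing `L` cannot have stable length zero.

### R244/CF [ns Crest.Agent.R244.CF] # R244, package CF (abstract part): metrics and connections on open sets of a normed space `IsLC U g Γ` : `g` is a smooth (`C^∞`) Riemannian metric on the open set `U` and `Γ` is its Levi-Civita connection (Christoffel form), everything coordinate-free: `g : E → E →L[ℝ] E →L[ℝ] ℝ`, `Γ : E → E →L[ℝ] E →L[ℝ] E`. `curv Γ x u v w = R(u,v)w = (D_u Γ)(v,w) - (D_v Γ)(u,w) + Γ(u,Γ(v,w)) - Γ(v,Γ(u,w))`.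
* structure IsLC (U : Set E) (g : E → E →L[ℝ] E →L[ℝ] ℝ) (Γ : E → E →L[ℝ] E →L[ℝ] E) : Prop where isOpen : IsOpen U g_smooth : ContDiffOn ℝ ∞ g U Γ_smooth : ContDiffOn ℝ ∞ Γ U g_symm : ∀ x ∈ U, ∀ u v, g x u v = g x v u g_pos : ∀ x ∈ U, ∀ v, v ≠ 0 → 0 < g x v v Γ_symm : ∀ x ∈ U, ∀ u v, Γ x u v = Γ x v u compat : ∀ x ∈ U, ∀ u v w, fderiv ℝ g x u v w = g x (Γ x u v) w + g x v (Γ x u w)  -- `g` is a smooth Riemannian metric on the open set `U` with Levi-Civita connection `Γ`.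
* structure LocIsoAt (U : Set E) (g : E → E →L[ℝ] E →L[ℝ] ℝ) (U' : Set F) (g' : F → F →L[ℝ] F →L[ℝ] ℝ) (φ : E → F) (x : E) : Prop where mem : x ∈ U mem' : φ x ∈ U' smooth' : ∀ᶠ y in 𝓝 x, ContDiffAt ℝ ∞ φ y surj : ∀ᶠ y in 𝓝 x, Function.Surjective (fderiv ℝ φ y) iso : ∀ᶠ y in 𝓝 x, ∀ u v, g y u v = g' (φ y) (fderiv ℝ φ y u) (fderiv ℝ φ y v)  -- `φ` is (germwise at `x`) a local isometry from `(U,g)` to `(U',g')`.
* theorem IsLC.jacobi_eq (h : IsLC U g Γ) {c J : ℝ → E} {t : ℝ} (hx : c t ∈ U) (hc : ∀ᶠ s in 𝓝 t, DifferentiableAt ℝ c s) (hc' : DifferentiableAt ℝ (deriv c) t) (hgeo : cov Γ c (deriv c) t = 0) (hJ : ∀ᶠ s in 𝓝 t, DifferentiableAt ℝ J s) (hJ' : DifferentiableAt ℝ (deriv J) t) : cov Γ c (cov Γ c J) t + curv Γ (c t) (J t) (deriv c t) (deriv c t) = deriv (deriv J) t + fderiv ℝ Γ (c t) (J t) (deriv c t) (deriv c t) + (2 : ℝ …  -- The Jacobi expression equals the linearization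 of the geodesic equation.
* theorem IsLC.lagrange (h : IsLC U g Γ) {c : ℝ → E} {t : ℝ} (hx : c t ∈ U) (hc : DifferentiableAt ℝ c t) (hc' : DifferentiableAt ℝ (deriv c) t) (w : E) : HasDerivAt (fun s => g (c s) (deriv c s) w) (g (c t) (cov Γ c (deriv c) t) w + (1 / 2) * fderiv ℝ g (c t) w (deriv c t) (deriv c t)) t  -- Lagrangian form of the geodesic equation: for every curve `c`, `d/dt g(c', w) - 1/2 Dg(w)(c',c') = g(D_t c', w)`.
* theorem IsLC.lagrange_jacobi (h : IsLC U g Γ) {c J : ℝ → E} {t : ℝ} (hx : c t ∈ U) (hc : ∀ᶠ s in 𝓝 t, DifferentiableAt ℝ c s) (hc' : DifferentiableAt ℝ (deriv c) t) (hgeo : cov Γ c (deriv c) t = 0) (hJ : ∀ᶠ s in 𝓝 t, DifferentiableAt ℝ J s) (hJ' : DifferentiableAt ℝ (deriv J) t) (w : E) : HasDerivAt (fun s => fderiv ℝ g (c s) (J s) (deriv c s) w + g (c s) (deriv J s) w) (g (c t) (cov Γ c (cov Γ c J) t + curv Γ (c t)  …  -- Linearized Lagrangian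 form of the Jacobi equation.

### R244/CFCoord [ns Crest.Agent.R244.CF] # R244, package CF: link between the coordinate formulas of the Prelude and `CF.lean` `gB g x`, `Gam g x` : the bilinear maps with coefficients `g x i j`, `christoffel g x k i j`. Main results: * `isLC_of_isRiemannianOn : IsRiemannianOn g U → IsLC U (gB g) (Gam g)` * `curv_eq` / `secNumer_eq` / `covDeriv_eq` / `geodesicEqAt_iff` / `jacobiEqAt_iff`.
* theorem isLC_of_isRiemannianOn (h : IsRiemannianOn g U) : IsLC U (gB g) (Gam g)  -- The Prelude's Christoffel symbols form the Levi-Civita connection.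
* theorem curv_apply (h : IsRiemannianOn g U) {x : EuclideanSpace ℝ (Fin n)} (hx : x ∈ U) (u v w : EuclideanSpace ℝ (Fin n)) (l : Fin n) : curv (Gam g) x u v w l = ∑ k, ∑ i, ∑ j, riemann g x l k i j * w k * u i * v j  -- The Prelude's Riemann tensor is the curvature of the connection form.
* theorem jacobiEqAt_iff_linearized (h : IsRiemannianOn g U) {c J : ℝ → EuclideanSpace ℝ (Fin n)} {t : ℝ} (hx : c t ∈ U) (hc : ∀ᶠ s in 𝓝 t, DifferentiableAt ℝ c s) (hc' : DifferentiableAt ℝ (deriv c) t) (hgeo : GeodesicEqAt g c t) (hJ : ∀ᶠ s in 𝓝 t, DifferentiableAt ℝ J s) (hJ' : DifferentiableAt ℝ (deriv J) t) : JacobiEqAt g c J t ↔ deriv (deriv J) t + fderiv ℝ (Gam g) (c t) (J t) (deriv c t) (deriv c t) + (2 : ℝ) • G …  -- Jacobi equation = linearized geodesic equation (Prelude form).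
* theorem geodesicEqAt_iff_lagrange (h : IsRiemannianOn g U) {c : ℝ → EuclideanSpace ℝ (Fin n)} {t : ℝ} (hx : c t ∈ U) (hc : DifferentiableAt ℝ c t) (hc' : DifferentiableAt ℝ (deriv c) t) : GeodesicEqAt g c t ↔ ∀ w, HasDerivAt (fun s => gB g (c s) (deriv c s) w) ((1 / 2) * fderiv ℝ (gB g) (c t) w (deriv c t) (deriv c t)) t  -- Lagrangian form of the geodesic equation, Prelude form.
* theorem jacobiEqAt_iff_lagrange (h : IsRiemannianOn g U) {c J : ℝ → EuclideanSpace ℝ (Fin n)} {t : ℝ} (hx : c t ∈ U) (hc : ∀ᶠ s in 𝓝 t, DifferentiableAt ℝ c s) (hc' : DifferentiableAt ℝ (deriv c) t) (hgeo : GeodesicEqAt g c t) (hJ : ∀ᶠ s in 𝓝 t, DifferentiableAt ℝ J s) (hJ' : DifferentiableAt ℝ (deriv J) t) : JacobiEqAt g c J t ↔ ∀ w, HasDerivAt (fun s => fderiv ℝ (gB g) (c s) (J s) (deriv c s) w + gB g (c s) (deriv  …  -- Linearized Lagrangian form of the Jacobi equation, Prelude form.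

### R244/CFLift [ns Crest.Agent.R244.CF] # R244, package CF: invariance of the geodesic / Jacobi equations and of `secNumer` under local isometries, in the language of the Prelude.
* theorem geodesicEqAt_comp (h : IsRiemannianOn g U) (h' : IsRiemannianOn g' U') {c : ℝ → EuclideanSpace ℝ (Fin n)} {t : ℝ} (hφ : LocIsoAt U (gB g) U' (gB g') φ (c t)) (hc : ContDiffAt ℝ 2 c t) : GeodesicEqAt g' (fun s => φ (c s)) t ↔ GeodesicEqAt g c t  -- Invariance of the geodesic equation.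
* theorem jacobiEqAt_comp (h : IsRiemannianOn g U) (h' : IsRiemannianOn g' U') {c V : ℝ → EuclideanSpace ℝ (Fin n)} {t : ℝ} (hφ : LocIsoAt U (gB g) U' (gB g') φ (c t)) (hc : ContDiffAt ℝ 2 c t) (hV : ContDiffAt ℝ 2 V t) : JacobiEqAt g' (fun s => φ (c s)) (fun s => fderiv ℝ φ (c s) (V s)) t ↔ JacobiEqAt g c V t  -- Invariance of the Jacobi equation.
* theorem secNumer_comp (h : IsRiemannianOn g U) (h' : IsRiemannianOn g' U') {x : EuclideanSpace ℝ (Fin n)} (hφ : LocIsoAt U (gB g) U' (gB g') φ x) (u v : EuclideanSpace ℝ (Fin n)) : secNumer g' (φ x) (fderiv ℝ φ x u) (fderiv ℝ φ x v) = secNumer g x u v  -- Invariance of the sectional curvature numerator.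
* theorem secNumer_nonpos_comp (h : IsRiemannianOn g U) (h' : IsRiemannianOn g' U') {x : EuclideanSpace ℝ (Fin n)} (hφ : LocIsoAt U (gB g) U' (gB g') φ x) : (∀ u v, secNumer g' (φ x) u v ≤ 0) ↔ ∀ u v, secNumer g x u v ≤ 0  -- If a local isometry starts at `x`, nonpositivity of the curvature at the image point gives nonpositivity at `x` (and conversely by surjectivity).
* theorem gB_eq_of_quadForm (h : IsRiemannianOn g U) (h' : IsRiemannianOn g' U') {x y : EuclideanSpace ℝ (Fin n)} (hx : x ∈ U) (hy : y ∈ U') (L : EuclideanSpace ℝ (Fin n) →L[ℝ] EuclideanSpace ℝ (Fin n)) (hq : ∀ v, quadForm g x v = quadForm g' y (L v)) (u v : EuclideanSpace ℝ (Fin n)) : gB g x u v = gB g' y (L u) (L v)  -- `quadForm` form of the isometry condition is enough.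

### R244/CHCat [ns Crest.Agent.R244] # R244 package B2, part 3 : concatenation, reversal, ladders from equivalences, the length `DC`
* theorem ChEq.exists_isCh {p q : ℕ → M} (h : ChEq ρ p q) (hp : ∃ N, IsCh ρ N p) : ∃ N, IsCh ρ N q  -- chain-ness propagates along equivalences
* def DC (ρ : ℝ) (p : ℕ → M) : ℝ  -- infimum of the lengths of the chains in the class of `p`

### R244/CHDefs [ns Crest.Agent.R244] # R244 package B2, definitions : chains, chain equivalence, sampling of paths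
* structure IsCh (ρ : ℝ) (N : ℕ) (p : ℕ → M) : Prop where step : ∀ i, dist (p i) (p (i + 1)) ≤ ρ const : ∀ i, N ≤ i → p i = p N  -- `p` is a chain with steps `≤ ρ` which is constant from index `N` on.
* structure ChAdj (ρ : ℝ) (p q : ℕ → M) : Prop where left : ∃ N, IsCh ρ N p right : ∃ N, IsCh ρ N q close : ∀ i, dist (p i) (q i) ≤ ρ start : p 0 = q 0 stop : ∃ N, ∀ i, N ≤ i → p i = q i  -- Adjacent chains: pointwise `ρ`-close, same beginning, same end.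
* def cat (N : ℕ) (p q : ℕ → M) : ℕ → M  -- Concatenation: follow `p` for `N` steps, then `q`. (Meaningful when `p N = q 0`.)
* def rev (N : ℕ) (p : ℕ → M) : ℕ → M  -- Reversal of a chain with `N` steps.
* def smp {x y : M} (γ : Path x y) (N : ℕ) : ℕ → M  -- The chain `γ(0), γ(1/N), …, γ(1), γ(1), …`.

### R244/CHGlobal [ns Crest.Agent.R244] # R244 package B2, part 4 : local and global CN inequality for the length of classes
* def stp (y z : M) : ℕ → M  -- the one-step chain `y, z, z, …`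
* theorem DC_local_CN [CompactSpace M] (h : LocalCN M r) (hρ0 : 0 < ρ) (hρ : 3 * ρ < r) {N : ℕ} {p : ℕ → M} (hp : IsCh ρ N p) {y z m : M} (hy : p N = y) (hyz : dist y z ≤ ρ) (hm : IsMid r y z m) : DC ρ (cat N p (stp y m)) ^ 2 ≤ DC ρ p ^ 2 / 2 + DC ρ (cat N p (stp y z)) ^ 2 / 2 - dist y z ^ 2 / 4  -- Local CN inequality for the length of classes.
* def trunc (j : ℕ) (p : ℕ → M) : ℕ → M  -- truncation of a chain
* theorem exists_midchain [CompactSpace M] (h : LocalCN M r) (hρ0 : 0 < ρ) (hρ : 3 * ρ < r) {Na : ℕ} {a : ℕ → M} (ha : IsCh ρ Na a) {δ : ℝ} (hδ : 0 < δ) : ∃ (n : ℕ) (w : ℕ → M), IsCh δ n w ∧ IsCh ρ n w ∧ w 0 = a 0 ∧ ∀ (Nb : ℕ) (b : ℕ → M), IsCh ρ Nb b → b Nb = a 0 → DC ρ (cat Nb b w) ^ 2 ≤ DC ρ b ^ 2 / 2 + DC ρ (cat Nb b a) ^ 2 / 2 - DC ρ a ^ 2 / 4  -- Global CN inequality with an explicit midpoint chain.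

### R244/CHLadder [ns Crest.Agent.R244] # R244 package B2, part 2 : geodesic chains and the ladder lemma
* def IsGeo (r : ℝ) (N : ℕ) (p : ℕ → M) : Prop  -- geodesic chain: every inner point is the midpoint of its neighbours
* def md (h : LocalCN M r) (a b : M) : M  -- chosen midpoint
* def upd (h : LocalCN M r) (j : ℕ) (p : ℕ → M) : ℕ → M  -- one-site relaxation
* theorem isClosed_class (hρ : 0 < ρ) (N : ℕ) (p₀ : ℕ → M) (x y : M) : IsClosed {p : ℕ → M | IsCh ρ N p ∧ p 0 = x ∧ p N = y ∧ ChEq ρ p₀ p}  -- The `N`-chains with given ends in a given equivalence class form a closed set.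
* theorem ladder [CompactSpace M] (h : LocalCN M r) (hρ0 : 0 < ρ) (hρ : 3 * ρ < r) (N K : ℕ) (R : ℕ → ℕ → M) (hR : ∀ k ≤ K, IsCh ρ N (R k)) (hA : ∀ k < K, ∀ i, dist (R k i) (R (k + 1) i) ≤ ρ) : ∃ R' : ℕ → ℕ → M, (∀ k ≤ K, IsCh ρ N (R' k) ∧ R' k 0 = R k 0 ∧ R' k N = R k N ∧ len N (R' k) ≤ len N (R k) ∧ IsGeo r N (R' k)) ∧ (∀ k < K, ∀ i, dist (R' k i) (R' (k + 1) i) ≤ ρ) ∧ ChEq ρ (R 0) (R' 0)  -- Ladder lemma.

### R244/CHPath [ns Crest.Agent.R244] # R244 package B2, part 5 : sampling of continuous paths (C1-C5)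
* theorem smp_isCh {x y : M} (γ : Path x y) {ρ : ℝ} (hρ : 0 < ρ) : ∃ N₀ : ℕ, 0 < N₀ ∧ ∀ N ≥ N₀, IsCh ρ N (smp γ N)  -- (C1) fine samples are chains
* theorem smp_homotopic {x y : M} {γ γ' : Path x y} (h : γ.Homotopic γ') {ρ : ℝ} (hρ : 0 < ρ) : ∃ N₀ : ℕ, 0 < N₀ ∧ ∀ N ≥ N₀, ∀ N' ≥ N₀, ChEq ρ (smp γ N) (smp γ' N')  -- (C3) homotopy invariance
* theorem smp_chEq {x y : M} (γ : Path x y) {ρ : ℝ} (hρ : 0 < ρ) : ∃ N₀ : ℕ, 0 < N₀ ∧ ∀ N ≥ N₀, ∀ N' ≥ N₀, ChEq ρ (smp γ N) (smp γ N')  -- (C2) all fine samples are equivalent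
* theorem smp_trans {x y z : M} (γ : Path x y) (γ' : Path y z) {N : ℕ} (hN : 0 < N) : smp (γ.trans γ') (2 * N) = cat N (smp γ N) (smp γ' N)  -- (C4)
* theorem smp_symm {x y : M} (γ : Path x y) {N : ℕ} (hN : 0 < N) : smp γ.symm N = rev N (smp γ N)  -- (C5)

### R244/CHQuad [ns Crest.Agent.R244] # R244 package B2, part 1 : the local quadrilateral inequality
* def IsMid (r : ℝ) (a b m : M) : Prop  -- `m` is a CN-midpoint of `a`, `b` at scale `r`.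
* theorem quad_aux {r : ℝ} {x₁ x₂ x₃ x₄ y : M} {t : ℝ} (h0 : 0 < t) (h1 : t < 1) (hy : IsPt r x₂ x₄ t y) (h12 : dist x₁ x₂ < r) (h14 : dist x₁ x₄ < r) (h32 : dist x₃ x₂ < r) (h34 : dist x₃ x₄ < r) : dist x₁ x₃ ^ 2 + dist x₂ x₄ ^ 2 ≤ dist x₁ x₄ ^ 2 + dist x₃ x₂ ^ 2 + ((1 - t) / t * dist x₁ x₂ ^ 2 + t / (1 - t) * dist x₃ x₄ ^ 2)  -- auxiliary inequality with a dyadic parameter
* theorem quad {r : ℝ} (hM : LocalCN M r) {x₁ x₂ x₃ x₄ : M} (h24 : dist x₂ x₄ < r) (h12 : dist x₁ x₂ < r) (h14 : dist x₁ x₄ < r) (h32 : dist x₃ x₂ < r) (h34 : dist x₃ x₄ < r) : dist x₁ x₃ ^ 2 + dist x₂ x₄ ^ 2 ≤ dist x₁ x₄ ^ 2 + dist x₃ x₂ ^ 2 + 2 * dist x₁ x₂ * dist x₃ x₄  -- Reshetnyak's quadrilateral inequality.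
* theorem IsMid.unique {r : ℝ} {a b m m' : M} (h : IsMid r a b m) (h' : IsMid r a b m') (hab : dist a b < r) : m = m'  -- Midpoints are unique at small scale.
* theorem mid_dist_sq {r : ℝ} (hM : LocalCN M r) {p q p' q' m m' : M} (hm : IsMid r p q m) (hm' : IsMid r p' q' m') (h1 : dist p q < r) (h2 : dist p' q' < r) (h3 : dist p p' < r) (h4 : dist q q' < r) (h5 : dist p q' < r) (h6 : dist q p' < r) : dist m m' ^ 2 ≤ dist p p' ^ 2 / 2 + dist q q' ^ 2 / 2 - (dist p q - dist p' q') ^ 2 / 4  -- Sharp convexity of the distance between midpoints.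

### R244/CHReal [ns Crest.Agent.R244 / Hol / Real2] # R244 package B2, (E1) faithfulness and (E2) realization of chains by continuous paths
* structure IsHol (ε : ℝ) (p : ℕ → M) (c : ∀ i, Q (p 0) (p i)) : Prop where zero : c 0 = Path.Homotopic.Quotient.refl (p 0) succ : ∀ i, ∃ s : Path (p i) (p (i + 1)), (∀ t, dist (s t) (p i) < ε) ∧ c (i + 1) = (c i).trans (Path.Homotopic.Quotient.mk s)  -- `c i` is the class of "the" small path following `p 0, …, p i`.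
* theorem homotopic_of_chEq (hU : UnifLSC M) : ∃ ρ₀ > 0, ∀ ρ : ℝ, 0 < ρ → ρ ≤ ρ₀ → ∀ (x y : M) (γ γ' : Path x y), (∃ N₀, ∀ N ≥ N₀, ∀ N' ≥ N₀, ChEq ρ (smp γ N) (smp γ' N')) → γ.Homotopic γ'  -- (E1) faithfulness: under `UnifLSC`, chain-equivalent samples come from homotopic paths.
* theorem stutter_chEq {ρ δ : ℝ} {N : ℕ} {p : ℕ → M} (hp : IsCh δ N p) (hδ : δ ≤ ρ) (hρ : 0 ≤ ρ) {k : ℕ} (hk : 0 < k) : ChEq ρ (fun j => p (j / k)) p  -- the stuttered chain is equivalent to the chain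
* def pw {p : ℕ → M} (s : ∀ i, Path (p i) (p (i + 1))) : ℕ → ℝ → M | 0, _ => p 0 | n + 1, t => if t ≤ n then pw s n t else (s n).extend (t - n) theorem pw_self {p : ℕ → M} (s : ∀ i, Path (p i) (p (i + 1))) (n : ℕ) : pw s n n = p n  -- the piecewise path through `p 0, p 1, …`
* theorem exists_path_of_isCh (hU : UnifLSC M) {ρ : ℝ} (hρ : 0 < ρ) : ∃ δ > 0, ∀ (N : ℕ) (p : ℕ → M), IsCh δ N p → ∃ γ : Path (p 0) (p N), ∃ N₀, ∀ N' ≥ N₀, ChEq ρ (smp γ N') p  -- (E2) realization: for every scale `ρ` there is `δ > 0` such that every chain with steps `≤ δ` is `ρ`-equivalent to the fine samples of a continuous path.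

### R244/CNInt [ns Crest.Agent.R244.CNInt] 
* def nrm (x : M) (v : E) : ℝ  -- The Riemannian norm of a vector of the model space at a point.
* structure MidData (U : Set E) (G : E → E →L[ℝ] E →L[ℝ] ℝ) (W : Set E) (mid : E × E → E) (q : E × E → ℝ) : Prop where isOpen : IsOpen W subset : W ⊆ U mid_diff : ContDiffOn ℝ 1 mid (W ×ˢ W) q_diff : ContDiffOn ℝ 1 q (W ×ˢ W) diag : ∀ p ∈ W, mid (p, p) = p ∧ q (p, p) = 0 nonneg : ∀ a ∈ W, ∀ b ∈ W, 0 ≤ q (a, b) ∧ mid (a, b) ∈ U geo : ∀ a ∈ W, ∀ b ∈ W, ∃ c : ℝ → E, ContDiff ℝ 1 c ∧ c 0 = a ∧ c 1 = b ∧ ∀ s ∈ Icc (0 : ℝ) 1 …  -- Chart-level data produced by the geodesic boundary value problem in nonpositive curvature: midpoint map `mid`, squared length `q`, and the infinitesimal CN ineq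
* def IsChartMetric (x0 : M) (G : E → E →L[ℝ] E →L[ℝ] ℝ) : Prop  -- `G` is the coordinate expression of the Riemannian metric in the chart at `x0`.
* theorem local_cn [RegularSpace M] {d : M → M → ℝ} (hd0 : ∀ x y, 0 ≤ d x y) (hd : ∀ x y : M, riemannianEDist 𝓘(ℝ, E) x y = ENNReal.ofReal (d x y)) {x0 : M} {G : E → E →L[ℝ] E →L[ℝ] ℝ} (hG : IsChartMetric x0 G) {W : Set E} {mid : E × E → E} {q : E × E → ℝ} (hD : MidData (chartAt E x0).target G W mid q) (hx0 : chartAt E x0 x0 ∈ W) : ∃ ρ > 0, ∀ x y, d x0 x < ρ → d x0 y < ρ → ∃ m, ∀ z, d x0 z < ρ → d z m ^ 2 ≤ d z x ^ 2 / …  -- (L5) the local CN inequality.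
* theorem exists_metric_localCN [T2Space M] [CompactSpace M] [ConnectedSpace M] (g : ContMDiffRiemannianMetric 𝓘(ℝ, E) ∞ E (fun x : M => TangentSpace 𝓘(ℝ, E) x)) (h : ∀ x0 : M, ∃ G : E → E →L[ℝ] E →L[ℝ] ℝ, (∀ y ∈ (chartAt E x0).target, ∀ u : E, G y u u = g.inner ((chartAt E x0).symm y) (mfderiv 𝓘(ℝ, E) 𝓘(ℝ, E) (chartAt E x0).symm y u) (mfderiv 𝓘(ℝ, E) 𝓘(ℝ, E) (chartAt E x0).symm y u)) ∧ ∃ (W : Set E) (mid : E × E → E)  …  -- B1 (c): from the chart-level midpoint data at every point of a compact connected Riemannian manifold to the uniform local CN condition for a metric inducing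

### R244/CNIntA [ns Crest.Agent.R244.CNInt] 

### R244/ChartEq [ns Crest.Agent.R244.NCP] # R244 (S0377): geodesic and Jacobi equations in one fixed chart `IsGeodesic`/`IsJacobiField` test each parameter in its own preferred chart; here the equations are transported to the chart at `γ s₀` for all parameters `s` with `γ s` in its domain.
* def chartCurve (γ : ℝ → M) (t₀ : ℝ) : ℝ → 𝔼  -- The curve `γ` in the preferred chart at `γ t₀`.
* theorem geodesicEqAt_chart {γ : ℝ → M} (hγ : IsGeodesic g γ) {x₀ : M} {s : ℝ} (hs : γ s ∈ (chartAt 𝔼 x₀).source) : GeodesicEqAt (metricInChart g x₀) (fun s => chartAt 𝔼 x₀ (γ s)) s  -- The geodesic equation in the chart at `x₀`, at every parameter `s` with `γ s` in its domain.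
* theorem jacobiEqAt_chart {γ : ℝ → M} {J : ℝ → 𝔼} (hγ : IsGeodesic g γ) (hJ : IsJacobiField g γ J) {x₀ : M} {s : ℝ} (hs : γ s ∈ (chartAt 𝔼 x₀).source) : JacobiEqAt (metricInChart g x₀) (fun s => chartAt 𝔼 x₀ (γ s)) (fun s => (mfderiv 𝓘E 𝓘E (chartAt 𝔼 x₀) (γ s) (J s) : 𝔼)) s  -- The Jacobi equation in the chart at `x₀`, at every parameter `s` with `γ s` in its domain.

### R244/ChartMetric [ns Crest.Agent.R244] # R244: the metric of a manifold in a fixed chart, coordinate-free `gC g x₀ y u v = g (φ⁻¹ y) (dφ⁻¹ u) (dφ⁻¹ v)` for `φ = chartAt x₀`.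
* def dsymm (x₀ : M) (y : 𝔼) : 𝔼 →L[ℝ] 𝔼  -- derivative of the chart inverse
* def gC (x₀ : M) (y : 𝔼) : 𝔼 →L[ℝ] 𝔼 →L[ℝ] ℝ  -- metric in the chart `x₀`, as a bilinear form.
* def gI (p : M) : 𝔼 →L[ℝ] 𝔼 →L[ℝ] ℝ  -- the metric at a point as a bilinear form on the model space.
* theorem gB_eq_gC (x₀ : M) (y : 𝔼) : CF.gB (metricInChart g x₀) y = gC g x₀ y  -- `gB` of the metric matrix in the chart is the coordinate-free metric.
* theorem locIsoAt_transition (x₀ x₁ : M) {y : 𝔼} (hy : y ∈ (chartAt 𝔼 x₀).target) (hy1 : (chartAt 𝔼 x₀).symm y ∈ (chartAt 𝔼 x₁).source) : CF.LocIsoAt (chartAt 𝔼 x₀).target (CF.gB (metricInChart g x₀)) (chartAt 𝔼 x₁).target (CF.gB (metricInChart g x₁)) ((chartAt 𝔼 x₁) ∘ (chartAt 𝔼 x₀).symm) y  -- Transition between charts is a local isometry of the coordinate metrics.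

### R244/ChartNPC [ns Crest.Agent.R244] # R244: nonpositive sectional curvature in every chart
* theorem isNPCData (hg : HasNonposSectionalCurvature g) (x₀ : M) : IsNPCData (chartAt 𝔼 x₀).target (CF.gB (metricInChart g x₀)) (CF.Gam (metricInChart g x₀))  -- CF/B1 interface: in the fixed chart at `x₀` the metric is an `IsNPCData`.

### R244/Col [ns Crest.Agent.R244.Col] # R244 package COL : the collar profile `Q_t = P dx² + 2 B dx dy + D dy²` with `P = A² + a²`, `D = E²`, `B = a² b`, `A' = ρ`, `E' = -θ`.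
* def rhsR (P B D P1 B1 D1 m : ℝ) : ℝ  -- right side of the condition (R) for the velocity `(1,m)`
* def rhsL (P B D P1 B1 D1 n : ℝ) : ℝ  -- right side of the condition (L) for the velocity `(n,1)`
* theorem two_abs_le {x u v : ℝ} (hu : 0 ≤ u) (hv : 0 ≤ v) (h : x ^ 2 ≤ u * v) : 2 * |x| ≤ u + v  -- `2|x| ≤ u + v` if `x² ≤ u v`.

### R244/ColDefs [ns Crest.Agent.R244] # R244 package COL : the collar data (interface) Metric on the collar `(t,x,y)`: `dt² + P(t) dx² + 2 B(t) dx dy + D(t) dy²`. Inverse (cometric) entries `colA = D/(PD-B²)`, `colB = -B/(PD-B²)`, `colC = P/(PD-B²)`, so that `V = colA p² + 2 colB p q + colC q²` for the momentum `(p,q)` and `x' = colA p + colB q`, `y' = colB p + colC q`.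
* def colB (P B D : ℝ → ℝ) (t : ℝ) : ℝ  -- `W₁₂`
* def colC (P B D : ℝ → ℝ) (t : ℝ) : ℝ  -- `W₂₂`
* def colV1 (P B D : ℝ → ℝ) (t p q : ℝ) : ℝ  -- `V_t` for the momentum `(p,q)`
* def colV2 (P B D : ℝ → ℝ) (t p q : ℝ) : ℝ  -- `V_tt` for the momentum `(p,q)`
* structure CollarData where P : ℝ → ℝ B : ℝ → ℝ D : ℝ → ℝ tL : ℝ t0 : ℝ t1 : ℝ tR : ℝ c1 : ℝ c2 : ℝ Φ0 : ℝ R0 : ℝ smooth_P : ContDiff ℝ ∞ P smooth_B : ContDiff ℝ ∞ B smooth_D : ContDiff ℝ ∞ D P_pos : ∀ t, 0 < P t D_pos : ∀ t, 0 < D t det_pos : ∀ t, 0 < P t * D t - B t ^ 2 tL_lt_t0 : tL < t0 t0_lt_t1 : t0 < t1 t1_lt_tR : t1 < tR Φ0_pos : 0 < Φ0 R0_pos : 0 < R0 c1_pos : 0 < c1 - tL c2_pos : 0 < c2 + tR -- product zones  …  -- A collar profile: product zones `t ≤ t0` (only `dy²` varies) and `t1 ≤ t` (only `dx²` varies, in the sheared coordinates `dx, dx+dy`), flat polar ends `t ≤ tL` 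

### R244/ColExists [ns Crest.Agent.R244 / Col / Consts] # R244 package COL : existence of collar data (helper579)
* structure Consts where a : ℝ K : ℝ c0 : ℝ c1 : ℝ c4 : ℝ M : ℝ M2 : ℝ ha : 1 ≤ a hc0 : 0 < c0 hc1 : 0 < c1 hc4 : 0 < c4 hM : 0 ≤ M hM2 : 0 ≤ M2 q_le : ∀ t, 1 ≤ t → c0 * th t ≤ qq t r_ge : ∀ t, 2 ≤ t → t ≤ 4 → c1 ≤ rr t rho_ge : ∀ t, 2 ≤ t → c4 ≤ rho t b1_le : ∀ t, (a ^ 2 * bb1 t) ^ 2 ≤ M * th t b2_le : ∀ t, (a ^ 2 * deriv bb1 t) ^ 2 ≤ M * th t g_le : ∀ t, 1 ≤ t → ((a - Jth t) ^ 2 - a ^ 2 * bb t) ^ 2 ≤ M2 * th t haK :  …  -- the constants of the construction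
* theorem exists_collarData : Nonempty CollarData  -- Existence of collar data (package COL, final statement).

### R244/ColFun [ns Crest.Agent.R244.Col] # R244 package COL : cut-off functions
* def st1 (x : ℝ) : ℝ  -- the derivative of `smoothTransition`
* theorem exists_c0 : ∃ c0 : ℝ, 0 < c0 ∧ ∀ t, 1 ≤ t → c0 * th t ≤ qq t  -- constant `c0`
* def Jth (t : ℝ) : ℝ  -- antiderivative of `θ`
* def Jrho (t : ℝ) : ℝ  -- antiderivative of `ρ`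
* theorem Jth_bound {c0 : ℝ} (hc0 : 0 < c0) (h : ∀ t, 1 ≤ t → c0 * th t ≤ qq t) {t : ℝ} (ht : 1 ≤ t) : c0 * (-Jth t) ≤ th t  -- `-J ≤ θ/c0` on `[1,∞)`

### R244/ColW [ns Crest.Agent.R244.Col] # R244 package COL : from the metric entries to the cometric entries
* structure QD (P B D P1 B1 D1 P2 B2 D2 : ℝ → ℝ) : Prop where hP : ∀ t, HasDerivAt P (P1 t) t hB : ∀ t, HasDerivAt B (B1 t) t hD : ∀ t, HasDerivAt D (D1 t) t hP1 : ∀ t, HasDerivAt P1 (P2 t) t hB1 : ∀ t, HasDerivAt B1 (B2 t) t hD1 : ∀ t, HasDerivAt D1 (D2 t) t det : ∀ t, 0 < P t * D t - B t ^ 2  -- first and second derivatives of the metric entries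
* theorem QD.V1_eq (h : QD P B D P1 B1 D1 P2 B2 D2) (t p q : ℝ) : colV1 P B D t p q = -(P1 t * (colA P B D t * p + colB P B D t * q) ^ 2 + 2 * B1 t * (colA P B D t * p + colB P B D t * q) * (colB P B D t * p + colC P B D t * q) + D1 t * (colB P B D t * p + colC P B D t * q) ^ 2)  -- `V_t = - Q'(v,v)`
* theorem QD.V2_eq (h : QD P B D P1 B1 D1 P2 B2 D2) (t p q X Y : ℝ) (hX : X = colA P B D t * p + colB P B D t * q) (hY : Y = colB P B D t * p + colC P B D t * q) : colV2 P B D t p q = -(P2 t * X ^ 2 + 2 * B2 t * X * Y + D2 t * Y ^ 2) + 2 * (colA P B D t * (P1 t * X + B1 t * Y) ^ 2 + 2 * colB P B D t * (P1 t * X + B1 t * Y) * (B1 t * X + D1 t * Y) + colC P B D t * (B1 t * X + D1 t * Y) ^ 2)  -- `V_tt = - Q''(v,v) + 2 W(Q'v,Q'v)`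
* theorem QD.cR_eq (h : QD P B D P1 B1 D1 P2 B2 D2) (t p q X Y : ℝ) (hX : X = colA P B D t * p + colB P B D t * q) (hY : Y = colB P B D t * p + colC P B D t * q) (hX0 : X ≠ 0) : cR (colA P B D t) (colB P B D t) (colC P B D t) (deriv (colA P B D) t) (deriv (colB P B D) t) (deriv (colC P B D) t) (deriv (deriv (colA P B D)) t) (deriv (deriv (colB P B D)) t) (deriv (deriv (colC P B D)) t) p q = X ^ 2 / (4 * (P t * D t - B  …  -- The coefficient `cR` in terms of the metric entries.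
* theorem QD.cL_eq (h : QD P B D P1 B1 D1 P2 B2 D2) (t p q X Y : ℝ) (hX : X = colA P B D t * p + colB P B D t * q) (hY : Y = colB P B D t * p + colC P B D t * q) (hY0 : Y ≠ 0) : cR (colC P B D t) (colB P B D t) (colA P B D t) (deriv (colC P B D) t) (deriv (colB P B D) t) (deriv (colA P B D) t) (deriv (deriv (colC P B D)) t) (deriv (deriv (colB P B D)) t) (deriv (deriv (colA P B D)) t) q p = Y ^ 2 / (4 * (P t * D t - B  …  -- The coefficient `cR` with exchanged roles, in terms of the metric entries.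

### R244/Flow [ns Crest.Agent.R244] Existence of the local geodesic flow (from the general ODE library) and the final chart-level theorem: midpoint map with the infinitesimal CN inequality.
* theorem IsNPCData.exists_midpoint_map (h : IsNPCData U g G) {p0 : E} {V : Set E} (hV : V ∈ 𝓝 p0) (hp : p0 ∈ U) : ∃ (W : Set E) (mid : E × E → E) (q : E × E → ℝ), IsOpen W ∧ p0 ∈ W ∧ W ⊆ V ∧ W ⊆ U ∧ ContDiffOn ℝ 1 mid (W ×ˢ W) ∧ ContDiffOn ℝ 1 q (W ×ˢ W) ∧ (∀ p ∈ W, mid (p, p) = p ∧ q (p, p) = 0) ∧ (∀ a ∈ W, ∀ b ∈ W, 0 ≤ q (a, b) ∧ mid (a, b) ∈ V ∩ U) ∧ (∀ a ∈ W, ∀ b ∈ W, ∃ c : ℝ → E, ContDiff ℝ 1 c ∧ c 0 = a ∧ c 1 =  …  -- Chart-level output of package B1: the midpoint map of a nonpositively curved chart, the squared length function `q` and the infinitesimal CN inequality.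

### R244/Jac [ns Crest.Agent.R244] Coordinate-free local Riemannian calculus: metric compatibility, Jacobi fields and the infinitesimal CN inequality for the geodesic "midpoint" of a two-point family.
* structure IsNPCData (U : Set E) (g : E → E →L[ℝ] E →L[ℝ] ℝ) (G : E → E →L[ℝ] E →L[ℝ] E) : Prop where isOpen : IsOpen U contDiffOn_g : ContDiffOn ℝ ∞ g U contDiffOn_G : ContDiffOn ℝ ∞ G U symm_g : ∀ x ∈ U, ∀ u v, g x u v = g x v u pos_g : ∀ x ∈ U, ∀ u, u ≠ 0 → 0 < g x u u symm_G : ∀ x ∈ U, ∀ u v, G x u v = G x v u compat : ∀ x ∈ U, ∀ u v w, fderiv ℝ g x u v w = g x (G x u v) w + g x v (G x u w) curv_nonpos : ∀ x ∈ U,  …  -- Local Riemannian data on an open set `U` of a normed space: a smooth metric `g`, a smooth symmetric connection `G` compatible with it, with nonpositive sectiona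
* theorem IsNPCData.hasDerivAt_metric_cov {U : Set E} {g : E → E →L[ℝ] E →L[ℝ] ℝ} {G : E → E →L[ℝ] E →L[ℝ] E} (h : IsNPCData U g G) {c v w : ℝ → E} {c' v' w' : E} {s : ℝ} (hU : c s ∈ U) (hc : HasDerivAt c c' s) (hv : HasDerivAt v v' s) (hw : HasDerivAt w w' s) : HasDerivAt (fun s => g (c s) (v s) (w s)) (g (c s) (v' + G (c s) c' (v s)) (w s) + g (c s) (v s) (w' + G (c s) c' (w s))) s  -- Metric compatibility along a curve: `g(v,w)' = g(v' + G(c',v), w) + g(v, w' + G(c',w))`.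
* theorem IsNPCData.symm_fderiv_G {U : Set E} {g : E → E →L[ℝ] E →L[ℝ] ℝ} {G : E → E →L[ℝ] E →L[ℝ] E} (h : IsNPCData U g G) {x : E} (hx : x ∈ U) (u v w : E) : fderiv ℝ G x u v w = fderiv ℝ G x u w v  -- The derivative of a symmetric connection is symmetric in the last two slots.
* theorem IsNPCData.hasDerivAt_cov {U : Set E} {g : E → E →L[ℝ] E →L[ℝ] ℝ} {G : E → E →L[ℝ] E →L[ℝ] E} (h : IsNPCData U g G) {c w J K : ℝ → E} {s : ℝ} (hU : c s ∈ U) (hc : HasDerivAt c (w s) s) (hw : HasDerivAt w (-(G (c s) (w s) (w s))) s) (hJ : HasDerivAt J (K s) s) (hK : HasDerivAt K (-(fderiv ℝ G (c s) (J s) (w s) (w s)) - (2:ℝ) • G (c s) (w s) (K s)) s) : HasDerivAt (fun s => K s + G (c s) (w s) (J s)) (-(curv G ( …  -- Second covariant derivative of a Jacobi field. `w = c'`, `J' = K`, with `c'' = -G(c',c')` and `K' = -(DG.J)(w,w) - 2 G(w,K)` (the linearised geodesic equation).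
* theorem IsNPCData.jacobi_midpoint {U : Set E} {g : E → E →L[ℝ] E →L[ℝ] ℝ} {G : E → E →L[ℝ] E →L[ℝ] E} (h : IsNPCData U g G) {c w J K : ℝ → E} {κ : ℝ} (hU : ∀ s ∈ Icc (0:ℝ) 1, c s ∈ U) (hc : ∀ s ∈ Icc (0:ℝ) 1, HasDerivAt c (w s) s) (hw : ∀ s ∈ Icc (0:ℝ) 1, HasDerivAt w (-(G (c s) (w s) (w s))) s) (hJ : ∀ s ∈ Icc (0:ℝ) 1, HasDerivAt J (K s) s) (hK : ∀ s ∈ Icc (0:ℝ) 1, HasDerivAt K (-(fderiv ℝ G (c s) (J s) (w s) (w s)) …  -- The energy density `e = g(J,J)` of a Jacobi field along a geodesic satisfies `e(1/2) ≤ (e 0 + e 1)/2 - κ/4` whenever `κ ≤ g(DJ,DJ)` along the geodesic.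

### R244/LocalCAT [ns Crest.Agent.R244] # R244 package B2a : local consequences of `LocalCN` All lemmas assume that all points involved are at mutual distance `< r` (or `< r/3`), so that the CN inequality can be applied. `mid h a b` is the chosen midpoint.
* theorem mem_of_closed_midpoint {S : Set ℝ} (hS : IsClosed S) (h0 : (0 : ℝ) ∈ S) (h1 : (1 : ℝ) ∈ S) (hm : ∀ s ∈ S, ∀ t ∈ S, 0 ≤ s → s ≤ 1 → 0 ≤ t → t ≤ 1 → (s + t) / 2 ∈ S) {t : ℝ} (ht0 : 0 ≤ t) (ht1 : t ≤ 1) : t ∈ S  -- a closed midpoint-closed subset of `[0,1]` containing `0` and `1` is everything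
* theorem exists_subdivision [CompactSpace M] (h : LocalCN M r) {a b : M} (hab : dist a b < r) (n : ℕ) (hn : 0 < n) : ∃ x : ℕ → M, x 0 = a ∧ x n = b ∧ ∀ i ≤ n, ∀ j ≤ n, i ≤ j → dist (x i) (x j) = ((j : ℝ) - i) / n * dist a b  -- subdivision of a short geodesic into `n` equal parts (dyadic subdivision + compactness)
* theorem quad_strong [CompactSpace M] (h : LocalCN M r) {x₁ x₂ x₃ x₄ : M} (h12 : dist x₁ x₂ < r / 3) (h14 : dist x₁ x₄ < r / 3) (h34 : dist x₃ x₄ < r / 3) : dist x₁ x₃ ^ 2 + dist x₂ x₄ ^ 2 ≤ dist x₂ x₃ ^ 2 + dist x₁ x₄ ^ 2 + 2 * dist x₁ x₂ * dist x₃ x₄  -- strong quadrilateral inequality (quasi Cauchy-Schwarz)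
* theorem dist_mid_mid_sq [CompactSpace M] (h : LocalCN M r) {x x' y y' : M} (hx : dist x x' < r / 3) (hy : dist y y' < r / 3) (hxy : dist x y < r / 3) : dist (mid h x x') (mid h y y') ^ 2 ≤ dist x y ^ 2 / 2 + dist x' y' ^ 2 / 2 - (dist x x' - dist y y') ^ 2 / 4  -- midpoint comparison with gap
* theorem dist_mid_mid (h : LocalCN M r) {x x' y y' : M} (hx : dist x x' < r / 3) (hy : dist y y' < r / 3) (hxy : dist x y < r / 3) : dist (mid h x x') (mid h y y') ≤ dist x y / 2 + dist x' y' / 2  -- Busemann convexity of the metric at small scale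

### R244/Loops [ns Crest.Agent.R244.Loops / Hol] 
* structure Hol (Y : Type*) [TopologicalSpace Y] (G : Type*) [Group G] where hol : ∀ {x y : Y}, Path x y → G hol_trans : ∀ {x y z : Y} (p : Path x y) (q : Path y z), hol (p.trans q) = hol p * hol q hol_homotopic : ∀ {x y : Y} (p q : Path x y), p.Homotopic q → hol p = hol q  -- A multiplicative, homotopy invariant assignment of group elements to paths.
* def S (F : E → Y) (p q : E) : G  -- Holonomy of `F` along the segment from `p` to `q` (junk value `1` if `F` is not continuous along the segment).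
* theorem hol_eq_of_convex {F : E → Y} {K : Set E} (hK : Convex ℝ K) (hF : ContinuousOn F K) (f g : I → E) (hf : Continuous f) (hg : Continuous g) (hfK : ∀ t, f t ∈ K) (hgK : ∀ t, g t ∈ K) (h0 : f 0 = g 0) (h1 : f 1 = g 1) {x y x' y' : Y} (p : Path x y) (q : Path x' y') (hp : ∀ t, p t = F (f t)) (hq : ∀ t, q t = F (g t)) : H.hol p = H.hol q  -- Main homotopy lemma: two curves with the same endpoints in a convex set on which `F` is continuous.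
* theorem S_comp {F : E → Y} {F' : E' → Y} {K : Set E'} (hK : Convex ℝ K) (hF' : ContinuousOn F' K) (P : E → E') {a b : E} (hP : Continuous fun t : I => P (line a b t)) (hPK : ∀ t : I, P (line a b t) ∈ K) (hFP : ∀ t : I, F (line a b t) = F' (P (line a b t))) : H.S F a b = H.S F' (P a) (P b)  -- The segment holonomy of `F = F' ∘ P` equals that of `F'` between the image points, provided the image of the segment stays in a convex set on which `F'` is cont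
* theorem S_mul {F : E → Y} {K : Set E} (hK : Convex ℝ K) (hF : ContinuousOn F K) {a b c : E} (ha : a ∈ K) (hb : b ∈ K) (hc : c ∈ K) : H.S F a b * H.S F b c = H.S F a c  -- Triangle rule.

### R244/LoopsBlock [ns Crest.Agent.R244.Loops] 
* def fibc (F : ℝ × ℝ × ℝ → Y) (p1 p2 r L a : ℝ) : G  -- fibre loop on the boundary circle
* structure Outer (F : ℝ × ℝ × ℝ → Y) (p1 p2 r L a : ℝ) : Prop where hr : 0 < r hL : r ≤ L hF : ContinuousOn F (Ann p1 p2 r L) hx : ∀ z th, |z - p2| ≤ L → F (p1 + L, z, th) = F (p1 - L, z, th) hy : ∀ z th, |z - p1| ≤ L → F (z, p2 + L, th) = F (z, p2 - L, th) ha : FibPer F p1 p2 r L a  -- Hypotheses on the map `F : (square annulus) x R → Y` of an outer block.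
* def hgen (F : ℝ × ℝ × ℝ → Y) (p1 p2 L : ℝ) : G  -- horizontal generator
* def vgen (F : ℝ × ℝ × ℝ → Y) (p1 p2 L : ℝ) : G  -- vertical generator
* structure Centre (F : ℝ × ℝ × ℝ → Y) (p1 p2 r L a : ℝ) : Prop where hr : 0 < r hL : r ≤ L hF : ContinuousOn F (Ann p1 p2 r L) hF' : ContinuousOn F (Ann (p1 + 2 * L) p2 r L) hx : ∀ z th, |z - p2| ≤ L → F (p1 + 3 * L, z, th) = F (p1 - L, z, th) hy : ∀ z th, |z - p1| ≤ L → F (z, p2 + L, th) = F (z, p2 - L, th) hy' : ∀ z th, |z - (p1 + 2 * L)| ≤ L → F (z, p2 + L, th) = F (z, p2 - L, th) ha : FibPer F p1 p2 r L a ha' : Fi …  -- Hypotheses on the map `F` of the centre block (two square annuli side by side).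

### R244/LoopsFinal [ns Crest.Agent.R244.Loops] 
* def piHol {Y : Type*} [TopologicalSpace Y] [PathConnectedSpace Y] (x₀ : Y) : Hol Y (FundamentalGroup Y x₀)  -- The holonomy with values in the fundamental group.
* theorem Blocks.exists_relations {Y : Type*} [TopologicalSpace Y] [PathConnectedSpace Y] (B : Blocks Y) (x₀ : Y) (hne : ∀ γ : Path (B.K (B.t₀, 0, 0)) (B.K (B.t₀, 0, 0)), (∀ s : I, γ s = B.K (B.t₀, 0, 2 * π * s)) → ¬ γ.Homotopic (Path.refl _)) : ∃ f₁ f₂ a₁ c₁ a₂ c₂ : FundamentalGroup Y x₀, Commute f₁ a₁ ∧ Commute f₁ c₁ ∧ f₂ = a₁ * c₁ * a₁⁻¹ * c₁⁻¹ ∧ Commute f₂ a₂ ∧ Commute f₂ c₂ ∧ f₁ * f₂⁻¹ = a₂ * c₂ * a₂⁻¹ * c₂⁻¹ ∧ f₂ …  -- Final output of B4 (2-block M). The relations required by `NoNPC.lean`, where `f₂` is nontrivial because the `y`-loop of the collar is not null-homotopic.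

### R244/LoopsMain [ns Crest.Agent.R244.Loops] 
* def Col (t₀ t₁ : ℝ) : Set (ℝ × ℝ × ℝ)  -- Collar domain
* structure Collar (K : ℝ × ℝ × ℝ → Y) (t₀ t₁ : ℝ) (F₁ : ℝ × ℝ × ℝ → Y) (p1 p2 r : ℝ) (F₂ : ℝ × ℝ × ℝ → Y) (o1 o2 ro : ℝ) : Prop where hT : t₀ ≤ t₁ hK : ContinuousOn K (Col t₀ t₁) perx : ∀ q ∈ Col t₀ t₁, K (q + (0, 2 * π, 0)) = K q pery : ∀ q ∈ Col t₀ t₁, K (q + (0, 0, 2 * π)) = K q left : ∀ x y, K (t₀, x, y) = F₁ (p1 + r * cos y, p2 + r * sin y, x) right : ∀ x y, K (t₁, x, y) = F₂ (o1 + ro * cos x, o2 + ro * sin x, x  …  -- Hypotheses on the map `K : [t₀,t₁] x R x R → Y` of the collar connecting the hole `(p1, p2)` of block 1 to the hole `(o1, o2)` of block 2.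
* def cX (K : ℝ × ℝ × ℝ → Y) (t₀ : ℝ) : G  -- the three basic holonomies of the collar
* structure Blocks (Y : Type*) [TopologicalSpace Y] where F₁ : ℝ × ℝ × ℝ → Y (p1 p2 r L : ℝ) hO₁ : Outer F₁ p1 p2 r L (2 * π) F₂ : ℝ × ℝ × ℝ → Y (o1 o2 ro Lo : ℝ) hO₂ : Outer F₂ o1 o2 ro Lo (2 * π) K : ℝ × ℝ × ℝ → Y (t₀ t₁ : ℝ) hK : Collar K t₀ t₁ F₁ p1 p2 r F₂ o1 o2 ro  -- Data of block maps into `Y` : two blocks and one collar (2-block version of `M`).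
* theorem Blocks.relations (B : Blocks Y) (H : Hol Y G) : ∃ a₁ c₁ a₂ c₂ : G, Commute (cX H B.K B.t₀) a₁ ∧ Commute (cX H B.K B.t₀) c₁ ∧ cY H B.K B.t₀ = a₁ * c₁ * a₁⁻¹ * c₁⁻¹ ∧ Commute (cY H B.K B.t₀) a₂ ∧ Commute (cY H B.K B.t₀) c₂ ∧ cX H B.K B.t₀ * (cY H B.K B.t₀)⁻¹ = a₂ * c₂ * a₂⁻¹ * c₂⁻¹  -- Output of B4, group form: `f₁`, `f₂` are the `x`-loop and the `y`-loop of the collar.

### R244/LoopsSquare [ns Crest.Agent.R244.Loops] 
* def VEdge (p2 L b : ℝ) : Set (ℝ × ℝ × ℝ)  -- vertical edge at abscissa `b`, times the fibre line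
* def pol (F : ℝ × ℝ × ℝ → Y) (p1 p2 r L : ℝ) (q : ℝ × ℝ × ℝ) : Y  -- the function in polar coordinates
* def dlt (F : ℝ × ℝ × ℝ → Y) (p1 p2 r L : ℝ) : G  -- connecting path from the corner to the circle
* def bd (F : ℝ × ℝ × ℝ → Y) (p1 p2 r L : ℝ) : G  -- the boundary circle
* theorem square (hr : 0 < r) (hL : r ≤ L) (hF : ContinuousOn F (Ann p1 p2 r L)) : H.S F (p1 - L, p2 - L, 0) (p1 + L, p2 - L, 0) * H.S F (p1 + L, p2 - L, 0) (p1 + L, p2 + L, 0) * (H.S F (p1 - L, p2 + L, 0) (p1 + L, p2 + L, 0))⁻¹ * (H.S F (p1 - L, p2 - L, 0) (p1 - L, p2 + L, 0))⁻¹ = dlt H F p1 p2 r L * bd H F p1 p2 r L * (dlt H F p1 p2 r L)⁻¹  -- Square lemma.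

### R244/Man [ns Crest.Agent.R244.Man / Glue] # R244 package MAN, part 1: manifolds glued from open pieces of `ℝⁿ` `Glue ι n` : open sets `U i ⊆ ℝⁿ` and an étale equivalence relation on their disjoint union. `G.M` is the quotient; it is a smooth manifold whose preferred charts are local inverses of the parametrisations `G.F i : ℝⁿ → G.M`.
* structure Glue (ι : Type) (n : ℕ) where U : ι → Set (EuclideanSpace ℝ (Fin n)) isOpen_U : ∀ i, IsOpen (U i) r : Setoid (Σ i, U i) etale : ∀ (i j : ι) (p : U i) (q : U j), r ⟨i, p⟩ ⟨j, q⟩ → ∃ τ : EuclideanSpace ℝ (Fin n) → EuclideanSpace ℝ (Fin n), ContDiffAt ℝ ∞ τ p ∧ τ p = q ∧ ∀ᶠ z in 𝓝 (p : EuclideanSpace ℝ (Fin n)), ∃ (hz : z ∈ U i) (hτ : τ z ∈ U j), r ⟨i, z, hz⟩ ⟨j, τ z, hτ⟩ inj : ∀ (i : ι) (p : U i), ∃ V ∈ 𝓝 (p  …  -- Gluing data: open pieces `U i ⊆ ℝⁿ` and an étale equivalence relation on `Σ i, U i`.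
* theorem t2Space_of_continuous {Z : Type*} [TopologicalSpace Z] [T2Space Z] (Ψ : G.M → Z) (hΨ : Function.Injective Ψ) (hc : Continuous Ψ) : T2Space G.M  -- A convenient criterion: continuous invariants separating the classes.
* theorem continuous_iff {Z : Type*} [TopologicalSpace Z] {f : G.M → Z} : Continuous f ↔ ∀ i, ContinuousOn (fun z => f (G.F i z)) (G.U i)  -- continuity of a function out of `G.M`, tested in the pieces.
* theorem exists_F (m : G.M) : ∃ i, ∃ z ∈ G.U i, G.F i z = m  -- every point is `F i z` for some `z ∈ U i`.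
* theorem isOrientable' (h : ∀ (i j : ι) (p : G.U i) (q : G.U j), G.r ⟨i, p⟩ ⟨j, q⟩ → ∃ τ : E → E, G.Trans i j p q τ ∧ 0 < LinearMap.det (fderiv ℝ τ p : E →ₗ[ℝ] E)) : Crest.GeometryTopology.Geodesic.IsOrientable n G.M  -- It is enough to test one transition for each related pair.

### R244/ManC [ns Crest.Agent.R244.ManC / Par] # R244 MAN-C : the concrete glued 3-manifold (3 patches: 0 = block 1, 1 = collar, 2 = block 2)
* def basePt (C : CollarData) : Σ i, C.par.P i  -- a base point of the patches.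
* def theGlue (C : CollarData) : Glue (Fin 3) 3  -- The concrete glued 3-manifold.
* def theMetricData (C : CollarData) : (theGlue C).MetricData  -- the invariant metric data.
* def theMetric (C : CollarData)  -- the Riemannian metric on the concrete manifold.
* theorem theGlue_t2 (C : CollarData) : T2Space (theGlue C).M  -- the manifold is Hausdorff.

### R244/ManC1 [ns Crest.Agent.R244.ManC / Par] # R244 MAN-C : the concrete 3-patch manifold, part 1: patches, polar maps, invariants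
* structure Par where S : ℝ c1 : ℝ c2 : ℝ tL : ℝ tR : ℝ hLR : tL < tR h1 : 0 < c1 - tL h2 : 0 < c2 + tR hS1 : 2 * (c1 - tL + 2) < S hS2 : 2 * (c2 + tR + 2) < S  -- parameters of the 3-patch manifold
* def F0 (z : E3) : D.Y  -- invariants on block 1
* def F1 (z : E3) : D.Y  -- invariants on the collar
* def F2 (z : E3) : D.Y  -- invariants on block 2
* def F : Fin 3 → E3 → D.Y  -- the invariants

### R244/ManC2 [ns Crest.Agent.R244.ManC2 / Pres] # R244 MAN-C : compactness and connectedness of a 3-patch space `Pres X`: a space `X` covered by three patches `f1, fc, f2` (block 1, collar, block 2) with the lattice periodicities and the two polar gluings.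
* def nn (S h u v : ℝ) : ℝ  -- squared distance of `(u,v)` to the lattice `(h,h) + S ℤ²`
* structure Pres (X : Type*) [TopologicalSpace X] where (S h c1 c2 tm tl tr tp : ℝ) hml : tm < tl hlr : tl < tr hrp : tr < tp h1 : 0 < c1 - tl h2 : 0 < c2 + tr hS1 : c1 - tm < S / 2 hS2 : c2 + tp < S / 2 f1 : E3 → X fc : E3 → X f2 : E3 → X cont1 : ContinuousOn f1 {p | (c1 - tl) ^ 2 < nn S h (p 0) (p 1)} contc : ContinuousOn fc {p | tm < p 0 ∧ p 0 < tp} cont2 : ContinuousOn f2 {p | (c2 + tr) ^ 2 < nn S h (p 0) (p 1)} su …  -- a 3-patch presentation of a space.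
* def K1 : Set E3  -- the compact pieces

### R244/ManC3 [ns Crest.Agent.R244.ManC2 / Pres] # R244 MAN-C : loops in a 3-patch space, and the absence of nonpositively curved metrics
* theorem outer_of_periodic {X : Type*} [TopologicalSpace X] {S h r r' : ℝ} {f : E3 → X} (hr : 0 ≤ r) (hr' : r < r') (hS : r' < S / 2) (hf : ContinuousOn f {p | r ^ 2 < nn S h (p 0) (p 1)}) (per : ∀ (u v x : ℝ) (k l n : ℤ), r ^ 2 < nn S h u v → f !₂[u + S * k, v + S * l, x + 2 * π * n] = f !₂[u, v, x]) : Loops.Outer (fun q : ℝ × ℝ × ℝ => f !₂[q.1, q.2.1, q.2.2]) h h r' (S / 2) (2 * π)  -- the outer block structure from a lattice periodic map on the complement of small discs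
* def blocks : Loops.Blocks X  -- the block structure of helper138's loop computation
* theorem Pres.not_hasNonposSectionalCurvature {M : Type} [TopologicalSpace M] [ChartedSpace (EuclideanSpace ℝ (Fin 3)) M] [IsManifold 𝓘(ℝ, EuclideanSpace ℝ (Fin 3)) ∞ M] [T2Space M] [SecondCountableTopology M] (D : Pres M) (F : C(M, B4.Nil)) (hF : ∀ y : ℝ, F (D.fc !₂[(D.tr + D.tp) / 2, 0, y]) = B4.nil2 y) (g : ContMDiffRiemannianMetric 𝓘(ℝ, EuclideanSpace ℝ (Fin 3)) ∞ (EuclideanSpace ℝ (Fin 3)) (fun x : M => TangentSp …  -- No nonpositively curved metric on a 3-patch 3-manifold with a map to `Nil`.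

### R244/ManC4 [ns Crest.Agent.R244.ManC] # R244 MAN-C : the concrete manifold is compact and connected
* def pres (C : CollarData) : Pres (theGlue C).M  -- the concrete manifold as a 3-patch space

### R244/ManCNCP [ns Crest.Agent.R244.ManC] # R244: the `CollarGlue` instance for the concrete manifold
* theorem theMetric_noConjugatePoints (C : CollarData) : NoConjugatePoints (theMetric C)  -- No conjugate points for the concrete metric.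

### R244/ManCNil [ns Crest.Agent.R244.ManC] # R244 : existence of the map `M → Nil` in the form used by ManC3

### R244/ManChart [ns Crest.Agent.R244.Man / Glue] # R244 package MAN, part 3: coordinate expressions on glued manifolds
* def MetricData.mat (D : G.MetricData) (i : ι) : MetricField n  -- the Gram matrix field of the metric data on the piece `i`.
* theorem MetricData.metricInChart_eq (D : G.MetricData) (m : G.M) {y : E} (hy : y ∈ G.nb m) : metricInChart D.toMetric m y = D.mat (G.idx m) y  -- In the preferred chart at `m`, the metric is the Gram matrix field of the piece.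

### R244/ManEt [ns Crest.Agent.R244.Man] # R244 package MAN, part 4: the groupoid of local orientation preserving isometries `Et U r g i j p q`: a germ of a smooth orientation preserving isometry from the piece `i` at `p` to the piece `j` at `q`, compatible with the relation. It is symmetric and transitive, hence it is enough to check generators of the relation.
* def Et (U : ι → Set (EuclideanSpace ℝ (Fin n))) (r : Setoid (Σ i, U i)) (g : ι → EuclideanSpace ℝ (Fin n) → EuclideanSpace ℝ (Fin n) →L[ℝ] EuclideanSpace ℝ (Fin n) →L[ℝ] ℝ) (i j : ι) (p q : EuclideanSpace ℝ (Fin n)) : Prop  -- germ of a smooth orientation preserving isometry compatible with `r`.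
* def Glue.ofEt (U : ι → Set (EuclideanSpace ℝ (Fin n))) (hU : ∀ i, IsOpen (U i)) (r : Setoid (Σ i, U i)) (g : ι → EuclideanSpace ℝ (Fin n) → EuclideanSpace ℝ (Fin n) →L[ℝ] EuclideanSpace ℝ (Fin n) →L[ℝ] ℝ) (h : ∀ (i j : ι) (p : U i) (q : U j), r ⟨i, p⟩ ⟨j, q⟩ → Et U r g i j p q) (inj : ∀ (i : ι) (p : U i), ∃ V ∈ 𝓝 (p : EuclideanSpace ℝ (Fin n)), ∀ (z w : EuclideanSpace ℝ (Fin n)) (hz : z ∈ U i) (hw : w ∈ U i), z ∈ V → …  -- gluing data from germs.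
* def Glue.ofEtMetric (U : ι → Set (EuclideanSpace ℝ (Fin n))) (hU : ∀ i, IsOpen (U i)) (r : Setoid (Σ i, U i)) (g : ι → EuclideanSpace ℝ (Fin n) → EuclideanSpace ℝ (Fin n) →L[ℝ] EuclideanSpace ℝ (Fin n) →L[ℝ] ℝ) (h : ∀ (i j : ι) (p : U i) (q : U j), r ⟨i, p⟩ ⟨j, q⟩ → Et U r g i j p q) (inj : ∀ (i : ι) (p : U i), ∃ V ∈ 𝓝 (p : EuclideanSpace ℝ (Fin n)), ∀ (z w : EuclideanSpace ℝ (Fin n)) (hz : z ∈ U i) (hw : w ∈ U i), z …  -- metric data from germs.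
* theorem Glue.connectedSpace (G : Glue ι n) (A : Set G.M) (hA : IsPreconnected A) (hne : A.Nonempty) (h : ∀ i, ∀ z ∈ G.U i, ∃ C ⊆ G.U i, IsPreconnected C ∧ z ∈ C ∧ ∃ w ∈ C, G.F i w ∈ A) : ConnectedSpace G.M  -- Connectedness criterion.

### R244/ManMetric [ns Crest.Agent.R244.Man / Glue] # R244 package MAN, part 2: invariant metrics on glued manifolds
* structure MetricData where g : ι → E → E →L[ℝ] E →L[ℝ] ℝ contDiffOn : ∀ i, ContDiffOn ℝ ∞ (g i) (G.U i) symm : ∀ i, ∀ z ∈ G.U i, ∀ u v, g i z u v = g i z v u pos : ∀ i, ∀ z ∈ G.U i, ∀ v, v ≠ 0 → 0 < g i z v v inv : ∀ (i j : ι) (p : G.U i) (q : G.U j), G.r ⟨i, p⟩ ⟨j, q⟩ → ∃ τ, G.Trans i j p q τ ∧ ∀ u v, g i p u v = g j q (fderiv ℝ τ p u) (fderiv ℝ τ p v)  -- An invariant family of smooth metrics on the pieces.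
* theorem coordChange_eq (m₀ m : G.M) : (tangentBundleCore 𝓘(ℝ, EuclideanSpace ℝ (Fin n)) G.M).coordChange (achart _ m₀) (achart _ m) m = fderiv ℝ (chartAt (EuclideanSpace ℝ (Fin n)) m ∘ G.F (G.idx m₀)) (chartAt (EuclideanSpace ℝ (Fin n)) m₀ m)  -- the coordinate change of the tangent bundle of `G.M` is the derivative of the transition.
* def MetricData.innerAt (D : G.MetricData) (m : G.M) : TangentSpace 𝓘(ℝ, EuclideanSpace ℝ (Fin n)) m →L[ℝ] TangentSpace 𝓘(ℝ, EuclideanSpace ℝ (Fin n)) m →L[ℝ] ℝ  -- the bilinear form at a point.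
* def MetricData.toMetric (D : G.MetricData) : ContMDiffRiemannianMetric 𝓘(ℝ, EuclideanSpace ℝ (Fin n)) ∞ (EuclideanSpace ℝ (Fin n)) (fun x : G.M => TangentSpace 𝓘(ℝ, EuclideanSpace ℝ (Fin n)) x)  -- The Riemannian metric on `G.M` defined by invariant metric data.

### R244/MetricDefs [ns Crest.Agent.R244] # R244 package B2 : definitions and main statements of the discrete Cartan-Hadamard theorem
* def LocalCN (M : Type*) [MetricSpace M] (r : ℝ) : Prop  -- Uniform local CAT(0) condition (CN inequality of Bruhat-Tits at scale `r`).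
* structure PathLength (M : Type*) [TopologicalSpace M] (D : ∀ {x y : M}, Path x y → ℝ) : Prop where homotopic : ∀ {x y : M} (γ γ' : Path x y), γ.Homotopic γ' → D γ = D γ' nonneg : ∀ {x y : M} (γ : Path x y), 0 ≤ D γ refl : ∀ x : M, D (Path.refl x) = 0 symm : ∀ {x y : M} (γ : Path x y), D γ.symm = D γ trans_le : ∀ {x y z : M} (γ : Path x y) (γ' : Path y z), D (γ.trans γ') ≤ D γ + D γ' midpoint : ∀ {a b : M} (e : Path a …  -- A "length of the geodesic in the homotopy class" function on paths.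
* def ContUpToSign {M : Type*} [TopologicalSpace M] (L : M → EuclideanSpace ℝ (Fin 4)) : Prop  -- `L : M → ℝ⁴` is continuous up to sign.
* def Reverses {M : Type*} [TopologicalSpace M] (L : M → EuclideanSpace ℝ (Fin 4)) {x : M} (γ : Path x x) : Prop  -- The loop `γ` reverses the sign of `L`.
* structure UnifLSC (M : Type*) [MetricSpace M] : Prop where pathConn : ∀ ε > 0, ∃ δ > 0, ∀ a b : M, dist a b < δ → ∃ γ : Path a b, ∀ t, dist (γ t) a < ε simplyConn : ∃ ε > 0, ∀ (x a b : M) (γ γ' : Path a b), (∀ t, dist (γ t) x < ε) → (∀ t, dist (γ' t) x < ε) → γ.Homotopic γ'  -- Uniform local path connectedness and uniform local simple connectedness.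

### R244/NCPChr [ns Crest.Agent.R244.NCP] R244 (S0377), package NCP, part 2: Christoffel symbols of the collar metric `dt² + Q_t(dx,dy)`.
* abbrev E3  -- `ℝ³`
* def gC (Qa Qb Qc : ℝ → ℝ) : MetricField 3  -- The collar metric `dt² + Qa dx² + 2 Qb dx dy + Qc dy²`.
* def chr (Qa' Qb' Qc' A B C : ℝ) (k : Fin 3) : Matrix (Fin 3) (Fin 3) ℝ  -- The Christoffel symbols of the collar: matrix `Γ k i j`, `k = 0`.

### R244/NCPCol [ns Crest.Agent.R244.NCP] R244 (S0377), package NCP, part 5: local monotonicity of `H = E'/2 + K` in the collar.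
* structure ColCond (Qa Qb Qc A B C : ℝ → ℝ) (tL tR : ℝ) : Prop where tL_lt : tL < tR flatL : ∀ t ≤ tL, ∃ κ > 0, FlatEnd A B C Qa Qb Qc κ t flatR : ∀ t, tR ≤ t → ∃ κ < 0, FlatEnd C B A Qc Qb Qa κ t condR : ∀ t, tL < t → t < tR → ∀ p q, qf (deriv A t) (deriv B t) (deriv C t) p q < 0 → A t * p + B t * q ≠ 0 ∧ 0 ≤ cR (A t) (B t) (C t) (deriv A t) (deriv B t) (deriv C t) (deriv (deriv A) t) (deriv (deriv B) t) (deriv (deri …  -- Conditions on the collar `tL < t < tR`, flat polar ends `t ≤ tL`, `tR ≤ t`.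
* structure MomAt (Qa Qb Qc A B C : ℝ → ℝ) (p q dp dq : ℝ) (c J : ℝ → E3) (s : ℝ) : Prop where var : VarAt A B C p q dp dq (fun s => c s 0) (fun s => deriv c s 0) (fun s => J s 0) (fun s => deriv J s 0) (fun s => J s 1) (fun s => J s 2) s v1 : deriv c s 1 = A (c s 0) * p + B (c s 0) * q v2 : deriv c s 2 = B (c s 0) * p + C (c s 0) * q w1 : deriv J s 1 = A (c s 0) * dp + B (c s 0) * dq + J s 0 * (deriv A (c s 0) * p + d …  -- Momentum form at a point: everything that is needed about `(c, J)` near `s₀`.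
* def Vt (A B C : ℝ → ℝ) (p q : ℝ) (c : ℝ → E3) (s : ℝ) : ℝ  -- The value of `V_t` at `s`.
* theorem QW.swap (H : QW Qa Qb Qc A B C) : QW Qc Qb Qa C B A  -- Exchange of `x` and `y` in the matrix data.
* theorem fF_left {κ : ℝ} (e : FlatEnd A B C Qa Qb Qc κ (c s 0)) : fF A B C Qa Qb Qc p q dp dq c J s = fZ dp dq J s + κ * (B (c s 0) * p + C (c s 0) * q) * (J s 2 * J s 0) - κ * deriv c s 0 / 2 * J s 2 ^ 2  -- `fF` at a flat left end.

### R244/NCPEnd [ns Crest.Agent.R244.NCP] # R244 (S0377), package NCP-B: locally monotone functions are monotone; the flat charts; endgame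
* theorem monotone_of_locMono {H : ℝ → ℝ} (h : ∀ s, LocMono H s) : Monotone H  -- A function which is locally monotone at every point is monotone.
* theorem endgame {H : ℝ → ℝ} (hmono : ∀ s, LocMono H s) {a b : ℝ} (hab : a < b) (hb : H b = 0) (hpos : ∀ᶠ z in 𝓝[>] a, 0 < H z) : False  -- The endgame: `H` locally monotone, zero at `b`, positive right after `a < b`: impossible.
* def matB (Q : Matrix (Fin 3) (Fin 3) ℝ) : E3 →L[ℝ] E3 →L[ℝ] ℝ  -- The bilinear form of a matrix.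
* def chartField (γ : ℝ → M) (J : ℝ → EuclideanSpace ℝ (Fin n)) (t₀ : ℝ) : ℝ → EuclideanSpace ℝ (Fin n)  -- Coordinate expression of the field `J` along `γ` in the preferred chart at `γ t₀`.
* theorem noConjugatePoints_of (g : ContMDiffRiemannianMetric 𝓘(ℝ, EuclideanSpace ℝ (Fin n)) ∞ (EuclideanSpace ℝ (Fin n)) (fun x : M => TangentSpace 𝓘(ℝ, EuclideanSpace ℝ (Fin n)) x)) (key : ∀ (γ : ℝ → M) (J : ℝ → EuclideanSpace ℝ (Fin n)), IsGeodesic g γ → IsJacobiField g γ J → ∃ H : ℝ → ℝ, (∀ s, LocMono H s) ∧ (∀ s, J s = 0 → H s = 0) ∧ ∀ s, J s = 0 → deriv (chartField γ J s) s ≠ 0 → ∀ᶠ z in 𝓝[>] s, H s < H z) (huniq …  -- If along every geodesic every Jacobi field has a locally monotone function `H` vanishing at the zeros of `J` and increasing right after the nondegenerate zeros,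

### R244/NCPEq [ns Crest.Agent.R244.NCP] R244 (S0377), package NCP, part 7: from the Prelude equations to `EqAt`.
* theorem collar_triple (K : CollarData) {g : MetricField 3} {U : Set E3} (hU : IsOpen U) (hgU : ∀ x ∈ U, g x = gC K.P K.B K.D x) {c J : ℝ → E3} {s₀ : ℝ} {E Hf : ℝ → ℝ} (hcU : c s₀ ∈ U) (hc : ∀ᶠ s in 𝓝 s₀, ContDiffAt ℝ 2 c s) (hJ : ∀ᶠ s in 𝓝 s₀, ContDiffAt ℝ 2 J s) (hgeo : ∀ᶠ s in 𝓝 s₀, GeodesicEqAt g c s) (hjac : ∀ᶠ s in 𝓝 s₀, JacobiEqAt g c J s) (hE : ∀ᶠ s in 𝓝 s₀, E s = quadForm g (c s) (J s)) (hH : ∀ᶠ s in 𝓝 s₀, Hf …  -- The collar-local theorem (final form of package NCP-A), for a metric field `g` which agrees with the collar metric on an open set `U` containing the curve.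

### R244/NCPFinal [ns Crest.Agent.R244.NCP] # R244 (S0377), package NCP-C: assembly on the glued manifold
* structure CollarGlue {ι : Type} (G : Glue ι 3) (D : G.MetricData) (K : CollarData) (col : ι) : Prop where mat_col : ∀ z ∈ G.U col, D.mat col z = gC K.P K.B K.D z mat_flat : ∀ i, i ≠ col → ∃ Q : Matrix (Fin 3) (Fin 3) ℝ, Q.PosDef ∧ ∀ z ∈ G.U i, D.mat i z = Q rel_col : ∀ (p q : E3) (τ : E3 → E3), G.Trans col col p q τ → q 0 = p 0 ∧ fderiv ℝ τ p = ContinuousLinearMap.id ℝ E3 rel_flat : ∀ i, i ≠ col → ∀ (p q : E3) (τ : E …  -- What we use of the concrete glued manifold: the piece `col` carries the collar metric, the other pieces are flat, the gluing of the collar piece with itself is 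
* def Hfun (D : G.MetricData) (K : CollarData) (col : ι) (γ : ℝ → G.M) (J : ℝ → E3) (s : ℝ) : ℝ  -- The monotone function.
* theorem CollarGlue.noConjugatePoints (h : CollarGlue G D K col) (huniq : ∀ (γ : ℝ → G.M) (J : ℝ → E3), IsGeodesic D.toMetric γ → IsJacobiField D.toMetric γ J → ∀ a, J a = 0 → deriv (chartField γ J a) a = 0 → ∀ t, J t = 0) : NoConjugatePoints D.toMetric  -- Package NCP, final form (modulo the uniqueness statement for Jacobi fields).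

### R244/NCPForm [ns Crest.Agent.R244.NCP] R244 (S0377), package NCP, part 1: the monotone form along Jacobi fields in the collar. All objects are functions of the parameter `s` of the geodesic: `t` is the collar coordinate, `w = t'`, `a = dt`, `b = dt'`, `X = dx`, `Y = dy`; `p, q` are the conserved momenta and `dp, dq` their variations; `A, B, C` are the entries of the cometric `W(t)`.
* structure VarAt (A B C : ℝ → ℝ) (p q dp dq : ℝ) (t w a b X Y : ℝ → ℝ) (s : ℝ) : Prop where ht : HasDerivAt t (w s) s hw : HasDerivAt w (-(qf (deriv A (t s)) (deriv B (t s)) (deriv C (t s)) p q) / 2) s ha : HasDerivAt a (b s) s hb : HasDerivAt b (-(qf (deriv (deriv A) (t s)) (deriv (deriv B) (t s)) (deriv (deriv C) (t s)) p q) / 2 * a s - bf (deriv A (t s)) (deriv B (t s)) (deriv C (t s)) p q dp dq) s hX : HasDerivAt  …  -- The linearised geodesic equations of the collar in momentum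 form at the parameter `s`.
* theorem hR_good (h : VarAt A B C p q dp dq t w a b X Y s) (hA : DifferentiableAt ℝ A (t s)) (hB : DifferentiableAt ℝ B (t s)) (hA' : DifferentiableAt ℝ (deriv A) (t s)) (hB' : DifferentiableAt ℝ (deriv B) (t s)) (hC' : DifferentiableAt ℝ (deriv C) (t s)) (hu : A (t s) * p + B (t s) * q ≠ 0) (hApos : 0 < A (t s)) (hD : 0 < A (t s) * C (t s) - B (t s) ^ 2) (hR0 : 0 ≤ cR (A (t s)) (B (t s)) (C (t s)) (deriv A (t s)) (de …  -- The derivative of the form `hR` is nonnegative, and positive at a zero of the Jacobi field.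
* def hF (A B C Qa Qb Qc : ℝ → ℝ) (p q dp dq : ℝ) (t w a b X Y : ℝ → ℝ) (s : ℝ) : ℝ  -- The form `<J,J'>`, i.e. half of the derivative of `|J|²`; `Qa, Qb, Qc` are the entries of the metric `Q_t = W(t)⁻¹`.
* def eJ (Qa Qb Qc : ℝ → ℝ) (t a X Y : ℝ → ℝ) (s : ℝ) : ℝ  -- `|J|²`
* structure FlatEnd (A B C Qa Qb Qc : ℝ → ℝ) (κ r : ℝ) : Prop where A1 : deriv A r = κ * B r ^ 2 B1 : deriv B r = κ * B r * C r C1 : deriv C r = κ * C r ^ 2 A2 : deriv (deriv A) r = 3 / 2 * κ ^ 2 * C r * B r ^ 2 B2 : deriv (deriv B) r = 3 / 2 * κ ^ 2 * C r * B r * C r C2 : deriv (deriv C) r = 3 / 2 * κ ^ 2 * C r * C r ^ 2 Qa1 : deriv Qa r = 0 Qb1 : deriv Qb r = 0 Qc1 : deriv Qc r = -κ Qa2 : deriv (deriv Qa) r = 0 Qb2 : …  -- Values and derivatives of `W` and `Q` at a point of a flat polar end where the `y`-circles have derivative `Q_yy' = -κ` (`κ > 0` at the left end; the right end 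

### R244/NCPGlue [ns Crest.Agent.R244.NCP] # R244 (S0377), package NCP-C, part 1: own-chart data versus the chart at `γ s₀` on a glued manifold
* theorem fderiv_trans_mfderiv (m₀ : G.M) {x : G.M} (hx : x ∈ (chartAt 𝔼 m₀).source) (v : 𝔼) : fderiv ℝ (chartAt 𝔼 x ∘ G.F (G.idx m₀)) (chartAt 𝔼 m₀ x) ((mfderiv 𝓘(ℝ, EuclideanSpace ℝ (Fin n)) 𝓘(ℝ, EuclideanSpace ℝ (Fin n)) (chartAt (EuclideanSpace ℝ (Fin n)) m₀) x : 𝔼 → 𝔼) v) = v  -- The derivative of the transition to the own chart inverts the derivative of the chart.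
* theorem deriv_own_chart (m₀ : G.M) {γ : ℝ → G.M} {s : ℝ} (hγ : ContinuousAt γ s) (hx : γ s ∈ (chartAt 𝔼 m₀).source) (hd : DifferentiableAt ℝ (fun u => chartAt 𝔼 m₀ (γ u)) s) : deriv (fun u => chartAt 𝔼 (γ s) (γ u)) s = fderiv ℝ (chartAt 𝔼 (γ s) ∘ G.F (G.idx m₀)) (chartAt 𝔼 m₀ (γ s)) (deriv (fun u => chartAt 𝔼 m₀ (γ u)) s)  -- Velocity in the own chart versus velocity in the chart at `m₀`.
* def Efun (D : G.MetricData) (γ : ℝ → G.M) (J : ℝ → 𝔼) (s : ℝ) : ℝ  -- Squared norm of the field, read in the own charts.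

### R244/NCPInst [ns Crest.Agent.R244.NCP] R244 (S0377), package NCP, part 6: the collar data of package COL satisfy the hypotheses of `collar_local`.

### R244/NCPLin [ns Crest.Agent.R244.NCP / QW] R244 (S0377), package NCP, part 3: from the geodesic equation and the linearised geodesic equation of the collar metric to the momentum form `VarAt`.
* structure QW (Qa Qb Qc A B C : ℝ → ℝ) : Prop where sa : ContDiff ℝ ∞ Qa sb : ContDiff ℝ ∞ Qb sc : ContDiff ℝ ∞ Qc sA : ContDiff ℝ ∞ A sB : ContDiff ℝ ∞ B sC : ContDiff ℝ ∞ C h11 : ∀ r, Qa r * A r + Qb r * B r = 1 h12 : ∀ r, Qa r * B r + Qb r * C r = 0 h21 : ∀ r, Qb r * A r + Qc r * B r = 0 h22 : ∀ r, Qb r * B r + Qc r * C r = 1 A_pos : ∀ r, 0 < A r D_pos : ∀ r, 0 < A r * C r - B r ^ 2  -- Metric coefficients of the collar together with the inverse matrix.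
* def P1 (Qa Qb : ℝ → ℝ) (c : ℝ → E3) (s : ℝ) : ℝ  -- Momenta and their variations.
* structure EqAt (g : MetricField 3) (c J : ℝ → E3) (s : ℝ) : Prop where c1 : HasDerivAt c (deriv c s) s c2 : HasDerivAt (deriv c) (deriv (deriv c) s) s J1 : HasDerivAt J (deriv J s) s J2 : HasDerivAt (deriv J) (deriv (deriv J) s) s geo : GeodesicEqAt g c s lin : LinAt g c J s  -- Regularity of the data at `s` and the two equations at `s`.
* theorem vel {c : ℝ → E3} {s : ℝ} : deriv c s 1 = A (c s 0) * P1 Qa Qb c s + B (c s 0) * P1 Qb Qc c s ∧ deriv c s 2 = B (c s 0) * P1 Qa Qb c s + C (c s 0) * P1 Qb Qc c s  -- Velocities in terms of momenta.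
* theorem dvel {c J : ℝ → E3} {s : ℝ} : deriv J s 1 = A (c s 0) * dP1 Qa Qb c J s + B (c s 0) * dP1 Qb Qc c J s + J s 0 * (deriv A (c s 0) * P1 Qa Qb c s + deriv B (c s 0) * P1 Qb Qc c s) ∧ deriv J s 2 = B (c s 0) * dP1 Qa Qb c J s + C (c s 0) * dP1 Qb Qc c J s + J s 0 * (deriv B (c s 0) * P1 Qa Qb c s + deriv C (c s 0) * P1 Qb Qc c s)  -- Variation of the velocities in terms of momenta.

### R244/NCPLoc [ns Crest.Agent.R244.NCP] R244 (S0377), package NCP, part 4: local monotonicity of piecewise defined functions.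
* def LocMono (H : ℝ → ℝ) (s₀ : ℝ) : Prop  -- Local monotonicity up to linear errors.
* def Good (P : Prop) (s₀ : ℝ) (f : ℝ → ℝ) : Prop  -- `f` has nonnegative derivative at `s₀`, and positive derivative if `P` holds.
* theorem locMono_of_candidates {P : Prop} {H : ℝ → ℝ} {s₀ : ℝ} {F G : Set (ℝ → ℝ)} (hF : F.Finite) (hG : G.Finite) (hFgood : ∀ f ∈ F, Good P s₀ f ∧ H s₀ ≤ f s₀) (hGgood : ∀ f ∈ G, Good P s₀ f ∧ f s₀ ≤ H s₀) (hr : ∀ᶠ z in 𝓝[>] s₀, ∃ f ∈ F, H z = f z) (hl : ∀ᶠ z in 𝓝[<] s₀, ∃ f ∈ G, H z = f z) : LocMono H s₀ ∧ (P → ∀ᶠ z in 𝓝[>] s₀, H s₀ < H z)  -- Candidate lemma.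
* theorem locMono_of_eventually {P : Prop} {H : ℝ → ℝ} {s₀ : ℝ} {F : Set (ℝ → ℝ)} (hF : F.Finite) (hgood : ∀ f ∈ F, Good P s₀ f ∧ f s₀ = H s₀) (h : ∀ᶠ z in 𝓝 s₀, ∃ f ∈ F, H z = f z) : LocMono H s₀ ∧ (P → ∀ᶠ z in 𝓝[>] s₀, H s₀ < H z)  -- Interior points: all candidates take the value `H s₀` at `s₀`.
* theorem locMono_interface {P : Prop} {H : ℝ → ℝ} {s₀ v : ℝ} {F : Set (ℝ → ℝ)} {f₀ : ℝ → ℝ} {out : ℝ → Prop} (hF : F.Finite) (hgood : ∀ f ∈ F, Good P s₀ f ∧ f s₀ = v) (hgood₀ : Good P s₀ f₀) (hv₀ : H s₀ = f₀ s₀) (hout : ∀ᶠ z in 𝓝 s₀, out z → H z = f₀ z) (hin : ∀ᶠ z in 𝓝 s₀, ¬ out z → ∃ f ∈ F, H z = f z) (hcase : v = f₀ s₀ ∨ (f₀ s₀ ≤ v ∧ ∀ᶠ z in 𝓝[<] s₀, out z) ∨ (v ≤ f₀ s₀ ∧ ∀ᶠ z in 𝓝[>] s₀, out z)) : LocMono H s₀ ∧ ( …  -- Interface points.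

### R244/NCPUnique [ns Crest.Agent.R244.NCP] # R244, NCP-B (3): a Jacobi field with a degenerate zero vanishes identically
* theorem zero_near_of_linearized {U : Set E} {g : E → E →L[ℝ] E →L[ℝ] ℝ} {Γ : E → E →L[ℝ] E →L[ℝ] E} (h : CF.IsLC U g Γ) {c j : ℝ → E} {t₀ : ℝ} (hx : c t₀ ∈ U) (hc : ∀ᶠ s in 𝓝 t₀, ContDiffAt ℝ 2 c s) (hj : ∀ᶠ s in 𝓝 t₀, ContDiffAt ℝ 2 j s) (hgeo : ∀ᶠ s in 𝓝 t₀, CF.cov Γ c (deriv c) s = 0) (hjac : ∀ᶠ s in 𝓝 t₀, CF.cov Γ c (CF.cov Γ c j) s + CF.curv Γ (c s) (j s) (deriv c s) (deriv c s) = 0) (h0 : j t₀ = 0) (h1 : deriv  …  -- local uniqueness for the linearized geodesic equation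
* theorem zero_near (h : IsRiemannianOn g U) {c j : ℝ → EuclideanSpace ℝ (Fin n)} {t₀ : ℝ} (hx : c t₀ ∈ U) (hc : ∀ᶠ s in 𝓝 t₀, ContDiffAt ℝ 2 c s) (hj : ∀ᶠ s in 𝓝 t₀, ContDiffAt ℝ 2 j s) (hgeo : ∀ᶠ s in 𝓝 t₀, GeodesicEqAt g c s) (hjac : ∀ᶠ s in 𝓝 t₀, JacobiEqAt g c j s) (h0 : j t₀ = 0) (h1 : deriv j t₀ = 0) : ∀ᶠ s in 𝓝 t₀, j s = 0  -- local uniqueness, Prelude form
* theorem eventually_zero {γ : ℝ → M} {J : ℝ → EuclideanSpace ℝ (Fin n)} (hγ : IsGeodesic g γ) (hJ : IsJacobiField g γ J) {t₀ a : ℝ} (ha : γ a ∈ (chartAt (EuclideanSpace ℝ (Fin n)) (γ t₀)).source) (h0 : chartField γ J t₀ a = 0) (h1 : deriv (chartField γ J t₀) a = 0) : ∀ᶠ s in 𝓝 a, J s = 0  -- a Jacobi field with a degenerate zero vanishes near it (in any chart around the point)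
* theorem jacobi_unique {γ : ℝ → M} {J : ℝ → EuclideanSpace ℝ (Fin n)} (hγ : IsGeodesic g γ) (hJ : IsJacobiField g γ J) (a : ℝ) (h0 : J a = 0) (h1 : deriv (chartField γ J a) a = 0) : ∀ t, J t = 0  -- NCP-B (3): a Jacobi field with a degenerate zero vanishes identically.

### R244/NilMap [ns Crest.Agent.R244.ManC / Par] # R244 : the map `M → Nil` on the concrete glued manifold
* def nilPatch : Fin 3 → E3 → Nil  -- the map to `Nil` on the patches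
* def nilMap (C : CollarData) : C((theGlue C).M, Nil)  -- The map `M → Nil`.
* theorem nilMap_collar (C : CollarData) {t : ℝ} (ht : C.tR ≤ t) (ht' : t < C.tR + 2) (x y : ℝ) : nilMap C ((theGlue C).F 1 !₂[t, x, y]) = nil2 (x + y)  -- values of `nilMap` on the collar at and after `tR`
* theorem not_homotopic_refl (C : CollarData) [PathConnectedSpace (theGlue C).M] {t0 t1 : ℝ} (h0 : C.tL - 2 < t0) (h01 : t0 ≤ t1) (h1 : C.tR ≤ t1) (h1' : t1 < C.tR + 2) (γ : Path ((theGlue C).F 1 !₂[t0, 0, 0]) ((theGlue C).F 1 !₂[t0, 0, 0])) (hγ : ∀ s : unitInterval, γ s = (theGlue C).F 1 !₂[t0, 0, 2 * Real.pi * s]) : ¬ γ.Homotopic (Path.refl _)  -- Detection on the concrete manifold: the `y`-loop of the collar at `tL` is not null-homotopic (`K (t, x, y) = F 1 !₂[t, x, y]`).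

### R244/NoNPC [ns Crest.Agent.R244] # R244 : the graph manifold group relations exclude nonpositive curvature
* theorem f₂_eq_one {M : Type*} [MetricSpace M] [CompactSpace M] {r : ℝ} (h : LocalCN M r) (hU : UnifLSC M) {x : M} (f₁ f₂ a₁ c₁ a₂ c₂ : FundamentalGroup M x) (h1a : Commute f₁ a₁) (h1c : Commute f₁ c₁) (hrel1 : f₂ = a₁ * c₁ * a₁⁻¹ * c₁⁻¹) (h2a : Commute f₂ a₂) (h2c : Commute f₂ c₂) (hrel2 : f₁ * f₂⁻¹ = a₂ * c₂ * a₂⁻¹ * c₂⁻¹) : f₂ = 1  -- B2 + B3 : in a compact locally CAT(0) space the relations force `f₂ = 1`.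
* theorem f₂_eq_one' {M : Type*} [t : TopologicalSpace M] [CompactSpace M] (m : MetricSpace M) (hm : m.toPseudoMetricSpace.toUniformSpace.toTopologicalSpace = t) {r : ℝ} (h : @LocalCN M m r) (hU : @UnifLSC M m) {x : M} (f₁ f₂ a₁ c₁ a₂ c₂ : FundamentalGroup M x) (h1a : Commute f₁ a₁) (h1c : Commute f₁ c₁) (hrel1 : f₂ = a₁ * c₁ * a₁⁻¹ * c₁⁻¹) (h2a : Commute f₂ a₂) (h2c : Commute f₂ c₂) (hrel2 : f₁ * f₂⁻¹ = a₂ * c₂ * a₂⁻¹ …  -- Version with a metric compatible with a given topology.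
* theorem not_hasNonposSectionalCurvature {n : ℕ} {M : Type} [t : TopologicalSpace M] [ChartedSpace (EuclideanSpace ℝ (Fin n)) M] [IsManifold 𝓘(ℝ, EuclideanSpace ℝ (Fin n)) ∞ M] [T2Space M] [SecondCountableTopology M] [CompactSpace M] [ConnectedSpace M] {x : M} (f₁ f₂ a₁ c₁ a₂ c₂ : FundamentalGroup M x) (h1a : Commute f₁ a₁) (h1c : Commute f₁ c₁) (hrel1 : f₂ = a₁ * c₁ * a₁⁻¹ * c₁⁻¹) (h2a : Commute f₂ a₂) (h2c : Commute …  -- No metric of nonpositive sectional curvature.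

### R244/ODE [ns Crest.Agent.R244.ODE / IsFlow] # Smooth dependence of flows on initial data * `contDiff_post` : for `f : E → F` of class `C^n` and `K` compact, `γ ↦ f ∘ γ` is `C^n` on `C(K, E)`. * `exists_flow` : a globally Lipschitz `C^n` vector field (`1 ≤ n ≤ ∞`) has a global flow which is jointly `C^n` in time and initial condition.
* structure IsFlow (f : E → E) (Φ : ℝ → E → E) : Prop where zero : ∀ x, Φ 0 x = x hasDerivAt : ∀ x t, HasDerivAt (fun s => Φ s x) (f (Φ t x)) t  -- `Φ` is the global flow of the vector field `f`.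
* theorem contDiff (h : IsFlow f Φ) {n : ℕ∞} (hn : n ≠ 0) (hf : ContDiff ℝ n f) (hK : LipschitzWith K f) : ContDiff ℝ n (fun q : ℝ × E => Φ q.1 q.2)  -- The global flow of a Lipschitz `C^n` vector field is jointly `C^n`.
* theorem exists_flow {n : ℕ∞} (hn : n ≠ 0) {f : E → E} (hf : ContDiff ℝ n f) {K : ℝ≥0} (hK : LipschitzWith K f) : ∃ Φ : ℝ → E → E, IsFlow f Φ ∧ ContDiff ℝ n (fun q : ℝ × E => Φ q.1 q.2) ∧ (∀ s t x, Φ (s + t) x = Φ s (Φ t x)) ∧ ∀ γ : ℝ → E, (∀ t, HasDerivAt γ (f (γ t)) t) → ∀ t, γ t = Φ t (γ 0)  -- A globally Lipschitz `C^n` vector field on a Banach space has a global flow, which is jointly `C^n`.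
* theorem exists_lipschitz_extension {n : ℕ∞} (hn : n ≠ 0) {U k : Set E} (hU : IsOpen U) (hk : IsCompact k) (hkU : k ⊆ U) {f : E → F} (hf : ContDiffOn ℝ n f U) : ∃ g : E → F, ContDiff ℝ n g ∧ HasCompactSupport g ∧ (∃ C : ℝ≥0, LipschitzWith C g) ∧ ∀ᶠ x in 𝓝ˢ k, g x = f x  -- Cutoff: a map which is `C^n` on an open set containing a compact set `k` coincides near `k` with a globally defined, compactly supported (hence Lipschitz) `C^n`
* theorem exists_local_flow_of_eq_zero {n : ℕ∞} (hn : n ≠ 0) {U : Set E} (hU : IsOpen U) {f : E → E} (hf : ContDiffOn ℝ n f U) {z₀ : E} (hz : z₀ ∈ U) (h0 : f z₀ = 0) {V : Set E} (hV : V ∈ 𝓝 z₀) (T : ℝ) : ∃ Φ : ℝ → E → E, ContDiff ℝ n (fun q : ℝ × E => Φ q.1 q.2) ∧ (∀ x, Φ 0 x = x) ∧ (∀ t, Φ t z₀ = z₀) ∧ (∀ s t x, Φ (s + t) x = Φ s (Φ t x)) ∧ ∃ W ∈ 𝓝 z₀, ∀ x ∈ W, ∀ t ∈ Icc (-T) T, Φ t x ∈ V ∧ HasDerivAt (fun s => Φ s x) …  -- Local flow near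 a zero `z₀` of a vector field: for every `T` and every neighbourhood `V` of `z₀` there are a globally defined, jointly `C^n` map `Φ` and a neigh

### R244/ULSC [ns Crest.Agent.R244] # R244 package ULSC : compact manifolds are uniformly locally simply connected
* theorem exists_good_nhd (x : M) {V : Set M} (hV : IsOpen V) (hx : x ∈ V) : ∃ U : Set M, IsOpen U ∧ x ∈ U ∧ U ⊆ V ∧ (∀ a ∈ U, ∀ b ∈ U, ∃ γ : Path a b, ∀ t, γ t ∈ U) ∧ (∀ (a b : M) (γ γ' : Path a b), (∀ t, γ t ∈ U) → (∀ t, γ' t ∈ U) → γ.Homotopic γ')  -- Every point has arbitrarily small open neighbourhoods which are path connected and in which paths with the same end points are homotopic.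
* theorem unifLSC {n : ℕ} {M : Type} [t : TopologicalSpace M] [ChartedSpace (EuclideanSpace ℝ (Fin n)) M] [CompactSpace M] (m : MetricSpace M) (hm : m.toPseudoMetricSpace.toUniformSpace.toTopologicalSpace = t) : @UnifLSC M m  -- Package ULSC, final statement.
-/
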