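/-
R249 PART E1 (helper274): inventory of R240 (2-forms on closed 4-manifolds, elliptic parametrix, Frechet spaces of forms, integration). Automatic extract.

==================== R240

### R240/Ch1 [ns Crest.Agent.R240.Ch] Row 240 (S0371), layer L1 (helper707): frozen definitions in charts, part 1.
* def rep1 (p : M) (s : F1 E M) (y : E) : E →L[ℝ] ℝ  -- a one-form in the chart at `p`.
* def repV (p : M) (V : VF E M) (y : E) : E  -- a vector field in the chart at `p`.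
* def repJ (p : M) (J : EndF E M) (y : E) : E →L[ℝ] E  -- an endomorphism field in the chart at `p`.

### R240/Ch2 [ns Crest.Agent.R240.Ch] Row 240 (S0371), layer L1 (helper707): smoothness in charts.
* def trans (p q : M) : E → E  -- the transition map from the chart at `p` to the chart at `q`.
* theorem smooth1_at_iff {p q x : M} (hp : x ∈ (chartAt E p).source) (hq : x ∈ (chartAt E q).source) (s : F1 E M) (h : ContDiffAt ℝ ∞ (rep1 q s) (chartAt E q x)) : ContDiffAt ℝ ∞ (rep1 p s) (chartAt E p x)  -- smoothness at a point can be checked in any chart.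
* theorem Smooth2.of_local {a : F2 E M} (h0 : ∀ x v, at2 a x v v = 0) (h : ∀ x : M, ∃ p : M, x ∈ (chartAt E p).source ∧ ContDiffAt ℝ ∞ (rep p a) (chartAt E p x)) : Smooth2 a  -- locality: smooth as soon as every point has a chart in which the representation is smooth.

### R240/Ch3 [ns Crest.Agent.R240.Ch] Row 240 (S0371), layer L1 (helper707): closedness in charts.
* theorem extDerivOnFields_chart [CompleteSpace E] {a : TF2 E M} (ha : Smooth2 a) {X Y Z : TVF E M} {p x : M} (hx : x ∈ (chartAt E p).source) (hX : ContDiffAt ℝ ∞ (repV p X) (chartAt E p x)) (hY : ContDiffAt ℝ ∞ (repV p Y) (chartAt E p x)) (hZ : ContDiffAt ℝ ∞ (repV p Z) (chartAt E p x)) : extDerivOnFields 𝓘(ℝ, E) M a X Y Z x = dd (rep p a) (chartAt E p x) (repV p X (chartAt E p  …  -- the frozen expression in a chart.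
* def cfield (p : M) (v : E) (x : M) : TangentSpace 𝓘(ℝ, E) x  -- the vector field which is constant in the chart at `p`.
* theorem exists_field [FiniteDimensional ℝ E] [T2Space M] {p x : M} (hx : x ∈ (chartAt E p).source) (v : E) : ∃ V : TVF E M, IsSmoothVectorField 𝓘(ℝ, E) M V ∧ ∀ᶠ y in 𝓝 (chartAt E p x), repV p V y = v  -- extension of chart vectors to global smooth fields.

### R240/Ch4 [ns Crest.Agent.R240.Ch] Row 240 (S0371), layer CH (helper707): algebra of forms on the manifold, exterior derivatives.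
* theorem rep1_dF {f : M → ℝ} (hf : SmoothF E f) {p : M} {y : E} (hy : y ∈ (chartAt E p).target) : rep1 p (dF f) y = fderiv ℝ (repF p f) y  -- the differential of a function in a chart.
* theorem rep_dG {s : F1 E M} (hs : Smooth1 s) {p : M} {y : E} (hy : y ∈ (chartAt E p).target) : rep p (dG s) y = d1 (rep1 p s) y  -- the exterior derivative of a one-form in a chart.
* theorem dG_fmul1 {f : M → ℝ} {s : F1 E M} (hf : SmoothF E f) (hs : Smooth1 s) : dG (fmul1 f s) = wedG (dF f) s + fmul f (dG s)  -- `d (f s) = df ∧ s + f ds`.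

### R240/Ch5 [ns Crest.Agent.R240.Ch] Row 240 (S0371), CH (helper955): finite atlas with cutoffs, compactness, order unit.
* structure FA where / -- number of charts - / n : ℕ / -- chart indices - / c : Fin n → M / -- compact cores, in the chart targets - / K : Fin n → Set E isCompact_K : ∀ i, IsCompact (K i) K_sub : ∀ i, K i ⊆ (chartAt E (c i)).target / -- partition of unity - / χ : Fin n → M → ℝ / -- larger cutoffs - / χt : Fin n → M → ℝ χ_smooth : ∀ i, ContMDiff 𝓘(ℝ, E) 𝓘(ℝ, ℝ) ∞ (χ i) χt_smooth : ∀ i, Cont …  -- finite atlas of a compact manifold, with compact cores and cutoffs.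

### R240/Ch6 [ns Crest.Agent.R240.Ch] Row 240 (S0371), CH (helper955): compactness, uniform constants, order unit.
* theorem lip_on {f : E → F} {U : Set E} (hU : IsOpen U) (hf : ContDiffOn ℝ 1 f U) {K : Set E} (hK : IsCompact K) (hKU : K ⊆ U) : ∃ L : ℝ, 0 ≤ L ∧ ∀ y ∈ K, ∀ z ∈ K, ‖f y - f z‖ ≤ L * ‖y - z‖  -- `C¹` functions are Lipschitz on compact sets.
* theorem unif_pos_quad [FiniteDimensional ℝ E] {U : Set E} {a : E → E →L[ℝ] E →L[ℝ] ℝ} {j : E → E →L[ℝ] E} (ha : ContinuousOn a U) (hj : ContinuousOn j U) {K : Set E} (hK : IsCompact K) (hKU : K ⊆ U) (hpos : ∀ y ∈ K, ∀ v, v ≠ 0 → 0 < a y v (j y v)) : ∃ c : ℝ, 0 < c ∧ ∀ y ∈ K, ∀ v, c * ‖v‖ ^ 2 ≤ a y v (j y v)  -- a continuous family of positive quadratic forms is uniformly positive on compact sets.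
* theorem order_unit [FiniteDimensional ℝ E] [T2Space M] [CompactSpace M] {a b : F2 E M} {J : EndF E M} (ha : Smooth2 a) (hb : Smooth2 b) (hJ : SmoothJ J) (hpos : ∀ (x : M) (v : E), v ≠ 0 → 0 < at2 a x v (atJ J x v)) : ∃ t : ℝ, 0 ≤ t ∧ ∀ (x : M) (v : E), |at2 b x v (atJ J x v)| ≤ t * at2 a x v (atJ J x v)  -- ORDER UNIT: a smooth form is bounded by a multiple of a taming form.

### R240/Ch7 [ns Crest.Agent.R240.Ch] Row 240 (S0371), layer CH (helper707): extension by zero of one-forms and functions, exact forms from charts, decomposition of forms into chart pieces.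
* theorem FA.fmul_eq_ext2 (A : FA E M) (i : Fin A.n) (a : F2 E M) : ext2 (A.c i) (rep (A.c i) (fmul (A.χ i) a)) = fmul (A.χ i) a  -- a two-form cut off by `χ i` is the extension by zero of its representation.
* theorem FA.sum_fmul (A : FA E M) (a : F2 E M) : ∑ i, fmul (A.χ i) a = a  -- decomposition of a two-form into chart pieces.
* theorem isEx_ext2_d1 [T2Space M] {p : M} {K : Set E4} (hK : IsCompact K) (hKt : K ⊆ (chartAt E4 p).target) {s : E4 → E4 →L[ℝ] ℝ} (hs : ContDiff ℝ ∞ s) (h0 : ∀ y, y ∉ K → s y = 0) : IsEx (ext2 p (d1 s))  -- extensions by zero of `d s`, `s` smooth with compact support in the chart, are exact.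

### R240/ChDens [ns Crest.Agent.R240.ChDens] Row 240 (S0371), node N6, PART D3 (helper703): the chart density of a positive closed current, in the form used by `Pol5`.
* theorem nr_chart {b : F2 E4 M} (hb : Smooth2 b) {p : M} {y : E4} (hy : y ∈ (chartAt E4 p).target) : D.nr b ((chartAt E4 p).symm y) = nr (repJ p D.J y) (rep p D.F y) (rep p b y)  -- the pointwise norm in a chart.
* theorem chartDens : ∀ (D : Dat M) (Φ : X2 M →ₗ[ℝ] ℝ) (s : Measure M), D.IsInv Φ → D.IsNonneg Φ → D.IsRM Φ s → ∀ (p : M) (x0 : E4) (R : ℝ), 0 < R → closedBall x0 (3 * R) ⊆ (chartAt E4 p).target → ∃ φ : E4 → Bil, Measurable φ ∧ (∀ y ∈ closedBall x0 (2 * R), Pos (repJ p D.J y) (φ y)) ∧ (∀ y ∈ closedBall x0 (2 * R), q (rep p D.F y) (φ y) (rep p D.F y) = 1) ∧ (∃ C, ∀ y ∈ closedBall  …  -- the chart density (node for `Pol5`).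

### R240/CmPi [ns Crest.Agent.R240.N5] Row 240 (S0371), helper781: the projections `b ↦ b'`, `b ↦ b''` are bounded in the `C^l` norms.
* theorem clm_bound {E F G : Type*} [NormedAddCommGroup E] [NormedSpace ℝ E] [NormedAddCommGroup F] [NormedSpace ℝ F] [NormedAddCommGroup G] [NormedSpace ℝ G] {U K : Set E} (hU : IsOpen U) {T : E → F →L[ℝ] G} (hT : ContDiffOn ℝ ∞ T U) (hK : IsCompact K) (hKU : K ⊆ U) (l : ℕ) : ∃ C : ℝ, 0 ≤ C ∧ ∀ b : E → F, ContDiffOn ℝ ∞ b U → ∀ B : ℝ, 0 ≤ B → (∀ j ≤ l, ∀ y ∈ K, ‖iteratedFDeriv ℝ …  -- a smooth family of linear maps acts boundedly in `C^l` on compact sets.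
* def antiL (A : E4 →L[ℝ] E4) : Bil →L[ℝ] Bil  -- `antip J` as a continuous linear map.
* def invL (A : E4 →L[ℝ] E4) : Bil →L[ℝ] Bil  -- `invp J` as a continuous linear map.

### R240/Cmp [ns Crest.Agent.R240.Ch] Row 240 (S0371), CH (helper955): comparison of the `C^l` norms of a form in different charts; elementary properties of `Cover.cm`.
* theorem cm_compare (𝒰 : Cover M) (p : M) {L : Set E4} (hL : IsCompact L) (hLp : L ⊆ (chartAt E4 p).target) (l : ℕ) : ∃ C : ℝ, 0 ≤ C ∧ ∀ b : F2 E4 M, Smooth2 b → ∀ j ≤ l, ∀ y ∈ L, ‖iteratedFDeriv ℝ j (rep p b) y‖ ≤ C * 𝒰.cm l b  -- COMPARISON: derivatives in any chart on any compact set are controlled by `cm`.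
* theorem cm_compare_cover (𝒰 𝒱 : Cover M) (l : ℕ) : ∃ C : ℝ, 0 ≤ C ∧ ∀ b : F2 E4 M, Smooth2 b → 𝒱.cm l b ≤ C * 𝒰.cm l b  -- different covers give equivalent norms.
* def FA.toCover (A : FA E4 M) : Cover M  -- the cover of a finite atlas.

### R240/CutFun [ns Crest.Agent.R240.CutFun] # Row 240, scalar functions of Step 5: the logarithmic weight `H_K` and the log cut-off `g_K` `Hf K t = 1/((t+K) log (t+K))`, `Df K t = |H_K'(t)| = (log s + 1)/(s² log² s)`, `s = t+K`, `hf K u = - log (log (K-u))` (so `h' (u) = H(-u)`, `h''(u) = |H'|(-u)`), `gf K t = smoothTransition (1 - 2(√log(t+K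
* theorem exists_gf_eq_zero (K : ℝ) (hK0 : 0 < K) : ∃ tK : ℝ, 0 < tK ∧ ∀ t, tK ≤ t → gf K t = 0  -- `g_K = 0` far out: there is `t_K` with `g_K(t) = 0` for `t ≥ t_K`.
* theorem qf_le (hK0 : 0 < K) (hK : 1 ≤ Real.log K) (ht : 1 ≤ t) : qf K t ≤ (t - 1) / K  -- `q_K(t) → 0` as `K → ∞`, quantitatively: `|q_K(t)| ≤ |t-1| / K` for `t ≥ 1`.
* theorem tendsto_gf (ht : 0 ≤ t) : Tendsto (fun K => gf K t) atTop (𝓝 1)  -- `g_K(t) → 1` as `K → ∞`.

### R240/Dens [ns Crest.Agent.R240.Dens] Row 240 (S0371), PART D2 (helper703): the density of a positive functional on the smooth two-forms compactly supported in an open set `U` of `E4`, in `q`-encoding.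
* theorem exists_functional_density (s : Measure E4) [IsFiniteMeasure s] {C : ℝ} (U : Set E4) (Φ : TF U →ₗ[ℝ] ℝ) (hΦ : ∀ β : TF U, |Φ β| ≤ C * ∫ y, ‖(β : E4 → Bil) y‖ ∂s) : ∃ l : E4 → (Bil →L[ℝ] ℝ), ∃ C' : ℝ, 0 ≤ C' ∧ (∀ β : E4 → Bil, Measurable β → Measurable fun y => l y (β y)) ∧ (∀ y, ‖l y‖ ≤ C') ∧ ∀ β : TF U, Φ β = ∫ y, l y ((β : E4 → Bil) y) ∂s  -- Riesz: a functional dominated by a measure is given by a bounded measurable density.
* def KE : ℝ  -- a constant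
* theorem exists_chart_density (s : Measure E4) [IsFiniteMeasure s] {C : ℝ} {U : Set E4} (hU : IsOpen U) {J : E4 → E4 →L[ℝ] E4} {F : E4 → Bil} (hJs : ContDiffOn ℝ ∞ J U) (hJ : ∀ y ∈ U, ∀ v, J y (J y v) = -v) (hFs : ContDiffOn ℝ ∞ F U) (hF : ∀ y ∈ U, SPos (J y) (F y)) (Φ : TF U →ₗ[ℝ] ℝ) (hΦ : ∀ β : TF U, |Φ β| ≤ C * ∫ y, ‖(β : E4 → Bil) y‖ ∂s) (hanti : ∀ β : TF U, (∀ y ∈ U, ∀ u v, …  -- The chart density: a functional on the smooth two-forms compactly supported in `U`, dominated by the finite measure `s`, killing `J`-anti-invariant forms, n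

### R240/DensA [ns Crest.Agent.R240.Dens] Row 240 (S0371), PART D2 (helper703): a bounded function whose integrals against nonnegative smooth functions compactly supported in an open set `U` are nonnegative, is a.e. nonnegative on `U`.
* theorem setIntegral_nonneg_of_smooth {s : Measure E} [IsFiniteMeasure s] {U : Set E} (hU : IsOpen U) {f : E → ℝ} (hf : Measurable f) (hfi : ∀ K ⊆ U, IsCompact K → IntegrableOn f K s) (h : ∀ g : E → ℝ, ContDiff ℝ ∞ g → HasCompactSupport g → tsupport g ⊆ U → (∀ x, 0 ≤ g x) → 0 ≤ ∫ x, g x * f x ∂s) {K : Set E} (hK : IsCompact K) (hKU : K ⊆ U) : 0 ≤ ∫ x in K, f x ∂s  -- approximation of the integral over a compact subset of `U` by smooth functions.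
* theorem ae_nonneg_of_smooth {s : Measure E} [IsFiniteMeasure s] {U : Set E} (hU : IsOpen U) {f : E → ℝ} (hf : Measurable f) (hfi : ∀ K ⊆ U, IsCompact K → IntegrableOn f K s) (h : ∀ g : E → ℝ, ContDiff ℝ ∞ g → HasCompactSupport g → tsupport g ⊆ U → (∀ x, 0 ≤ g x) → 0 ≤ ∫ x, g x * f x ∂s) : ∀ᵐ x ∂s, x ∈ U → 0 ≤ f x  -- a function with nonnegative integrals against nonnegative test functions is nonnegative.

### R240/DensB [ns Crest.Agent.R240.Dens] Row 240 (S0371), PART D2 (helper703): pointwise duality. A linear functional on bilinear forms which kills `J`-anti-invariant forms and is nonnegative on the forms `ξ ∧ Jc ξ` is `q F φ ·` with `φ` a nonnegative `J`-invariant form.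
* theorem pos_of_q {J : E4 →L[ℝ] E4} (hJ : ∀ v, J (J v) = -v) {F : Bil} (hF : SPos J F) {b : Bil} (halt : Alt b) (hb : ∀ u v, b (J u) (J v) = b u v) (h : ∀ ξ : E4 →L[ℝ] ℝ, 0 ≤ q F b (wed ξ (Jc J ξ))) : Pos J b  -- positivity of a `J`-invariant form from its pairings with `ξ ∧ Jc ξ`.
* def dq (F : Bil) (l : Bil →L[ℝ] ℝ) : Bil  -- the form dual to a linear functional with respect to `q F`.
* theorem dq_pos {J : E4 →L[ℝ] E4} (hJ : ∀ v, J (J v) = -v) {F : Bil} (hF : SPos J F) (l : Bil →L[ℝ] ℝ) (hl : ∀ b, Alt b → l (antip J b) = 0) (hpos : ∀ ξ : E4 →L[ℝ] ℝ, 0 ≤ l (wed ξ (Jc J ξ))) : Pos J (dq F l)  -- Pointwise duality.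

### R240/DensM [ns Crest.Agent.R240.DensM] Row 240 (S0371), PART D2 (helper703): the chart density of a positive functional on the smooth two-forms of `M`.
* theorem pos_ext2 {p : M} {J : EndF E4 M} {β : E4 → Bil} (h : ∀ y ∈ (chartAt E4 p).target, Pos (repJ p J y) (β y)) : PosG J (ext2 p β)  -- transfer of `Pos` from the chart to `M`.
* theorem contMDiff_extF {p : M} {g : E4 → ℝ} (hg : ContDiff ℝ ∞ g) {K : Set E4} (hK : IsCompact K) (hKt : K ⊆ (chartAt E4 p).target) (h0 : ∀ y ∉ K, g y = 0) : ContMDiff 𝓘(ℝ, E4) 𝓘(ℝ, ℝ) ∞ (extF (E := E4) p g)  -- extension by zero of a function.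
* theorem exists_density_M {J : EndF E4 M} (hJ : SmoothJ J) (hsq : ∀ x v, atJ J x (atJ J x v) = -v) {F : F2 E4 M} (hF : Smooth2 F) (hFp : ∀ x, SPos (atJ J x) (at2 F x)) (Φ : X2 M →ₗ[ℝ] ℝ) (hinv : ∀ b, Φ b = Φ (invM J hJ b)) (hpos : ∀ P ∈ PosM J, 0 ≤ Φ P) (s : Measure M) [IsFiniteMeasure s] (hmass : ∀ f : Vm.SF M, Φ (Vm.mulX M f ⟨F, hF⟩) = ∫ x, f x ∂s) (N : X2 M → M → ℝ) (hN0 : ∀  …  -- The chart density of a positive current on `M`.

### R240/EllCut [ns Crest.Agent.R240.Ell] Row 240, Lemma A (helper106): cut-off functions, localisation of smooth functions.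
* theorem exists_cutoff {K Ω : Set E4} (hK : IsCompact K) (hΩ : IsOpen Ω) (hKΩ : K ⊆ Ω) : ∃ θ : E4 → ℝ, CS θ ∧ tsupport θ ⊆ Ω ∧ (∀ᶠ y in 𝓝ˢ K, θ y = 1) ∧ (∀ y ∈ K, θ y = 1) ∧ ∀ y, θ y ∈ Icc (0 : ℝ) 1  -- cut-off: `= 1` on `K`, supported in `Ω`.
* theorem cs_smul_of_contDiffOn {F : Type*} [NormedAddCommGroup F] [NormedSpace ℝ F] {θ : E4 → ℝ} {g : E4 → F} {Ω : Set E4} (hθ : CS θ) (hΩ : IsOpen Ω) (hs : tsupport θ ⊆ Ω) (hg : ContDiffOn ℝ ∞ g Ω) : CS (fun y => θ y • g y)  -- a smooth function on an open set, cut off.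

### R240/EllFin [ns Crest.Agent.R240.Ell] Row 240, Lemma A (helper106): node N3 from the local theorem.
* theorem n3_of_local (hloc : LocalThm) (D : Dat M) : D.N3  -- NODE N3 from the local theorem.

### R240/EllIface [ns Crest.Agent.R240.Ell] Row 240, LEMMA A (team K, captain helper106): local statements on `E4`.
* structure Test (J : E4 → E4 →L[ℝ] E4) (U : Set E4) (f : E4 → Bil) : Prop where smooth : ContDiff ℝ ∞ f cpt : HasCompactSupport f supp : tsupport f ⊆ U alt : ∀ x, Alt (f x) anti : ∀ x u v, f x (J x u) (J x v) = - f x u v  -- smooth compactly supported `J`-anti-invariant two-forms, supported in `U`.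
* structure WK (k : E4 → E4 → (F →L[ℝ] G)) : Prop where smooth : ContDiffOn ℝ ∞ (fun p : E4 × E4 => k p.1 p.2) {p | p.2 ≠ 0} bound : ∀ n : ℕ, ∃ C : ℝ, ∀ x z, z ≠ 0 → ‖iteratedFDeriv ℝ n (fun x => k x z) x‖ ≤ C * ‖z‖⁻¹ ^ 3 supp : ∃ R : ℝ, ∀ x z, R ≤ ‖x‖ ∨ R ≤ ‖z‖ → k x z = 0  -- weakly singular kernels `k x z`, smooth off `z = 0`, `x`-derivatives `O(|z|^{-3})`, supported in a bounded set.
* def OpThm : Prop  -- K1 + far part: what is needed about `op k`.

### R240/EllM1 [ns Crest.Agent.R240.Ell] Row 240, Lemma A (helper106), manifold part 1: finite atlas with cut-offs.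
* structure EAtl (M : Type*) [TopologicalSpace M] [ChartedSpace E4 M] where n : ℕ p : Fin n → M U : Fin n → Set E4 V : Fin n → Set E4 c : Fin n → E4 → ℝ isOpen_U : ∀ i, IsOpen (U i) isOpen_V : ∀ i, IsOpen (V i) bdd_V : ∀ i, Bornology.IsBounded (V i) closure_U : ∀ i, closure (U i) ⊆ V i closure_V : ∀ i, closure (V i) ⊆ (chartAt E4 (p i)).target cs : ∀ i, CS (c i) supp : ∀ i, tsupp …  -- finite atlas with smooth cut-offs read in the charts.

### R240/EllM2 [ns Crest.Agent.R240.Ell] Row 240, Lemma A (helper106), manifold part 2: extension by zero, transition estimates.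
* theorem rep_ext2_ev_zero [T2Space M] {p q : M} {L : Set E4} (hL : IsCompact L) (hLs : L ⊆ (chartAt E4 p).target) {b : E4 → Bil} (hb : ∀ z ∉ L, b z = 0) {y : E4} (hy : y ∈ (chartAt E4 q).target) (h : (chartAt E4 q).symm y ∉ (chartAt E4 p).symm '' L) : ∀ᶠ z in 𝓝 y, rep q (ext2 p b) z = 0  -- near a point outside, the extension vanishes.
* def loc (i : Fin A.n) (a : F2 E4 M) : E4 → Bil  -- the localised form.
* def bppL (J : EndF E4 M) : F2 E4 M →ₗ[ℝ] F2 E4 M  -- `b ↦ b''` as a linear map.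

### R240/EllM3 [ns Crest.Agent.R240.Ell] Row 240, Lemma A (helper106), manifold part 3: seminorms, completeness, glued operators.
* structure Adm (i : Fin A.n) (b : E4 → Bil) : Prop where cs : CS b alt : ∀ y, Alt (b y) off : ∀ z ∉ closure (A.V i), b z = 0  -- admissible local forms.
* def pX (J : EndF E4 M) (k : ℕ) : Seminorm ℝ (XA J)  -- the seminorms on anti-invariant forms.
* def pZ (k : ℕ) : Seminorm ℝ (ZA M)  -- the seminorms on closed forms.

### R240/EllM4 [ns Crest.Agent.R240.Ell] Row 240, Lemma A (helper106), manifold part 4: `LocalThm` implies Lemma A (own norms).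

### R240/EllNorm [ns Crest.Agent.R240.Ell] Row 240, Lemma A (helper106): `C^k` norms of smooth compactly supported functions on `E4`.
* theorem comp_bound {A : E4 → (F →L[ℝ] G)} {τ : E4 → E4} (hA : CS A) (hτ : CS τ) (k : ℕ) : ∃ C, 0 ≤ C ∧ ∀ b B, ContDiff ℝ ∞ b → CkB k b B → CkB k (fun y => A y (b (τ y))) (C * B)  -- main composition estimate: `y ↦ A y (b (τ y))`.
* theorem mul_bound {A : E4 → (F →L[ℝ] G)} (hA : CS A) (k : ℕ) : ∃ C, 0 ≤ C ∧ ∀ b B, ContDiff ℝ ∞ b → CkB k b B → CkB k (fun y => A y (b y)) (C * B)  -- multiplication by a compactly supported smooth operator field.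
* theorem series {S : Set E4} (hS : IsCompact S) (u : ℕ → E4 → F) [CompleteSpace F] (hu : ∀ n, ContDiff ℝ ∞ (u n)) (hs : ∀ n x, x ∉ S → u n x = 0) (hsum : ∀ k, Summable fun n => nk k (u n)) : CS (fun x => ∑' n, u n x) ∧ (∀ x, x ∉ S → ∑' n, u n x = 0) ∧ (∀ x, Summable fun n => u n x) ∧ ∀ k, nk k (fun x => ∑' n, u n x) ≤ ∑' n, nk k (u n)  -- series of smooth functions with a common compact support.

### R240/En1 [ns Crest.Agent.R240.En] Row 240 (S0371), BLOCK C (helper822): forms on `R^4`, wedge coefficient, Stokes for closed 2-forms. Uses 798's Lin1 (`W`, `wed`, `Jc`, `Alt`).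
* def Cl (b : E4 → Bil) (x : E4) : Prop  -- closedness of a 2-form at a point
* def IZ (f : E4 → ℝ) : Prop  -- integrable with zero integral
* theorem stokes {b : E4 → Bil} (hb : ContDiff ℝ 1 b) (halt : ∀ x, Alt (b x)) {S : E4 → Cov} (hS : ContDiff ℝ 1 S) (hc : HasCompactSupport S) (hcl : ∀ x ∈ tsupport S, Cl b x) : ∫ x, W (b x) (d1 S x) = 0  -- Stokes: the wedge pairing of a closed 2-form with `dS`, `S` compactly supported, vanishes.

### R240/En2 [ns Crest.Agent.R240.En] Row 240 (S0371), BLOCK C (helper822): the energy inequality of Step 5 at fixed `e`.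
* structure Pt (A e σ : ℝ) (j : E4 →L[ℝ] E4) (P : Bil) (du a : Cov) (pp t : ℝ) : Prop where J_sq : ∀ v, j (j v) = -v J_bd : ‖j‖ ≤ A p_nonneg : 0 ≤ pp pos : ∀ ξ : Cov, 0 ≤ σ * W P (wed ξ (Jc j ξ)) + A * e ^ 2 * pp * ‖ξ‖ ^ 2 anti : ∀ ξ η : Cov, |W P (wed ξ (Jc j η)) - W P (wed η (Jc j ξ))| ≤ A * e * pp * ‖ξ‖ * ‖η‖ bd : ∀ ξ η : Cov, |W P (wed ξ η)| ≤ A * pp * ‖ξ‖ * ‖η‖ sq : -(A * e  …  -- The pointwise hypotheses at one point: `P` the 2-form, `j` the complex structure, `du, a` covectors, `pp` the mass density, `t = -u`.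
* structure Dat (A e σ : ℝ) (K0 : Set E4) (J : E4 → E4 →L[ℝ] E4) (Φ : E4 → Bil) (u : E4 → ℝ) (a : E4 → Cov) (p : E4 → ℝ) : Prop where hA : 1 ≤ A he : 0 < e he1 : e ≤ 1 hσ : |σ| = 1 K0c : IsCompact K0 J_sm : ContDiff ℝ 1 J Φ_sm : ContDiff ℝ 1 Φ Φ_alt : ∀ x, Alt (Φ x) Φ_cl : ∀ x ∈ K0, Cl Φ x u_sm : ContDiff ℝ 2 u a_sm : ContDiff ℝ 1 a id : ∀ x ∈ K0, Φ x = d1 (fun y => Jc (J y) (fde …  -- the data of Step 5 at fixed `e` on a compact set `K0`
* theorem energy (h : Dat A e σ K0 J Φ u a p) {K : ℝ} (hK0 : 0 < K) (hK : 1 ≤ Real.log K) {ζ : E4 → ℝ} {Z : ℝ} (hζ : ContDiff ℝ 1 ζ) (hζs : tsupport ζ ⊆ K0) (hζ0 : ∀ x, 0 ≤ ζ x) (hζ1 : ∀ x, ζ x ≤ 1) (hZ : ∀ x, ‖fderiv ℝ ζ x‖ ≤ Z) : ∫ x in K0, ζ x ^ 2 * Df K (- u x) * qq A e σ (J x) (Φ x) (p x) (fderiv ℝ u x) ≤ 2 * CE A Z * A / Real.log K  -- Energy inequality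

### R240/En3 [ns Crest.Agent.R240.En] Row 240 (S0371), BLOCK C (helper822): `|∫ g_K(-u) Φ ∧ dS| ≤ C / √(log K)`.
* def CC (A Z Ψ : ℝ) : ℝ  -- the constant of the cut-off estimate

### R240/En3b [ns Crest.Agent.R240.En] Row 240 (S0371), BLOCK C (helper822): `En3main`, the fixed-`e` estimate of Step 5 in the form used by Loc5 (873).
* def auxF (j : E4 →L[ℝ] E4) : Bil  -- the auxiliary strictly positive form of a complex structure

### R240/En4D [ns Crest.Agent.R240.En4] Row 240 (helper744): duality on `M` (R4b): from integral inequalities to pointwise ones.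
* def stX (b : X2 M) : X2 M  -- the star operator.
* theorem n2_sq (b : X2 M) : D.n2 b.1 ^ 2 = ∫ x, nsqG D.J D.F b.1 x ∂D.μ  -- `‖b‖₂²`.
* theorem cs_int {f g : M → ℝ} (hf : Continuous f) (hg : Continuous g) (hf0 : ∀ x, 0 ≤ f x) (hg0 : ∀ x, 0 ≤ g x) : ∫ x, f x * g x ∂D.μ ≤ √(∫ x, f x ^ 2 ∂D.μ) * √(∫ x, g x ^ 2 ∂D.μ)  -- Cauchy-Schwarz in integral form.

### R240/En4E [ns Crest.Agent.R240.En4] Row 240 (helper744): R4b and the energy inequality (Step 4) from the smoothing package `SmPack`.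
* theorem GeF.mono {b : F2 E4 M} {h k : M → ℝ} (hb : GeF D.J D.F b h) (hk : ∀ x, k x ≤ h x) : GeF D.J D.F b k  -- constants can be increased in lower bounds.
* theorem nr_T_le (T : X2 M) {x : M} {s a c : ℝ} (hs : 0 ≤ s) (ha0 : 0 ≤ a) (ha : qG D.F (T : F2 E4 M) D.F x ≤ a) (h : ∀ v, - s * at2 D.F x v (atJ D.J x v) ≤ at2 (T : F2 E4 M) x v (atJ D.J x v)) (hc0 : 0 ≤ c) (hc : D.nr (D.pi'' T : F2 E4 M) x ≤ c) : D.nr (D.pi' T : F2 E4 M) x ≤ 2 * (a + s) ∧ D.nr (T : F2 E4 M) x ≤ 2 * (a + s) + c  -- the invariant part of size `≤ 2 (a + s)`.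
* theorem tpart {𝒰 : Cover M} (S : SmPack D 𝒰) (hn : NRCM D 𝒰) : ∃ C : ℝ, 1 ≤ C ∧ ∀ (L : X2 M →ₗ[ℝ] ℝ) (s : Measure M), D.IsRM L s → ∀ e, 0 < e → e ≤ S.e0 → ∀ g : M → ℝ, SmoothF E4 g → (∀ x, 0 ≤ g x) → (∀ f, SmoothF E4 f → ∫ x, S.a e f x ∂s = ∫ x, f x * g x ∂D.μ) → ∀ p ∈ S.clp 0, ∃ T : X2 M, (∀ b : X2 M, L (D.pi' (S.A e p b)) = D.I (T : F2 E4 M) (b : F2 E4 M)) ∧ (∀ x, D.nr (T : F …  -- R4b: the smoothing of a positive functional.

### R240/En4F [ns Crest.Agent.R240.En4] Row 240 (helper744): smooth functions on `M`, localisation of integral inequalities, smoothness of the pairing `q(b,c)`.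

### R240/En4G [ns Crest.Agent.R240.En4] Row 240 (helper744): duality on `M` (R4b), the dual cone and the anti-invariant part.
* theorem nsq_le_of_lower {X : Bil} (hX : Alt X) {s a : ℝ} (hs : 0 ≤ s) (ha0 : 0 ≤ a) (ha : q F X F ≤ a) (h : ∀ v, 0 ≤ X v (J v) + s * F v (J v)) : nsq J F (invp J X) ≤ (2 * (a + s)) ^ 2  -- lower bound ⇒ size bound for the invariant part.
* def primX (X : X2 M) : X2 M  -- primitive part on `M`.
* def testX (X : X2 M) (δ : ℝ) (hδ : 0 < δ) : X2 M  -- the test form `√(|X₀|² + δ) F + X₀`.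

### R240/En4H [ns Crest.Agent.R240.En4] Row 240 (helper744): the energy inequality of Step 4 from the smoothing package `SmPack`.
* theorem closed_of_isEx {b : X2 M} (h : IsEx (b : F2 E4 M)) : b ∈ Z2 M  -- exact forms are closed.
* theorem pt_energy {T B : X2 M} {x : M} {C e g : ℝ} (hC : 1 ≤ C) (he : 0 ≤ e) (he1 : e ≤ 1) (hg : 0 ≤ g) (h1 : D.nr (D.pi' T : F2 E4 M) x ≤ C * g) (h2 : ∀ v, - (C * e ^ 2 * g) * at2 D.F x v (atJ D.J x v) ≤ at2 (T : F2 E4 M) x v (atJ D.J x v)) (h3 : qG D.F (T : F2 E4 M) D.F x ≤ C * g) : - (3 * C ^ 2 * e ^ 2 * g ^ 2 + 2 * C * (g * D.nr (D.pi' B : F2 E4 M) x) + D.nr (D.pi' B : F2 E …  -- pointwise energy inequality.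
* theorem bpart {𝒰 : Cover M} (S : SmPack D 𝒰) (hn : NRCM D 𝒰) (hfund : D.FUND) : ∃ C : ℝ, 1 ≤ C ∧ ∀ (L : X2 M →ₗ[ℝ] ℝ) (s : Measure M), D.IsRM L s → Dat.KillsClosed L → FOrd 𝒰 (L.comp D.pi'') → ∀ e, 0 < e → e ≤ S.e0 → ∀ g : M → ℝ, SmoothF E4 g → (∀ x, 0 ≤ g x) → (∀ f, SmoothF E4 f → ∫ x, S.a e f x ∂s = ∫ x, f x * g x ∂D.μ) → ∀ p ∈ S.clp 0, ∃ T B : X2 M, (∀ b : X2 M, L (D.pi' (S. …  -- Energy inequality (T1).

### R240/En4L [ns Crest.Agent.R240.En4] Row 240 (helper744): the polynomial fibre inner product of `(J, F)`.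
* theorem nsq_split {b : Bil} (hb : Alt b) : nsq J F b = nsq J F (invp J b) + nsq J F (antip J b)  -- the squared norm splits.
* theorem q_cs {b c : Bil} (hb : Alt b) (hc : Alt c) : q F b c ^ 2 ≤ nsq J F b * nsq J F c  -- Cauchy-Schwarz for `q`.
* theorem pos_iff {P : Bil} (hP : Alt P) (hi : ∀ u v, P (J u) (J v) = P u v) : (∀ v, 0 ≤ P v (J v)) ↔ 0 ≤ q F P F ∧ 0 ≤ q F P P  -- characterisation of positivity (the light cone).

### R240/FAAlg [ns Crest.Agent.R240.FA] Row 240, Lemma A, team F: the symbol of the right parametrix.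
* def GE (J : E4 →L[ℝ] E4) : E4 ≃L[ℝ] (E4 →L[ℝ] ℝ)  -- `GG J` as a continuous linear equivalence
* def XX (J : E4 →L[ℝ] E4) (ξ : E4) : E4  -- the dual vector
* def negI : C1 →L[ℝ] C1  -- multiplication by `-i`

### R240/FACut [ns Crest.Agent.R240.FA] Row 240, Lemma A, team F: cut-offs, complexification, pointwise algebra.
* theorem antip_alt (J : E4 →L[ℝ] E4) (D : C2) : antip J (re2 D - (re2 D).flip) = re2 ((2 : ℝ) • PiC J D)  -- `antip` of the exterior derivative in terms of `PiC`.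
* def SymbolThm : Prop  -- The conclusion of the symbol construction (to be proved in `FAAlg`).
* structure Dat (J : E4 → E4 →L[ℝ] E4) (U V : Set E4) where K : Set E4 θ : E4 → ℝ p : Z4 → E4 → (C2 →L[ℝ] C1) e : Z4 → E4 → (C2 →L[ℝ] C2) hK : IsCompact K hKV : K ⊆ V hθ : ContDiff ℝ ∞ θ hθ0 : ∀ x ∉ K, θ x = 0 hθ1 : ∀ x ∈ U, θ x = 1 hp : SymK K 1 p he : SymK K 6 e hPi : ∀ n x w, AntiC (J x) (e n x w) ∨ (x ∉ K) tel : ∀ n, n ≠ 0 → ∀ x, ((2 : ℝ) • PiC (J x)).comp (dS p n x) = θ x •  …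

### R240/FADefs [ns Crest.Agent.R240.FA] Row 240, Lemma A, team F (Fourier): common definitions.
* structure IsSym {F : Type*} [NormedAddCommGroup F] [NormedSpace ℝ F] (r : ℕ) (p : Z4 → E4 → F) : Prop where smooth : ∀ n, ContDiff ℝ ∞ (p n) bd : ∀ j : ℕ, ∃ C : ℝ, ∀ n, n ≠ 0 → ∀ x, ‖iteratedFDeriv ℝ j (p n) x‖ ≤ C / wt n ^ r  -- symbols of order `-r` (real linear operators `V → G`)
* def tens (n : Z4) : G →L[ℝ] (E4 →L[ℝ] G)  -- tensor with the covector: `g ↦ (v ↦ cov n v • g)`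
* def dS (p : Z4 → E4 → (V →L[ℝ] G)) (n : Z4) (x : E4) : V →L[ℝ] (E4 →L[ℝ] G)  -- the symbol of the derivative

### R240/FAFinal [ns Crest.Agent.R240.FA] Row 240, Lemma A: the local theorem (team F: helper267, helper446).

### R240/FAForms [ns Crest.Agent.R240.FA] Row 240, Lemma A, team F: complex valued forms on `E4` and the projection to the alternating `J`-anti-invariant ones.
* def fl : C2 →L[ℝ] C2  -- flip
* def PiC (J : E4 →L[ℝ] E4) : C2 →L[ℝ] C2  -- the projection to alternating `J`-anti-invariant forms: `(PiC J β)(u,v) = 1/4 (β(u,v) - β(v,u) - β(Ju,Jv) + β(Jv,Ju))`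
* def AntiC (J : E4 →L[ℝ] E4) (β : C2) : Prop  -- `β` is alternating and `J`-anti-invariant

### R240/FALoc [ns Crest.Agent.R240.FA] Row 240, Lemma A, team F: the local theorem on the cube.
* def Qop (D : Dat J U V) (f : E4 → Bil) (x : E4) : E4 →L[ℝ] ℝ  -- the right parametrix
* def mK (D : Dat J U V) (n : Z4) (x : E4) : C2 →L[ℝ] C2  -- the coefficient of the `n`-th Fourier mode in the remainder
* def Kop (D : Dat J U V) (f : E4 → Bil) (x : E4) : Bil  -- the remainder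

### R240/FALoc2 [ns Crest.Agent.R240.FA] Row 240, Lemma A, team F: the local theorem from the symbol theorem.

### R240/FAOp [ns Crest.Agent.R240.FA] Row 240, Lemma A, team F (helper446): Fourier series on the unit cube of `E4` and the operators `Op A p f`.
* def lowF (A : ℝ) (f : E4 → V) (x : E4) : V  -- the low frequency part of `f`.
* theorem eq_low_add_high (A : ℝ) {f : E4 → V} (hs : ContDiff ℝ ∞ f) (hf : tsupport f ⊆ cube) {x : E4} (hx : x ∈ cube) : f x = lowF A f x + Op A (fun _ _ => ContinuousLinearMap.id ℝ V) f x  -- splitting of `f` on the cube in low and high frequencies.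
* theorem summable_full {r : ℕ} {p : Z4 → E4 → (V →L[ℝ] G)} (hp : IsSym r p) {f : E4 → V} (hs : ContDiff ℝ ∞ f) (hf : tsupport f ⊆ cube) (x : E4) : Summable fun n => ch n x • p n x (coef f n)  -- absolute convergence of the full series (all frequencies).

### R240/FARec [ns Crest.Agent.R240.FA] Row 240, Lemma A, team F: symbol calculus (symbols with compact support), the recursion `a_{j+1} = - Q' ∘ D a_j` and the telescoping identity.
* structure SymK (K : Set E4) (r : ℕ) (p : Z4 → E4 → F) : Prop extends IsSym r p where supp : ∀ n x, x ∉ K → p n x = 0  -- symbols of order `-r` supported in `K`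
* def psum (J : E4 → E4 →L[ℝ] E4) (Q Q' : Z4 → E4 → (C2 →L[ℝ] C1)) (N : ℕ) (n : Z4) (x : E4) : C2 →L[ℝ] C1  -- partial sums
* theorem telescope {J : E4 → E4 →L[ℝ] E4} (hJ : ContDiff ℝ ∞ J) {K : Set E4} (hK : IsCompact K) (hJ2 : ∀ x ∈ K, ∀ v, J x (J x v) = -v) {Q Q' : Z4 → E4 → (C2 →L[ℝ] C1)} {θ θ' : E4 → ℝ} (hQ : SymK K 1 Q) (hQ' : IsSym 1 Q') (h1 : ∀ n, n ≠ 0 → ∀ x β, (2:ℝ) • PiC (J x) (tens n (Q n x β)) = θ x • PiC (J x) β) (h1' : ∀ n, n ≠ 0 → ∀ x β, (2:ℝ) • PiC (J x) (tens n (Q' n x β)) = θ' x • Pi …  -- The telescoping identity for the full symbol of `(d ·)''`.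

### R240/FAScale [ns Crest.Agent.R240.Ell] Row 240, Lemma A (helper446): the local theorem for general bounded `V` follows from the case `V ⊆ cube` by an affine change of coordinates.
* def LocalThmCube : Prop  -- `LocalThm` for `V` contained in the open unit cube.
* def aff (a : E4) (s : ℝ) (hs : s ≠ 0) : E4 ≃ₜ E4  -- the affine homeomorphism `x ↦ a + s • x`.

### R240/FASym [ns Crest.Agent.R240.FA] Row 240, Lemma A, team F (helper446): homogeneous functions of degree `-r` give symbols of order `-r`.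
* theorem isSym_of_homog {r : ℕ} {k : E4 → E4 → F} (hk : ContDiffOn ℝ ∞ (fun p : E4 × E4 => k p.1 p.2) (univ ×ˢ {0}ᶜ)) (hh : ∀ x z, z ≠ 0 → ∀ t : ℝ, 0 < t → k x (t • z) = (t ^ r)⁻¹ • k x z) {R : ℝ} (hR : ∀ x z, R ≤ ‖x‖ → k x z = 0) {p : Z4 → E4 → F} (hp : ∀ n, n ≠ 0 → ∀ x, p n x = k x (nv n)) (hp0 : ContDiff ℝ ∞ (p 0)) : IsSym r p  -- `k x z` smooth for `z ≠ 0`, homogeneous of degree `-r` in `z`, zero for large `x`.

### R240/Final [ns Crest.Agent.R240] Row 240 (S0371), node I5 (helper707): from the frozen statement to the data `Dat M` and back.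
* theorem spos_bp {J : EndF E4 M} {al : F2 E4 M} (hJ : ∀ x v, atJ J x (atJ J x v) = -v) (ha : Smooth2 al) (ht : ∀ x v, v ≠ 0 → 0 < at2 al x v (atJ J x v)) (x : M) : SPos (atJ J x) (at2 (bp J al) x)  -- the invariant part of a taming form is strictly positive.
* theorem final_aux {M : Type*} [MetricSpace M] [CompactSpace M] [ChartedSpace E4 M] [IsManifold 𝓘(ℝ, E4) ∞ M] (bl : Met.BiLip E4 M) (hgoal : ∀ [MeasurableSpace M] [BorelSpace M] (D : Dat M), D.Goal) (J : TEndF E4 M) (hJ : IsAlmostComplexStructure 𝓘(ℝ, E4) M J) (hα : ∃ α : TF2 E4 M, IsSmoothTwoForm 𝓘(ℝ, E4) M α ∧ IsClosedTwoForm 𝓘(ℝ, E4) M α ∧ Tames 𝓘(ℝ, E4) M α J) : ∃ α' : TF2 E …  -- the conclusion of the theorem, on a metric manifold.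
* theorem final (hgoal : ∀ (M : Type u) [MetricSpace M] [CompactSpace M] [ChartedSpace E4 M] [IsManifold 𝓘(ℝ, E4) ∞ M] [MeasurableSpace M] [BorelSpace M] (D : Dat M), D.Goal) (M : Type u) [t : TopologicalSpace M] [T2Space M] [CompactSpace M] [ChartedSpace E4 M] [IsManifold 𝓘(ℝ, E4) ∞ M] (J : TEndF E4 M) (hJ : IsAlmostComplexStructure 𝓘(ℝ, E4) M J) (hα : ∃ α : TF2 E4 M, IsSmoothTw …  -- node I5: the frozen statement S0371 follows from `D.Goal` for all data.

### R240/FormDefs [ns Crest.Agent.R240.Ch] Row 240 (S0371), layer CH (helper707): common definitions for forms on the manifold. Definitions and the most basic lemmas only; the theorems are in `Ch4`, `Ch6`, `Ch7`.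
* def PosG (J : EndF E4 M) (a : F2 E4 M) : Prop  -- semi-positive `J`-invariant forms.
* def SPosG (J : EndF E4 M) (a : F2 E4 M) : Prop  -- strictly positive `J`-invariant forms.
* def qG (F b c : F2 E4 M) (x : M) : ℝ  -- the orientation-free pairing of two-forms.

### R240/FrBd [ns Crest.Agent.R240.Fr] Row 240, Lemma P (helper849): bounds of the frozen operators and of their derivatives with respect to the frozen point.
* def PT (b : ℕ) (f : E4 → F) (x : E4) : ℝ≥0∞  -- potential of `f`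
* theorem T_fst_bound [CompleteSpace F] (hAB : Frame g A B) {k : E4 → ℝ} {a : ℕ} (ha : a + 1 ≤ 3) {C : ℝ} (hC : 0 ≤ C) (hk : Ker (a + 1) C k) {f : E4 → F} (hf : ContDiff ℝ ∞ f) (hfs : HasCompactSupport f) (x0 x h : E4) : ‖fderiv ℝ (fun x0 => T A k f x0 x) x0 h‖ₑ ≤ ENNReal.ofReal (4 * (2 * C * (‖B x0‖ * (‖fderiv ℝ A x0‖ * ‖h‖)))) * PE (A x0) (a + 1) f x  -- derivative in the frozen point of `T` for a kernel of degree `-(a+1)`, `a + 1 ≤ 3`.
* theorem PE_le (hAB : Frame g A B) (b : ℕ) (f : E4 → F) (x0 x : E4) {M : ℝ} (hM : 1 ≤ M) (hA : ‖A x0‖ ≤ M) (hB : ‖B x0‖ ≤ M) : PE (A x0) b f x ≤ ENNReal.ofReal (M ^ b * M ^ 4) * PT b f x  -- change of variables: from frozen coordinates to the original ones.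

### R240/FrFrame [ns Crest.Agent.R240.Fr] Row 240, Lemma P (helper849): smooth orthonormal frames by Gram-Schmidt.
* def nz (g : Bil) (w : E4) : E4  -- normalisation of a vector with respect to a bilinear form
* theorem exists_frame_fields {g : E4 → Bil} (hg : ContDiff ℝ ∞ g) (hs : ∀ x v w, g x v w = g x w v) (hp : ∀ x v, v ≠ 0 → 0 < g x v v) : ∃ v : Fin 4 → E4 → E4, (∀ i, ContDiff ℝ ∞ (v i)) ∧ ∀ x i j, g x (v i x) (v j x) = if i = j then 1 else 0  -- Existence of a smooth `g`-orthonormal frame.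
* structure Frame (g : E4 → Bil) (A B : E4 → E4 →L[ℝ] E4) : Prop where smA : ContDiff ℝ ∞ A smB : ContDiff ℝ ∞ B BA : ∀ x u, B x (A x u) = u AB : ∀ x u, A x (B x u) = u iso : ∀ x u v, g x (A x u) (A x v) = inner ℝ u v  -- smooth frame of a metric: `A x` maps the standard orthonormal basis to a `g x`-orthonormal one, `B x` is its inverse.

### R240/FrGauge [ns Crest.Agent.R240.Fr] Row 240, Lemma P (helper849): averaged line integrals of a family of closed 1-forms.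
* theorem lamG_fderiv_snd (hD : ContDiff ℝ oo D) (hθ : ContDiff ℝ oo θ) (hcl : FamCl D) (x0 x h : E4) (z : E4 × ℝ) : fderiv ℝ (fun q => lamG θ D q z) (x0, x) (0, h) = θ z.1 * tb z.2 * (z.2 * fderiv ℝ (fun x => D (x0, x)) (z.1 + z.2 • (x - z.1)) (x - z.1) h + D (x0, z.1 + z.2 • (x - z.1)) h)  -- derivative in the second variable of the integrand
* theorem lam_fderiv_snd (hθ : ContDiff ℝ oo θ) (hθs : HasCompactSupport θ) (hθ1 : ∫ p, θ p = 1) (hD : ContDiff ℝ oo D) (hcl : FamCl D) (x0 x h : E4) : fderiv ℝ (lam θ D) (x0, x) (0, h) = D (x0, x) h  -- the derivative of `lam` in the second variable is `D`.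
* theorem lam_fderiv_fst_bound (hθ : ContDiff ℝ oo θ) (hD : ContDiff ℝ oo D) {c : E4} {r K : ℝ} (hr : 0 < r) (hK : 0 ≤ K) (hθb : ∀ p, |θ p| ≤ K) (hθ0 : ∀ p, p ∉ ball c r → θ p = 0) {x0 x h : E4} (hx : x ∈ ball c r) : ‖fderiv ℝ (lam θ D) (x0, x) (h, 0)‖ₑ ≤ ENNReal.ofReal (K * (2 * r) * (8 / 3 * r ^ 3)) * ∫⁻ z in ball c r, (‖x - z‖ₑ ^ 3)⁻¹ * ‖fderiv ℝ (fun x0 => D (x0, z)) x0 h‖ₑ  -- bound of the derivative in the first variable

### R240/FrId [ns Crest.Agent.R240.Fr] Row 240, Lemma P (helper849): identities at a frozen point. `gam x0 x (X) = Σ_i D W(f_i)(f_i, X)`, `W = N_{x0} * f`, satisfies `d (gam x0) = f` for every `x0`, and `gam x0 x (J X) = d(tr W)(X) + 2 Σ_i (N_i * f'')(f_i, J X)`.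
* structure Form (f : E4 → Bil) : Prop where sm : ContDiff ℝ ∞ f cs : HasCompactSupport f alt : ∀ x, Alt (f x) cl : ∀ x, Cl f x  -- hypotheses on the form
* theorem gam_J (hAB : Frame g A B) (hf : Form f) {J : E4 → E4 →L[ℝ] E4} (x0 x : E4) (hJ : ∀ v, J x0 (J x0 v) = -v) (hJg : ∀ u v, g x0 (J x0 u) (J x0 v) = g x0 u v) (X : E4) : gam A f x0 x (J x0 X) = trf A J x0 (DW A f x0 x X) + 2 * ∑ i, antip (J x0) (DW A f x0 x (fr A x0 i)) (fr A x0 i) (J x0 X)  -- the first order identity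
* theorem DW_fr (hAB : Frame g A B) (hf : Form f) (x0 x : E4) (i : Fin 4) : DW A f x0 x (fr A x0 i) = T A (NKi i) f x0 x  -- first derivatives of `W` in the frame directions as kernel integrals

### R240/FrKer [ns Crest.Agent.R240.Fr] Row 240, Lemma P (helper849): weakly singular kernels on `E4`: local integrability of `‖η‖^{-a}`, `a ≤ 3`, integration by parts.
* structure Ker (a : ℕ) (C : ℝ) (k : E4 → ℝ) : Prop where smooth : ContDiffOn ℝ 1 k {0}ᶜ bd : ∀ η : E4, η ≠ 0 → |k η| ≤ C * (‖η‖ ^ a)⁻¹ bd' : ∀ η : E4, η ≠ 0 → ‖fderiv ℝ k η‖ ≤ C * (‖η‖ ^ (a + 1))⁻¹  -- kernels which are smooth off the origin and bounded by `‖η‖^{-a}` together with their first derivative.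
* theorem exists_fderiv_cut_bound : ∃ C, 0 ≤ C ∧ ∀ (n : ℕ) (η : E4), η ≠ 0 → ‖fderiv ℝ (cut n) η‖ ≤ C * ‖η‖⁻¹  -- `‖D cut n‖ ≤ C ‖η‖^{-1}`
* theorem Ker.ibp {a : ℕ} (ha : a + 1 ≤ 3) {C : ℝ} {k : E4 → ℝ} (hk : Ker a C k) {f : E4 → F} (hf : ContDiff ℝ 1 f) (hfs : HasCompactSupport f) (v : E4) : ∫ η, k η • fderiv ℝ f η v = - ∫ η, fderiv ℝ k η v • f η  -- integration by parts for weakly singular kernels

### R240/FrNew [ns Crest.Agent.R240.Fr] Row 240, Lemma P (helper849): the Newton kernel on `E4`.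
* def I3 : ℝ  -- `∫ (1+|ζ|²)^{-3}`
* def cN : ℝ  -- the Newton constant
* def NK (η : E4) : ℝ  -- the Newton kernel, normalised so that its Laplacian is the delta function

### R240/FrOp [ns Crest.Agent.R240.Fr] Row 240, Lemma P (helper849): frozen convolution operators `T A k f x0 x = ∫ k η • f (x - A x0 η) dη`.
* theorem T_clm_apply [CompleteSpace F] (hAB : Frame g A B) {k : E4 → ℝ} (hk : LocallyIntegrable k) {f : E4 → (E4 →L[ℝ] F)} (hf : Continuous f) (hfs : HasCompactSupport f) (x0 x v : E4) : T A k f x0 x v = T A k (fun y => f y v) x0 x  -- evaluation commutes with `T`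
* theorem T_fderiv_fst (hAB : Frame g A B) {k : E4 → ℝ} (hk : LocallyIntegrable k) {f : E4 → F} (hf : ContDiff ℝ ∞ f) (hfs : HasCompactSupport f) [CompleteSpace F] (x0 x h : E4) : fderiv ℝ (fun x0 => T A k f x0 x) x0 h = - ∫ η, k η • fderiv ℝ f (x - A x0 η) (fderiv ℝ A x0 h η)  -- derivative with respect to the frozen point
* theorem T_parts (hAB : Frame g A B) {a : ℕ} (ha : a + 1 ≤ 3) {C : ℝ} {k : E4 → ℝ} (hk : Ker a C k) {f : E4 → F} (hf : ContDiff ℝ ∞ f) (hfs : HasCompactSupport f) (x0 x v : E4) : T A k (fun y => fderiv ℝ f y (A x0 v)) x0 x = T A (fun η => fderiv ℝ k η v) f x0 x  -- integration by parts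

### R240/FrPar [ns Crest.Agent.R240.Fr] Row 240, Lemma P (frozen at x0; helper849): parametric integrals against locally integrable kernels.
* def LocSupp (g : P → G → F) : Prop  -- locally uniformly compact support in the second variable

### R240/Fre [ns Crest.Agent.R240.Ch] Row 240 (S0371), CH (helper955): Frechet completeness of the space of smooth forms.
* theorem smooth2_sum {c : ℕ → F2 E4 M} (hc : ∀ n, Smooth2 (c n)) (N : ℕ) : Smooth2 (∑ n ∈ Finset.range N, c n)  -- a cover with slightly smaller cores, still covering.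
* theorem cm_complete [T2Space M] (𝒰 : Cover M) (c : ℕ → F2 E4 M) (hc : ∀ n, Smooth2 (c n)) (hs : ∀ l, Summable fun n => 𝒰.cm l (c n)) : ∃ s : F2 E4 M, Smooth2 s ∧ (∀ x, HasSum (fun n => at2 (c n) x) (at2 s x)) ∧ ((∀ n, Closed2 (c n)) → Closed2 s) ∧ (∀ l, Tendsto (fun N => 𝒰.cm l (s - ∑ n ∈ Finset.range N, c n)) atTop (𝓝 0))  -- FRECHET COMPLETENESS of the space of smooth two-forms (and of the closed ones).
* theorem cm_limit_le (𝒰 : Cover M) {c : ℕ → F2 E4 M} (hc : ∀ n, Smooth2 (c n)) {l : ℕ} (hs : Summable fun n => 𝒰.cm l (c n)) {s : F2 E4 M} (hsm : Smooth2 s) (hlim : Tendsto (fun N => 𝒰.cm l (s - ∑ n ∈ Finset.range N, c n)) atTop (𝓝 0)) : 𝒰.cm l s ≤ ∑' n, 𝒰.cm l (c n)  -- norm of a limit of partial sums.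

### R240/FunRep [ns Crest.Agent.R240.FunRep] ### families of bounded continuous functions with supports in a fixed compact set
* structure FinOrd (K : Set E) (m : ℕ) (C : ℝ) (L : (E → G) → ℝ) : Prop where add : ∀ f g, f ∈ DK K G → g ∈ DK K G → L (f + g) = L f + L g smul : ∀ (c : ℝ) f, f ∈ DK K G → L (c • f) = c * L f bd : ∀ f, f ∈ DK K G → ∀ A : ℝ, (∀ k ≤ m, ∀ x, ‖iteratedFDeriv ℝ k f x‖ ≤ A) → |L f| ≤ C * A  -- `L` is a functional of order `m` on `DK K G`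
* theorem theta_rep [FiniteDimensional ℝ G] [FiniteDimensional ℝ E] [CompleteSpace X] [MeasurableSpace Y] [BorelSpace Y] (ν : Measure Y) [IsFiniteMeasureOnCompacts ν] (hK : IsCompact K) (hL : FinOrd K m C L) (hk : ContDiffOn ℝ ∞ (fun p : Y × E => k p.1 p.2) (V ×ˢ univ)) (hV : IsOpen V) (h0 : ∀ y ∈ V, ∀ x, x ∉ K → k y x = 0) {f : Y → G} (hf : ContDiff ℝ ∞ f) (hfc : HasCompactSuppo …  -- Representation: after application of a smooth kernel a functional of finite order is given by a smooth density.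
* theorem conv_rep [FiniteDimensional ℝ G] {K : Set E} (hK : IsCompact K) {m : ℕ} {C : ℝ} (hC : 0 ≤ C) {L : (E → G) → ℝ} (hL : FinOrd K m C L) {κ : E → ℝ} (hκ : ContDiff ℝ ∞ κ) {V : Set E} (hV : IsOpen V) (hVK : ∀ y ∈ V, ∀ x, κ (y - x) ≠ 0 → x ∈ K) : ∃ θ : E → (G →L[ℝ] ℝ), ContDiffOn ℝ ∞ θ V ∧ (∀ y ∈ V, ∀ g, θ y g = L (fun x => κ (y - x) • g)) ∧ (∀ y ∈ V, ∀ g, (fun x => κ (y - x) …  -- Convolution: the functional `f ↦ L (κ̌ * f)` is given by a smooth density near every point `y` such that `κ (y - ·)` lives in `K`.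

### R240/Fund [ns Crest.Agent.R240.Fund] Row 240 (S0371), helper456: node FUND (du Bois-Reymond on `M`): a smooth two-form orthogonal to all exact forms is closed.
* theorem dd_of_Cl {b : E4 → Bil} {y : E4} (hb : DifferentiableAt ℝ b y) (halt : ∀ z, Alt (b z)) (h : En.Cl b y) (u v w : E4) : dd b y u v w = 0  -- conversion between the two closedness expressions.
* theorem fund (D : Dat M) : D.FUND  -- node FUND.

### R240/FundLoc [ns Crest.Agent.R240.Fund] Row 240 (S0371), helper456: the fundamental lemma for closedness, local version in `R^4`: a `C^1` two-form `η` on an open set `U` with `∫ W(η, dS) = 0` for all smooth one-forms `S` with compact support in `U` is closed on `U`.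
* def pr (k : Fin 4) : Cov  -- the coordinate covectors
* theorem cl_of_weak_global {U : Set E4} (hU : IsOpen U) {η : E4 → Bil} (hη : ContDiff ℝ 1 η) (halt : ∀ x, Alt (η x)) (h : ∀ S : E4 → Cov, ContDiff ℝ ∞ S → HasCompactSupport S → tsupport S ⊆ U → ∫ x, W (η x) (d1 S x) = 0) {x : E4} (hx : x ∈ U) : Cl η x  -- the local fundamental lemma with a globally `C^1` form.
* theorem cl_of_weak {U : Set E4} (hU : IsOpen U) {η : E4 → Bil} (hη : ContDiffOn ℝ ∞ η U) (halt : ∀ x ∈ U, Alt (η x)) (h : ∀ S : E4 → Cov, ContDiff ℝ ∞ S → HasCompactSupport S → tsupport S ⊆ U → ∫ x, W (η x) (d1 S x) = 0) {x : E4} (hx : x ∈ U) : Cl η x  -- the local fundamental lemma.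

### R240/HB [ns Crest.Agent.R240.HB] # Abstract Hahn-Banach statements for row 240 (helper710) `exists_linear_of_rel` : the common core. `hb1` = Step 1, `hb2` = Step 2 of note 10247. Mathlib only; no topology on spaces of forms.
* theorem exists_linear_of_rel (S : X → ℝ → Prop) (hne : ∀ x, ∃ r, S x r) (hadd : ∀ x y r s, S x r → S y s → S (x + y) (r + s)) (hsmul : ∀ c : ℝ, 0 < c → ∀ x r, S x r → S (c • x) (c * r)) (h0 : ∀ r, S 0 r → 0 ≤ r) : ∃ Φ : X →ₗ[ℝ] ℝ, ∀ x r, S x r → Φ x ≤ r  -- A sublinear relation `S x r` ("`r` is an upper bound offered for `x`") that only offers nonnegative values at `0` dominates a linear functional.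
* theorem hb1 (P : Set X) (h0 : (0 : X) ∈ P) (hadd : ∀ x ∈ P, ∀ y ∈ P, x + y ∈ P) (hsmul : ∀ c : ℝ, 0 < c → ∀ x ∈ P, c • x ∈ P) (a : X) (hunit : ∀ x : X, ∃ t : ℝ, t • a - x ∈ P) (V : Submodule ℝ X) (lam : X →ₗ[ℝ] ℝ) (C : ℝ) (hC : ∀ p ∈ P, ∀ t : ℝ, ∀ v ∈ V, p = t • a + v → lam p ≤ C * t) : ∃ Φ : X →ₗ[ℝ] ℝ, (∀ p ∈ P, lam p ≤ Φ p) ∧ (∀ v ∈ V, Φ v = 0) ∧ Φ a ≤ C  -- HB1 = Step 1 of 10247. `P` = nonnegative elements, `a` = order unit (`α'`), `V` = the space `{(dS)'}`, `lam` = the functional `P ↦ ∫ P ∧ F`.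
* theorem hb2 (Z : Submodule ℝ X) (jp jm : X →ₗ[ℝ] X) (P : Set X) (h0 : (0 : X) ∈ P) (hadd : ∀ x ∈ P, ∀ y ∈ P, x + y ∈ P) (hsmul : ∀ c : ℝ, 0 < c → ∀ x ∈ P, c • x ∈ P) (F : X) (hF : jp F = F) (hFm : jm F = 0) (hunit : ∀ x : X, ∃ t : ℝ, t • F - jp x ∈ P) (ν : Seminorm ℝ X) (ρ : ℝ) (hρ : 0 < ρ) (hno : ∀ z ∈ Z, jp z - F ∈ P → ρ ≤ ν (jm z)) : ∃ T : X →ₗ[ℝ] ℝ, (∀ z ∈ Z, T z = 0) ∧ T F …  -- HB2 = Step 2 of 10247 in the form of note 10414 (a). `X` = all (smooth) 2-forms, `Z` = closed ones, `jp b = b'`, `jm b = b''`, `P` = nonnegative (J-invariant) e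

### R240/Iface [ns Crest.Agent.R240 / Dat] Row 240 (S0371), TOP (helper23): the frozen interface. Every node is a `Prop` about the data `D : Dat M`. Nodes: STOKES, FUND, N1, N2, N3, N4, N5, N5', N6, N7, N8a.
* structure IsRM (D : Dat M) (Φ : X2 M →ₗ[ℝ] ℝ) (s : Measure M) : Prop where fin : IsFiniteMeasure s trace : ∀ f : M → ℝ, SmoothF E4 f → ∀ b : X2 M, (b : F2 E4 M) = fmul f D.F → Φ b = ∫ x, f x ∂s bound : ∀ b : X2 M, |Φ (D.pi' b)| ≤ 2 * ∫ x, D.nr (b : F2 E4 M) x ∂s lower : ∀ (b : X2 M) (h : M → ℝ), Continuous h → GeF D.J D.F (b : F2 E4 M) h → ∫ x, h x ∂s ≤ Φ (D.pi' b)  -- `s` is the trace measure of `Φ` (a functional which is `≥ 0` on the cone).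
* def N8a (D : Dat M) : Prop  -- N8a (548 from N8): smoothing of a closed Kaehler current.
* def Goal (D : Dat M) : Prop  -- what has to be proved about the data.

### R240/IfaceR [ns Crest.Agent.R240 / Dat] Row 240 (S0371), INTERFACE of the smoothing package N8 (helper276, with 23, 950, 744, 895, 609, 548, 551, 837, 540). Statements only, no proofs. The kernels are hidden: in the construction `κ` is the type of families `p = (p_1, .., p_N)` of smooth functions on `E4`, `A e p b = ∫ ∏ p_i(z_i) κ₀(z_i) (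
* structure SmPack (D : Dat M) (𝒰 : Cover M) where / -- index type of the kernels - / κ : Type / -- the kernel `p = 1` - / one : κ / -- `|p|_{C^k} ≤ 1` - / cl : ℕ → Set κ / -- `|p|_{C^k} ≤ 1`, `p ≥ 0` - / clp : ℕ → Set κ one_mem : ∀ k, one ∈ clp k clp_sub : ∀ k, clp k ⊆ cl k cl_anti : ∀ k l, k ≤ l → cl l ⊆ cl k clp_anti : ∀ k l, k ≤ l → clp l ⊆ clp k / -- bound of the scales - / e0 : ℝ e0_ …  -- N8: the smoothing package.
* def N9 (D : Dat M) : Prop  -- N9 (551): the monotonicity inequality on `M`.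
* def COV (_D : Dat M) : Prop  -- existence of a cover.

### R240/IntBall [ns Crest.Agent.R240.Int] Row 240, PART INT (helper240): `c r⁴ ≤ μ(B_r(x)) ≤ C r⁴`.
* theorem mu_ball_le (hb : Met.BiLip E4 M) {F : F2 E4 M} (hF : Vol F) : ∃ C : ℝ, 0 < C ∧ ∀ x : M, ∀ r : ℝ, 0 < r → mu F (ball x r) ≤ ENNReal.ofReal (C * r ^ 4)  -- upper bound: `μ(B_r(x)) ≤ C r⁴` for all `r > 0`.
* theorem le_mu_ball (hb : Met.BiLip E4 M) {F : F2 E4 M} (hF : Vol F) (R : ℝ) (hR : 0 < R) : ∃ c : ℝ, 0 < c ∧ ∀ x : M, ∀ r : ℝ, 0 < r → r ≤ R → ENNReal.ofReal (c * r ^ 4) ≤ mu F (ball x r)  -- lower bound: `c r⁴ ≤ μ(B_r(x))` for `0 < r ≤ R`, any `R`.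
* theorem dat_le_ball (D : Dat M) (R : ℝ) (hR : 0 < R) : ∃ c : ℝ, 0 < c ∧ ∀ x : M, ∀ r : ℝ, 0 < r → r ≤ R → ENNReal.ofReal (c * r ^ 4) ≤ D.μ (ball x r)  -- lower bound for the data.

### R240/IntMeas [ns Crest.Agent.R240.Int] Row 240, PART INT (helper240): the volume measure `mu F` of a nondegenerate two-form `F` on `M`, density `|W (rep p F) (rep p F)|` in every chart.
* structure Vol (F : F2 E4 M) : Prop where alt : ∀ x, Alt (at2 F x) cont : ∀ p, ContinuousOn (rep p F) (chartAt E4 p).target ne : ∀ x, W (at2 F x) (at2 F x) ≠ 0  -- nondegenerate continuous two-form: what is needed to define the volume measure.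
* def cimg (p : M) (s : Set M) : Set E4  -- preimage in the chart target
* theorem muc_agree {F : F2 E4 M} (hF : Vol F) (p q : M) {s : Set M} (hs : MeasurableSet s) (hp : s ⊆ (chartAt E4 p).source) (hq : s ⊆ (chartAt E4 q).source) : muc F p s = muc F q s  -- the two chart measures agree on the intersection of the chart domains.

### R240/IntMu [ns Crest.Agent.R240.Int] Row 240, PART INT (helper240): finite smooth partition of unity subordinate to the chart domains and the global volume measure `mu F`.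
* structure PU where t : Finset M χ : M → M → ℝ smooth : ∀ p, ContMDiff 𝓘(ℝ, E4) 𝓘(ℝ, ℝ) ∞ (χ p) nonneg : ∀ p x, 0 ≤ χ p x sum_one : ∀ x, ∑ p ∈ t, χ p x = 1 supp : ∀ p ∈ t, tsupport (χ p) ⊆ (chartAt E4 p).source  -- finite smooth partition of unity subordinate to the chart domains.
* theorem muP_restrict (P : PU M) {F : F2 E4 M} (hF : Vol F) (q : M) : (muP P F).restrict (chartAt E4 q).source = muc F q  -- chart formula: on the domain of the chart at `q` the measure is the chart measure.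
* def mu (F : F2 E4 M) : Measure M  -- the volume measure of a nondegenerate two-form.

### R240/IntNodes [ns Crest.Agent.R240.Int] Row 240, PART INT (helper240): the interface nodes STOKES, VG, COV and the final conversion in the `Goal` form.
* theorem node_VG (D : Dat M) : D.VG  -- node VG.
* theorem node_COV (D : Dat M) : D.COV  -- node COV.
* theorem final_goal {M : Type u} [TopologicalSpace M] [T2Space M] [CompactSpace M] [ConnectedSpace M] [ChartedSpace (EuclideanSpace ℝ (Fin 4)) M] [IsManifold (𝓡 4) ∞ M] (H : ∀ (N : Type u) [MetricSpace N] [CompactSpace N] [ConnectedSpace N] [ChartedSpace E4 N] [IsManifold 𝓘(ℝ, E4) ∞ N] [MeasurableSpace N] [BorelSpace N] (D : Dat N), D.Goal) (J : Π x : M, TangentSpace (𝓡 4) x →L[ …  -- final conversion in the `Goal` form.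

### R240/IntPair [ns Crest.Agent.R240.Int] Row 240, PART INT (helper240): the pairing `I F b c = ∫ q(b,c) dμ_F`, continuity, Stokes on `M`.
* def I (F b c : F2 E4 M) : ℝ  -- the pairing `I(b,c) = ∫ q(b,c) dμ`.
* theorem stokes_chart {F : F2 E4 M} (hF : Vol F) {p : M} {g : M → ℝ} (hg : SmoothF E4 g) (hgs : tsupport g ⊆ (chartAt E4 p).source) {S : F1 E4 M} {D c : F2 E4 M} (hS : ∀ p, ContDiffOn ℝ 1 (rep1 p S) (chartAt E4 p).target) (hD : ∀ p, ∀ y ∈ (chartAt E4 p).target, rep p D y = Ch.d1 (rep1 p S) y) (hDa : ∀ x, Alt (at2 D x)) (hca : ∀ x, Alt (at2 c x)) (hc : ∀ p, ContDiffOn ℝ 1 (rep p  …  -- Stokes in one chart: `∫ (g q(dS,c) + q(dg∧S,c)) dμ = 0` for `g` supported in the chart.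
* theorem stokes_M {F : F2 E4 M} (hF : Vol F) {S : F1 E4 M} {D c : F2 E4 M} (hS : ∀ p, ContDiffOn ℝ 1 (rep1 p S) (chartAt E4 p).target) (hD : ∀ p, ∀ y ∈ (chartAt E4 p).target, rep p D y = Ch.d1 (rep1 p S) y) (hDa : ∀ x, Alt (at2 D x)) (hca : ∀ x, Alt (at2 c x)) (hc : ∀ p, ContDiffOn ℝ 1 (rep p c) (chartAt E4 p).target) (hcl : ∀ p, ∀ y ∈ (chartAt E4 p).target, ClAt (rep p c) y) :  …  -- Stokes on `M`, `C¹` version: `∫ q(dS, c) dμ = 0` for `c` closed.

### R240/IntR4 [ns Crest.Agent.R240.Int] Row 240, PART INT (helper240): Stokes on `ℝ⁴` in the form `∫ W (dS) c = 0`.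
* def IZ (f : E4 → ℝ) : Prop  -- integrable with zero integral
* theorem W_d1_eq {S : E4 → E4 →L[ℝ] ℝ} {c : E4 → Bil} {y : E4} (hS : DifferentiableAt ℝ S y) (hc : DifferentiableAt ℝ c y) (hcl : ClAt c y) : W (d1 S y) (c y) = (fderiv ℝ (Pr S c 1 2 3) y (ee 0) - fderiv ℝ (Pr S c 2 1 3) y (ee 0) + fderiv ℝ (Pr S c 3 1 2) y (ee 0)) + (- fderiv ℝ (Pr S c 0 2 3) y (ee 1) + fderiv ℝ (Pr S c 2 0 3) y (ee 1) - fderiv ℝ (Pr S c 3 0 2) y (ee 1)) + (fde …  -- pointwise: `W (dS) c` is a divergence when `c` is closed.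
* theorem stokes_R4 {S : E4 → E4 →L[ℝ] ℝ} {c : E4 → Bil} {U : Set E4} (hU : IsOpen U) (hS : ContDiff ℝ 1 S) (hcs : HasCompactSupport S) (hsupp : tsupport S ⊆ U) (hc : ContDiffOn ℝ 1 c U) (hcl : ∀ y ∈ U, ClAt c y) : IZ (fun y => W (d1 S y) (c y))  -- Stokes on `ℝ⁴`: `∫ dS ∧ c = 0` for `S` of class `C¹` with compact support in the open set `U` on which `c` is `C¹` and closed.

### R240/IntTop [ns Crest.Agent.R240.Int] Row 240, PART INT (helper240): link with the frozen interface `TopDefs`: `IsVol`, Stokes for `IG`, existence of the data `Dat`, and the final conversion to the frozen statement.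
* theorem dat_stokes (D : Dat M) {b c : F2 E4 M} (hb : IsEx b) (hc : Smooth2 c) (hcl : Closed2 c) : D.I b c = 0  -- Stokes for the data.
* theorem exists_dat {M : Type*} [MetricSpace M] [CompactSpace M] [ChartedSpace E4 M] [IsManifold 𝓘(ℝ, E4) ∞ M] [MeasurableSpace M] [BorelSpace M] (hb : Met.BiLip E4 M) {J : EndF E4 M} (hJ : SmoothJ J) (hJ2 : ∀ x v, atJ J x (atJ J x v) = -v) {al : F2 E4 M} (h1 : Smooth2 al) (h2 : Closed2 al) (h3 : ∀ x v, v ≠ 0 → 0 < at2 al x v (atJ J x v)) : ∃ D : Dat M, D.J = J ∧ D.al = al  -- existence of the data from the hypotheses of `S0371`.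
* theorem final {M : Type u} [TopologicalSpace M] [T2Space M] [CompactSpace M] [ConnectedSpace M] [ChartedSpace (EuclideanSpace ℝ (Fin 4)) M] [IsManifold (𝓡 4) ∞ M] (H : ∀ (N : Type u) [MetricSpace N] [CompactSpace N] [ConnectedSpace N] [ChartedSpace E4 N] [IsManifold 𝓘(ℝ, E4) ∞ N] [MeasurableSpace N] [BorelSpace N] (D : Dat N), ∃ c : F2 E4 N, Smooth2 c ∧ Closed2 c ∧ SPosG D.J c) …  -- final conversion: the frozen statement from the statement about data.

### R240/KAlg [ns Crest.Agent.R240.KLoc] Row 240, Lemma A, team K, part K2 (helper610): pointwise algebra. Key identity: for `J² = -1`, `G` symmetric positive definite `J`-invariant, `R` alternating and `J`-anti-invariant: `antip J (G v ∧ R v) = (1/2) G v v • R`.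
* theorem exists_span {J : E4 →L[ℝ] E4} (hJ : ∀ v, J (J v) = -v) {v : E4} (hv : v ≠ 0) : ∃ w, Submodule.span ℝ (Set.range ![v, J v, w, J w]) = ⊤  -- if `v ≠ 0` there is `w` such that `v, Jv, w, Jw` span.
* theorem anti_eq_zero {J : E4 →L[ℝ] E4} (hJ : ∀ v, J (J v) = -v) {R : Bil} (hR : Alt R) (ha : ∀ u v, R (J u) (J v) = - R u v) {v : E4} (hv : v ≠ 0) (h0 : R v = 0) : R = 0  -- an alternating anti-invariant form which vanishes on one vector `v ≠ 0` is zero.
* theorem antip_wed {J : E4 →L[ℝ] E4} (hJ : ∀ v, J (J v) = -v) {G R : Bil} (hGs : ∀ u v, G u v = G v u) (hGJ : ∀ u v, G (J u) (J v) = G u v) (hR : Alt R) (ha : ∀ u v, R (J u) (J v) = - R u v) (v : E4) : antip J (wed (G v) (R v)) = (1 / 2 * G v v) • R  -- the key identity.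

### R240/KAux [ns Crest.Agent.R240.KLoc] Row 240, Lemma A, team K, part K2 (helper610): integrability facts on `E4`.
* def maj (R : ℝ) (z : E4) : ℝ  -- the majorant.
* theorem aesm_of_contOn {V : Type*} [NormedAddCommGroup V] [NormedSpace ℝ V] {f : E4 → V} (hf : ContinuousOn f {z | z ≠ 0}) : AEStronglyMeasurable f volume  -- continuity off the origin is enough for measurability.
* theorem hasFDerivAt_integral_compact {V : Type*} [NormedAddCommGroup V] [NormedSpace ℝ V] (B : E4 → E4 → V) (B' : E4 → E4 → (E4 →L[ℝ] V)) (K : Set E4) (hK : IsCompact K) (hB : Continuous fun p : E4 × E4 => B p.1 p.2) (hB' : Continuous fun p : E4 × E4 => B' p.1 p.2) (hd : ∀ x y, HasFDerivAt (fun x => B x y) (B' x y) x) (h0 : ∀ x y, y ∉ K → B x y = 0) (h0' : ∀ x y, y ∉ K → B' x y …  -- differentiation under the integral sign: compactly supported in `y`.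

### R240/KId1 [ns Crest.Agent.R240.KLoc] Row 240, Lemma A, team K, part K2 (helper610): derivative of the regularised operator, first representation (uniform in `δ`).
* structure Hyp (g P : E4 → Bil) (θ : E4 → ℝ) (R Cθ : ℝ) : Prop where g_smooth : ContDiff ℝ ∞ g P_smooth : ContDiff ℝ ∞ P P_cpt : HasCompactSupport P θ_smooth : ContDiff ℝ ∞ θ low : Low g θ_supp : ∀ z, R ≤ ‖z‖ → θ z = 0 θ_bd : ∀ z, |θ z| ≤ Cθ  -- standing hypotheses on `g, P, θ`.
* theorem Hyp.hasFDerivAt_int (h : Hyp g P θ R Cθ) {δ : ℝ} (hδ : 0 ≤ δ) (x : E4) : HasFDerivAt (fun x => ∫ z, FF g P θ δ x z) (∫ z, FD g P θ δ x z) x  -- first representation of the derivative.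
* theorem Hyp.tendsto_int (h : Hyp g P θ R Cθ) (x : E4) : Tendsto (fun r : ℝ => ∫ z, FD g P θ (r ^ 2) x z) (𝓝[>] 0) (𝓝 (∫ z, FD g P θ 0 x z))  -- the limit `δ = r² → 0`.

### R240/KId2 [ns Crest.Agent.R240.KLoc] Row 240, Lemma A, team K, part K2 (helper610): second representation of the derivative of the regularised operator (`δ > 0`).
* structure HypJ (J : E4 → E4 →L[ℝ] E4) (P : E4 → Bil) (θ : E4 → ℝ) (R Cθ : ℝ) : Prop where J_smooth : ContDiff ℝ ∞ J P_smooth : ContDiff ℝ ∞ P P_cpt : HasCompactSupport P P_alt : ∀ y, Alt (P y) P_anti : ∀ y u v, P y (J y u) (J y v) = - P y u v J_sq : ∀ y, P y ≠ 0 → ∀ v, J y (J y v) = -v θ_smooth : ContDiff ℝ ∞ θ θ_supp : ∀ z, R ≤ ‖z‖ → θ z = 0 θ_bd : ∀ z, |θ z| ≤ Cθ dθ_supp : ∀  …  -- all hypotheses for the identity.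
* def MM (J : E4 → E4 →L[ℝ] E4) (P : E4 → Bil) (θ : E4 → ℝ) (δ : ℝ) (x z : E4) : Bil  -- the main term.
* def RR (J : E4 → E4 →L[ℝ] E4) (P : E4 → Bil) (θ : E4 → ℝ) (δ : ℝ) (x z : E4) : Bil  -- the remainder.

### R240/KId3 [ns Crest.Agent.R240.KLoc] Row 240, Lemma A, team K, part K2 (helper610): limit of the main term.
* def cc (A : E4 →L[ℝ] E4) : ℝ  -- the constant `c(A) = ∫ 2 (G_A w w + 1)⁻³ dw`.
* def MS (J : E4 → E4 →L[ℝ] E4) (P : E4 → Bil) (θ : E4 → ℝ) (x : E4) (r : ℝ) (w : E4) : Bil  -- the rescaled main term.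

### R240/KId4 [ns Crest.Agent.R240.KLoc] Row 240, Lemma A, team K, part K2 (helper610): the remainder and the identity.
* theorem HypJ.main (h : HypJ J P θ R Cθ) (h1 : θ 0 = 1) (x : E4) : antiL (J x) (altL (fderiv ℝ (fun x => ∫ z, FF (gJ J) P θ 0 x z) x)) = cc (J x) • P x + ∫ z, RR J P θ 0 x z  -- THE IDENTITY.

### R240/KInt [ns Crest.Agent.R240.KLoc] Row 240, Lemma A, team K, part K2 (helper610): smoothness of parametric integrals with dominated derivatives of all orders.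
* structure PInt (ν : Measure Z) (U : Set Z) (F : E → Z → V) : Prop where smooth : ContDiffOn ℝ ∞ (fun p : E × Z => F p.1 p.2) (univ ×ˢ U) bound : ∀ j : ℕ, ∃ b : Z → ℝ, Integrable b ν ∧ ∀ y, ∀ z ∈ U, ‖iteratedFDeriv ℝ j (fun y => F y z) y‖ ≤ b z  -- jointly smooth families `F y z`, `z ∈ U`, all of whose `y`-derivatives are dominated by integrable functions of `z`.

### R240/KKer [ns Crest.Agent.R240.KLoc] Row 240, Lemma A, team K, part K2 (helper610): continuous linear maps used by the kernels, and the frozen kernel `v ↦ (G v v + δ)⁻² • R v`.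
* def GG (A : E4 →L[ℝ] E4) : Bil  -- the metric `G y u v = ⟪u,v⟫ + ⟪J y u, J y v⟫`.
* def frozD (G R : Bil) (δ : ℝ) (v : E4) : Bil  -- derivative of the frozen kernel.
* theorem antip_frozD {J : E4 →L[ℝ] E4} (hJ : ∀ v, J (J v) = -v) {G R : Bil} (hGs : ∀ u v, G u v = G v u) (hGJ : ∀ u v, G (J u) (J v) = G u v) (hR : Alt R) (ha : ∀ u v, R (J u) (J v) = - R u v) {δ : ℝ} {v : E4} (hpos : 0 < G v v + δ) : antiL J (altL (frozD G R δ v)) = (2 * δ * (G v v + δ)⁻¹ ^ 3) • R  -- the exact regularised identity.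

### R240/Kern [ns Crest.Agent.R240.Kern] # Row 240: dyadic kernel estimates in metric measure spaces `ker b r = (ofReal r ^ b)⁻¹ : ℝ≥0∞` (value `⊤` at `r ≤ 0`, `b ≥ 1`). Growth hypothesis of a measure: `∀ r > 0, s (ball x r) ≤ ENNReal.ofReal (A * r ^ a)`. * `lintegral_ker_add` : `∫ ker (a+c) (d+ε) ds ≤ 2^(a+c+1) A / ε^c`, `c ≥ 1` * `setLIn
* theorem setLIntegral_ker (s : Measure X) (x : X) {b c : ℕ} (hc : 1 ≤ c) {A R : ℝ} (hs : ∀ r : ℝ, 0 < r → s (ball x r) ≤ ENNReal.ofReal (A * r ^ (b + c))) (hA : 0 ≤ A) (hR : 0 < R) : ∫⁻ y in ball x R, ker b (dist x y) ∂s ≤ ENNReal.ofReal (2 ^ (b + 1) * A * R ^ c)  -- Growth estimate, scales going down.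
* theorem comp_ker_pos (μ : Measure X) {a p q c : ℕ} (hpa : p < a) (hqa : q < a) (hpq : p + q = a + c) (hc : 1 ≤ c) {A : ℝ} (hA : 0 ≤ A) (hμ : ∀ (x : X) (r : ℝ), 0 < r → μ (ball x r) ≤ ENNReal.ofReal (A * r ^ a)) (x y : X) {ε : ℝ} (hε : 0 ≤ ε) (hD : 0 < dist x y + ε) : ∫⁻ z, ker p (dist x z) * ker q (dist z y + ε) ∂μ ≤ ENNReal.ofReal (2 ^ (5 * a + 2) * A) * ker c (dist x y + ε)  -- Riesz composition (all of space, three regions). `a` = dimension, `p, q < a`, `p + q = a + c`, `c ≥ 1`, `ε ≥ 0`, and `d x y + ε > 0`.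
* theorem comp_ker (μ : Measure X) {a p q c : ℕ} (hpa : p < a) (hqa : q < a) (hpq : p + q = a + c) (hc : 1 ≤ c) {A : ℝ} (hA : 0 < A) (hμ : ∀ (x : X) (r : ℝ), 0 < r → μ (ball x r) ≤ ENNReal.ofReal (A * r ^ a)) (x y : X) {ε : ℝ} (hε : 0 ≤ ε) : ∫⁻ z, ker p (dist x z) * ker q (dist z y + ε) ∂μ ≤ ENNReal.ofReal (2 ^ (5 * a + 2) * A) * ker c (dist x y + ε)  -- Riesz composition, without the positivity assumption on `d x y + ε` (needs `A > 0`).

### R240/Lin1 [ns Crest.Agent.R240] Row 240, PART L (helper798): pointwise linear algebra of two-forms on `E4`. `W b c` = coefficient of `b ∧ c` w.r.t. the standard volume form, `pull A b = A^* b`.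
* structure Pos (J : E4 →L[ℝ] E4) (P : Bil) : Prop where alt : Alt P inv : ∀ u v, P (J u) (J v) = P u v nonneg : ∀ v, 0 ≤ P v (J v)  -- `P` is a (semi-)positive `J`-invariant two-form: `P(v, J v) ≥ 0`.
* structure SPos (J : E4 →L[ℝ] E4) (F : Bil) : Prop where alt : Alt F inv : ∀ u v, F (J u) (J v) = F u v pos : ∀ v, v ≠ 0 → 0 < F v (J v)  -- `F` is a strictly positive `J`-invariant two-form.
* def Jc (J : E4 →L[ℝ] E4) (ξ : E4 →L[ℝ] ℝ) : E4 →L[ℝ] ℝ  -- `J` acting on a covector with the sign `(d^c) : (Jc ξ)(v) = - ξ (J v)`; then `ξ ∧ Jc ξ` is positive [`(ξ ∧ Jc ξ)(v, J v) = ξ(v)^2 + ξ(J v)^2`].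

### R240/Lin2 [ns Crest.Agent.R240] Row 240, PART L (helper798): unitary frames for `(J, F)`.
* def pr (i : Fin 4) : E4 →L[ℝ] ℝ  -- coordinate covectors.
* def om0 : Bil  -- The standard symplectic form on `E4`.
* structure IsFrame (J : E4 →L[ℝ] E4) (F : Bil) (A : E4 ≃L[ℝ] E4) : Prop where form : ∀ u v, F (A u) (A v) = om0 u v cplx : ∀ v, J (A v) = A (J0 v)  -- `A` is a unitary frame for `(J, F)`.

### R240/Lin3 [ns Crest.Agent.R240] Row 240, PART L (helper798): pointwise inequalities for two-forms on `(E4, J, F)`.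
* theorem inv0_ent {b : Bil} (hb : ∀ u v, b (J0 u) (J0 v) = b u v) : ent b 1 3 = ent b 0 2 ∧ ent b 1 2 = - ent b 0 3  -- entries of a `J0`-invariant form
* theorem anti0_ent {b : Bil} (halt : Alt b) (hb : ∀ u v, b (J0 u) (J0 v) = - b u v) : ent b 1 3 = - ent b 0 2 ∧ ent b 1 2 = ent b 0 3 ∧ ent b 0 1 = 0 ∧ ent b 2 3 = 0  -- entries of a `J0`-anti-invariant form
* theorem pos0_ent {P : Bil} (halt : Alt P) (hi : ∀ u v, P (J0 u) (J0 v) = P u v) (hp : ∀ v, 0 ≤ P v (J0 v)) : 0 ≤ ent P 0 1 ∧ 0 ≤ ent P 2 3 ∧ ent P 0 2 ^ 2 + ent P 0 3 ^ 2 ≤ ent P 0 1 * ent P 2 3  -- entries of a nonnegative `J0`-invariant form: the Hermitian matrix is positive semidefinite.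

### R240/Lin4 [ns Crest.Agent.R240 / Bd] Row 240, PART L (helper798): pointwise inequalities for two-forms on `(E4, J, F)`. `Bd J F m M`: `J² = -1`, `F` is `J`-invariant, positive, `m |v|² ≤ F(v, Jv) ≤ M |v|²`.
* structure Bd (J : E4 →L[ℝ] E4) (F : Bil) (m M : ℝ) : Prop where sq : ∀ v, J (J v) = -v spos : SPos J F m_pos : 0 < m lo : ∀ v, m * ‖v‖ ^ 2 ≤ F v (J v) hi : ∀ v, F v (J v) ≤ M * ‖v‖ ^ 2  -- normalisation data at a point
* theorem q_self_ge (h : Bd J F m M) {X : Bil} {s : ℝ} (hX : Pos J (X + s • F)) : - 2 * s * q F X F - s ^ 2 ≤ q F X X  -- if `X + sF ≥ 0` (`X` invariant) then `q(X,X) ≥ -2 s q(X,F) - s²`.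
* theorem norm_le_of_pos_add (h : Bd J F m M) {X : Bil} {s : ℝ} (hs : 0 ≤ s) (hX : Pos J (X + s • F)) : ‖X‖ ≤ 2 * M * (q F X F + s) + s * ‖F‖  -- `|X| ≤ 2 M (q(X,F) + s) + s |F|` when `X + sF ≥ 0`.

### R240/Lin5 [ns Crest.Agent.R240 / Bd] Row 240, PART L (helper798): Cauchy–Schwarz, (Q), order unit.
* theorem Q_lower {J J1 : E4 →L[ℝ] E4} (hJ1 : ∀ v, J1 (J1 v) = -v) {X : Bil} (hX : Pos J1 X) (v : E4) : - (1 / 4 * ‖J - J1‖ ^ 2 * ‖J1‖ * ‖X‖ * ‖v‖ ^ 2) ≤ X v (J v)  -- (Q), first half: `X(v,Jv) ≥ -(1/4) |J - J1|² |J1| |X| |v|²`.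
* theorem Q_anti {J J1 : E4 →L[ℝ] E4} {X : Bil} (hX : ∀ u v, X (J1 u) (J1 v) = X u v) : ‖antip J X‖ ≤ 1 / 2 * ‖J - J1‖ * (‖J1‖ + ‖J‖) * ‖X‖  -- (Q), second half: the anti-invariant part is small.
* theorem Q_inv {J J1 : E4 →L[ℝ] E4} {X : Bil} (hX : ∀ u v, X (J1 u) (J1 v) = - X u v) : ‖invp J X‖ ≤ 1 / 2 * ‖J - J1‖ * (‖J1‖ + ‖J‖) * ‖X‖  -- a `J1`-anti-invariant form has small `J`-invariant part.

### R240/Lin6 [ns Crest.Agent.R240 / Bd] Row 240, PART L (helper798): the Hodge inner product `ip J F`, the fibre norm `nsq J F` (proposal of helper744), the star operator, comparison with the operator norm, self-duality of the positive cone.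
* theorem pos_sqrt_nsq_le (h : Bd J F m M) {P : Bil} (hP : Pos J P) : Real.sqrt (nsq J F P) ≤ Real.sqrt 2 * q F P F  -- `|P| ≤ √2 q(P,F)` for `P ≥ 0`.
* theorem pos_add_nsq (h : Bd J F m M) {P : Bil} (hP : Alt P) : Pos J (invp J P + (Real.sqrt 2 * Real.sqrt (nsq J F P)) • F)  -- `P' + √2 |P| F ≥ 0` for every two-form.
* theorem pos_of_q_nonneg (h : Bd J F m M) {X : Bil} (hX : Alt X) (hq : ∀ P, Pos J P → 0 ≤ q F X P) : Pos J (invp J X)  -- the positive cone is self-dual.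

### R240/Lk1 [ns Crest.Agent.R240.Lk] # Row 240, LEAK (helper895), part 1: Fourier series with parameters on `d → ℝ` Real trigonometric system `cos (2π n·w)`, `sin (2π n·w)`, `n : d → ℤ`, and the expansion of jointly smooth functions `H (y, w)`, supported (in `w`) in a cube inside the open unit cube.
* def tg (s : Bool) (t : ℝ) : ℝ  -- the trigonometric functions; `false`: cosine, `true`: sine.
* def phL (n : d → ℤ) : (d → ℝ) →L[ℝ] ℝ  -- the phase as a continuous linear map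
* def sg (s : Bool) : ℝ  -- sign of the derivative: `tg s' = sg s * tg (!s)`

### R240/Lk10 [ns Crest.Agent.R240.Lk] # Row 240, LEAK (helper895, 404, 461): the field `leak` of the smoothing package
* theorem fLeak (D : Dat M) (𝒰 : Cover M) (S : Sys M) : FLeak D 𝒰 S  -- the exact leak estimate

### R240/Lk2 [ns Crest.Agent.R240.Lk] # Row 240, LEAK (helper895), part 2: coefficients of jointly smooth functions
* structure Adm (Y0 : Set Y) (H : Y × (d → ℝ) → V) : Prop where smooth : ContDiffOn ℝ ∞ H (Y0 ×ˢ univ) supp : ∀ y ∈ Y0, ∀ w ∉ Kc d, H (y, w) = 0  -- admissible: jointly smooth, supported in the cube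
* def coef (s : Bool) (n : d → ℤ) (H : Y × (d → ℝ) → V) (y : Y) : V  -- the Fourier coefficients
* def Phi (V : Type) [NormedAddCommGroup V] [NormedSpace ℝ V] (s : Bool) (n : d → ℤ) : C(Kc d, V) →L[ℝ] V  -- the coefficient as a continuous linear map on `C(Kc, V)`

### R240/Lk3 [ns Crest.Agent.R240.Lk] # Row 240, LEAK (helper895), part 3: decay of the coefficients (integration by parts)
* def TT (H : Y × (d → ℝ) → V) : Y × (d → ℝ) → V  -- `∏_a (1 - (4π²)⁻¹ ∂_a²)`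
* def TTr (r : ℕ) (H : Y × (d → ℝ) → V) : Y × (d → ℝ) → V  -- iterated
* theorem coef_decay {Y0 : Set Y} (hY : IsOpen Y0) {H : Y × (d → ℝ) → V} (hH : Adm Y0 H) {K : Set Y} (hK : IsCompact K) (hKY : K ⊆ Y0) (j r : ℕ) : ∃ C, 0 ≤ C ∧ ∀ s n, ∀ y ∈ K, ‖iteratedFDeriv ℝ j (coef s n H) y‖ ≤ C * (wt n ^ r)⁻¹  -- decay of the coefficients with all their derivatives, uniformly on compact sets

### R240/Lk4 [ns Crest.Agent.R240.Lk] # Row 240, LEAK (helper895), part 4: pointwise convergence of the Fourier expansion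
* def per (F : (d → ℝ) → ℝ) (w : d → ℝ) : ℝ  -- the periodisation of a function supported in `Kc`
* def tor (F : (d → ℝ) → ℝ) (x : UnitAddTorus d) : ℂ  -- the function on the torus
* theorem hasSum_scalar {F : (d → ℝ) → ℝ} (hF : Continuous F) (h0 : ∀ w ∉ Kc d, F w = 0) (hs : ∀ s, Summable fun n : d → ℤ => ‖∫ w, tg s (ph n w) * F w‖) {w : d → ℝ} (hw : ∀ i, w i ∈ Icc (0:ℝ) 1) : HasSum (fun n : d → ℤ => tg false (ph n w) * (∫ w, tg false (ph n w) * F w) + tg true (ph n w) * ∫ w, tg true (ph n w) * F w) (F w)  -- pointwise convergence, real scalar case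

### R240/Lk5 [ns Crest.Agent.R240.Lk] # Row 240, LEAK (helper895), part 5: vector valued Fourier series and the product form * `hasSum_vec` : pointwise convergence for functions with values in a Banach space; * `tg_sum` : `tg s (∑ θ_i)` as a finite combination of products `∏ tg (σ_i) θ_i`; * `hasSum_prod` : the series with product kerne
* def tf (ν : Ix ι) (i : ι) (z : E4) : ℝ  -- the one-factor multiplier
* theorem hasSum_expand {c : (ι × Fin 4 → ℤ) × Bool → V} (hc : ∀ s, Summable fun n => ‖c (n, s)‖) (z : ι → E4) {v : V} (h1 : HasSum (fun n : ι × Fin 4 → ℤ => tg false (ph n (wz z)) • c (n, false) + tg true (ph n (wz z)) • c (n, true)) v) : HasSum (fun ν : Ix ι => (∏ i, tf ν i (z i)) • (cs ν.1.2 ν.2 • c ν.1)) v  -- regrouping of a Fourier series into products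
* theorem hasSum_prod {F : (ι × Fin 4 → ℝ) → V} (hF : Continuous F) (h0 : ∀ w ∉ Kc _, F w = 0) (hs : ∀ s, Summable fun n : ι × Fin 4 → ℤ => ‖∫ w, tg s (ph n w) • F w‖) {z : ι → E4} (hz : ∀ i, ‖z i‖ ≤ 4) : HasSum (fun ν : Ix ι => (∏ i, tf ν i (z i)) • (cs ν.1.2 ν.2 • ∫ w, tg ν.1.2 (ph ν.1.1 w) • F w)) (F (wz z))  -- the expansion with product kernels

### R240/Lk6 [ns Crest.Agent.R240.Lk] # Row 240, LEAK (helper895), part 6: division by the scale, cut-off of jointly smooth families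
* theorem exists_div [FiniteDimensional ℝ Z] {U : Set Z} (hU : IsOpen U) (hs : ∀ z ∈ U, ∀ t ∈ Icc (0 : ℝ) 1, t • z ∈ U) {β : Z → F2 E4 M} (hβ : JSm U β) (h0 : ∀ x, at2 (β 0) x = 0) : ∃ δ : ℝ × Z → F2 E4 M, JSm {p : ℝ × Z | p.1 • p.2 ∈ U} δ ∧ ∀ (e : ℝ) (z : Z), e • z ∈ U → ∀ x, at2 (β (e • z)) x = e • at2 (δ (e, z)) x  -- division by the scale.
* theorem jsm_cut {W0 W : Set Z} (hW0 : IsOpen W0) {f : Z → ℝ} (hf : ContDiff ℝ ∞ f) (hcov : ∀ z ∈ W, z ∈ W0 ∨ z ∉ tsupport f) {β : Z → F2 E4 M} (hβ : JSm W0 β) : JSm W (fun z => f z • β z)  -- cut-off of a jointly smooth family.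

### R240/Lk7 [ns Crest.Agent.R240.Lk] # Row 240, LEAK (helper895), part 7: Fourier expansion of jointly smooth families of forms `exists_fou` : for a jointly smooth family `β` on `U ⊆ (ι → E4)` with `β 0 = 0`, the family `β (e • z)` is `∑_ν (∏ i, tf ν i (z i)) e c_ν(e)` for `‖z i‖ ≤ 1`, with smooth forms `c_ν(e)` that decrease rapidly i
* def HH (q : M) (ρ : ℝ) (hρ : 1 < ρ) (δ : ℝ × (ι → E4) → F2 E4 M) (p : (ℝ × E4) × (ι × Fin 4 → ℝ)) : Bil  -- the family in a chart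
* def cf (s : Bool) (n : ι × Fin 4 → ℤ) (ρ : ℝ) (hρ : 1 < ρ) (δ : ℝ × (ι → E4) → F2 E4 M) (e : ℝ) : F2 E4 M  -- the coefficient forms
* theorem exists_fou (𝒰 : Cover M) {U : Set (ι → E4)} (hU : IsOpen U) (hs : ∀ z ∈ U, ∀ t ∈ Icc (0:ℝ) 1, t • z ∈ U) {e0 e1 ρ : ℝ} (h00 : 0 ≤ e0) (h01 : e0 < e1) (hρ : 1 < ρ) (hρ2 : ρ ≤ 7 / 2) (hin : ∀ e : ℝ, |e| < e1 → ∀ z : ι → E4, (∀ i, ‖z i‖ ≤ ρ) → e • z ∈ U) {β : (ι → E4) → F2 E4 M} (hβ : JSm U β) (h0 : ∀ x, at2 (β 0) x = 0) : ∃ c : Ix ι → ℝ → F2 E4 M, (∀ ν, ∀ e ∈ Icc 0 e0, Sm …  -- FOURIER EXPANSION of a jointly smooth family, divided by the scale.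

### R240/Lk8 [ns Crest.Agent.R240.Lk] # Row 240, LEAK (helper895), part 8: functionals of finite order and series of forms
* theorem hasSum_L_nat [T2Space M] (𝒰 : Cover M) (c : ℕ → X2 M) (hs : ∀ l, Summable fun n => 𝒰.cm l (c n : F2 E4 M)) (S : X2 M) (hS : ∀ x, HasSum (fun n => at2 (c n : F2 E4 M) x) (at2 (S : F2 E4 M) x)) (L : X2 M →ₗ[ℝ] ℝ) {m : ℕ} {K : ℝ} (hL : ∀ b : X2 M, |L b| ≤ K * 𝒰.cm m (b : F2 E4 M)) : HasSum (fun n => L (c n)) (L S)  -- functionals of finite order commute with series, sequences.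
* theorem hasSum_L [T2Space M] (𝒰 : Cover M) {I : Type} [Countable I] (c : I → X2 M) (hs : ∀ l, Summable fun i => 𝒰.cm l (c i : F2 E4 M)) (S : X2 M) (hS : ∀ x, HasSum (fun i => at2 (c i : F2 E4 M) x) (at2 (S : F2 E4 M) x)) (L : X2 M →ₗ[ℝ] ℝ) {m : ℕ} {K : ℝ} (hL : ∀ b : X2 M, |L b| ≤ K * 𝒰.cm m (b : F2 E4 M)) : HasSum (fun i => L (c i)) (L S)  -- functionals of finite order commute with series.
* theorem fLeak_of (D : Dat M) (𝒰 : Cover M) (S : Sys M) (T : Ix (Fin S.n) → (Fin S.n → KF) → Fin S.n → KF) (h1 : ∃ e1 : ℝ, 0 < e1 ∧ (∀ e, 0 < e → e ≤ e1 → S.Ok e) ∧ ∃ E : ℝ → Ix (Fin S.n) → X2 M → X2 M, (∀ r : ℕ, ∃ C : ℝ, 0 ≤ C ∧ ∀ e, 0 < e → e ≤ e1 → ∀ ν (P : X2 M), D.n2 (E e ν P : F2 E4 M) ≤ C * (wt ν.1.1 ^ r)⁻¹ * D.n2 (P : F2 E4 M)) ∧ (∀ e, 0 < e → e ≤ e1 → ∀ q ∈ ClK S.n 0, ∀ …  -- the leak from the series (404's `hasSum_leak`) and the bound of multiplied kernels.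

### R240/Lk9 [ns Crest.Agent.R240.Lk.MB] # Row 240, LEAK (helper895): bounds of the multiplied kernels
* def thL (n : Fin 4 → ℤ) : E4 →L[ℝ] ℝ  -- the linear part of the phase
* theorem mult_bound (N k : ℕ) : ∃ C : ℝ, 1 ≤ C ∧ ∀ q ∈ ClK N k, ∀ ν : Ix (Fin N), ∀ i : Fin N, ∀ j ≤ k, ∀ z ∈ closedBall (0 : E4) 1, ‖iteratedFDeriv ℝ j (fun z => (q i).1 z * tf ν i z) z‖ ≤ C * wt ν.1.1 ^ k  -- bounds of multiplied kernels

### R240/LkF [ns Crest.Agent.R240.Leak] # Row 240, block R (smoothing), FUBINI (helper404) The composition of one-chart averages is one average over the product of the parameter spaces.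
* theorem at2_AA [T2Space M] : ∀ {N : ℕ} {G : Fin N → Fam E4} {p : Fin N → M} (_ : HG G p) {κ : Fin N → E4 → ℝ} {e : ℝ} (_ : AdmK G κ e) {b : F2 E4 M} (_ : Smooth2 b) (x : M), at2 (AA G p κ e (List.finRange N) b) x = ∫ z : Fin N → E4, kp κ z • at2 (PP G p (List.finRange N) (e • z) b) x  -- FUBINI
* theorem at2_AL_of [T2Space M] {G : ι → Fam E4} {p : ι → M} (hG : HG G p) {κ : ι → E4 → ℝ} {e : ℝ} (h : AdmK G κ e) {n : ℕ} (σ : Fin n ≃ ι) {b : F2 E4 M} (hb : Smooth2 b) (x : M) : at2 (AA G p κ e ((List.finRange n).map σ) b) x = ∫ z : ι → E4, (∏ i, κ i (z i)) • at2 (PP G p ((List.finRange n).map σ) (e • z) b) x  -- FUBINI, for an enumeration of the index type.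
* theorem at2_AL [T2Space M] {G : ι → Fam E4} {p : ι → M} (hG : HG G p) {κ : ι → E4 → ℝ} {e : ℝ} (h : AdmK G κ e) {l : List ι} (hl : l.Nodup) (hm : ∀ i, i ∈ l) {b : F2 E4 M} (hb : Smooth2 b) (x : M) : at2 (Sm7.AL G p κ l e b) x = ∫ z : ι → E4, (∏ i, κ i (z i)) • at2 (PP G p l (e • z) b) x  -- FUBINI, general index type: `l` enumerates `ι`.

### R240/LkG [ns Crest.Agent.R240.Leak] # Row 240, LEAK (helper404): a global finite frame of smooth two-forms; `L²` lemmas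
* theorem exists_frame (D : Dat M) : ∃ (n : ℕ) (c : Fin n → X2 M) (f : Fin n → X2 M →ₗ[ℝ] (M → ℝ)) (C : ℝ), 0 ≤ C ∧ (∀ j b, SmoothF E4 (f j b)) ∧ (∀ (b : X2 M) x, at2 b.1 x = ∑ j, f j b x • at2 (c j).1 x) ∧ (∀ j (b : X2 M) x, |f j b x| ≤ C * D.nr b.1 x)  -- a global finite frame with coefficient functionals.
* theorem n2_mono (D : Dat M) {b c : F2 E4 M} (hb : Smooth2 b) (hc : Smooth2 c) {K : ℝ} (hK : 0 ≤ K) (h : ∀ x, D.nr b x ≤ K * D.nr c x) : D.n2 b ≤ K * D.n2 c  -- monotonicity of the `L²` norm.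
* theorem n2_fmul_le (D : Dat M) {b g : F2 E4 M} (hb : Smooth2 b) {f : M → ℝ} (hfg : Smooth2 (fmul f g)) {K C : ℝ} (hK : 0 ≤ K) (hC : 0 ≤ C) (h1 : ∀ x, D.nr g x ≤ K) (h2 : ∀ x, |f x| ≤ C * D.nr b x) : D.n2 (fmul f g) ≤ K * C * D.n2 b  -- `‖f g‖₂ ≤ K C ‖b‖₂` if `|g| ≤ K` and `|f| ≤ C |b|`.

### R240/LkH [ns Crest.Agent.R240.Lk] # Row 240, LEAK: scaling of the kernels (helper461)
* theorem A_mulK (S : Sys M) [T2Space M] {e : ℝ} (h : S.Ok e) (c : ℝ) (q : Fin S.n → KF) (b : X2 M) : S.A e (mulK c q) b = (c ^ S.n) • S.A e q b  -- scaling of all the kernels.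
* theorem A_tfK_bound_of (S : Sys M) [T2Space M] (k : ℕ) {C : ℝ} (hC : 1 ≤ C) (hmult : ∀ q ∈ ClK S.n k, ∀ ν : Ix (Fin S.n), ∀ i : Fin S.n, ∀ j ≤ k, ∀ z ∈ closedBall (0 : E4) 1, ‖iteratedFDeriv ℝ j (fun z => (q i).1 z * tf ν i z) z‖ ≤ C * wt ν.1.1 ^ k) : ∀ e, S.Ok e → ∀ (L : X2 M →ₗ[ℝ] ℝ) (F : X2 M → ℝ) (n : ℝ), 0 ≤ n → (∀ b, 0 ≤ F b) → (∀ p ∈ ClK S.n k, ∀ b, |L (S.A e p b)| ≤ n * …  -- bounds for kernels multiplied by trigonometric factors, from the multiplier bound.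

### R240/LkH0 [ns Crest.Agent.R240.Lk] # Row 240, LEAK: multiplied kernels (helper461)
* def mulK {N : ℕ} (c : ℝ) (q : Fin N → KF) : Fin N → KF  -- all kernel factors multiplied by a constant.
* def tfK {N : ℕ} (ν : Ix (Fin N)) (q : Fin N → KF) : Fin N → KF  -- the kernel factors multiplied by the trigonometric factors.

### R240/LkMb [ns Crest.Agent.R240.Lk] Row 240, N8 field `leak` (helper915): the multiplier bound.
* def thL (n : Fin 4 → ℤ) : E4 →L[ℝ] ℝ  -- linear part of the phase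
* theorem mult_bound' (N k : ℕ) : ∃ C : ℝ, 1 ≤ C ∧ ∀ q ∈ ClK N k, ∀ ν : Ix (Fin N), ∀ i : Fin N, ∀ j ≤ k, ∀ z ∈ closedBall (0 : E4) 1, ‖iteratedFDeriv ℝ j (fun z => (q i).1 z * tf ν i z) z‖ ≤ C * wt ν.1.1 ^ k  -- the multiplier bound.

### R240/LkP [ns Crest.Agent.R240.Leak] # Row 240, LEAK (helper404): the Fourier series of the leak `hasSum_leak` : for a `J`-invariant form, the anti-invariant part of `S.A e q (D.pi' P)` is `e` times a rapidly converging series of terms `S.A e (tfK ν q) (E e ν P)`.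
* lemma hasSum_z {N n : ℕ} {J : EndF E4 M} {G : Fin N → Fam E4} {p : Fin N → M} {l : List (Fin N)} (hG : HG G p) {c : Fin n → X2 M} {f : Fin n → X2 M →ₗ[ℝ] (M → ℝ)} (hf : ∀ j b, SmoothF E4 (f j b)) (hfr : ∀ (b : X2 M) x, at2 b.1 x = ∑ j, f j b x • at2 (c j).1 x) {d : Fin n → Ix (Fin N) → ℝ → X2 M} {e : ℝ} {z : Fin N → E4} (hz : e • z ∈ UU G) (hd : ∀ j x, HasSum (fun ν : Ix (Fin N …  -- the expansion of the leak for fixed parameters.
* def antiL (J : E4 →L[ℝ] E4) : Bil →L[ℝ] Bil  -- `antip` as a continuous linear map.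
* theorem hasSum_leak (D : Dat M) (𝒰 : Cover M) (S : Sys M) : ∃ e1 : ℝ, 0 < e1 ∧ (∀ e, 0 < e → e ≤ e1 → S.Ok e) ∧ ∃ E : ℝ → Ix (Fin S.n) → X2 M → X2 M, (∀ r : ℕ, ∃ C : ℝ, 0 ≤ C ∧ ∀ e, 0 < e → e ≤ e1 → ∀ ν (P : X2 M), D.n2 (E e ν P : F2 E4 M) ≤ C * (wt ν.1.1 ^ r)⁻¹ * D.n2 (P : F2 E4 M)) ∧ (∀ e, 0 < e → e ≤ e1 → ∀ q ∈ ClK S.n 0, ∀ P : X2 M, (∀ l : ℕ, Summable fun ν => 𝒰.cm l (S.A e …  -- THE SERIES OF THE LEAK

### R240/LkP1 [ns Crest.Agent.R240.Leak] # Row 240, LEAK (helper404): bounds for the composed pull-backs and for the operators `S.A e q`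
* def CC (n : ℕ) (e : ℝ) : Set (Fin n → E4)  -- the compact set of parameters.

### R240/LkQ [ns Crest.Agent.R240.Lk] # Row 240, LEAK (helper895), part Q: bounds of the composed pull-backs and the interchange of the series and the integral.
* theorem PP_bd (𝒰 : Cover M) (S : Sys M) {e1 : ℝ} (h : ∀ i, e1 < (S.c i).z0) (m : ℕ) : ∃ A : ℝ, 0 ≤ A ∧ ∀ b : F2 E4 M, Smooth2 b → ∀ e, 0 ≤ e → e ≤ e1 → ∀ z : Fin S.n → E4, (∀ i, ‖z i‖ ≤ 1) → ∀ i, ∀ y ∈ 𝒰.K i, ∀ j ≤ m, ‖iteratedFDeriv ℝ j (rep (𝒰.p i) (PS' S (e • z) b)) y‖ ≤ A * 𝒰.cm m b  -- uniform `C^m` bounds of the composed pull-backs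
* theorem cm_A_tfK (𝒰 : Cover M) (S : Sys M) {e1 : ℝ} (h : ∀ i, e1 < (S.c i).z0) (m : ℕ) : ∃ C : ℝ, 0 ≤ C ∧ ∀ e, 0 < e → e ≤ e1 → ∀ q ∈ ClK S.n 0, ∀ ν (b : X2 M), 𝒰.cm m (S.A e (tfK ν q) b : F2 E4 M) ≤ C * 𝒰.cm m (b : F2 E4 M)  -- `C^m` bounds, uniform in the multiplier
* theorem interchange (𝒰 : Cover M) (S : Sys M) {e : ℝ} (hok : S.Ok e) {q : Fin S.n → KF} (hq : q ∈ ClK S.n 0) (B : Ix (Fin S.n) → X2 M) (hB : Summable fun ν => 𝒰.cm 0 (B ν : F2 E4 M)) (x : M) (V : (Fin S.n → E4) → Bil) (hV : ∀ z : Fin S.n → E4, (∀ i, ‖z i‖ ≤ 1) → HasSum (fun ν => (∏ i, tf ν i (z i)) • at2 (PS' S (e • z) (B ν)) x) (V z)) : HasSum (fun ν => at2 (S.A e (tfK ν q) (B …  -- interchange of the series and the integral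

### R240/LkT [ns Crest.Agent.R240.Leak] # Row 240, block R (smoothing), LEAK part (ii) (helper404) Composed one-chart pull-backs `PP z`, their inverses `QQ z`, the conjugated projections `TT z = QQ z ∘ bpp J ∘ PP z`; joint smoothness; tensoriality.
* theorem JAt.pullG [T2Space M] {G : Fam E} {p : M} (hG : G.K ⊆ (chartAt E p).target) {ζ : W → E} {β : W → F2 E M} {w : W} {x : M} (hζ : ContDiffAt ℝ ∞ ζ w) (hz : ζ w ∈ ball (0 : E) G.r) (h : JAt β w (psi G p (ζ w) x)) : JAt (fun v => pullG G p (ζ v) (β v)) w x  -- joint smoothness of the pull-back, parameter version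
* lemma bpp_PP (hG : HG G p) {z : ι → E4} (hz : z ∈ UU G) (b : F2 E4 M) : Ch.bpp J (PP G p l z (Ch.bp J b)) = PP G p l z (TT J G p l z b)  -- the leak is a pull-back
* theorem JAt.TT [T2Space M] [Fintype ι] (hJ : SmoothJ J) (hG : HG G p) {ζ : W → ι → E4} {β : W → F2 E4 M} {w : W} {x : M} (hζ : ContDiffAt ℝ ∞ ζ w) (hz : ζ w ∈ UU G) (h : JAt β w x) : JAt (fun v => Leak.TT J G p l (ζ v) (β v)) w x  -- joint smoothness of the conjugated projection, parameter version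

### R240/Loc5A [ns Crest.Agent.R240.Loc5] Row 240 (S0371), LOC5 (helper873): the limit `e → 0`, `K → ∞` in Step 5.
* structure Ker (e : ℝ) (k : E4 → ℝ) : Prop where cont : Continuous k nonneg : ∀ z, 0 ≤ k z supp : ∀ z, e ≤ ‖z‖ → k z = 0 int : ∫ z, k z = 1  -- mollifier of scale `e`.
* theorem h_sub_le (hφ : Measurable φ) (hA : ∀ y, ‖φ y‖ ≤ A) (hD : Continuous D) {CD : ℝ} (hCD : ∀ x, ‖D x‖ ≤ CD) {e : ℝ} {k : E4 → ℝ} (hk : Ker e k) {t : E4 → ℝ} (htm : Measurable t) {C : ℝ} (ht0 : ∀ x ∈ tsupport D, 0 ≤ t x) (hC0 : 0 ≤ C) (hup : ∀ x ∈ tsupport D, t x ≤ C * (1 + (Kern.we s' e x).toReal)) {K : ℝ} (hK0 : 0 < K) (hK : 1 ≤ Real.log K) {y : E4} (hy : Kern.w s' y ≠ ⊤)  …  -- where `w < ∞`: comparison of `h e K y` with `W (φ y) (D y)`.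
* structure LimHyp (s s' : Measure E4) (φ D : E4 → Bil) (A C Cm e0 : ℝ) (k : ℝ → E4 → ℝ) (t : ℝ → E4 → ℝ) : Prop where mφ : Measurable φ bφ : ∀ y, ‖φ y‖ ≤ A cD : Continuous D sD : HasCompactSupport D e0pos : 0 < e0 Cpos : 0 < C ker : ∀ e, 0 < e → e ≤ e0 → Ker e (k e) mt : ∀ e, 0 < e → e ≤ e0 → Measurable (t e) t0 : ∀ e x, 0 < e → e ≤ e0 → x ∈ tsupport D → 0 ≤ t e x up : ∀ e x, 0  …  -- hypotheses of the limit lemma: kernels `k e`, functions `t e` comparable with `w_e`, and the energy estimate `|∫ g_K(t_e) W(Φ_e, D)| ≤ Cm / √log K`.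

### R240/Loc5B [ns Crest.Agent.R240.Loc5] Row 240 (S0371), LOC5 (helper873): uniform constants of the background `Bg J F`.
* structure Cst (J : E4 → E4 →L[ℝ] E4) (F : E4 → Bil) (m M L LJ w0 c0 σ : ℝ) : Prop where bd : ∀ y, Bd (J y) (F y) m M L0 : 0 ≤ L lip : ∀ x y, ‖J x - J y‖ ≤ L * ‖x - y‖ nJ : ∀ y, ‖J y‖ ≤ LJ sg : σ = 1 ∨ σ = -1 c0pos : 0 < c0 lo : ∀ y, c0 ≤ σ * W (F y) (F y) hi : ∀ y, σ * W (F y) (F y) ≤ w0  -- uniform constants.
* theorem exists_rep (h : Bg J F) : ∃ R : ℝ, 0 < R ∧ ∀ y, ∃ z ∈ closedBall (0 : E4) R, J y = J z ∧ F y = F z  -- every point has a representative in a fixed ball.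

### R240/Loc5C [ns Crest.Agent.R240.Loc5] Row 240 (S0371), LOC5 (helper873): potentials `w`, mollifier, density `p_e`.
* structure Moll (ρ : E4 → ℝ) : Prop where sm : ContDiff ℝ ∞ ρ nn : ∀ z, 0 ≤ ρ z supp : ∀ z, 1 ≤ ‖z‖ → ρ z = 0 int : ∫ z, ρ z = 1  -- a standard mollifier.
* def pe (s : Measure E4) (B : ℝ) (k : E4 → ℝ) (x : E4) : ℝ  -- the mollified mass density.

### R240/Loc5D [ns Crest.Agent.R240.Loc5] Row 240 (S0371), LOC5 (helper873): assembly of the LOCAL POLES THEOREM from Lemma P (`Pot.P4`), the energy estimate (`En.En3main`), (Q) for the mollified current and the limit lemma.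
* def QM : Prop  -- (Q) for the mollified current (proved in `Loc5Q`).
* def ph1 (σ : ℝ) (F φ : E4 → Bil) (y : E4) : Bil  -- `φ₁`.
* theorem shift_facts {C1 w u na : ℝ} (hC1 : 0 < C1) (hw : 0 ≤ w) (h1 : w / C1 - C1 ≤ -u) (h2 : -u ≤ C1 * (1 + w)) (h3 : na ≤ C1 * (1 + w)) : 1 ≤ -(u - (C1 + 1)) ∧ -(u - (C1 + 1)) ≤ (2 * C1 + 1) * (1 + w) ∧ w ≤ C1 * -(u - (C1 + 1)) ∧ na ≤ C1 * (1 + C1) * -(u - (C1 + 1))  -- the shifted potential `u - (C+1)` satisfies all requirements.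

### R240/Loc5E [ns Crest.Agent.R240.Loc5] Row 240 (S0371), LOC5 (helper873): `QM` holds; LocalPoles follows from Lemma P (`Pot.P4`) alone.

### R240/Loc5Q [ns Crest.Agent.R240.Loc5] Row 240 (S0371), LOC5: (Q) for the mollified current (helper168 for helper873).
* def evL (u v : E4) : Bil →L[ℝ] ℝ  -- evaluation at two vectors.
* def antL (J : E4 →L[ℝ] E4) : Bil →L[ℝ] Bil  -- `antip J` as a continuous linear map.
* theorem Qmoll {J : E4 → E4 →L[ℝ] E4} {F : E4 → Bil} {m M L LJ w0 σ : ℝ} (hBd : ∀ y, Bd (J y) (F y) m M) (hL : ∀ x y, ‖J x - J y‖ ≤ L * ‖x - y‖) (hJ : ∀ y, ‖J y‖ ≤ LJ) (_hσ : σ = 1 ∨ σ = -1) (hσF : ∀ y, 0 < σ * W (F y) (F y)) (hW : ∀ y, σ * W (F y) (F y) ≤ w0) : ∃ A : ℝ, 0 ≤ A ∧ ∀ (s : Measure E4) [IsFiniteMeasure s] (φ : E4 → Bil) (B : ℝ), Measurable φ → (∀ y, ‖φ y‖ ≤ B) → (∀ y …  -- (Q) for the mollified current.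

### R240/LocDef [ns Crest.Agent.R240] Row 240 (S0371), helper768: the statement of the LOCAL POLES THEOREM in `E4` (definitions only).
* structure Bg (J : E4 → E4 →L[ℝ] E4) (F : E4 → Bil) : Prop where smJ : ContDiff ℝ ∞ J smF : ContDiff ℝ ∞ F sq : ∀ y v, J y (J y v) = -v pos : ∀ y, SPos (J y) (F y) cst : ∃ (R : ℝ) (J0 : E4 →L[ℝ] E4) (F0 : Bil), ∀ y, R ≤ ‖y‖ → J y = J0 ∧ F y = F0  -- background data on `E4`: a smooth almost complex structure and a smooth positive two-form, both constant outside a ball.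
* structure Dens (J : E4 → E4 →L[ℝ] E4) (F : E4 → Bil) (φ : E4 → Bil) : Prop where meas : Measurable φ pos : ∀ y, Pos (J y) (φ y) nrm : ∀ y, q (F y) (φ y) (F y) = 1  -- a measurable field of normalised positive `(1,1)`-forms.
* def LocalPoles : Prop  -- THE LOCAL POLES THEOREM (Step 5 in `E4`).

### R240/LocPolesFin [ns Crest.Agent.R240] Row 240 (S0371): `LocalPoles`, unconditional.

### R240/Main [ns Crest.Agent.R240 / Dat] Row 240 (S0371), TOP (helper23): the main assembly from the frozen nodes.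
* theorem false_of_second (D : Dat M) {L : X2 M →ₗ[ℝ] ℝ} {sT : Measure M} {C5 : ℝ} (hLZ : KillsClosed L) (hLF : L D.FX = 1) (hsT : D.IsRM L sT) (hC5 : ∀ b : X2 M, |L (D.pi'' b)| ≤ C5 * D.n2 ((D.pi'' b : X2 M) : F2 E4 M)) {s₀ : Measure M} [IsFiniteMeasure s₀] {C e₀ : ℝ} (hC : 0 < C) (he₀ : 0 < e₀) (h8 : ∀ e : ℝ, 0 < e → e ≤ e₀ → ∃ b ∈ Z2 M, ∃ p : M → ℝ, Continuous p ∧ (∀ x, 0 ≤ p  …  -- Step 6: the contradiction.
* theorem IsKahler.isNonneg {D : Dat M} {Φ : X2 M →ₗ[ℝ] ℝ} (h : D.IsKahler Φ) : D.IsNonneg Φ  -- the current `Φ ≥ F` is non-negative.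
* theorem goal (D : Dat M) (n1 : D.N1) (n2 : D.N2) (n3 : D.N3) (n4 : D.N4) (n5 : D.N5) (n5' : D.N5') (n6 : D.N6) (n7 : D.N7) (n8 : D.N8a) (hcm : ∀ (𝒰 : Cover M) (m : ℕ) (b : X2 M), 0 ≤ 𝒰.cm m (b : F2 E4 M)) : D.Goal  -- MAIN ASSEMBLY of row 240 from the frozen nodes.

### R240/MeasDens [ns Crest.Agent.R240.MeasDens] # Row 240, node N7: densities, Vitali, `θ_ε` For finite Borel measures on a second countable metric space (`M` with a bi-Lipschitz metric, or a chart). `th s x r = s (ball x r) / ofReal (r^2)`. * `tendsto_th_of_w` : `w s x < ⊤ → th s x r → 0` * `vitali_null` : `s_T(B_r) ≤ C r²`, density of `s_0` is 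
* theorem tendsto_lintegral_tht (s₀ ν : Measure X) [IsFiniteMeasure s₀] [IsFiniteMeasure ν] {C : ℝ} (hs : ∀ (x : X) (r : ℝ), 0 < r → s₀ (ball x r) ≤ ENNReal.ofReal (C * r ^ 2)) (hd : ∀ᵐ x ∂ν, Tendsto (fun r => th s₀ x r) (𝓝[>] (0 : ℝ)) (𝓝 0)) {K : ℝ} (hK : 0 < K) : Tendsto (fun ε => ∫⁻ x, tht s₀ K ε x ∂ν) (𝓝[>] (0 : ℝ)) (𝓝 0)  -- N7, second half. `∫ θ_{K,ε} dν → 0` for a finite measure `ν` such that the density of `s₀` vanishes `ν`-a.e.
* theorem tendsto_lintegral_sq (μ s₀ : Measure X) [SFinite μ] [IsFiniteMeasure s₀] {A C : ℝ} (hA : 0 ≤ A) (hμ : ∀ (x : X) (r : ℝ), 0 < r → μ (ball x r) ≤ ENNReal.ofReal (A * r ^ 4)) (hs : ∀ (x : X) (r : ℝ), 0 < r → s₀ (ball x r) ≤ ENNReal.ofReal (C * r ^ 2)) (hd : ∀ᵐ x ∂s₀, Tendsto (fun r => th s₀ x r) (𝓝[>] (0 : ℝ)) (𝓝 0)) {K : ℝ} (hK : 0 < K) : Tendsto (fun ε => ∫⁻ x, (s₀ (ball …  -- L² smallness used in Step 6: `∫ (s₀(B_{Kε})/ε³)² dμ → 0`.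
* theorem node_N7 (μ s₀ sT : Measure X) [SFinite μ] [IsFiniteMeasure s₀] [IsFiniteMeasure sT] {A C C' : ℝ} (hA : 0 ≤ A) (hμ : ∀ (x : X) (r : ℝ), 0 < r → μ (ball x r) ≤ ENNReal.ofReal (A * r ^ 4)) (hs : ∀ (x : X) (r : ℝ), 0 < r → s₀ (ball x r) ≤ ENNReal.ofReal (C * r ^ 2)) (hT : ∀ (x : X) (r : ℝ), 0 < r → sT (ball x r) ≤ ENNReal.ofReal (C' * r ^ 2)) {G : Set X} (hG : s₀ Gᶜ = 0) (h …  -- Node N7, complete: for `s₀` finite with `s₀(B_r) ≤ C r²`, zero density on `G`, `s₀(Gᶜ) = 0`; `s_T` finite with `s_T(B_r) ≤ C' r²`; `μ(B_r) ≤ A r⁴`.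

### R240/Met [ns Crest.Agent.R240.Met] Row 240 (S0371), PART D0 (helper703): a metric on a compact smooth manifold, bi-Lipschitz to the charts on compact sets.
* def BiLip (E : Type*) [NormedAddCommGroup E] [NormedSpace ℝ E] (M : Type*) [MetricSpace M] [ChartedSpace E M] : Prop  -- the metric of `M` is bi-Lipschitz to the charts on compact subsets of the chart targets.
* theorem exists_metric [T2Space M] [CompactSpace M] [IsManifold 𝓘(ℝ, E) ∞ M] : ∃ m : MetricSpace M, m.toUniformSpace.toTopologicalSpace = ‹TopologicalSpace M› ∧ ∀ p : M, ∀ K : Set E, IsCompact K → K ⊆ (chartAt E p).target → ∃ c C : ℝ, 0 < c ∧ 0 < C ∧ ∀ y ∈ K, ∀ z ∈ K, c * ‖y - z‖ ≤ m.dist ((chartAt E p).symm y) ((chartAt E p).symm z) ∧ m.dist ((chartAt E p).symm y) ((chartAt E p …  -- A compact smooth manifold carries a metric, inducing its topology, which is bi-Lipschitz to the charts on compact sets.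

### R240/Mono1 [ns Crest.Agent.R240.Mono] Row 240 (S0371), MONO local, analytic part 1: the test form, its exterior derivative, local Stokes.
* theorem stokes_loc {U : Set E4} (hU : IsOpen U) {b : E4 → Bil} (hb : ContDiffOn ℝ 1 b U) (halt : ∀ x ∈ U, Alt (b x)) {S : E4 → Cov} (hS : ContDiff ℝ 1 S) (hc : HasCompactSupport S) (hsub : tsupport S ⊆ U) (hcl : ∀ x ∈ U, Cl b x) : ∫ x, W (b x) (d1 S x) = 0  -- Stokes for a closed 2-form defined on an open set.

### R240/Mono2 [ns Crest.Agent.R240.Mono] Row 240 (S0371), MONO local, analytic part 2: the test form `χ λ / (q + r²)`.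
* def lam (F0 : Bil) (y0 x : E4) : Cov  -- `λ = F₀(x - y₀, ·)/2`.
* def tS (J0 : E4 →L[ℝ] E4) (F0 : Bil) (r : ℝ) (y0 : E4) (χ : E4 → ℝ) (x : E4) : Cov  -- the test form.

### R240/Mono3 [ns Crest.Agent.R240.Mono] Row 240 (S0371), MONO local, analytic part 3: Cauchy-Schwarz and the weight `1/|z|`.
* def wt (y0 x : E4) : ℝ  -- the weight.

### R240/Mono4 [ns Crest.Agent.R240.Mono] Row 240 (S0371), MONO local, analytic part 4: assembly `PW → MonoLocal`.

### R240/Mono5 [ns Crest.Agent.R240.Mono] Row 240 (S0371), MONO local: the theorem `mono_local : PW → MonoLocal`.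

### R240/MonoDefs [ns Crest.Agent.R240.Mono] Row 240 (S0371), MONO local: definitions and the frozen pointwise statement `PW`.
* def PW : Prop  -- the pointwise inequality (node of helper615).
* structure Geo (y0 : E4) (r0 m L : ℝ) (J : E4 → E4 →L[ℝ] E4) (F : E4 → Bil) : Prop where contJ : ContinuousOn J (ball y0 r0) contF : ContinuousOn F (ball y0 r0) sq : ∀ x ∈ ball y0 r0, ∀ v, J x (J x v) = -v spos : ∀ x ∈ ball y0 r0, SPos (J x) (F x) low : ∀ x ∈ ball y0 r0, ∀ v, m * ‖v‖ ^ 2 ≤ F x v (J x v) bdF : ∀ x ∈ ball y0 r0, ‖F x‖ ≤ L bdJ : ∀ x ∈ ball y0 r0, ‖J x‖ ≤ L lip : ∀  …  -- geometry on a ball.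
* def MonoLocal : Prop  -- MONO local (one-shot monotonicity).

### R240/MonoFin [ns Crest.Agent.R240.Mono] Row 240 (S0371): **MONO local**, final statements.

### R240/MonoM1 [ns Crest.Agent.R240.MonoM] Row 240, MonoM (helper551), part 1: finitely many round charts, uniform constants.
* structure Rnd (M : Type*) [TopologicalSpace M] [ChartedSpace E4 M] where I : Finset M R : ℝ Rpos : 0 < R rad : M → ℝ radge : ∀ p ∈ I, R ≤ rad p sub : ∀ p ∈ I, closedBall (chartAt E4 p p) (2 * rad p) ⊆ (chartAt E4 p).target cov : ∀ x : M, ∃ p ∈ I, x ∈ (chartAt E4 p).source ∧ chartAt E4 p x ∈ ball (chartAt E4 p p) (rad p)  -- a finite family of charts with round balls: `x ∈ M` lies in the inner ball of one of them.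
* def Rnd.K (S : Rnd M) (p : M) : Set E4  -- the outer closed ball of the chart `p`.
* structure Rnd.Const (S : Rnd M) (J : M → E4 → (E4 →L[ℝ] E4)) (F : M → E4 → Bil) (c0 C0 : ℝ) : Prop where c0pos : 0 < c0 C0pos : 0 < C0 low : ∀ p ∈ S.I, ∀ y ∈ S.K p, ∀ v, c0 * ‖v‖ ^ 2 ≤ F p y v (J p y v) Fb : ∀ p ∈ S.I, ∀ y ∈ S.K p, ‖F p y‖ ≤ C0 Jb : ∀ p ∈ S.I, ∀ y ∈ S.K p, ‖J p y‖ ≤ C0 Jl : ∀ p ∈ S.I, ∀ y ∈ S.K p, ∀ z ∈ S.K p, ‖J p y - J p z‖ ≤ C0 * ‖y - z‖ Fl : ∀ p ∈ S.I, ∀ y  …  -- the constants of a pair `(J, F)` in the round charts.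

### R240/MonoM2 [ns Crest.Agent.R240.MonoM] Row 240, MonoM (helper551), part 2: pointwise data in a chart.
* abbrev TT (p : M) (y : E4) : E4 →L[ℝ] E4  -- the coordinate change at `symm y`.
* def NB (J : EndF E4 M) (F a : F2 E4 M) (β : M → ℝ) : Prop  -- pointwise bound of a two-form by `β`, measured with `F(·, J ·)`.

### R240/MonoM3 [ns Crest.Agent.R240.MonoM] Row 240, MonoM (helper551), part 3: transfer of integrals, transfer of balls.

### R240/MonoM4 [ns Crest.Agent.R240.MonoM] Row 240, MonoM (helper551), part 4: local monotonicity on `M` (in terms of pointwise bounds `NB`).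
* def ML : Prop  -- `Mono.MonoLocal` with the parentheses in the conclusion.
* theorem mono_NB (hML : ML) {M : Type*} [MetricSpace M] [CompactSpace M] [ChartedSpace E4 M] [IsManifold 𝓘(ℝ, E4) ∞ M] [MeasurableSpace M] [BorelSpace M] (hBL : Met.BiLip E4 M) {J : EndF E4 M} (hJ : SmoothJ J) (hsq : ∀ x v, atJ J x (atJ J x v) = -v) {F : F2 E4 M} (hF : Smooth2 F) (hpos : SPosG J F) (hVol : Vol F) {μ : Measure M} (hv : IsVol F μ) {A : ℝ} (hA : 1 ≤ A) : ∃ C r0 : ℝ …  -- local monotonicity on `M`, with pointwise bounds.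

### R240/MonoM5 [ns Crest.Agent.R240.MonoM] Row 240, MonoM (helper551), part 5: the node N9 from the local monotonicity statement.
* theorem n9 (hML : Mono.MonoLocal) (D : Dat M) : D.N9  -- N9: the monotonicity inequality on `M`, from the local statement.

### R240/MonoN9 [ns Crest.Agent.R240] Row 240, helper551: the node N9 (MonoLocal: helper857, helper615).
* theorem node_N9 {M : Type*} [MetricSpace M] [CompactSpace M] [ChartedSpace E4 M] [IsManifold 𝓘(ℝ, E4) ∞ M] [MeasurableSpace M] [BorelSpace M] (D : Dat M) : D.N9  -- N9 (unconditional).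

### R240/MonoPw [ns Crest.Agent.R240.Mono] Row 240 (S0371), MONO local, pointwise part (helper615): `theorem pw : PW`.
* theorem posQ {J0 J1 : E4 →L[ℝ] E4} (hJ0 : ∀ v, J0 (J0 v) = -v) {X : Bil} (hX : Pos J0 X) (v : E4) : (1 / 2) * X v (J0 v) - (1 / 2) * X ((J1 - J0) v) (J0 ((J1 - J0) v)) ≤ X v (J1 v)  -- (Q): `X` nonnegative for `J0`, `w = (J1 - J0) v`.
* theorem thet_pos {J0 : E4 →L[ℝ] E4} {F0 : Bil} (hJ : ∀ v, J0 (J0 v) = -v) (hF : SPos J0 F0) (z : E4) : Pos J0 (thet J0 F0 z)  -- `thet` is nonnegative for `J0`.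
* theorem pw_num {μ E D r nz ε p bi ba A L β α KP S1 S2 S3 S4 T G : ℝ} (hμ : 0 < μ) (hE : E = nz ^ 2 + r ^ 2) (hD : μ * E ≤ D) (hr : 0 < r) (hz : 0 < nz) (hε : 0 < ε) (hεr : ε ≤ r) (hp : 0 ≤ p) (hL : 1 ≤ L) (hβ : 0 ≤ β) (hKP : 0 ≤ KP) (hG0 : 0 ≤ G) (hG : G ≤ KP * p) (hbi : 0 ≤ bi) (hba : 0 ≤ ba) (h1 : (α * r ^ 2 - β * E * nz ^ 2) * G ≤ S1) (h2 : |S2| ≤ 18 * |A| * L ^ 6 * ε ^ 2 *  …  -- the numerical end of the argument.

### R240/N1 [ns Crest.Agent.R240.St1] Row 240 (S0371), node N1 (helper630): the Kaehler current, from STOKES; and basic facts about the data `D : Dat M` (positivity of `F`, `D.I` as a bilinear form on `X2 M`, order unit).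
* def ExS : Submodule ℝ (X2 M)  -- the exact forms as a subspace of `X2 M`.
* theorem stokes (D : Dat M) : D.STOKES  -- the node STOKES.
* theorem n1 (D : Dat M) : D.N1  -- the node N1.

### R240/N2 [ns Crest.Agent.R240.N2] Row 240 (S0371), node N2 (helper710): the Hahn-Banach alternative of Step 2 on the space of smooth two-forms.
* theorem at2_bpp_anti {J : EndF E4 M} (hJ : ∀ x (v : E4), atJ J x (atJ J x v) = -v) (a : F2 E4 M) (x : M) (u v : E4) : at2 (bpp J a) x (atJ J x u) (atJ J x v) = - at2 (bpp J a) x u v  -- `b''` is `J`-anti-invariant.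
* theorem bp_of_inv {J : EndF E4 M} {a : F2 E4 M} (h : ∀ x (u v : E4), at2 a x (atJ J x u) (atJ J x v) = at2 a x u v) : bp J a = a  -- invariant forms are fixed by `'`.
* theorem n2_core {J : EndF E4 M} (hJ : ∀ x (v : E4), atJ J x (atJ J x v) = -v) (X : Submodule ℝ (F2 E4 M)) (hX0 : ∀ a ∈ X, ∀ x, Alt (at2 a x)) (jp jm : X →ₗ[ℝ] X) (hjp : ∀ b, (jp b).1 = bp J b.1) (hjm : ∀ b, (jm b).1 = bpp J b.1) (Z : Submodule ℝ X) (F : X) (hFp : PosG J F.1) (hunit : ∀ b : X, ∃ t : ℝ, ∀ x (v : E4), |at2 b.1 x v (atJ J x v)| ≤ t * at2 F.1 x v (atJ J x v)) (ν : S …  -- N2, core.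

### R240/N24 [ns Crest.Agent.R240.N24] Row 240 (S0371), helper710: the nodes N2 (dichotomy) and N4 (trace measures) of `Iface`.
* theorem pos_add (b : X2 M) (x : M) : Pos (atJ D.J x) ((2 * D.nr b.1 x) • at2 D.F x + at2 (D.pi' b).1 x)  -- `k F ± b'` is semi-positive for `k = 2 |b|`.
* theorem n4 : D.N4  -- N4: trace measures.
* theorem n2 : D.N2  -- N2: the dichotomy.

### R240/N3 [ns Crest.Agent.R240.Dat] # Node N3 (Lemma A) of row 240, complete `N3` = helper106's gluing (`Ell.n3_of_local`) applied to the local theorem (`FA.localThm`).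

### R240/N3ML [ns Crest.Agent.R240.N3] # Row 240 (S0371), node N3, soft part: from dual estimates to exact solvability `X` is a real vector space with an increasing sequence of seminorms `cm l`, `Z` a subspace and `π : X → X` linear. Assume the *dual estimate*: every linear `B` with `|B b| ≤ D * cm L (π b)` and `|B c| ≤ cm l c` on `Z` sa
* def pf (Z : Submodule ℝ X) (π : X →ₗ[ℝ] X) (cm : ℕ → Seminorm ℝ X) (l L : ℕ) (D : ℝ) (b : X) : ℝ  -- The auxiliary functional of the Hahn--Banach step.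
* theorem approx (Z : Submodule ℝ X) (π : X →ₗ[ℝ] X) (cm : ℕ → Seminorm ℝ X) (l L s : ℕ) (hdual : Dual Z π cm l L s) : ∃ C : ℝ, 0 ≤ C ∧ ∀ b : X, ∀ δ : ℝ, 0 < δ → ∀ δ' : ℝ, 0 < δ' → ∃ c ∈ Z, cm l c ≤ C * cm s (π b) + δ ∧ cm L (π (b - c)) ≤ δ'  -- Hahn--Banach step.
* theorem solve (Z : Submodule ℝ X) (π : X →ₗ[ℝ] X) (cm : ℕ → Seminorm ℝ X) (s : ℕ → ℕ) (hmono : ∀ l b, cm l b ≤ cm (l + 1) b) (hdual : ∀ l L, s l ≤ L → Dual Z π cm l L (s l)) (hπ : ∃ (k : ℕ) (C : ℝ), ∀ b, cm 0 (π b) ≤ C * cm k b) (hsep : ∀ b, cm 0 b = 0 → b = 0) (hcomplete : ∀ c : ℕ → X, (∀ j, c j ∈ Z) → (∀ l, Summable fun j => cm l (c j)) → ∃ d ∈ Z, ∀ l, Tendsto (fun n => cm l  …  -- Mittag-Leffler step: exact solvability with a bound.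

### R240/N4 [ns Crest.Agent.R240.N4] Row 240 (S0371), node N4 (helper710): the Riesz measure of a functional which is nonnegative on the semi-positive `J`-invariant smooth forms of the compact manifold `M`.
* theorem smooth2_fmul' {f : M → ℝ} (hf : SmoothF E f) {a : F2 E M} (ha : Smooth2 a) : Smooth2 (fmul f a)  -- multiplication of a form by a smooth function (private copy, see `Ch4`).
* theorem n4_core1 (J : EndF E4 M) (F : F2 E4 M) (hF : Smooth2 F) (hFp : PosG J F) (X : Submodule ℝ (F2 E4 M)) (hX : ∀ a, a ∈ X ↔ Smooth2 a) (L : X →ₗ[ℝ] ℝ) (hL : ∀ P : X, PosG J P.1 → 0 ≤ L P) : ∃ s : Measure M, IsFiniteMeasure s ∧ s.Regular ∧ (∀ (f : M → ℝ), SmoothF E4 f → ∀ g : X, g.1 = fmul f F → ∫ x, f x ∂s = L g) ∧ (∀ (b : X) (k : M → ℝ), Continuous k → (∀ x, Pos (atJ J x)  …  -- N4, core, one-sided. `X` = the space of smooth two-forms, `F` a smooth semi-positive `J`-invariant form, `L` a functional on `X` which is nonnegative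 on the
* theorem n4_core (J : EndF E4 M) (F : F2 E4 M) (hF : Smooth2 F) (hFp : PosG J F) (X : Submodule ℝ (F2 E4 M)) (hX : ∀ a, a ∈ X ↔ Smooth2 a) (L : X →ₗ[ℝ] ℝ) (hL : ∀ P : X, PosG J P.1 → 0 ≤ L P) : ∃ s : Measure M, IsFiniteMeasure s ∧ s.Regular ∧ (∀ (f : M → ℝ), SmoothF E4 f → ∀ g : X, g.1 = fmul f F → ∫ x, f x ∂s = L g) ∧ (∀ (b : X) (k : M → ℝ), Continuous k → (∀ x, Pos (atJ J x) ( …  -- N4, core. `X` = the space of smooth two-forms, `F` a smooth semi-positive `J`-invariant form, `L` a functional on `X` which is nonnegative on the cone. Then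

### R240/N5 [ns Crest.Agent.R240.N5] Row 240 (S0371), helper781: node N5 (Step 4) from the smoothing package N8, monotonicity N9, FUND and the energy output of helper744 (`En4.bpart`); node N5' is `N5P.n5'_of` (helper240).
* theorem fOrd_pi'' (D : Dat M) (𝒰 : Cover M) (L : X2 M →ₗ[ℝ] ℝ) {m : ℕ} {C : ℝ} (h : ∀ b : X2 M, |L (D.pi'' b)| ≤ C * 𝒰.cm m ((D.pi'' b : X2 M) : F2 E4 M)) : FOrd 𝒰 (L ∘ₗ D.pi'')  -- the functional `b ↦ L b''` has finite order.
* theorem den_growth (D : Dat M) {s : Measure M} [IsFiniteMeasure s] {C : ℝ} (hC : 1 ≤ C) {e : ℝ} (he : 0 < e) {g : M → ℝ} {r₀ Q : ℝ} (hr₀ : 0 < r₀) (hQ : 0 ≤ Q) (h1 : ∀ x r, e ≤ r → r ≤ r₀ → ∫ y in ball x r, g y ∂D.μ ≤ Q * r ^ 2) (h2 : ∀ x r, e ≤ r → s.real (ball x r) ≤ C * ∫ y in ball x (C * r), g y ∂D.μ) : Top.DenB s e (C ^ 3 * Q + s.real univ * (C / r₀) ^ 2)  -- the growth bound from MONO and the representation of the measure.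
* theorem n5 (D : Dat M) (h8 : D.N8) (h9 : D.N9) (hF : D.FUND) : D.N5  -- node N5 (Step 4): `s` has two-dimensional growth and `|L b''| ≤ C ‖b''‖₂`.

### R240/N5p [ns Crest.Agent.R240.N5P] Row 240 (S0371), helper240: node N5' (growth of the trace measure of a closed (1,1)-current) from the smoothing package N8, the monotonicity N9 and FUND.
* theorem mass_eq {D : Dat M} {𝒰 : Cover M} (S : SmPack D 𝒰) {s : Measure M} {e : ℝ} (he : 0 < e) (hee : e ≤ S.e0) {g : M → ℝ} (hgs : ∀ f, SmoothF E4 f → ∫ x, S.a e f x ∂s = ∫ x, f x * g x ∂D.μ) : ∫ x, g x ∂D.μ = s.real univ  -- `∫ g = s(M)`.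
* theorem growth_of {s : Measure M} [IsFiniteMeasure s] {μ : Measure M} {Cm K r0 e1 : ℝ} (hCm : 1 ≤ Cm) (hr0 : 0 < r0) (he1 : 0 < e1) (hK : 0 ≤ K) (h : ∀ e, 0 < e → e ≤ e1 → ∃ g : M → ℝ, (∀ x r, e ≤ r → s.real (ball x r) ≤ Cm * ∫ y in ball x (Cm * r), g y ∂μ) ∧ (∀ x r, e ≤ r → r ≤ r0 → ∫ y in ball x r, g y ∂μ ≤ K * r ^ 2)) : Dat.Growth2 s  -- from the smoothed densities to the growth of the measure.
* theorem n5'_of (D : Dat M) (hN8 : D.N8) (hN9 : D.N9) (hF : D.FUND) : D.N5'  -- node N5'.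

### R240/N6 [ns Crest.Agent.R240.Pol] Row 240 (S0371), node N6, unconditional (helper768).
* theorem n6 {M : Type*} [MetricSpace M] [CompactSpace M] [ChartedSpace E4 M] [IsManifold 𝓘(ℝ, E4) ∞ M] [MeasurableSpace M] [BorelSpace M] (D : Dat M) : D.N6  -- node N6: removal of the poles of the Kaehler current.

### R240/N7 [ns Crest.Agent.R240 / Dat] Row 240 (S0371), TOP (helper23): node N7 from helper369's `MeasDens`.

### R240/N8 [ns Crest.Agent.R240] Row 240, N8 (helper915): **the smoothing package exists.**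
* theorem Sm.fLeak (D : Dat M) (𝒰 : Cover M) (S : Sys M) : FLeak D 𝒰 S  -- the field `leak` (895, 404, 461).
* theorem Dat.n8_of (D : Dat M) (hr : ∀ S : Sys M, FRepm D S) (hk : ∀ (𝒰 : Cover M) (S : Sys M), FLeak D 𝒰 S) : D.N8  -- N8 from the open fields.
* theorem Dat.n8 (D : Dat M) : D.N8  -- node N8.

### R240/N8a [ns Crest.Agent.R240.N8A] Row 240 (S0371), helper548: node N8a (smoothing of a closed Kaehler current) from the smoothing package N8, FUND and the duality lemmas of helper744.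
* theorem smoothF_qG (D : Dat M) {b c : F2 E4 M} (hb : Smooth2 b) (hc : Smooth2 c) : SmoothF E4 (qG D.F b c)  -- `q(b,c)` is smooth.
* theorem continuous_nr (D : Dat M) (b : X2 M) : Continuous (D.nr (b : F2 E4 M))  -- `D.nr b` is continuous.
* theorem n8a_of (D : Dat M) (𝒰 : Cover M) (S : SmPack D 𝒰) (hfund : D.FUND) (hcm : ∃ C0 : ℝ, ∀ b : X2 M, ∀ x, D.nr (b : F2 E4 M) x ≤ C0 * 𝒰.cm 0 (b : F2 E4 M)) (hgeF : ∀ (X : X2 M) (g : M → ℝ), Continuous g → (∀ P ∈ D.Pp, 0 ≤ D.I (X : F2 E4 M) (P : F2 E4 M) + ∫ x, g x * qG D.F (P : F2 E4 M) D.F x ∂D.μ) → GeF D.J D.F (X : F2 E4 M) (fun x => - g x)) (hanti : ∀ (X : X2 M) (g : M →  …  -- the core: `N8a` from the smoothing package.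

### R240/N8aFin [ns Crest.Agent.R240.N8A] Row 240 (S0371), helper548: node N8a.
* theorem node_N8a (D : Dat M) (h8 : D.N8) (hcov : D.COV) (hfund : D.FUND) : D.N8a  -- NODE N8a.

### R240/N9Def [ns ] Row 240 (S0371), helper781: the node N9 (MONO on `M`) is `Dat.N9` of `IfaceR` (helper276). This file only re-exports it.

### R240/NrCm [ns Crest.Agent.R240.NrCm] Row 240 (S0371), helper548: the fibre norm `D.nr` is bounded by the norm in charts and by `cm 0`.
* theorem nr_chart (D : Dat M) {b : F2 E4 M} (hb : ∀ x, Alt (at2 b x)) {p : M} {y : E4} (hy : y ∈ (chartAt E4 p).target) : D.nr b ((chartAt E4 p).symm y) = nr (repJ p D.J y) (rep p D.F y) (rep p b y)  -- the fibre norm in a chart.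
* theorem nr_le_rep (D : Dat M) (p : M) {K : Set E4} (hK : IsCompact K) (hKt : K ⊆ (chartAt E4 p).target) : ∃ C : ℝ, 0 ≤ C ∧ ∀ b : X2 M, ∀ y ∈ K, D.nr (b : F2 E4 M) ((chartAt E4 p).symm y) ≤ C * ‖rep p (b : F2 E4 M) y‖  -- `|b|_x ≤ C ‖rep p b y‖` on compact pieces.
* theorem nr_le_cm (D : Dat M) (𝒰 : Cover M) : ∃ C : ℝ, 0 ≤ C ∧ ∀ b : X2 M, ∀ x, D.nr (b : F2 E4 M) x ≤ C * 𝒰.cm 0 (b : F2 E4 M)  -- `|b|_x ≤ C cm 0 b`.

### R240/NrmDefs [ns Crest.Agent.R240 / Ch] Row 240 (S0371), helper456: abbreviations for the Hodge norm of 23's `TopDefs` and the star.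
* abbrev nsqM (J : EndF E4 M) (F b : F2 E4 M) (x : M) : ℝ  -- pointwise squared norm on `M`.
* abbrev nrm (J : EndF E4 M) (F b : F2 E4 M) (x : M) : ℝ  -- pointwise norm on `M`.
* def hstarM (J : EndF E4 M) (F b : F2 E4 M) : F2 E4 M  -- Hodge star on `M`.

### R240/NrmM [ns Crest.Agent.R240.NM] Row 240 (S0371), helper456: the Hodge norm on `M` for the data `D : Dat M`: continuity, smoothness, positivity, the `L²` norm, Cauchy-Schwarz, the seminorms `cm`.
* theorem I_pos_pos (D : Dat M) {P R : F2 E4 M} (hP : PosG D.J P) (hR : PosG D.J R) : 0 ≤ D.I P R  -- `I(P,R) ≥ 0` for `P, R ≥ 0`.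
* theorem I_hstar (D : Dat M) {b : F2 E4 M} (hb : Smooth2 b) : D.I b (hstarM D.J D.F b) = D.n2 b ^ 2  -- `I(b, ⋆b) = ‖b‖₂²`.
* def cmS {M : Type*} [TopologicalSpace M] [ChartedSpace E4 M] [IsManifold 𝓘(ℝ, E4) ∞ M] (𝒰 : Cover M) (m : ℕ) : Seminorm ℝ (X2 M)  -- the `C^m` seminorm on `X2 M`.

### R240/Nsq [ns Crest.Agent.R240.Ns] Row 240 (S0371), helper456: the Hodge norm of two-forms, pointwise facts on `E4`. Data: `hJ : ∀ v, J (J v) = -v`, `hF : SPos J F`.
* theorem pos_add_pn (hJ : ∀ v, J (J v) = -v) (hF : SPos J F) {b : Bil} (hb : Alt b) {r : ℝ} (hr : Real.sqrt 2 * pn J F b ≤ r) : Pos J (invp J b + r • F)  -- `b' + √2|b|F ≥ 0`.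
* theorem nsq_pos_le (hJ : ∀ v, J (J v) = -v) (hF : SPos J F) {P : Bil} (hP : Pos J P) : nsq J F P ≤ 2 * q F P F ^ 2  -- `|P| ≤ √2 q(P,F)` for `P ≥ 0`; squared form.
* theorem pos_of_dual (hJ : ∀ v, J (J v) = -v) (hF : SPos J F) {X : Bil} (hX : Alt X) (h : ∀ ξ : E4 →L[ℝ] ℝ, 0 ≤ q F X (wed ξ (Jc J ξ))) : Pos J (invp J X)  -- dual cone: if `q(X,P) ≥ 0` for all `P ≥ 0` then `X' ≥ 0`.

### R240/PhiN [ns Crest.Agent.R240.Vm] # R240: restriction of a current on `M` to a Borel set, node form (helper168) `PhiR_exists'` (with lower bounds w.r.t. the trace measure) and `PhiR_node` (IsInv, IsKahler, IsRM).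
* theorem PhiR_exists' (D : Dat M) (hqc : ∀ P : X2 M, Continuous (qG D.F P.1 D.F)) (N : X2 M → M → ℝ) (hNc : ∀ b, Continuous (N b)) (hN0 : ∀ b x, 0 ≤ N b x) (hNm : ∀ (f : SF M) b x, N (mulX M f b) x = |f x| * N b x) (Phi : X2 M →ₗ[ℝ] ℝ) (hinv : ∀ b, Phi b = Phi (invM D.J D.smJ b)) (hpos : ∀ P ∈ PosM D.J, D.I P.1 D.F ≤ Phi P) (s : Measure M) [IsFiniteMeasure s] (hb : ∀ b, |Phi b|  …  -- Restriction of a current to a Borel set, with the lower bounds.
* theorem PhiR_node (D : Dat M) (Φ : X2 M →ₗ[ℝ] ℝ) (s : Measure M) (hinv : D.IsInv Φ) (hK : D.IsKahler Φ) (hRM : D.IsRM Φ s) (G : Set M) (hG : MeasurableSet G) (hGμ : D.μ Gᶜ = 0) : ∃ Φ₀ : X2 M →ₗ[ℝ] ℝ, D.IsInv Φ₀ ∧ D.IsKahler Φ₀ ∧ D.IsRM Φ₀ (s.restrict G) ∧ (∀ (b : X2 M) (g : M → ℝ) (C : ℝ), AEStronglyMeasurable g s → (∀ x, |g x| ≤ C) → (∀ f : SF M, Φ (mulX M f b) = ∫ x, f x * g  …  -- Restriction of a Kähler current to a Borel set of full `μ`-measure, node form.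

### R240/PhiR [ns Crest.Agent.R240.Vm] # R240: restriction of a current on `M` to a Borel set (helper168) `mulX f b = f b` (smooth function times smooth form) and `PhiR_exists`.
* abbrev SF  -- smooth functions.
* def mulX : SF M →ₗ[ℝ] X2 M →ₗ[ℝ] X2 M  -- multiplication of smooth forms by smooth functions.
* theorem PhiR_exists (D : Dat M) (hqc : ∀ P : X2 M, Continuous (qG D.F P.1 D.F)) (N : X2 M → M → ℝ) (hNc : ∀ b, Continuous (N b)) (hN0 : ∀ b x, 0 ≤ N b x) (hNm : ∀ (f : SF M) b x, N (mulX M f b) x = |f x| * N b x) (Phi : X2 M →ₗ[ℝ] ℝ) (hinv : ∀ b, Phi b = Phi (invM D.J D.smJ b)) (hpos : ∀ P ∈ PosM D.J, D.I P.1 D.F ≤ Phi P) (s : Measure M) [IsFiniteMeasure s] (hb : ∀ b, |Phi b| ≤ …  -- Restriction of a current to a Borel set (N6, first part).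

### R240/Pol [ns Crest.Agent.R240.Pol] Row 240 (S0371), node N6 (helper768): removal of the poles of the Kaehler current on `M` (from the local poles theorem).
* theorem killsExact_restr (LP : LocalPoles) (D : Dat M) {Φ : X2 M →ₗ[ℝ] ℝ} {s : Measure M} [IsFiniteMeasure s] (hinv : D.IsInv Φ) (hnn : D.IsNonneg Φ) (hEx : Dat.KillsExact Φ) (hRM : D.IsRM Φ s) (hgr : Dat.Growth2 s) (hCD : ChartDens D) {Φ₀ : X2 M →ₗ[ℝ] ℝ} (hrepr : ∀ (b : X2 M) (g : M → ℝ) (C : ℝ), AEStronglyMeasurable g s → (∀ x, |g x| ≤ C) → (∀ f : SF M, Φ (mulX M f b) = ∫ x,  …  -- the restricted current is closed.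
* theorem n6_of (LP : LocalPoles) (D : Dat M) (hVG : D.VG) : D.N6  -- node N6.

### R240/Pol1 [ns Crest.Agent.R240.Pol] Row 240 (S0371), node N6 (helper768): potentials on `M` versus potentials in a chart.
* theorem wpot_le_map {A : Set X} (hA : MeasurableSet A) {f : X → Y} {s : Measure X} (hf : AEMeasurable f (s.restrict A)) {C : ℝ} (hC : 0 < C) (hbi : ∀ x ∈ A, ∀ x' ∈ A, dist (f x) (f x') ≤ C * dist x x') {x : X} (hx : x ∈ A) {δ : ℝ} (hδ : 0 < δ) (hball : ∀ x', x' ∉ A → δ ≤ dist x x') : wpot s x ≤ ENNReal.ofReal (C ^ 2) * wpot ((s.restrict A).map f) (f x) + ENNReal.ofReal (δ⁻¹ ^ 2 …  -- the potential on `X` from the potential of the push-forward.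
* theorem wpot_map_lt_top_iff {A : Set X} (hA : MeasurableSet A) {f : X → Y} {s : Measure X} [IsFiniteMeasure s] (hf : AEMeasurable f (s.restrict A)) {c C : ℝ} (hc : 0 < c) (hC : 0 < C) (hbi : ∀ x ∈ A, ∀ x' ∈ A, c * dist x x' ≤ dist (f x) (f x')) (hbi' : ∀ x ∈ A, ∀ x' ∈ A, dist (f x) (f x') ≤ C * dist x x') {x : X} (hx : x ∈ interior A) : wpot ((s.restrict A).map f) (f x) < ⊤ ↔ w …  -- the two potentials are finite at the same points.
* theorem map_ball_le {A : Set X} (hA : MeasurableSet A) {f : X → Y} {s : Measure X} (hf : AEMeasurable f (s.restrict A)) {c : ℝ} (hc : 0 < c) (hbi : ∀ x ∈ A, ∀ x' ∈ A, c * dist x x' ≤ dist (f x) (f x')) {D : ℝ} (hs : ∀ x r, 0 < r → s (ball x r) ≤ ENNReal.ofReal (D * r ^ 2)) (y : Y) (r : ℝ) (hr : 0 < r) : ((s.restrict A).map f) (ball y r) ≤ ENNReal.ofReal (D * (2 * c⁻¹) ^ 2 * r ^ …  -- quadratic growth of the push-forward.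

### R240/Pol2 [ns Crest.Agent.R240.Pol] Row 240 (S0371), node N6 (helper768): reduction of the local poles theorem for `J`, `F` smooth on an open set to the case of globally defined `J`, `F`.
* theorem bg_comp {J : E4 → E4 →L[ℝ] E4} {F : E4 → Bil} {U : Set E4} (hU : IsOpen U) (hJ : ContDiffOn ℝ ∞ J U) (hF : ContDiffOn ℝ ∞ F U) (hsq : ∀ y ∈ U, ∀ v, J y (J y v) = -v) (hpos : ∀ y ∈ U, SPos (J y) (F y)) {r : E4 → E4} (hr : ContDiff ℝ ∞ r) (hrU : ∀ y, r y ∈ U) {R' : ℝ} {x0 : E4} (hcst : ∀ y, R' ≤ ‖y‖ → r y = x0) : Bg (fun y => J (r y)) (fun y => F (r y))  -- composition with the retraction gives global background data.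
* theorem q_self_of_spos {J : E4 →L[ℝ] E4} (hJ : ∀ v, J (J v) = -v) {F : Bil} (hF : SPos J F) : q F F F = 1  -- `q F F F = 1`.
* theorem closedIn_core (LP : LocalPoles) {J : E4 → E4 →L[ℝ] E4} {F : E4 → Bil} {U : Set E4} (hU : IsOpen U) (hJ : ContDiffOn ℝ ∞ J U) (hF : ContDiffOn ℝ ∞ F U) (hsq : ∀ y ∈ U, ∀ v, J y (J y v) = -v) (hpos : ∀ y ∈ U, SPos (J y) (F y)) {x0 : E4} {R : ℝ} (hR : 0 < R) (hKU : closedBall x0 (3 * R) ⊆ U) {s : Measure E4} [IsFiniteMeasure s] (hs0 : s (closedBall x0 (2 * R))ᶜ = 0) {C : ℝ …  -- the local poles theorem for data which are only defined on an open set.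

### R240/Pol3 [ns Crest.Agent.R240.Pol] Row 240 (S0371), node N6 (helper768): the local poles theorem transported to a chart of `M`.
* def chMeas (p : M) (K : Set E4) (s : Measure M) : Measure E4  -- push-forward of `s`, restricted to a core, to the model space.
* theorem aesm_integrand {F : F2 E4 M} (hF : Smooth2 F) {x0 : E4} {R : ℝ} (hR : 0 < R) (hKt : closedBall x0 (3 * R) ⊆ (chartAt E4 p).target) (s : Measure M) {φ : E4 → Bil} (hφ : Measurable φ) {β : E4 → Bil} (hβ : Measurable β) : AEStronglyMeasurable (fun y => q (rep p F y) (φ y) (β y)) (chMeas p (closedBall x0 (2 * R)) s)  -- the integrand of the chart formula is a.e.-measurable.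
* theorem chart_zero (LP : LocalPoles) (hb : Met.BiLip E4 M) {J : EndF E4 M} (hJ : SmoothJ J) (hJ2 : ∀ x v, atJ J x (atJ J x v) = -v) {F : F2 E4 M} (hF : Smooth2 F) (hpos : SPosG J F) {x0 : E4} {R : ℝ} (hR : 0 < R) (hKt : closedBall x0 (3 * R) ⊆ (chartAt E4 p).target) (s : Measure M) [IsFiniteMeasure s] {D : ℝ} (hs : ∀ x r, 0 < r → s (ball x r) ≤ ENNReal.ofReal (D * r ^ 2)) {φ :  …  -- the local poles theorem in a chart of `M`.

### R240/Pol4 [ns Crest.Agent.R240.Pol] Row 240 (S0371), node N6 (helper768): one-forms supported in a chart.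
* theorem smooth1_ext1 (hK : IsCompact K) (hKt : K ⊆ (chartAt E4 p).target) {f : E4 → E4 →L[ℝ] ℝ} (hf : ContDiff ℝ ∞ f) (h0 : ∀ y, y ∉ K → f y = 0) : Smooth1 (ext1 p f)  -- smoothness of the extension by zero.
* theorem dG_zero_of_off (hK : IsCompact K) (hKt : K ⊆ (chartAt E4 p).target) {s : F1 E4 M} (h0 : ∀ x, x ∉ (chartAt E4 p).symm '' K → at1 s x = 0) {x : M} (hx : x ∉ (chartAt E4 p).symm '' K) : at2 (dG s) x = 0  -- the exterior derivative of the extension vanishes off the core.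
* theorem exists_test (hK : IsCompact K) (hKt : K ⊆ (chartAt E4 p).target) {s : F1 E4 M} (hs : Smooth1 s) (h0 : ∀ x, x ∉ (chartAt E4 p).symm '' K → at1 s x = 0) : ∃ S : E4 → E4 →L[ℝ] ℝ, ContDiff ℝ ∞ S ∧ tsupport S ⊆ K ∧ ∀ y ∈ (chartAt E4 p).target, rep1 p s y = S y  -- the representation of a one-form supported in a core, as a test form on the model space.

### R240/Pol5 [ns Crest.Agent.R240.Pol] Row 240 (S0371), node N6 (helper768): the restricted current is closed.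
* structure BallPU where t : Finset M x0 : M → E4 R : M → ℝ K : M → Set E4 χ : M → M → ℝ R_pos : ∀ i, 0 < R i sub : ∀ i, closedBall (x0 i) (3 * R i) ⊆ (chartAt E4 i).target K_cpt : ∀ i, IsCompact (K i) K_sub : ∀ i, K i ⊆ ball (x0 i) (R i) smooth : ∀ i, SmoothF E4 (χ i) off : ∀ i x, x ∉ (chartAt E4 i).symm '' K i → χ i x = 0 sum_one : ∀ x, ∑ i ∈ t, χ i x = 1  -- a finite smooth partition of unity supported in chart balls.
* theorem sum_pieces (P : BallPU M) (S : F1 E4 M) : ∑ i ∈ P.t, fmul1 (P.χ i) S = S  -- a form is the sum of its pieces.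
* theorem eq_dG {b : F2 E4 M} {S : F1 E4 M} (hS : Smooth1 S) (h : ∀ p : M, ∀ y ∈ (chartAt E4 p).target, rep p b y = d1 (rep1 p S) y) : b = dG S  -- an exact form is `dG` of its primitive.

### R240/Pol6 [ns Crest.Agent.R240.Pol] Row 240 (S0371), node N6 (helper768): the restricted current is closed.
* def ChartDens (D : Dat M) : Prop  -- (D2) of helper703: the current has a density in every chart ball.

### R240/PotA1 [ns Crest.Agent.R240.Pot.PD] # Row 240, Part P: bound of `a1 = b1 - J^c du` (helper369)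
* theorem a1Bd (ρ : E4 → ℝ) : D.A1Bd ρ  -- (A1)

### R240/PotAlg [ns Crest.Agent.R240.Pot] Row 240 (S0371), Part P: pointwise algebra of the frozen Kaehler identity. `E4 = EuclideanSpace ℝ (Fin 4)`, 1-forms are `E4 →L[ℝ] ℝ`, 2-forms are `E4 →L[ℝ] E4 →L[ℝ] ℝ`. `G i j` is the inverse metric matrix, `J` the (frozen) almost complex structure.
* def ctr (G : Fin 4 → Fin 4 → ℝ) (τ : Fin 4 → E4 → E4 → E4 → ℝ) (v w : E4) : ℝ  -- contraction `Σ G^{ij} τ_i(e_j, v, w)` of a family of three forms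
* theorem key (G : Fin 4 → Fin 4 → ℝ) (hG : ∀ i j, G i j = G j i) (J : E4 →L[ℝ] E4) (hGJ : ∀ ξ : E4 →L[ℝ] ℝ, sharp G (fun v => ξ (J v)) = -J (sharp G ξ)) (A : E4 →L[ℝ] E4 →L[ℝ] ℝ) (hA : ∀ v, A v v = 0) (hAJ : ∀ v w, A (J v) (J w) = A v w) (ξ : E4 →L[ℝ] ℝ) (v : E4) : A (sharp G ξ) v = Lop G J (wed3 ξ fun a b => A a b) v - trJ G J (fun a b => A a b) * ξ (J v)  -- Key pointwise identity: for a `J`-invariant alternating `A`, `A(ξ^#, v) = L(ξ ∧ A)(v) - (tr A) ξ(J v)`.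
* theorem frozen (G : Fin 4 → Fin 4 → ℝ) (hG : ∀ i j, G i j = G j i) (J : E4 →L[ℝ] E4) (hGJ : ∀ ξ : E4 →L[ℝ] ℝ, sharp G (fun v => ξ (J v)) = -J (sharp G ξ)) (A : E4 →L[ℝ] E4 →L[ℝ] ℝ) (hA : ∀ v, A v v = 0) (hAJ : ∀ v w, A (J v) (J w) = A v w) (H : E4 →L[ℝ] E4 →L[ℝ] ℝ) (hH : ∀ v w, H v w = H w v) (v w : E4) : (∑ i, ∑ j, G i j * H (ee i) (ee j)) * A v w = trJ G J (fun a b => A a b)  …  -- Frozen Kaehler identity at the level of a symmetric bilinear form `H` (the Hessian of the kernel): `(tr_G H) A = (tr A) (dd^c)_H + d(L(dN ∧ A)) + d^*(dN ∧ A)`.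

### R240/PotB2 [ns Crest.Agent.R240.Pot / PD] Row 240 (S0371), Part P (helper365): the estimates (B2) and (PS), i.e. `PD.b2Bd` and `PD.psiBd`: integration by parts in `y` against the closed current, with the frozen kernels.
* theorem L3_bd (hcl : D.ClosedCur) {a : E4 → ℝ} (ha : ContDiff ℝ ∞ a) (u v w : E4) : ∃ C : ℝ, 0 ≤ C ∧ ∀ (p : ℕ) (e B r : ℝ) (σ : E4 → ℝ) (x : E4), 0 < e → 0 ≤ B → ContDiff ℝ ∞ σ → (∀ z, e < ‖z‖ → σ z = 0) → KB p e B σ → D.Adm r e x → |D.L3 r a σ u v w x| ≤ C * B * wE D.s D.c D.R e p x  -- bound for `L3`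
* theorem b2Bd (ρ : E4 → ℝ) : D.B2Bd ρ  -- (B2)
* theorem psiBd (ρ : E4 → ℝ) : D.PsiBd ρ  -- (PS)

### R240/PotB2As [ns Crest.Agent.R240.Pot / PD] Row 240 (S0371), Part P: `B2Bd` and `PsiBd` from the core estimates.
* def cL (w : E4) (i j b c : Fin 4) (y : E4) : ℝ  -- coefficient in the expansion of `L`

### R240/PotBd [ns Crest.Agent.R240.Pot] # Row 240, Part P (for helper657): kernel bounds of Lemma P (helper369) * `invSq`, `invSq_integral_le` * `kerbd` : mollified kernels of order `-2` and their derivatives * `mkbd` : `m ζ = q ζ ζ / (g ζ ζ)²` satisfies the hypotheses of `kerbd` * `kerlow` : lower bound for mollified `1/g ζ ζ`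
* theorem int_conv {σ : E4 → ℝ} {e : ℝ} (hσ : Continuous σ) (hs : ∀ z, e < ‖z‖ → σ z = 0) (z : E4) (hm : ∀ z r, IntegrableOn m (closedBall z r)) : Integrable fun ζ => σ (z - ζ) * m ζ  -- integrability of the mollified integrand.
* theorem quad_le (q : Bil) {L : ℝ} (hq : ‖q‖ ≤ L) (ζ : E4) : |q ζ ζ| ≤ L * ‖ζ‖ ^ 2  -- quadratic estimate.
* theorem kerlow {lam Lam : ℝ} (hlam : 0 < lam) : ∃ c : ℝ, 0 < c ∧ ∀ g : Bil, (∀ v, lam * ‖v‖ ^ 2 ≤ g v v) → ‖g‖ ≤ Lam → ∀ (e : ℝ) (σ : E4 → ℝ), 0 < e → Continuous σ → (∀ z, 0 ≤ σ z) → (∀ z, e < ‖z‖ → σ z = 0) → ∫ z, σ z = 1 → ∀ z, c / (‖z‖ + e) ^ 2 ≤ ∫ ζ, σ (z - ζ) / g ζ ζ  -- (LB) lower bound of the mollified `1/g`.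

### R240/PotCoreDefs [ns Crest.Agent.R240.Pot / PD] Row 240 (S0371), Part P: the functionals `tC` and the two core estimates.
* def tC (a : E4 → ℝ) (u v w : E4) (y : E4) : Cov →ₗ[ℝ] ℝ  -- the functional `ξ ↦ a(y) (ξ ∧ φ_y)(u,v,w)`
* def Core2 (ρ : E4 → ℝ) : Prop  -- core estimate, first order
* def Core3 (ρ : E4 → ℝ) : Prop  -- core estimate, second order

### R240/PotDefs [ns Crest.Agent.R240.Pot] Row 240 (S0371), Part P (helper657): the frozen statement `P4` of LEMMA P (potential of a closed positive current in a ball of `R^4`, mollified at scale `e`), to be proved in `PotMain.lean`.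
* def mol (ρ : E4 → ℝ) (e : ℝ) (s : Measure E4) (φ : E4 → Bil) (x : E4) : Bil  -- mollified current `Φ_e(x) = ∫ ρ_e(x - y) φ(y) ds(y)`
* def wE (s : Measure E4) (c : E4) (R e : ℝ) (k : ℕ) (x : E4) : ℝ  -- truncated regularised potentials `∫_{closedBall c R} (|x-y|+e)^{-k} ds(y)`
* def P4 : Prop  -- LEMMA P.

### R240/PotFS [ns Crest.Agent.R240.Pot] Row 240, Lemma P (helper849, for helper657): the fundamental solution of a constant-coefficient Laplacian on `E4`.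
* def mlin (A : Matrix (Fin 4) (Fin 4) ℝ) : E4 →L[ℝ] E4  -- the linear map of a matrix
* theorem integral_comp_lin {F : Type*} [NormedAddCommGroup F] [NormedSpace ℝ F] (A : E4 →L[ℝ] E4) (hA : LinearMap.det (A : E4 →ₗ[ℝ] E4) ≠ 0) (h : E4 → F) : ∫ x, h x = |LinearMap.det (A : E4 →ₗ[ℝ] E4)| • ∫ η, h (A η)  -- change of variables for an invertible linear map

### R240/PotFam [ns Crest.Agent.R240.Pot / PD] Row 240 (S0371), Part P: the data structure `PD` and the smoothed frozen identity for it.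
* structure PD where J : E4 → E4 →L[ℝ] E4 F : E4 → Bil smJ : ContDiff ℝ ∞ J smF : ContDiff ℝ ∞ F sq : ∀ y v, J y (J y v) = -v sp : ∀ y, SPos (J y) (F y) c : E4 R : ℝ hR : 0 < R s : Measure E4 fin : IsFiniteMeasure s φ : E4 → Bil mφ : Measurable φ A : ℝ bA : ∀ y, ‖φ y‖ ≤ A pos : ∀ y, Pos (J y) (φ y) k : E4 → ℝ smk : ContDiff ℝ ∞ k hk : tsupport k ⊆ ball c R  -- The data of Lemma P.
* def b2 (r : ℝ) (σ : E4 → ℝ) : E4 → Cov  -- `b2`
* theorem ident {r : ℝ} {σ : E4 → ℝ} (hσ : ContDiff ℝ ∞ σ) (hc : HasCompactSupport σ) (x v w : E4) : D.GF r (D.tP v w) (fderiv ℝ (fderiv ℝ σ)) x = d1 (D.b1 r σ) x v w + d1 (D.b2 r σ) x v w + D.GF r (D.t3 v w) (fderiv ℝ (fderiv ℝ σ)) x  -- the smoothed frozen identity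

### R240/PotFub [ns Crest.Agent.R240.Pot / PD] Row 240 (S0371), Part P: Fubini for the smoothed families and the fundamental solution.
* def FSc (c0 : ℝ) : Prop  -- the fundamental solution property, with constant `c0`
* theorem fsI {c0 : ℝ} (hF : FSc c0) {χ : E4 → ℝ} (hk : ∀ y, D.k y = -(χ y * kap c0 (D.g y))) {r e : ℝ} {σ : E4 → ℝ} (hσ : ContDiff ℝ ∞ σ) (hσ0 : ∀ z, e < ‖z‖ → σ z = 0) {x : E4} (hx : D.Adm r e x) (v w : E4) : D.GF r (D.tP v w) (fderiv ℝ (fderiv ℝ σ)) x = ∫ y, χ y * (D.φ y v w * σ (x - y)) ∂D.s  -- fundamental solution applied under the integral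
* def Th (χ σ : E4 → ℝ) (x : E4) : Bil  -- the cut-off mollified current

### R240/PotGG [ns Crest.Agent.R240.Pot] Row 240 (S0371), Part P: vector version of the smoothing lemma. `GG μ p T r x = ∫ T(t)(r(x - p t)) dμ(t)` for `r : E4 → V` smooth compactly supported (V finite dimensional) and a family of linear functionals `T t : V →ₗ[ℝ] ℝ` with `T · v` integrable for all v.
* def cfl (k : Module.Basis.ofVectorSpaceIndex ℝ V) : V →L[ℝ] ℝ  -- the coordinate functional as continuous linear map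
* def co (l : Fin 4) : E4 →L[ℝ] ℝ  -- coordinate covector
* def mkCov (f : E4 → E4 → ℝ) (x : E4) : E4 →L[ℝ] ℝ  -- covector field from scalar components `f x w` (linear in `w`)

### R240/PotGeo [ns Crest.Agent.R240.Pot] Row 240 (S0371), Part P: the metric `g_y(v,w) = F_y(v, J_y w)`, its inverse matrix, its volume.
* def gI (g : Bil) : Fin 4 → Fin 4 → ℝ  -- inverse metric matrix
* theorem sharp_J (hJ : ∀ v, J (J v) = -v) (hF : SPos J F) (ξ : E4 →L[ℝ] ℝ) : sharp (gI (gm J F)) (fun v => ξ (J v)) = -J (sharp (gI (gm J F)) ξ)  -- compatibility of the inverse metric with `J`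
* def kap (c0 : ℝ) (g : Bil) : ℝ  -- the normalising factor `κ = c0 sqrt(det g)`

### R240/PotIBP [ns Crest.Agent.R240.Pot] Row 240 (S0371), Part P (helper365): integration by parts against a closed measure-valued 2-form on an open subset of `R^4`, and closedness of its mollification.
* theorem moll_fderiv (hm : Measurable phi) (hA : ∀ y, ‖phi y‖ ≤ A) (hσ : ContDiff ℝ ∞ σ) (hc : HasCompactSupport σ) (x u a b : E4) : fderiv ℝ (moll s phi σ) x u a b = ∫ y, fderiv ℝ σ (x - y) u * phi y a b ∂s  -- derivative of the mollification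
* theorem moll_closed (hm : Measurable phi) (hA : ∀ y, ‖phi y‖ ≤ A) (halt : ∀ y, Alt (phi y)) (hcl : ∀ ψ : E4 → En.Cov, ContDiff ℝ ∞ ψ → HasCompactSupport ψ → tsupport ψ ⊆ U → ∫ y, W (phi y) (En.d1 ψ y) ∂s = 0) (hσ : ContDiff ℝ ∞ σ) (hc : HasCompactSupport σ) {x : E4} (hx : tsupport (fun y => σ (x - y)) ⊆ U) : En.Cl (moll s phi σ) x  -- (I3): closedness of the mollification, general form
* theorem moll_closed_ball (hm : Measurable phi) (hA : ∀ y, ‖phi y‖ ≤ A) (halt : ∀ y, Alt (phi y)) (hcl : ∀ ψ : E4 → En.Cov, ContDiff ℝ ∞ ψ → HasCompactSupport ψ → tsupport ψ ⊆ U → ∫ y, W (phi y) (En.d1 ψ y) ∂s = 0) (hσ : ContDiff ℝ ∞ σ) {e : ℝ} (hs : ∀ z, e < ‖z‖ → σ z = 0) {x : E4} (hx : Metric.closedBall x e ⊆ U) : En.Cl (moll s phi σ) x  -- (I3) for kernels supported in a ball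

### R240/PotId [ns Crest.Agent.R240.Pot / MB] Row 240 (S0371), Part P: the smoothed frozen identity.
* def thP (G : Fin 4 → Fin 4 → ℝ) (A : Bil) (v w : E4) : Bil →ₗ[ℝ] ℝ  -- `H ↦ (tr_G H) A(v,w)`
* theorem frozen_th {J : E4 →L[ℝ] E4} {F A : Bil} (hJ : ∀ v, J (J v) = -v) (hF : SPos J F) (hA : Pos J A) (H : Bil) (hH : ∀ v w, H v w = H w v) (v w : E4) : thP (gI (gm J F)) A v w H = (th1 (trJ (gI (gm J F)) J (fb A)) J w (H v) - th1 (trJ (gI (gm J F)) J (fb A)) J v (H w)) + (th2 (gI (gm J F)) J A w (H v) - th2 (gI (gm J F)) J A v (H w)) + th3 (gI (gm J F)) A v w H  -- the frozen identity in terms of the functionals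
* def TT (g : E4 → Bil) (k : E4 → ℝ) (θ : E4 → V →ₗ[ℝ] ℝ) (t : E4 × E4) : V →ₗ[ℝ] ℝ  -- weighted family of functionals

### R240/PotMain [ns Crest.Agent.R240.Pot] Row 240 (S0371), Part P: assembly of Lemma P (`P4`) from the estimates.
* def MolFacts : Prop  -- facts about the mollified current, to be supplied by `PotIBP`

### R240/PotMol [ns Crest.Agent.R240.Pot] Row 240 (S0371), Part P: the facts about the mollified current used in `PotMain`.

### R240/PotP4 [ns Crest.Agent.R240.Pot] Row 240 (S0371), Part P: Lemma P.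

### R240/PotPoinc [ns Crest.Agent.R240.PotPoinc] Row 240 (S0371), helper838: averaged Poincaré homotopy for closed two-forms on balls of `ℝ⁴` with the kernel bound `|α(x)| ≤ C ∫ |x - z|⁻³ |Ψ(z)| dz`.
* def hinD (Ψ : E → E →L[ℝ] E →L[ℝ] ℝ) (a x : E) (t : ℝ) : E →L[ℝ] E →L[ℝ] ℝ  -- derivative of the integrand.
* def homD (Ψ : E → E →L[ℝ] E →L[ℝ] ℝ) (a x : E) : E →L[ℝ] E →L[ℝ] ℝ  -- derivative of the homotopy with centre `a`.
* def avg (μ : Measure E) (φ : E → ℝ) (Ψ : E → E →L[ℝ] E →L[ℝ] ℝ) (x : E) : E →L[ℝ] ℝ  -- average of the homotopies over the centres.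

### R240/PotPoinc2 [ns Crest.Agent.R240.PotPoinc] Row 240 (S0371), helper838: averaged Poincaré homotopy, kernel bound in `ℝ⁴`.
* def GG (g : E4 → ℝ≥0∞) (c : E4) (r : ℝ) (x : E4) (t : ℝ) (z : E4) : ℝ≥0∞  -- auxiliary function for the change of variables.

### R240/PotPoinc3 [ns Crest.Agent.R240.PotPoinc] Row 240 (S0371), helper838: Poincaré lemma for closed two-forms on balls of `ℝ⁴` with kernel bound. * `poinc` : smooth closed `Ψ`, `d1 α = Ψ` on the ball, `|α(x)| ≤ C ∫ |x-z|⁻³ |Ψ(z)| dz`; * `poinc_on` : the same for `Ψ` smooth on a larger ball; * `poinc_we`, `poinc_we_on` : `|Ψ(z)| ≤ K (∫ (|z-y|+ε)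
* def CP : ℝ≥0  -- universal constant.
* def AV : ℝ  -- volume growth constant.
* def CW : ℝ≥0  -- universal constant.

### R240/PotPoinc4 [ns Crest.Agent.R240.PotPoinc] Row 240 (S0371), helper838: Poincaré lemma with the bounds of `P4` (real-valued version with `wE`).
* def CR (r : ℝ) : ℝ  -- constant of the Poincaré lemma on a ball of radius `r`.
* theorem poinc_wE (c : E4) {r R' : ℝ} (hr : 0 < r) (hR : r < R') {Ψ : E4 → Bil} (hΨ : ContDiffOn ℝ ∞ Ψ (ball c R')) (halt : ∀ y ∈ ball c r, Alt (Ψ y)) (hcl : ∀ y ∈ ball c r, Cl Ψ y) (s : Measure E4) [IsFiniteMeasure s] (c0 : E4) (R : ℝ) {e : ℝ} (he : 0 < e) {K : ℝ} (hK0 : 0 ≤ K) (hK : ∀ z ∈ ball c r, ‖Ψ z‖ ≤ K * (wE s c0 R e 3 z + 1)) : ∃ α : E4 → Cov, ContDiff ℝ ∞ α ∧ (∀ x ∈ ba …  -- Poincaré lemma with the bounds of `P4`.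

### R240/PotS [ns Crest.Agent.R240.Pot] Row 240 (S0371), Part P: the smoothing lemma. `SS μ p w σ x = ∫ w(t) σ(x - p t) dμ(t)` is smooth for integrable `w` and smooth compactly supported `σ`, with the expected derivatives.
* def SS (μ : Measure Ω) (p : Ω → E4) (w : Ω → ℝ) (σ : E4 → ℝ) (x : E4) : ℝ  -- smoothing of a weight by a kernel
* def dd (σ : E4 → ℝ) (v : E4) : E4 → ℝ  -- directional derivative of a function

### R240/PotSt [ns Crest.Agent.R240.Pot / PD] Row 240 (S0371), Part P: statements of the four estimates used in `PotMain`.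
* structure Moll (ρ : E4 → ℝ) : Prop where sm : ContDiff ℝ ∞ ρ nn : ∀ z, 0 ≤ ρ z sup : ∀ z, 1 ≤ ‖z‖ → ρ z = 0 one : ∫ z, ρ z = 1  -- standard mollifier
* structure Cut (c0 : ℝ) (χ : E4 → ℝ) : Prop where sm : ContDiff ℝ ∞ χ nn : ∀ y, 0 ≤ χ y le : ∀ y, χ y ≤ 1 one : ∀ y ∈ closedBall D.c (3 / 4 * D.R), χ y = 1 kk : ∀ y, D.k y = -(χ y * kap c0 (D.g y))  -- cut-off data: `k = -χ κ(g)`, `0 ≤ χ ≤ 1`, `χ = 1` on the ball of radius `3R/4`.
* def PsiBd (ρ : E4 → ℝ) : Prop  -- (PS) bound for `Ψ`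

### R240/PotTr [ns Crest.Agent.R240.Pot] Row 240 (S0371), Part P (helper838 for helper657): trace identity, `d∘d = 0`, smoothness of `J du`, Lipschitz bound for `J`, bounds for the rescaled mollifier.
* theorem tr_eq (hJ : ∀ v, J (J v) = -v) (hF : SPos J F) (hP : Alt P) : trJ (gI (gm J F)) J (fun a b => P a b) * W F F = 2 * W P F  -- (TR)
* theorem tr_nonneg (hJ : ∀ v, J (J v) = -v) (hF : SPos J F) (hP : Pos J P) : 0 ≤ trJ (gI (gm J F)) J (fun a b => P a b)  -- (TRpos)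
* theorem rhoE_bounds (hρ : ContDiff ℝ ∞ ρ) (h1 : ∀ z, 1 ≤ ‖z‖ → ρ z = 0) : ∃ B : ℝ, 0 ≤ B ∧ ∀ e : ℝ, 0 < e → ∀ z : E4, |rhoE ρ e z| ≤ B / e ^ 4 ∧ (∀ v, |fderiv ℝ (rhoE ρ e) z v| ≤ B * ‖v‖ / e ^ 5) ∧ (∀ v w, |fderiv ℝ (fun z => fderiv ℝ (rhoE ρ e) z w) z v| ≤ B * ‖v‖ * ‖w‖ / e ^ 6)  -- (MOL) bounds

### R240/PotU [ns Crest.Agent.R240.Pot / PD] # Row 240, Part P: bounds of the potential `u` (for helper657; helper369)
* theorem GF_fub_integrable {r e : ℝ} {θ : E4 → V →ₗ[ℝ] ℝ} (hθ : ∀ v, MB D.c D.R fun y => θ y v) {f : E4 → V} (hf : Continuous f) (hf0 : ∀ z, e < ‖z‖ → f z = 0) {x : E4} (hx : D.Adm r e x) : Integrable (fun y => ∫ ζ, kk (D.k y • D.g y) (D.g y) ζ * θ y (f (x - y - ζ))) D.s  -- the inner integrals are integrable in `y`.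
* theorem uBd (c0 : ℝ) (χ ρ : E4 → ℝ) : D.UBd c0 χ ρ  -- (U) bounds for the potential.

### R240/PotW [ns Crest.Agent.R240.Pot] Row 240 (S0371), Part P: weights `h(y) q_y(ζ,ζ)/g_y(ζ,ζ)^2` on `E4 × closedBall 0 ρ`, integrability, Fubini.
* theorem invSqInt (r : ℝ) : IntegrableOn (fun ζ : E4 => 1 / ‖ζ‖ ^ 2) (closedBall 0 r) volume  -- local integrability of `|ζ|^{-2}` in `R^4`
* theorem wq_int [IsFiniteMeasure s] (hg : Continuous g) (hp : ∀ y v, v ≠ 0 → 0 < g y v v) (hq : Continuous q) (hq0 : ∀ y, y ∉ closedBall c R → q y = 0) (hh : Measurable h) {B : ℝ} (hB : ∀ y ∈ closedBall c R, |h y| ≤ B) : Integrable (wq g q h) (muP s r)  -- integrability of the weights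
* theorem wq_fub [IsFiniteMeasure s] (hg : Continuous g) (hp : ∀ y v, v ≠ 0 → 0 < g y v v) (hq : Continuous q) (hq0 : ∀ y, y ∉ closedBall c R → q y = 0) (hh : Measurable h) {B : ℝ} (hB : ∀ y ∈ closedBall c R, |h y| ≤ B) {σ : E4 → ℝ} (hσ : Continuous σ) {e : ℝ} (hσ0 : ∀ z, e < ‖z‖ → σ z = 0) {x : E4} (hx : ∀ y ∈ closedBall c R, ‖x - y‖ + e ≤ r) : ∫ t, wq g q h t * σ (x - pP t) ∂(m …  -- Fubini for the weights

### R240/Q1 [ns Crest.Agent.R240.Q4 / Near] Row 240 (S0371), R4a (helper83), file 1: pointwise estimates for the pull-back of two-forms by a linear map which is close to the identity, between two nearby structures `(J₀,F₀)`, `(J₁,F₁)` on `E4`.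
* structure Cmp (B : ℝ) (J : E4 →L[ℝ] E4) (F : Bil) : Prop where sq : ∀ v, J (J v) = -v spos : SPos J F nJ : ‖J‖ ≤ B nF : ‖F‖ ≤ B low : ∀ b : Bil, Alt b → ‖b‖ ≤ B * nr J F b up : ∀ b : Bil, Alt b → nr J F b ≤ B * ‖b‖ ell : ∀ v : E4, ‖v‖ ^ 2 ≤ B * F v (J v)  -- comparison of `(J,F)` with the Euclidean structure, with constant `B`.
* structure Near (B t : ℝ) (J₀ J₁ : E4 →L[ℝ] E4) (F₀ F₁ : Bil) (A : E4 →L[ℝ] E4) : Prop where one_le : 1 ≤ B t_nonneg : 0 ≤ t c0 : Cmp B J₀ F₀ c1 : Cmp B J₁ F₁ nA : ‖A‖ ≤ B dJ : ‖J₁ - J₀‖ ≤ B * t dF : ‖F₁ - F₀‖ ≤ B * t dA : ‖A - ContinuousLinearMap.id ℝ E4‖ ≤ B * t  -- two structures at distance `t`, and a linear map `A` at distance `t` from the identity.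
* theorem low (h : Near B t J₀ J₁ F₀ F₁ A) (v : E4) : (1 - 3 * B ^ 5 * t) * F₀ v (J₀ v) ≤ pb F₁ A v (J₀ v)  -- lower bound of the pull-back of `F`.

### R240/Q2 [ns Crest.Agent.R240.Q4] Row 240 (S0371), R4a (helper83), file 2: the constants of `Near` on a compact piece of a chart.
* def SA : Set Bil  -- the unit sphere of alternating forms
* theorem exists_cmp {K : Set X} (hK : IsCompact K) {J : X → E4 →L[ℝ] E4} {F : X → Bil} (hJ : ContinuousOn J K) (hF : ContinuousOn F K) (hsq : ∀ x ∈ K, ∀ v, J x (J x v) = -v) (hsp : ∀ x ∈ K, SPos (J x) (F x)) : ∃ B : ℝ, 1 ≤ B ∧ ∀ x ∈ K, Cmp B (J x) (F x)  -- uniform comparison on a compact set.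
* theorem exists_near {J : EndF E4 M} {F : F2 E4 M} (hJ : SmoothJ J) (hF : Smooth2 F) (hsq : ∀ x v, atJ J x (atJ J x v) = -v) (hsp : SPosG J F) (G : Fam E4) (hG : G.K ⊆ (chartAt E4 p).target) {ρ : ℝ} (hρ0 : 0 ≤ ρ) (hρ : ρ < G.r) : ∃ B : ℝ, 1 ≤ B ∧ ∀ z ∈ closedBall (0 : E4) ρ, ∀ y ∈ G.K, Near B ‖z‖ (repJ p J y) (repJ p J (G.g z y)) (rep p F y) (rep p F (G.g z y)) (G.dg z y)  -- the constant of a chart family.

### R240/Q3 [ns Crest.Agent.R240.Q4] Row 240 (S0371), R4a (helper83), file 3: the ONE-CHART fields `bd, pos, leak1, leak2, low` of `SmPack`.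
* theorem nr_integral_le (hJ : ∀ v, J (J v) = -v) (hF : SPos J F) {f : Z → Bil} {g : Z → ℝ} (hf : Integrable f μ) (hg : Integrable g μ) (halt : ∀ z, Alt (f z)) (hfg : ∀ z, nr J F (f z) ≤ g z) : nr J F (∫ z, f z ∂μ) ≤ ∫ z, g z ∂μ  -- the norm of an integral.
* structure Pt (D : Dat M) (G : Fam E4) (p : M) (ρ C : ℝ) : Prop where one_le : 1 ≤ C bd : ∀ z ∈ closedBall (0 : E4) ρ, ∀ (b : F2 E4 M), (∀ x, Alt (at2 b x)) → ∀ x, D.nr (pullG G p z b) x ≤ C * D.nr b (psi G p z x) leak1 : ∀ z ∈ closedBall (0 : E4) ρ, ∀ (b : F2 E4 M), (∀ x, Alt (at2 b x)) → ∀ x, D.nr (bpp D.J (pullG G p z (bp D.J b))) x ≤ C * ‖z‖ * D.nr b (psi G p z x) leak2 : ∀  …  -- all pointwise estimates with one constant.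
* theorem pos_rep {J : EndF E4 M} {P : F2 E4 M} {p : M} (hP : PosG J P) {y : E4} (hy : y ∈ (chartAt E4 p).target) : Pos (repJ p J y) (rep p P y)  -- positive forms in charts

### R240/Q5 [ns Crest.Agent.R240.Q4] Row 240 (S0371), R4a (helper83), file 5: the fields `bd, pos, leak1, leak2, low` of `SmPack` for the smoothing system of 915 (one chart: here; composition: 822's `SmComp`).
* theorem fLeak1 (D : Dat M) (S : Sys M) : FLeak1 D S  -- field `leak1`.
* theorem fLeak2 (D : Dat M) (S : Sys M) : FLeak2 D S  -- field `leak2`.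
* theorem fLow (D : Dat M) (S : Sys M) : FLow D S  -- field `low`.

### R240/Riesz [ns Crest.Agent.R240.HB] # Riesz measure of a positive functional defined on few functions (row 240, helper710) `A` is any real vector space of "test functions" on a compact Hausdorff space `M`, evaluated by a linear map `ev : A →ₗ[ℝ] (M → ℝ)` (for instance the smooth functions on a compact manifold).
* theorem le_integral_of_dominates (ev : A →ₗ[ℝ] (M → ℝ)) (hcont : ∀ f, Continuous (ev f)) (hdense : ∀ f : M → ℝ, Continuous f → ∀ ε > 0, ∃ g, ∀ x, |ev g x - f x| < ε) (Λ : A →ₗ[ℝ] ℝ) (μ : Measure M) [IsFiniteMeasure μ] (hμ : ∀ f, ∫ x, ev f x ∂μ = Λ f) (r : ℝ) (k : M → ℝ) (hk : Continuous k) (hr : ∀ g, (∀ x, k x ≤ ev g x) → r ≤ Λ g) : r ≤ ∫ x, k x ∂μ  -- Passing from smooth majorants to the integral of a continuous majorant.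
* def evSmooth : C^∞⟮I, M; 𝓘(ℝ, ℝ), ℝ⟯ →ₗ[ℝ] (M → ℝ)  -- Evaluation of smooth functions.
* theorem exists_measure_smooth (Λ : C^∞⟮I, M; 𝓘(ℝ, ℝ), ℝ⟯ →ₗ[ℝ] ℝ) (hpos : ∀ f : C^∞⟮I, M; 𝓘(ℝ, ℝ), ℝ⟯, (∀ x, 0 ≤ f x) → 0 ≤ Λ f) : ∃ μ : Measure M, IsFiniteMeasure μ ∧ μ.Regular ∧ (∀ f : C^∞⟮I, M; 𝓘(ℝ, ℝ), ℝ⟯, ∫ x, f x ∂μ = Λ f) ∧ (∀ (r : ℝ) (k : M → ℝ), Continuous k → (∀ g : C^∞⟮I, M; 𝓘(ℝ, ℝ), ℝ⟯, (∀ x, k x ≤ g x) → r ≤ Λ g) → r ≤ ∫ x, k x ∂μ)  -- The measure of a positive functional on smooth functions, together with the domination principle for continuous majorants.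

### R240/Sm1 [ns Crest.Agent.R240.Sm / Cut / Fam] # Row 240, block R (smoothing), part Sm1 (helper950) One-chart translations `tau z y = y + θ y • z` of a finite dimensional space, their inverses.
* structure Cut (E : Type*) [NormedAddCommGroup E] [NormedSpace ℝ E] where θ : E → ℝ smooth : ContDiff ℝ ∞ θ comp : HasCompactSupport θ z0 : ℝ z0_pos : 0 < z0 lip : ∀ y, ‖fderiv ℝ θ y‖ * z0 ≤ 1 / 2  -- a cut-off function with a radius `z0` of allowed translations.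
* structure Fam (E : Type*) [NormedAddCommGroup E] [NormedSpace ℝ E] where r : ℝ r_pos : 0 < r K : Set E isCompact : IsCompact K g : E → E → E gi : E → E → E smooth : ContDiffOn ℝ ∞ (fun p : E × E => g p.1 p.2) (ball 0 r ×ˢ univ) smoothi : ContDiffOn ℝ ∞ (fun p : E × E => gi p.1 p.2) (ball 0 r ×ˢ univ) left_inv : ∀ z ∈ ball (0 : E) r, ∀ y, gi z (g z y) = y right_inv : ∀ z ∈ ball  …  -- a smooth family of diffeomorphisms of `E`, equal to the identity off a compact set.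
* def Cut.fam (c : Cut E) : Fam E  -- the family of one-chart translations.

### R240/Sm2 [ns Crest.Agent.R240.Sm] # Row 240, block R (smoothing), part Sm2 (helper950) The diffeomorphisms `psi G p z` of `M` given by a family `G` of diffeomorphisms of the model space supported in the target of the chart at `p`, and the pull-back `pullG G p z b` of two-forms.
* def KM : Set M  -- the compact set off which nothing moves.
* lemma rep_pullG {y : E} (hy : y ∈ (chartAt E p).target) (z : E) (b : F2 E M) : rep p (pullG G p z b) y = pb (rep p b (G.g z y)) (G.dg z y)  -- the pull-back in the chart at `p`.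
* theorem contDiffOn_rep_pullG [T2Space M] (hG : G.K ⊆ (chartAt E p).target) {b : F2 E M} (hb : Smooth2 b) (q : M) : ContDiffOn ℝ ∞ (fun w : E × E => rep q (pullG G p w.1 b) w.2) (ball 0 G.r ×ˢ (chartAt E q).target)  -- joint smoothness of the pull-back in all charts.

### R240/Sm2b [ns Crest.Agent.R240.Sm] # Row 240, block R (smoothing), part Sm2b (helper950) Naturality of the exterior derivative and closedness of the pull-back.
* theorem dd_pb {b : E → E →L[ℝ] E →L[ℝ] ℝ} {g : E → E} {y : E} (halt : ∀ u v, b (g y) u v = - b (g y) v u) (hb : DifferentiableAt ℝ b (g y)) (hg : ContDiffAt ℝ 2 g y) (u v w : E) : dd (fun x => pb (b (g x)) (fderiv ℝ g x)) y u v w = dd b (g y) (fderiv ℝ g y u) (fderiv ℝ g y v) (fderiv ℝ g y w)  -- naturality of the exterior derivative.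
* theorem closed2_pullG [T2Space M] (hG : G.K ⊆ (chartAt E p).target) {b : F2 E M} (hb : Smooth2 b) (hc : Closed2 b) {z : E} (hz : z ∈ ball (0 : E) G.r) : Closed2 (pullG G p z b)  -- the pull-back of a closed form is closed.

### R240/Sm2c [ns Crest.Agent.R240.Sm] # Row 240, block R (smoothing), part Sm2c (helper950) Families of operators on two-forms depending smoothly on parameters and lying over a family of maps of `M`: the predicate `LF`.
* def LF (U : Set W) (T : W → F2 E M → F2 E M) (φ : W → M → M) : Prop  -- families of operators on two-forms over a family of maps of `M`, jointly smooth.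
* theorem LF.pullG [T2Space M] {G : Fam E} {p : M} (hG : G.K ⊆ (chartAt E p).target) {U : Set W} (hU : IsOpen U) {ζ : W → E} (hζ : ContDiffOn ℝ ∞ ζ U) (hm : MapsTo ζ U (ball 0 G.r)) : LF U (fun w => pullG G p (ζ w)) (fun w => psi G p (ζ w))  -- pull-backs by one-chart diffeomorphisms.
* theorem LF.js {U : Set W} {T : W → F2 E M → F2 E M} {φ : W → M → M} (h : LF U T φ) {β : W → F2 E M} (hβ : ∀ q : M, ContDiffOn ℝ ∞ (fun v : W × E => rep q (β v.1) v.2) (U ×ˢ (chartAt E q).target)) (q : M) : ContDiffOn ℝ ∞ (fun v : W × E => rep q (T v.1 (β v.1)) v.2) (U ×ˢ (chartAt E q).target)  -- joint smoothness of `w ↦ T w (β w)`.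

### R240/Sm2d [ns Crest.Agent.R240.Sm] # Row 240, block R (smoothing), part Sm2d (helper950) `LF` families act on jointly smooth families (`JSm` of `SmJoint`).
* theorem LF.jsm {U : Set W} {T : W → F2 E4 M → F2 E4 M} {φ : W → M → M} (h : LF U T φ) (halt : ∀ w ∈ U, ∀ b : F2 E4 M, (∀ x v, at2 b x v v = 0) → ∀ x v, at2 (T w b) x v v = 0) {β : W → F2 E4 M} (hβ : JSm U β) : JSm U (fun w => T w (β w))  -- `LF` families preserve joint smoothness.
* theorem JSm.pullG [T2Space M] {G : Fam E4} {p : M} (hG : G.K ⊆ (chartAt E4 p).target) {U : Set W} (hU : IsOpen U) {ζ : W → E4} (hζ : ContDiffOn ℝ ∞ ζ U) (hm : MapsTo ζ U (ball 0 G.r)) {β : W → F2 E4 M} (hβ : JSm U β) : JSm U (fun w => Sm.pullG G p (ζ w) (β w))  -- pull-backs of a jointly smooth family.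
* theorem jsm_pullG [T2Space M] {G : Fam E4} {p : M} (hG : G.K ⊆ (chartAt E4 p).target) {b : F2 E4 M} (hb : Smooth2 b) : JSm (ball (0 : E4) G.r) (fun z => Sm.pullG G p z b)  -- the family `z ↦ pullG G p z b`.

### R240/Sm3 [ns Crest.Agent.R240.Sm] Row 240, block R (smoothing), part Sm3 (helper375): invariance of the pairing `I` under the one-chart diffeomorphisms, transposes of the one-chart averaging operators.
* theorem I_pullG {F a b : F2 E4 M} (hF : Int.Vol F) {G : Fam E4} {p : M} (hG : G.K ⊆ (chartAt E4 p).target) {z : E4} (hz : z ∈ ball (0 : E4) G.r) (ha : Smooth2 a) (hb : Smooth2 b) : Int.I F (pullG G p z a) (pullG G p z b) = Int.I F a b  -- invariance of the pairing under the one-chart diffeomorphisms.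
* theorem I_pullG_adj {F h b : F2 E4 M} (hF : Int.Vol F) {G : Fam E4} {p : M} (hG : G.K ⊆ (chartAt E4 p).target) {z : E4} (hz : z ∈ ball (0 : E4) G.r) (hh : Smooth2 h) (hb : Smooth2 b) : Int.I F h (pullG G p z b) = Int.I F (pullG G.symm p z h) b  -- the transpose of the pull-back is the pull-back by the inverse.
* theorem I_avg [SecondCountableTopology Z] [SFinite (volume : Measure Z)] {U : Set Z} (hU : IsOpen U) {κ : Z → ℝ} (hκ : Continuous κ) (hc : HasCompactSupport κ) (hs : tsupport κ ⊆ U) {β : Z → F2 E4 M} (hβ : JSm U β) {F h : F2 E4 M} (hF : Int.Vol F) (hh : Int.Cont2 h) : Int.I F h (Sm.avg κ β) = ∫ z, κ z * Int.I F h (β z)  -- Fubini: the pairing with an average.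

### R240/Sm3a [ns Crest.Agent.R240.Sm] Row 240, block SM, part Sm3a (helper375): change of variables in `E4` for the wedge pairing.
* theorem integral_W_pull {Ω : Set E4} (hΩ : MeasurableSet Ω) {τ : E4 → E4} {τ' : E4 → E4 →L[ℝ] E4} (hτ' : ∀ y ∈ Ω, HasFDerivAt τ (τ' y) y) (hinj : InjOn τ Ω) (himg : τ '' Ω = Ω) (hdet : ∀ y ∈ Ω, 0 < LinearMap.det (τ' y : E4 →ₗ[ℝ] E4)) {σ : E4 → ℝ} (hσ : ∀ y ∈ Ω, σ (τ y) = σ y) {a b : E4 → Bil} (ha : ∀ y ∈ Ω, Alt (a y)) (hb : ∀ y ∈ Ω, Alt (b y)) : ∫ y in Ω, σ y * W (pull (τ' y) ( …  -- Change of variables for the wedge pairing under an orientation preserving diffeomorphism `τ` of an open set `Ω`; `σ` is a sign function invariant under `τ`.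

### R240/Sm3b [ns Crest.Agent.R240.Sm] Row 240, block R (smoothing), part Sm3b (helper375): the transpose of a one-chart averaging.
* theorem jsm_scaled {G : Fam E4} {p : M} (hG : G.K ⊆ (chartAt E4 p).target) (e : ℝ) {b : F2 E4 M} (hb : Smooth2 b) : JSm (Ue G e) (fun z => Sm.pullG G p (e • z) b)  -- the scaled family of pull-backs is jointly smooth.
* theorem I_avg_pull {F h b : F2 E4 M} (hF : Int.Vol F) {G : Fam E4} {p : M} (hG : G.K ⊆ (chartAt E4 p).target) {κ : E4 → ℝ} (hκ : Continuous κ) (hc : HasCompactSupport κ) {e : ℝ} (hs : ∀ z ∈ tsupport κ, e • z ∈ ball (0 : E4) G.r) (hh : Smooth2 h) (hb : Smooth2 b) : Int.I F h (Sm.avg κ (fun z => Sm.pullG G p (e • z) b)) = Int.I F (Sm.avg κ (fun z => Sm.pullG G.symm p (e • z) h))  …  -- the transpose of a one-chart averaging is the averaging with the inverse family.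
* theorem datVol (D : Dat M) : Int.Vol D.F  -- the pairing of the data is the pairing of the volume measure.

### R240/Sm4a [ns Crest.Agent.R240.Sm4] Row 240 (S0371), block R, Sm4 part a (helper599): extension by zero of chart functions, smoothness and `C^m` bounds in all charts.
* def pbL (D : E4 →L[ℝ] E4) : Bil →L[ℝ] Bil  -- `pb` as a continuous linear operator on forms.
* theorem ckB_rep_ext2 [T2Space M] (q p : M) {K K' : Set E4} (hK : IsCompact K) (hKt : K ⊆ (chartAt E4 p).target) (hK' : IsCompact K') (hKt' : K' ⊆ (chartAt E4 q).target) (m : ℕ) : ∃ C, 0 ≤ C ∧ ∀ f, f ∈ DK K Bil → ∀ A, (∀ j ≤ m, ∀ y, ‖iteratedFDeriv ℝ j f y‖ ≤ A) → ∀ j ≤ m, ∀ y ∈ K', ‖iteratedFDeriv ℝ j (rep q (ext2 p f)) y‖ ≤ C * A  -- `C^m` bounds of the extension by zero in another chart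
* theorem cm_ext2 [T2Space M] (𝒰 : Cover M) (p : M) {K : Set E4} (hK : IsCompact K) (hKt : K ⊆ (chartAt E4 p).target) (m : ℕ) : ∃ C, 0 ≤ C ∧ ∀ f, f ∈ DK K Bil → ∀ A, (∀ j ≤ m, ∀ y, ‖iteratedFDeriv ℝ j f y‖ ≤ A) → 𝒰.cm m (ext2 p f) ≤ C * A  -- the `C^m` norm of the extension by zero

### R240/Sm4b [ns Crest.Agent.R240.Sm4] Row 240 (S0371), block R, Sm4 part b (helper599): one averaging in the chart at `p` makes a functional of finite order smooth where the averaging is a translation averaging.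
* theorem at2_avg {p : M} (c : Cut E4) (hc : ∀ y, c.θ y ∈ Icc (0 : ℝ) 1) (hct : tsupport c.θ ⊆ (chartAt E4 p).target) {Ω : Set E4} (hΩ : IsOpen Ω) (hΩ1 : ∀ y ∈ Ω, c.θ y = 1) {κ : E4 → ℝ} (hκ : Continuous κ) {ρ e : ℝ} (hκρ : ∀ z, κ z ≠ 0 → ‖z‖ ≤ ρ) (he : 0 < e) (heρ : e * ρ < c.z0) {K : Set E4} (hK : IsCompact K) (hKt : K ⊆ (chartAt E4 p).target) (hKΩ : ∀ w ∈ K, closedBall w (e *  …  -- the averaging of a form supported where the cut-off is one is a translation averaging.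
* theorem S1_chart (𝒰 : Cover M) {p : M} (c : Cut E4) (hc : ∀ y, c.θ y ∈ Icc (0 : ℝ) 1) (hct : tsupport c.θ ⊆ (chartAt E4 p).target) {Ω : Set E4} (hΩ : IsOpen Ω) (hΩ1 : ∀ y ∈ Ω, c.θ y = 1) {κ : E4 → ℝ} (hκ : ContDiff ℝ ∞ κ) {ρ e : ℝ} (hρ : 0 ≤ ρ) (hκρ : ∀ z, κ z ≠ 0 → ‖z‖ ≤ ρ) (he : 0 < e) (heρ : e * ρ < c.z0) {K : Set E4} (hK : IsCompact K) (hKΩ : ∀ w ∈ K, closedBall w (e * ρ) ⊆ …  -- the density in the chart
* theorem S1 (𝒰 : Cover M) {F : F2 E4 M} (hF : Vol F) {p : M} (c : Cut E4) (hc : ∀ y, c.θ y ∈ Icc (0 : ℝ) 1) (hct : tsupport c.θ ⊆ (chartAt E4 p).target) {Ω : Set E4} (hΩ : IsOpen Ω) (hΩ1 : ∀ y ∈ Ω, c.θ y = 1) {κ : E4 → ℝ} (hκ : ContDiff ℝ ∞ κ) {ρ e : ℝ} (hρ : 0 ≤ ρ) (hκρ : ∀ z, κ z ≠ 0 → ‖z‖ ≤ ρ) (he : 0 < e) (heρ : e * ρ < c.z0) {K : Set E4} (hK : IsCompact K) (hKΩ : ∀ w ∈ K, c …  -- S1. After one averaging in the chart at `p` a functional of finite order is represented by a smooth form on the forms supported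 where the averaging is by tr

### R240/Sm5 [ns Crest.Agent.R240.Sm5] # Row 240, block R (smoothing), Sm5 (helper915): gluing of local representations on `M`
* def VOff (K : Set M) (b : X2 M) : Prop  -- the two-form `b` vanishes off `K`.
* theorem rep_glue_M (D : Dat M) (hq : ∀ b c : X2 M, Continuous (qG D.F b.1 c.1)) {ι : Type*} [DecidableEq ι] (A : ι → Module.End ℝ (X2 M)) (hadj : ∀ i (h : X2 M), ∃ h' : X2 M, ∀ b : X2 M, D.I h.1 (A i b).1 = D.I h'.1 b.1) (FO : (X2 M →ₗ[ℝ] ℝ) → Prop) (hFO : ∀ i L, FO L → FO (L ∘ₗ A i)) (l : List ι) {κ : Type*} [Fintype κ] (idx : κ → ι) (hidx : ∀ j, idx j ∈ l) {δ : ℝ} (hδ : 0 ≤ δ …  -- Gluing of local representations on `M`: `A i` are the one-chart averaging operators, they move supports by at most `δ`; `χ j` is a partition of unity with `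

### R240/Sm5Abs [ns Crest.Agent.R240.Sm5] # Row 240, block R (smoothing), Sm5 (helper915): abstract gluing of local representations `X` = smooth forms (or functions), `I` = the pairing, `A i` the one-chart averaging operators, `At i` their transposes, `FO` the class of functionals of finite order, `S j k` the support condition (chart piece 
* theorem exists_transpose {ι : Type*} (I : X → X → ℝ) (A : ι → Module.End ℝ X) (hadj : ∀ i h, ∃ h', ∀ b, I h (A i b) = I h' b) (l : List ι) (h : X) : ∃ h', ∀ b, I h ((l.map A).prod b) = I h' b  -- transpose of a product of operators.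
* theorem rep_list {ι : Type*} [DecidableEq ι] (I : X → X → ℝ) (A : ι → Module.End ℝ X) (hadj : ∀ i h, ∃ h', ∀ b, I h (A i b) = I h' b) (FO : (X →ₗ[ℝ] ℝ) → Prop) (hFO : ∀ i L, FO L → FO (L ∘ₗ A i)) (S : ℕ → X → Prop) (hS : ∀ k i b, S k b → S (k + 1) (A i b)) (hmono : ∀ k b, S k b → S (k + 1) b) (j : ι) (n : ℕ) (hS1 : ∀ L, FO L → ∃ h, ∀ b, S n b → L (A j b) = I h b) (l : List ι) ( …  -- local representation of `L ∘ A_{i_1} ∘ ... ∘ A_{i_n}` on the forms with support condition `S 0`, when the operator `A j` (with representation property `hS1`) oc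
* theorem rep_glue {ι : Type*} [DecidableEq ι] (I : X → X → ℝ) (hI0 : ∀ b, I 0 b = 0) (hIadd : ∀ a c b, I (a + c) b = I a b + I c b) (A : ι → Module.End ℝ X) (hadj : ∀ i h, ∃ h', ∀ b, I h (A i b) = I h' b) (FO : (X →ₗ[ℝ] ℝ) → Prop) (hFO : ∀ i L, FO L → FO (L ∘ₗ A i)) (l : List ι) (n : ℕ) (hl : l.length ≤ n + 1) (κ : Type*) [Fintype κ] (idx : κ → ι) (hidx : ∀ j, idx j ∈ l) (S : κ  …  -- Gluing theorem.

### R240/Sm7a [ns Crest.Agent.R240.Sm] # Row 240, block R (smoothing), part Sm7a (helper950) Joint jet bounds: the derivatives (with respect to the parameter and the point) of `T w (β w)` on compact sets are bounded by those of `β`.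
* def JB (𝒰 : Cover M) (m : ℕ) (C : Set W) (β : W → F2 E4 M) (B : ℝ) : Prop  -- joint jet bound: all derivatives of order `≤ m` of `(w, y) ↦ rep (β w) y` are at most `B` for `w ∈ C` and `y` in the pieces of the cover.
* theorem LF.jb (𝒰 : Cover M) {U : Set W} (hU : IsOpen U) {T : W → F2 E4 M → F2 E4 M} {φ : W → M → M} (h : LF U T φ) {C : Set W} (hC : IsCompact C) (hCU : C ⊆ U) (m : ℕ) : ∃ A : ℝ, 0 ≤ A ∧ ∀ β : W → F2 E4 M, (∀ q : M, ContDiffOn ℝ ∞ (fun v : W × E4 => rep q (β v.1) v.2) (U ×ˢ (chartAt E4 q).target)) → ∀ B : ℝ, JB 𝒰 m C β B → JB 𝒰 m C (fun w => T w (β w)) (A * B)  -- joint jet bounds.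
* theorem LF.jb_const (𝒰 : Cover M) {U : Set W} (hU : IsOpen U) {T : W → F2 E4 M → F2 E4 M} {φ : W → M → M} (h : LF U T φ) {C : Set W} (hC : IsCompact C) (hCU : C ⊆ U) (m : ℕ) : ∃ A : ℝ, 0 ≤ A ∧ ∀ b : F2 E4 M, Smooth2 b → JB 𝒰 m C (fun w => T w b) (A * 𝒰.cm m b)  -- joint jet bounds for a fixed form.

### R240/Sm7b [ns Crest.Agent.R240.Sm7] # Row 240, block R, Sm7 part b (helper245): `C^m` bounds of averages * `cm_avg_le` : `cm m (avg κ β) ≤ (∫ |κ|) B` if `cm`-type bounds `B` hold for all `β z`, `z ∈ tsupport κ`; * `cm_avg_sub_le` : the same for `avg κ β - (∫ κ) b`; * `A1`, `AL` : the one-chart average and the composition over a list; 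
* structure Ker (κ : E4 → ℝ) : Prop where cont : Continuous κ supp : tsupport κ ⊆ closedBall 0 1  -- kernels: continuous, supported in the unit ball
* theorem cm_AL {κ : ι → E4 → ℝ} (hk : ∀ i, Ker (κ i)) {ρ : ι → ℝ} (hρ : ∀ i, ρ i < (G i).r) (hPB : ∀ i, PB 𝒰 (G i) (p i) (ρ i)) (l : List ι) (m : ℕ) : ∃ C : ℝ, 0 ≤ C ∧ ∀ e, 0 < e → (∀ i ∈ l, e ≤ ρ i) → ∀ b : F2 E4 M, Smooth2 b → 𝒰.cm m (AL G p κ l e b) ≤ C * 𝒰.cm m b  -- (iii)
* theorem cm_AL_sub {κ : ι → E4 → ℝ} (hk : ∀ i, Ker (κ i)) (hk1 : ∀ i, ∫ z, κ i z = 1) {ρ : ι → ℝ} (hρ : ∀ i, ρ i < (G i).r) (hPB : ∀ i, PB 𝒰 (G i) (p i) (ρ i)) (l : List ι) (m : ℕ) : ∃ C : ℝ, 0 ≤ C ∧ ∀ e, 0 < e → (∀ i ∈ l, e ≤ ρ i) → ∀ b : F2 E4 M, Smooth2 b → 𝒰.cm m (AL G p κ l e b - b) ≤ C * e * 𝒰.cm (m + 1) b  -- (iii)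

### R240/Sm7c [ns Crest.Agent.R240.Sm7] # Row 240, block R, Sm7 part c (helper245): the jet bound `PB` and the field `approx` for `AL`
* theorem approx_AL (𝒰 : Cover M) {ι : Type*} {G : ι → Fam E4} {p : ι → M} (hG : ∀ i, (G i).K ⊆ (chartAt E4 (p i)).target) {κ : ι → E4 → ℝ} (hk : ∀ i, Ker (κ i)) (hk1 : ∀ i, ∫ z, κ i z = 1) {ρ : ι → ℝ} (hρ : ∀ i, ρ i < (G i).r) (l : List ι) (m : ℕ) : ∃ C : ℝ, 0 ≤ C ∧ ∀ e, 0 < e → (∀ i ∈ l, e ≤ ρ i) → ∀ b : F2 E4 M, Smooth2 b → 𝒰.cm m (AL G p κ l e b) ≤ C * 𝒰.cm m b ∧ 𝒰.cm m (AL G …  -- field (2) of `SmPack` for the composition `AL` of one-chart averages.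
* theorem approx_AL' (𝒰 : Cover M) {ι : Type*} {G : ι → Fam E4} {p : ι → M} (hG : ∀ i, (G i).K ⊆ (chartAt E4 (p i)).target) {κ : ι → E4 → ℝ} (hk : ∀ i, Ker (κ i)) (hk1 : ∀ i, ∫ z, κ i z = 1) {e0 : ℝ} (he0 : ∀ i, e0 < (G i).r) (l : List ι) (m : ℕ) : ∃ C : ℝ, 0 ≤ C ∧ ∀ e, 0 < e → e ≤ e0 → ∀ b : F2 E4 M, Smooth2 b → 𝒰.cm m (AL G p κ l e b) ≤ C * 𝒰.cm m b ∧ 𝒰.cm m (AL G p κ l e b - b …  -- with uniform scale `e ≤ e0`, `e0 < (G i).r`.
* theorem pb (𝒰 : Cover M) {G : Fam E4} {p : M} (hG : G.K ⊆ (chartAt E4 p).target) {ρ : ℝ} (hρ : ρ < G.r) : PB 𝒰 G p ρ  -- the same statement under the name `pb` (helper950).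

### R240/SmA1 [ns Crest.Agent.R240.Sm] Row 240, block SM (helper915): the one-chart smoothing operators on two-forms and functions, `A1 G p κ e b = ∫ κ(z) (psi_{e z})^* b dz` and `a1 G p κ e f = ∫ κ(z) f (psi_{e z} x) dz`.
* structure Adm (G : Fam E4) (κ : E4 → ℝ) (e : ℝ) : Prop where cont : Continuous κ comp : HasCompactSupport κ mem : ∀ z ∈ tsupport κ, e • z ∈ ball (0 : E4) G.r  -- admissible kernels at scale `e`.
* def A1L [T2Space M] (hG : G.K ⊆ (chartAt E4 p).target) (h : Adm G κ e) : X2 M →ₗ[ℝ] X2 M  -- the one-chart operator on smooth two-forms.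
* theorem contDiffOn_repF_pullF [T2Space M] (hG : G.K ⊆ (chartAt E4 p).target) {f : M → ℝ} (hf : SmoothF E4 f) (q : M) : ContDiffOn ℝ ∞ (fun w : E4 × E4 => f (psi G p w.1 ((chartAt E4 q).symm w.2))) (ball 0 G.r ×ˢ (chartAt E4 q).target)  -- joint smoothness in all charts of `(z, x) ↦ f (psi_z x)`.

### R240/SmAdj [ns Crest.Agent.R240.SmAdj] # Row 240, block R (smoothing): adjoint consistency (helper461) `(S2)` of note 10738 = the field `adj` of `SmPack`.
* theorem I_avg_adj {F h b : F2 E4 M} (hF : Int.Vol F) {G : Fam E4} {p : M} (hG : G.K ⊆ (chartAt E4 p).target) {κ : E4 → ℝ} (hκ : Continuous κ) (hc : HasCompactSupport κ) {e : ℝ} (hs : ∀ z ∈ tsupport κ, e • z ∈ ball (0 : E4) G.r) (hh : Smooth2 h) (hb : Smooth2 b) : Int.I F h (Sm.avg κ (fun z => pullG G p (e • z) b)) = Int.I F (Sm.avg κ (fun z => pullG G.symm p (e • z) h)) b  -- the transpose of a one-chart average.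
* theorem exists_qG_bound (D : Dat M) (𝒰 : Cover M) : ∃ C : ℝ, 0 ≤ C ∧ ∀ (P R : F2 E4 M) (δ : ℝ), PosG D.J P → (∀ x, Alt (at2 R x)) → (∀ i, ∀ y ∈ 𝒰.K i, ‖rep (𝒰.p i) R y‖ ≤ δ) → ∀ x, |qG D.F P R x| ≤ C * δ * qG D.F P D.F x  -- uniform pointwise bound: `|q(P,R)| ≤ C δ q(P,F)` for `P ≥ 0` and `|R| ≤ δ`.
* theorem adj_avgL (D : Dat M) (𝒰 : Cover M) (hG : ∀ i, (G i).K ⊆ (chartAt E4 (p i)).target) (hκ : ∀ i, Continuous (κ i)) (hc : ∀ i, HasCompactSupport (κ i)) (h1 : ∀ i, ∫ z, κ i z = 1) {ρ : ℝ} (hρ0 : 0 < ρ) (hρ : ∀ i, tsupport (κ i) ⊆ ball (0 : E4) ρ) {e0 e1 : ℝ} (he01 : e0 < e1) (hr : ∀ i, e1 * ρ ≤ (G i).r) (l : List ι) : ∃ C : ℝ, ∀ e : ℝ, 0 < e → e ≤ e0 → ∀ P : F2 E4 M, Smooth2 …  -- (S2), the field `adj` of `SmPack`, for the composition over a list of charts.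

### R240/SmApp [ns Crest.Agent.R240.SmApp] Row 240 (S0371), SmPack.approx (helper955): approximation bounds of compositions.
* structure App (𝒰 : Cover M) (C : ℕ → ℝ) (e : ℝ) (A : X2 M →ₗ[ℝ] X2 M) : Prop where nonneg : ∀ l, 0 ≤ C l bd : ∀ (l : ℕ) (b : X2 M), 𝒰.cm l (A b : F2 E4 M) ≤ C l * 𝒰.cm l (b : F2 E4 M) ap : ∀ (l : ℕ) (b : X2 M), 𝒰.cm l ((A b - b : X2 M) : F2 E4 M) ≤ C l * e * 𝒰.cm (l + 1) (b : F2 E4 M)  -- bounds of an operator which approximates the identity at scale `e`.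
* def CN (C : ℕ → ℝ) : ℕ → ℕ → ℝ | 0 => fun _ => 1 | n + 1 => cc C (CN C n) theorem App.list {𝒰 : Cover M} {C : ℕ → ℝ} {e : ℝ} (he : 0 ≤ e) {ι : Type*} (A : ι → Module.End ℝ (X2 M)) (l : List ι) (h : ∀ i ∈ l, App 𝒰 C e (A i)) : App 𝒰 (CN C l.length) e ((l.map A).prod)  -- constants of a product of `n` operators with constants `C`.
* structure Bdd (𝒰 : Cover M) (C : ℕ → ℝ) (A : X2 M →ₗ[ℝ] X2 M) : Prop where nonneg : ∀ l, 0 ≤ C l bd : ∀ (l : ℕ) (b : X2 M), 𝒰.cm l (A b : F2 E4 M) ≤ C l * 𝒰.cm l (b : F2 E4 M)  -- bounds only, without approximation, for a list (general kernels).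

### R240/SmAvg [ns Crest.Agent.R240.Sm] Row 240, block SM (helper375): averages of jointly smooth families, continued.
* theorem hasFDerivAt_integral {V : Type} [NormedAddCommGroup V] [NormedSpace ℝ V] [CompleteSpace V] {E' : Type} [NormedAddCommGroup E'] [NormedSpace ℝ E'] {U : Set Z} (hU : IsOpen U) {W : Set E'} (hW : IsOpen W) {κ : Z → ℝ} (hκ : Continuous κ) (hc : HasCompactSupport κ) (hs : tsupport κ ⊆ U) {g : E' × Z → V} (hg : ContDiffOn ℝ ∞ g (W ×ˢ U)) {y : E'} (hy : y ∈ W) : HasFDerivAt (f …  -- derivative of a parameter integral.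
* theorem JSm.avg {Y : Type} [NormedAddCommGroup Y] [NormedSpace ℝ Y] {U : Set Z} (hU : IsOpen U) {V : Set Y} (hV : IsOpen V) {κ : Z → ℝ} (hκ : Continuous κ) (hc : HasCompactSupport κ) (hs : tsupport κ ⊆ U) {β : Z → Y → F2 E4 M} (h : JSm (U ×ˢ V) (fun w : Z × Y => β w.1 w.2)) : JSm V (fun y => Sm.avg κ (fun z => β z y))  -- averages in one parameter of jointly smooth families are jointly smooth.
* theorem closed2_avg {U : Set Z} (hU : IsOpen U) {κ : Z → ℝ} (hκ : Continuous κ) (hc : HasCompactSupport κ) (hs : tsupport κ ⊆ U) {β : Z → F2 E4 M} (h : JSm U β) (hcl : ∀ z ∈ U, Closed2 (β z)) : Closed2 (Sm.avg κ β)  -- averages of closed forms are closed.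

### R240/SmComp [ns Crest.Agent.R240.Comp] Row 240 (S0371), N8 (smoothing), COMPOSITION LAYER (helper822): the pointwise fields `bd, pos, leak1, leak2, low` of `SmPack` are stable under composition of operators. * `AvgF a`: the averaging operators on functions (fields `a_smooth, a_nonneg, a_one, a_add, a_smul`); * `Good D e C A a`: fields `b
* structure AvgF (a : (M → ℝ) → M → ℝ) : Prop where smooth : ∀ f, SmoothF E4 f → SmoothF E4 (a f) nonneg : ∀ f, SmoothF E4 f → (∀ x, 0 ≤ f x) → ∀ x, 0 ≤ a f x one : ∀ x, a (fun _ => 1) x = 1 add : ∀ f g, SmoothF E4 f → SmoothF E4 g → ∀ x, a (fun y => f y + g y) x = a f x + a g x smul : ∀ (r : ℝ) f, SmoothF E4 f → ∀ x, a (fun y => r * f y) x = r * a f x  -- the function part of the smoothing package.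
* structure Good (D : Dat M) (e C : ℝ) (A : X2 M →ₗ[ℝ] X2 M) (a : (M → ℝ) → M → ℝ) : Prop where bd : ∀ (b : X2 M) (h : M → ℝ), SmoothF E4 h → (∀ x, D.nr (b : F2 E4 M) x ≤ h x) → ∀ x, D.nr (A b : F2 E4 M) x ≤ C * a h x pos : ∀ P ∈ D.Pp, ∀ h : M → ℝ, SmoothF E4 h → (∀ x, D.nr (P : F2 E4 M) x ≤ h x) → GeF D.J D.F (A P : F2 E4 M) (fun x => - (C * e ^ 2 * a h x)) leak1 : ∀ (b : X2 M)  …  -- the fields `bd, pos, leak1, leak2` with constant `C`, scale `e`.
* def compL {ι : Type*} (A : ι → X2 M →ₗ[ℝ] X2 M) (l : List ι) : X2 M →ₗ[ℝ] X2 M  -- the composition of the operators `A i`, `i ∈ l` (the head of the list is applied last).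

### R240/SmComp2 [ns Crest.Agent.R240.Comp] Row 240 (S0371), N8 (helper822): from the one-chart statements `OneGood`, `OneLow` to the fields `FBd, FPos, FLeak1, FLeak2, FLow` of 915's system.
* theorem OneGood.unif (h : OneGood D S) : ∃ e1 C : ℝ, 0 < e1 ∧ e1 ≤ 1 ∧ 1 ≤ C ∧ (∀ e, 0 < e → e ≤ e1 → S.Ok e) ∧ ∀ (i : Fin S.n) (e : ℝ), 0 < e → e ≤ e1 → ∀ q : E4 → ℝ, ContDiff ℝ ∞ q → (∀ z ∈ closedBall (0 : E4) 1, 0 ≤ q z ∧ q z ≤ 1) → Good D e C (S.op1 e i q) (S.f1 e i)  -- common constants for the one-chart statements.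
* theorem OneLow.unif (h : OneLow D S) : ∃ e1 C : ℝ, 0 < e1 ∧ 1 ≤ C ∧ ∀ (i : Fin S.n) (e : ℝ), 0 < e → e ≤ e1 → Low D e C (S.op1 e i (fun _ => 1)) (S.f1 e i)  -- common constants for the one-chart statements.
* theorem OneGood.all (h : OneGood D S) : ∃ e1 C : ℝ, 0 < e1 ∧ 1 ≤ C ∧ ∀ e, 0 < e → e ≤ e1 → ∀ p ∈ ClpK S.n 0, Good D e C (S.A e p) (S.a e)  -- the whole operator is `Good`.

### R240/SmCr [ns Crest.Agent.R240.SmCr / Dat] # Row 240 (S0371), node N8(5), helper609: crude smoothing bounds, Euclidean core `Op ε k A β q = ∫ ζ, k ζ • A (q, ε ζ) (β (Y (q, ε ζ)))` where `Y (q, ·)` is a local diffeomorphism. Each derivative in `q` costs `ε⁻¹` after integration by parts in `ζ`; the last integral is estimated by a change of var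
* structure Dat (Q Z E : Type) [NormedAddCommGroup E] [NormedSpace ℝ E] [NormedAddCommGroup Z] [NormedSpace ℝ Z] [NormedAddCommGroup Q] [NormedSpace ℝ Q] where N : Set Q r : ℝ Y : Q × Z → E S : Q × Z → (Q →L[ℝ] Z) open_N : IsOpen N r_pos : 0 < r smY : ContDiffOn ℝ ∞ Y (N ×ˢ Metric.ball 0 r) smS : ContDiffOn ℝ ∞ S (N ×ˢ Metric.ball 0 r) rel : ∀ p ∈ N ×ˢ Metric.ball (0 : Z) r, (dy  …  -- local data for the smoothing operators
* theorem fderiv_Op' [CompleteSpace W] {ε : ℝ} (hε : 0 < ε) (hr : ε < d.r) {k : Z → ℝ} (hk : ContDiff ℝ ∞ k) (hs : tsupport k ⊆ Metric.closedBall 0 1) {A : Q × Z → V →L[ℝ] W} (hA : ContDiffOn ℝ ∞ A d.Ω) {β : E → V} (hβ : ContDiff ℝ ∞ β) {ι : Type} [Fintype ι] (b : Module.Basis ι ℝ Z) (ℓ : ι → Z →L[ℝ] ℝ) (hℓ : ∀ v, v = ∑ a, ℓ a v • b a) {q : Q} (hq : q ∈ d.N) : fderiv ℝ (d.Op μ ε  …  -- derivative of the smoothing operator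
* theorem bound {r1 : ℝ} (hr0 : 0 < r1) (hr1 : r1 < d.r) (hr1' : r1 ≤ 1) {Kq : Set Q} (hKc : IsCompact Kq) (hKq : Kq ⊆ d.N) (m : ℕ) : ∀ {W : Type} [NormedAddCommGroup W] [NormedSpace ℝ W] [CompleteSpace W] (A : Q × Z → V →L[ℝ] W), ContDiffOn ℝ ∞ A d.Ω → ∃ C : ℝ, 0 ≤ C ∧ ∀ k : Z → ℝ, ContDiff ℝ ∞ k → tsupport k ⊆ Metric.closedBall 0 1 → ∀ Bk : ℝ, (∀ i ≤ m, ∀ ζ, ‖iteratedFDeriv ℝ i …  -- the crude bound, before the change of variables

### R240/SmCr2 [ns Crest.Agent.R240.SmCr / Dat] # Row 240 (S0371), node N8(5), helper609: crude smoothing bounds, change of variables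
* structure ND (j : E →L[ℝ] Z) (L0 : E ≃L[ℝ] E) (c c0 : ℝ) : Prop where j_le : ‖j‖ ≤ 1 c0_pos : 0 < c0 c_small : ‖(L0.symm : E →L[ℝ] E)‖ * c < 1 app : ∀ p ∈ d.Ω, ‖(dy d.Y p).comp j - (L0 : E →L[ℝ] E)‖ ≤ c det : ∀ p ∈ d.Ω, c0 ≤ |((dy d.Y p).comp j).det|  -- quantitative non-degeneracy in the direction `j`.
* theorem exists_dat {U : Set (Q × Z)} (hU : IsOpen U) {Y : Q × Z → E} (hY : ContDiffOn ℝ ∞ Y U) {q0 : Q} (h0 : (q0, (0 : Z)) ∈ U) {j : E →L[ℝ] Z} (hj : ‖j‖ ≤ 1) {L0 : E ≃L[ℝ] E} (hL0 : (dy Y (q0, 0)).comp j = (L0 : E →L[ℝ] E)) : ∃ (d : Dat Q Z E) (c c0 : ℝ), d.Y = Y ∧ q0 ∈ d.N ∧ d.Ω ⊆ U ∧ d.ND j L0 c c0  -- local data from a submersion.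
* theorem local_crude {j : E →L[ℝ] Z} {L0 : E ≃L[ℝ] E} {c c0 : ℝ} (h : d.ND j L0 c c0) {q0 : Q} (hq0 : q0 ∈ d.N) : ∃ ρ : ℝ, 0 < ρ ∧ Metric.ball q0 ρ ⊆ d.N ∧ 3 * ρ < d.r ∧ ∀ {W : Type} [NormedAddCommGroup W] [NormedSpace ℝ W] [CompleteSpace W] (A : Q × Z → V →L[ℝ] W), ContDiffOn ℝ ∞ A d.Ω → ∀ m : ℕ, ∃ C : ℝ, 0 ≤ C ∧ ∀ k : Z → ℝ, ContDiff ℝ ∞ k → tsupport k ⊆ Metric.closedBall 0 1  …  -- crude bound, Euclidean core.

### R240/SmCrM [ns Crest.Agent.R240.SmCrM] # Row 240, block R (smoothing): the local form of the composed pull-backs (helper950) Input of `SmCr2.exists_dat` / `local_crude` on `M`.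
* abbrev GG (c : ι → Cut E4) : ι → Fam E4  -- the families
* def YY (c : ι → Cut E4) (p : ι → M) (l : List ι) (q : M) (i : ι) (v : E4 × (ι → E4)) : E4  -- the local expression of the composed diffeomorphism, with the point first.
* theorem local_form [T2Space M] (hG : ∀ i, (GG c i).K ⊆ (chartAt E4 (p i)).target) {l : List ι} (hn : l.Nodup) {i : ι} (hi : i ∈ l) {q : M} {y0 : E4} (hy0 : y0 ∈ (chartAt E4 q).target) (hx : (chartAt E4 q).symm y0 ∈ (chartAt E4 (p i)).source) (hθ : (c i).θ (chartAt E4 (p i) ((chartAt E4 q).symm y0)) = 1) : ∃ U : Set (E4 × (ι → E4)), IsOpen U ∧ (y0, (0 : ι → E4)) ∈ U ∧ (∀ v ∈ U,  …  -- the local form of the composed pull-backs near a point where `θ_i = 1`.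

### R240/SmCrX [ns Crest.Agent.R240.SmCrX] # Row 240 (S0371), node N8(5), helper609: crude smoothing bounds on `M` (general form)
* theorem contDiff_cut_rep {k : M} {χ : E4 → ℝ} (hχ : ContDiff ℝ ∞ χ) (hs : tsupport χ ⊆ (chartAt E4 k).target) {b : F2 E4 M} (hb : Smooth2 b) : ContDiff ℝ ∞ (fun y => χ y • rep k b y)  -- multiplying by a cutoff supported in the chart.
* theorem crude_loc (D : R240.Dat M) {r : ℝ} (hr : 0 < r) {T : Z → F2 E4 M → F2 E4 M} {φ : Z → M → M} (hLF : LF (ball (0 : Z) r) T φ) (hφ0 : ∀ x, φ 0 x = x) (q : M) {y0 : E4} (hy0 : y0 ∈ (chartAt E4 q).target) (hSUB : ∃ (k : M) (j : E4 →L[ℝ] Z) (L0 : E4 ≃L[ℝ] E4), (chartAt E4 q).symm y0 ∈ (chartAt E4 k).source ∧ ‖j‖ ≤ 1 ∧ HasFDerivAt (fun ζ => chartAt E4 k (φ (j ζ) ((chartAt E4 q …  -- crude bound near one point.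
* theorem crude_M (D : R240.Dat M) (𝒰 : Cover M) {r : ℝ} (hr : 0 < r) {T : Z → F2 E4 M → F2 E4 M} {φ : Z → M → M} (hLF : LF (ball (0 : Z) r) T φ) (hφ0 : ∀ x, φ 0 x = x) (hJS : ∀ b : F2 E4 M, Smooth2 b → JSm (ball (0 : Z) r) (fun z => T z b)) (hSUB : ∀ x : M, ∃ (k : M) (j : E4 →L[ℝ] Z) (L0 : E4 ≃L[ℝ] E4), x ∈ (chartAt E4 k).source ∧ ‖j‖ ≤ 1 ∧ HasFDerivAt (fun ζ => chartAt E4 k (φ  …  -- crude bound on `M` (field (5) of `SmPack`).

### R240/SmEx [ns Crest.Agent.R240.Sm] # Row 240, block R (smoothing): averages of exact forms are exact (helper461) `(S1)` of note 10738, for one chart: `isEx_avg_pullG`.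
* theorem d1_avg1 {U : Set Z} (hU : IsOpen U) {κ : Z → ℝ} (hκ : Continuous κ) (hc : HasCompactSupport κ) (hs : tsupport κ ⊆ U) {σ : Z → F1 E4 M} (hσ : JSm1 U σ) {q : M} {y : E4} (hy : y ∈ (chartAt E4 q).target) : d1 (rep1 q (avg1 κ σ)) y = ∫ z, κ z • d1 (rep1 q (σ z)) y  -- the exterior derivative of the average is the average of the exterior derivatives.
* theorem exBy_avg {U : Set Z} (hU : IsOpen U) {κ : Z → ℝ} (hκ : Continuous κ) (hc : HasCompactSupport κ) (hs : tsupport κ ⊆ U) {σ : Z → F1 E4 M} (hσ : JSm1 U σ) {β : Z → F2 E4 M} (hβ : JSm U β) (h : ∀ z ∈ U, ExBy (β z) (σ z)) : ExBy (Sm.avg κ β) (avg1 κ σ)  -- averages of exact forms are exact.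
* theorem isEx_avg_pullG (hG : G.K ⊆ (chartAt E4 p).target) {κ : E4 → ℝ} (hκ : Continuous κ) (hc : HasCompactSupport κ) {e : ℝ} (hs : ∀ z ∈ tsupport κ, e • z ∈ ball (0 : E4) G.r) {b : F2 E4 M} (hb2 : Smooth2 b) (hb : IsEx b) : IsEx (Sm.avg κ (fun z => pullG G p (e • z) b))  -- (S1) in one chart: the averages `∫ κ(z) (ψ_{ez})^* b dz` of an exact form are exact.

### R240/SmF1 [ns Crest.Agent.R240.Sm] # Row 240, N8: the fields `exact` and `adj` of the smoothing package (helper461)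
* theorem fExact (S : Sys M) : FExact S  -- `SmPack.exact`.
* theorem fAdj (D : Dat M) (S : Sys M) : FAdj D S  -- `SmPack.adj`.

### R240/SmFApp [ns Crest.Agent.R240.Sm] Row 240, N8 (helper915): the field `approx` for the smoothing system (from 245's `Sm7c`).

### R240/SmFCrude [ns Crest.Agent.R240.Sm] # Row 240 (S0371), N8, field `crude` (helper609, with 950, 404)
* theorem exists_prod_bound {Z : Type*} [NormedAddCommGroup Z] [NormedSpace ℝ Z] (l : ℕ) {Bk : ℝ} (hBk : 0 ≤ Bk) (n : ℕ) : ∃ B : ℝ, 0 ≤ B ∧ ∀ f : Fin n → Z → ℝ, (∀ i, ContDiff ℝ ∞ (f i)) → (∀ i, ∀ j ≤ l, ∀ z, ‖iteratedFDeriv ℝ j (f i) z‖ ≤ Bk) → ∀ j ≤ l, ∀ z, ‖iteratedFDeriv ℝ j (fun z => ∏ i, f i z) z‖ ≤ B  -- bounds of products.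
* theorem exists_kp_bound (n l : ℕ) : ∃ B : ℝ, 0 ≤ B ∧ ∀ q : Fin n → KF, q ∈ ClK n l → ∀ j ≤ l, ∀ z, ‖iteratedFDeriv ℝ j (Leak.kp fun i => kk (q i).1) z‖ ≤ B  -- the bound of the product kernels.
* theorem fCrude (D : R240.Dat M) (𝒰 : Cover M) (S : Sys M) : FCrude D 𝒰 S  -- field `crude` of `SmPack`.

### R240/SmFE [ns Crest.Agent.R240.SmF] Row 240 (S0371), N8 (helper599): existence of a smooth density for a finite measure composed with the smoothing operator on functions.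
* theorem a1_eq {p : M} (c : Cut E4) (hc : ∀ y, c.θ y ∈ Icc (0 : ℝ) 1) (hct : tsupport c.θ ⊆ (chartAt E4 p).target) {Ω : Set E4} (hΩ1 : ∀ y ∈ Ω, c.θ y = 1) {κ : E4 → ℝ} (hκ1 : ∀ z, κ z ≠ 0 → ‖z‖ ≤ 1) {e : ℝ} (he : 0 < e) (hez : e < c.z0) {K : Set E4} (hKt : K ⊆ (chartAt E4 p).target) (hKΩ : ∀ w ∈ K, closedBall w e ⊆ Ω) {f : M → ℝ} (hf : SuppF p K f) {x : M} (hx : x ∈ (chartAt E4  …  -- the averaging of a function supported where the cut-off is one is a translation averaging.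
* theorem S1F (D : Dat M) {p : M} (c : Cut E4) (hc : ∀ y, c.θ y ∈ Icc (0 : ℝ) 1) (hct : tsupport c.θ ⊆ (chartAt E4 p).target) {Ω : Set E4} (hΩ1 : ∀ y ∈ Ω, c.θ y = 1) {κ : E4 → ℝ} (hκs : ContDiff ℝ ∞ κ) (hκ1 : ∀ z, κ z ≠ 0 → ‖z‖ ≤ 1) {e : ℝ} (he : 0 < e) (hez : e < c.z0) {K : Set E4} (hK : IsCompact K) (hKt : K ⊆ (chartAt E4 p).target) (hKΩ : ∀ w ∈ K, closedBall w e ⊆ Ω) (ν : Meas …  -- density after one averaging, for functions supported where the averaging is by translations.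
* theorem exists_dens_of (D : Dat M) (S : Sys M) (hT : ∀ {e : ℝ}, S.Ok e → ∀ i (g : M → ℝ), SmoothF E4 g → ∃ g', SmoothF E4 g' ∧ ∀ f, SmoothF E4 f → ∫ x, S.f1 e i f x * g x ∂D.μ = ∫ x, f x * g' x ∂D.μ) (hP : ∀ {e : ℝ}, S.Ok e → ∀ i (ν : Measure M), IsFiniteMeasure ν → ∃ ν' : Measure M, IsFiniteMeasure ν' ∧ ∀ f, SmoothF E4 f → ∫ x, S.f1 e i f x ∂ν = ∫ x, f x ∂ν') : ∃ e1 : ℝ, 0 < e …  -- existence of a smooth density.

### R240/SmFE2 [ns Crest.Agent.R240.SmF] Row 240, N8 field `repm`, part (E) (helper599): the density of a finite measure after the averaging of functions.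
* theorem exists_dens (D : Dat M) (S : Sys M) : ∃ e1 : ℝ, 0 < e1 ∧ ∀ s : Measure M, IsFiniteMeasure s → ∀ e, 0 < e → e ≤ e1 → ∃ g : M → ℝ, SmoothF E4 g ∧ ∀ f : M → ℝ, SmoothF E4 f → ∫ x, S.a e f x ∂s = ∫ x, f x * g x ∂D.μ  -- (E): after averaging at a small scale every finite measure has a smooth density.

### R240/SmFG [ns Crest.Agent.R240.SmF] Row 240, N8 field `repm` (helper837): sign and sup bound of the density, by testing.
* theorem dens_nonneg {μ : Measure M} [IsFiniteMeasure μ] [μ.IsOpenPosMeasure] {g : M → ℝ} (hg : Continuous g) (h : ∀ f : M → ℝ, SmoothF E4 f → (∀ y, 0 ≤ f y) → 0 ≤ ∫ y, f y * g y ∂μ) (x : M) : 0 ≤ g x  -- the density is `≥ 0`.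
* theorem dens_le {μ s : Measure M} [IsFiniteMeasure μ] [μ.IsOpenPosMeasure] [IsFiniteMeasure s] {a : (M → ℝ) → M → ℝ} {δ B : ℝ} (ha : Loc δ {f | SmoothF E4 f} a) (hB : ∀ f : M → ℝ, SmoothF E4 f → (∀ y, 0 ≤ f y) → ∀ x, a f x ≤ B * ∫ y, f y ∂μ) {g : M → ℝ} (hg : Continuous g) (hrep : ∀ f : M → ℝ, SmoothF E4 f → ∫ x, a f x ∂s = ∫ x, f x * g x ∂μ) (x : M) {ρ : ℝ} (hρ : 0 < ρ) : g x  …  -- sup bound of the density.

### R240/SmFK [ns Crest.Agent.R240.SmF] Row 240, N8 field `repm` (helper837): the estimate `a_e f ≤ C e⁻⁴ ∫ f dμ`.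
* theorem f1_sup (D : Dat M) (S : Sys M) (j : Fin S.n) {Q : Set M} (hQ : IsCompact Q) (hQs : Q ⊆ (chartAt E4 (S.p j)).source) (hQΩ : chartAt E4 (S.p j) '' Q ⊆ S.Ω j) : ∃ e1 : ℝ, 0 < e1 ∧ ∃ C : ℝ, 0 ≤ C ∧ ∀ e, 0 < e → e ≤ e1 → ∀ f : M → ℝ, SmoothF E4 f → (∀ x, 0 ≤ f x) → (∀ x, x ∉ Q → f x = 0) → ∀ x, S.f1 e j f x ≤ C / e ^ 4 * ∫ y, f y ∂D.μ  -- one chart: `L¹ → L^∞` for functions supported where the cut-off is one.
* theorem fL_sup_list (D : Dat M) (S : Sys M) (j : Fin S.n) {K : Set M} (hK : IsCompact K) (hKU : K ⊆ (chartAt E4 (S.p j)).source ∩ chartAt E4 (S.p j) ⁻¹' S.Ω j) (N : ℕ) : ∃ e1 : ℝ, 0 < e1 ∧ ∃ C : ℝ, 0 ≤ C ∧ ∀ e, 0 < e → e ≤ e1 → ∀ l : List (Fin S.n), l.length ≤ N → j ∈ l → ∀ f : M → ℝ, SmoothF E4 f → (∀ x, 0 ≤ f x) → (∀ x, x ∉ K → f x = 0) → ∀ x, S.fL e l f x ≤ C / e ^ 4 * ∫ y,  …  -- the estimate for a product which contains the chart `j`, for functions supported in the core of the chart `j`.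
* theorem fL_sup (D : Dat M) (S : Sys M) : ∃ e1 : ℝ, 0 < e1 ∧ ∃ C : ℝ, 0 < C ∧ ∀ e, 0 < e → e ≤ e1 → ∀ f : M → ℝ, SmoothF E4 f → (∀ x, 0 ≤ f x) → ∀ x, S.a e f x ≤ C / e ^ 4 * ∫ y, f y ∂D.μ  -- (K) the sup estimate.

### R240/SmFL [ns Crest.Agent.R240.SmF] Row 240, N8 field `repm` (helper837): propagation of the function averages, and the assembly of `FRepm` from the existence of the density.
* theorem loc_fL (S : Sys M) {C : ℝ} (hC : 0 ≤ C) (hdisp : ∀ i, ∀ z ∈ closedBall (0 : E4) ((S.c i).z0 / 2), ∀ x : M, dist (psi (S.G i) (S.p i) z x) x ≤ C * ‖z‖) {e : ℝ} (he : 0 < e) (hez : ∀ i, e ≤ (S.c i).z0 / 2) (l : List (Fin S.n)) : Loc (l.length * (C * e)) {f : M → ℝ | SmoothF E4 f} (S.fL e l)  -- propagation of the product.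
* theorem fRepm_of (D : Dat M) (S : Sys M) (hE : ∃ e1 : ℝ, 0 < e1 ∧ ∀ s : Measure M, IsFiniteMeasure s → ∀ e, 0 < e → e ≤ e1 → ∃ g : M → ℝ, SmoothF E4 g ∧ ∀ f : M → ℝ, SmoothF E4 f → ∫ x, S.a e f x ∂s = ∫ x, f x * g x ∂D.μ) : FRepm D S  -- `FRepm` from the existence of the density.

### R240/SmFP [ns Crest.Agent.R240.SmF] Row 240, N8 (helper240): the push-forward of a finite measure under a one-chart smoothing of functions: `∫ S.f1 e i f dν = ∫ f dν'` for a finite measure `ν'`.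
* def push (S : Sys M) (e : ℝ) (i : Fin S.n) (ν : Measure M) : Measure M  -- the push-forward measure.
* theorem integral_push (S : Sys M) {e : ℝ} (he : S.Ok e) (i : Fin S.n) (ν : Measure M) [IsFiniteMeasure ν] {f : M → ℝ} (hf : Measurable f) {C : ℝ} (hC : ∀ x, |f x| ≤ C) : ∫ x, S.f1 e i f x ∂ν = ∫ x, f x ∂(push S e i ν)  -- for bounded Borel functions.
* theorem exists_push (S : Sys M) {e : ℝ} (he : S.Ok e) (i : Fin S.n) (ν : Measure M) [IsFiniteMeasure ν] : ∃ ν' : Measure M, IsFiniteMeasure ν' ∧ ∀ f, SmoothF E4 f → ∫ x, S.f1 e i f x ∂ν = ∫ x, f x ∂ν'  -- (P): the push-forward of a finite measure.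

### R240/SmFP2 [ns Crest.Agent.R240.SmF] Row 240, N8 field `repm`, part (P) (helper599): the image of a finite measure under one averaging.
* theorem continuousAt_psi2 {G : Fam E4} {p : M} (hG : G.K ⊆ (chartAt E4 p).target) {z : E4} (hz : z ∈ ball (0 : E4) G.r) (x : M) : ContinuousAt (fun w : M × E4 => psi G p w.2 w.1) (x, z)  -- joint continuity of the family of diffeomorphisms.
* def rr (z : E4) : E4  -- the radial retraction onto the closed unit ball.
* theorem exists_push2 (S : Sys M) {e : ℝ} (he : S.Ok e) (i : Fin S.n) (ν : Measure M) [IsFiniteMeasure ν] : ∃ ν' : Measure M, IsFiniteMeasure ν' ∧ ∀ f : M → ℝ, SmoothF E4 f → ∫ x, S.f1 e i f x ∂ν = ∫ x, f x ∂ν'  -- (P): the image of a finite measure under one averaging of functions.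

### R240/SmFRepm [ns Crest.Agent.R240.SmF] Row 240, N8: the field `repm` (helper837).
* theorem fRepm (D : Dat M) (S : Sys M) : FRepm D S  -- the field `repm`.

### R240/SmFT [ns Crest.Agent.R240.SmF] Row 240, N8 field `repm` (helper837): transposition of the one-chart averaging of functions with respect to the volume measure, and the `L¹` bound.
* theorem integral_a1_mul {F : F2 E4 M} (hF : Int.Vol F) (hFs : Smooth2 F) {G : Fam E4} {p : M} (hG : G.K ⊆ (chartAt E4 p).target) {κ : E4 → ℝ} {e : ℝ} (h : Adm G κ e) {f g : M → ℝ} (hf : SmoothF E4 f) (hg : SmoothF E4 g) : ∫ x, a1 G p κ e f x * g x ∂(Int.mu F) = ∫ x, f x * aT F G.symm p κ e g x ∂(Int.mu F)  -- transposition of the one-chart averaging of functions.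
* theorem f1_adj (D : Dat M) (S : Sys M) {e : ℝ} (he : S.Ok e) (i : Fin S.n) {g : M → ℝ} (hg : SmoothF E4 g) : ∃ g' : M → ℝ, SmoothF E4 g' ∧ ∀ f : M → ℝ, SmoothF E4 f → ∫ x, S.f1 e i f x * g x ∂D.μ = ∫ x, f x * g' x ∂D.μ  -- (T) transposition.
* theorem f1_l1 (D : Dat M) (S : Sys M) (i : Fin S.n) : ∃ C : ℝ, 1 ≤ C ∧ ∀ e, 0 < e → e ≤ (S.c i).z0 / 2 → ∀ f : M → ℝ, SmoothF E4 f → (∀ x, 0 ≤ f x) → ∫ x, S.f1 e i f x ∂D.μ ≤ C * ∫ x, f x ∂D.μ  -- `L¹` bound for one chart.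

### R240/SmHad [ns Crest.Agent.R240.SmJ] # Row 240, block R (helper245): Hadamard words (Taylor expansion with smooth remainder) `Z` finite dimensional with basis `e`; `U ⊆ Z` open, star shaped at `0`. * `had1 e a g z = ∫ s in 0..1, fderiv ℝ g (s • z) (e a)` and `hw1 e w g` (iterated); * `zw e w z` : the monomial; `words ι n` : the words o
* theorem contDiffOn_had1' {g : Z → V} (hg : ContDiffOn ℝ ∞ g U) (e : Module.Basis ι ℝ Z) (a : ι) : ContDiffOn ℝ ∞ (had1 e a g) U  -- no parameter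
* theorem had1_eq [CompleteSpace V] {g : Z → V} (hg : ContDiffOn ℝ ∞ g U) (e : Module.Basis ι ℝ Z) {z : Z} (hz : z ∈ U) : g z = g 0 + ∑ a, e.repr z a • had1 e a g z  -- Hadamard's formula
* theorem hw1_expand [CompleteSpace V] {g : Z → V} (hg : ContDiffOn ℝ ∞ g U) (e : Module.Basis ι ℝ Z) (k : ℕ) {z : Z} (hz : z ∈ U) : g z = ∑ n ∈ Finset.range (k + 1), ∑ w ∈ words ι n, zw e w z • hw1 e w g 0 + ∑ w ∈ words ι (k + 1), zw e w z • hw1 e w g z  -- Taylor expansion with smooth remainder.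

### R240/SmInt [ns Crest.Agent.R240.SmJ] # Row 240, block R (helper245): smoothness of parameter integrals over a compact set `contDiffOn_integral` : if `g` is smooth on the open set `s ⊇ U ×ˢ K`, `K` compact, then `x ↦ ∫ y in K, g (x, y) ∂μ` is smooth on `U`, with derivative `∫ y in K, dx g (x, y) ∂μ`.
* theorem intC_int (K : Set E') [CompactSpace K] (ν : Measure K) [IsFiniteMeasure ν] (f : C(K, V)) : Integrable (fun y => f y) ν  -- integration over a compact set as a continuous linear map on `C(K, V)`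
* def intC (K : Set E') [CompactSpace K] (ν : Measure K) [IsFiniteMeasure ν] (V : Type) [NormedAddCommGroup V] [NormedSpace ℝ V] : C(K, V) →L[ℝ] V  -- integration over a compact set as a continuous linear map on `C(K, V)`
* theorem tube {X Y : Type} [TopologicalSpace X] [TopologicalSpace Y] {s : Set (X × Y)} (hs : IsOpen s) {U : Set X} (hU : IsOpen U) {K : Set Y} (hK : IsCompact K) (h : U ×ˢ K ⊆ s) {x : X} (hx : x ∈ U) : ∃ (U' : Set X) (W : Set Y), IsOpen U' ∧ IsOpen W ∧ x ∈ U' ∧ K ⊆ W ∧ U' ⊆ U ∧ U' ×ˢ W ⊆ s  -- product neighbourhoods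

### R240/SmJet [ns Crest.Agent.R240.SmJ] # Row 240, block R (helper245): smooth dependence on parameters, jets, functionals of finite order * `restr K g x` : the continuous map `y ↦ g (x, y)` on the compact set `K`; * `contDiffOn_restr` : if `g` is jointly smooth on `U ×ˢ W` (`K ⊆ W`), then `x ↦ restr K g x` is smooth on `U` as a map into 
* def dy (g : E × E' → V) (p : E × E') : E' →L[ℝ] V  -- partial derivative in the second variable
* theorem hasFDerivAt_restr {U : Set E} (hU : IsOpen U) {W : Set E'} (hW : IsOpen W) (hKW : K ⊆ W) {g : E × E' → V} (hg : ContDiffOn ℝ ∞ g (U ×ˢ W)) {x : E} (hx : x ∈ U) : HasFDerivAt (restr K g) (swapL K E V (restr K (dx g) x)) x  -- derivative of `restr`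
* theorem contDiffOn_restr {U : Set E} (hU : IsOpen U) {W : Set E'} (hW : IsOpen W) (hKW : K ⊆ W) {g : E × E' → V} (hg : ContDiffOn ℝ ∞ g (U ×ˢ W)) : ContDiffOn ℝ ∞ (restr K g) U  -- parameter smoothness

### R240/SmJet2 [ns Crest.Agent.R240.SmJ] # Row 240, block R (helper245): jets in a parameter family * `jy j g (x, y)` : the `j`-th derivative of `g (x, ·)` at `y`; jointly smooth (`contDiffOn_jy`); * `jy_dx` : commutes with the directional derivative in `x`; * `exists_ext` : a functional bounded by `‖T b‖` extends to the target of `T`.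
* theorem dy_dx_symm {s : Set (E × E')} (hs : IsOpen s) {g : E × E' → V} (hg : ContDiffOn ℝ ∞ g s) {p : E × E'} (hp : p ∈ s) (h : E) : dy (fun q => dx g q h) p = dx (dy g) p h  -- symmetry of the mixed second derivatives
* theorem jy_dx {s : Set (E × E')} (hs : IsOpen s) {g : E × E' → V} (hg : ContDiffOn ℝ ∞ g s) (h : E) (j : ℕ) : ∀ p ∈ s, jy j (fun q => dx g q h) p = dx (jy j g) p h  -- jets in `y` commute with directional derivatives in `x`
* theorem exists_ext {Ω : Type} [AddCommGroup Ω] [Module ℝ Ω] {X : Type} [NormedAddCommGroup X] [NormedSpace ℝ X] (T : Ω →ₗ[ℝ] X) (L : Ω →ₗ[ℝ] ℝ) (C : ℝ) (h : ∀ b, |L b| ≤ C * ‖T b‖) : ∃ Λ : X →L[ℝ] ℝ, ∀ b, Λ (T b) = L b  -- Hahn-Banach through a linear map.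

### R240/SmJoint [ns Crest.Agent.R240.Sm] Row 240, block SM (helper375): jointly smooth families of two-forms on `M` and their averages.
* def avg (κ : Z → ℝ) (β : Z → F2 E4 M) : F2 E4 M  -- the average `∫ κ(z) β_z dz`.
* theorem contDiffOn_integral {V : Type} [NormedAddCommGroup V] [NormedSpace ℝ V] [CompleteSpace V] {E' : Type} [NormedAddCommGroup E'] [NormedSpace ℝ E'] {U : Set Z} (hU : IsOpen U) {W : Set E'} (hW : IsOpen W) {κ : Z → ℝ} (hκ : Continuous κ) (hc : HasCompactSupport κ) (hs : tsupport κ ⊆ U) {g : E' × Z → V} (hg : ContDiffOn ℝ ∞ g (W ×ˢ U)) : ContDiffOn ℝ ∞ (fun y => ∫ z, κ z • g …  -- parameter integrals are smooth.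
* theorem smooth2_avg {U : Set Z} (hU : IsOpen U) {κ : Z → ℝ} (hκ : Continuous κ) (hc : HasCompactSupport κ) (hs : tsupport κ ⊆ U) {β : Z → F2 E4 M} (h : JSm U β) : Smooth2 (avg κ β)  -- averages of jointly smooth families are smooth.

### R240/SmLow [ns Crest.Agent.R240.Comp] Row 240 (S0371), N8 (helper245): the one-chart field `low` of `SmPack`, from 83's pointwise estimate `Q4.Pt.low`.

### R240/SmMass [ns Crest.Agent.R240.Sm] # Row 240, block R (helper259): mass facts for the smoothed measure, and displacement bounds `Loc δ S a` : the averaging operator `a` (on the class `S` of functions) only looks at distance `≤ δ`. From the representation `∫ a f ds = ∫ f g dμ`: total mass, lower and upper mass bounds.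
* theorem mass_low (hδ : 0 < δ) (ha : Loc δ {f | SmoothF E f} a) (hc : ∀ f : M → ℝ, SmoothF E f → Continuous (a f)) (hg : Continuous g) (hg0 : ∀ x, 0 ≤ g x) (hrep : ∀ f : M → ℝ, SmoothF E f → ∫ x, a f x ∂s = ∫ x, f x * g x ∂μ) (x : M) (r : ℝ) : s.real (ball x r) ≤ ∫ y in ball x (r + 2 * δ), g y ∂μ  -- mass lower bound: `s(B_r x) ≤ ∫_{B_{r+2δ} x} g dμ`.
* theorem mass_up (hδ : 0 < δ) (ha : Loc δ {f | SmoothF E f} a) (hc : ∀ f : M → ℝ, SmoothF E f → Continuous (a f)) (hg : Continuous g) (hg0 : ∀ x, 0 ≤ g x) (hrep : ∀ f : M → ℝ, SmoothF E f → ∫ x, a f x ∂s = ∫ x, f x * g x ∂μ) (x : M) (r : ℝ) : ∫ y in ball x r, g y ∂μ ≤ s.real (ball x (r + 2 * δ))  -- mass upper bound: `∫_{B_r x} g dμ ≤ s(B_{r+2δ} x)`.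
* theorem exists_disp_psi (hb : Met.BiLip E M) (G : Fam E) {p : M} (hG : G.K ⊆ (chartAt E p).target) {r' : ℝ} (hr' : r' < G.r) : ∃ C : ℝ, 0 ≤ C ∧ ∀ z ∈ closedBall (0 : E) r', ∀ x, dist (psi G p z x) x ≤ C * ‖z‖  -- displacement on `M`: `dist (ψ_z x) x ≤ C ‖z‖`.

### R240/SmOne [ns Crest.Agent.R240.Sm] # Row 240, block R (smoothing): one-forms (helper461) The pull-back `pull1 G p z s` of one-forms by the diffeomorphisms `psi G p z`, its joint smoothness, and the naturality of the exterior derivative: the pull-back of an exact two-form is exact.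
* lemma rep1_pull1 {y : E} (hy : y ∈ (chartAt E p).target) (z : E) (s : F1 E M) : rep1 p (pull1 G p z s) y = (rep1 p s (G.g z y)).comp (G.dg z y)  -- the pull-back in the chart at `p`.
* theorem contDiffOn_rep1_pull1 [T2Space M] (hG : G.K ⊆ (chartAt E p).target) {s : F1 E M} (hs : Smooth1 s) (q : M) : ContDiffOn ℝ ∞ (fun w : E × E => rep1 q (pull1 G p w.1 s) w.2) (ball 0 G.r ×ˢ (chartAt E q).target)  -- joint smoothness of the pull-back of one-forms in all charts.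
* theorem ExBy.pullG [T2Space M] (hG : G.K ⊆ (chartAt E p).target) {b : F2 E M} {s : F1 E M} (hs : Smooth1 s) (h : ExBy b s) {z : E} (hz : z ∈ ball (0 : E) G.r) : ExBy (pullG G p z b) (pull1 G p z s)  -- the pull-back of an exact form is exact.

### R240/SmRep [ns Crest.Agent.R240.SmRep] Row 240 (S0371), block R (helper599): field `rep` of `SmPack`: a functional of finite order composed with the product of the one-chart averagings is represented by a smooth form.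
* theorem vOff_avg {p : M} (c : Cut E4) {κ : E4 → ℝ} (hκ : ∀ z, κ z ≠ 0 → ‖z‖ ≤ 1) {e : ℝ} (he : 0 < e) (hez : e ≤ c.z0 / 2) {C : ℝ} (hC : 0 ≤ C) (hdisp : ∀ z ∈ closedBall (0 : E4) (c.z0 / 2), ∀ x : M, dist (psi c.fam p z x) x ≤ C * ‖z‖) (A : X2 M → X2 M) (hA : ∀ b x, at2 (A b).1 x = ∫ z, κ z • at2 (pullG c.fam p (e • z) b.1) x) (K : Set M) (b : X2 M) (hb : VOff K b) : VOff (cthi …  -- support propagation of one averaging
* theorem rep_core (D : Dat M) (𝒰 : Cover M) {ι : Type} [Fintype ι] [DecidableEq ι] (p : ι → M) (c : ι → Cut E4) (hc : ∀ i y, (c i).θ y ∈ Icc (0 : ℝ) 1) (hct : ∀ i, tsupport (c i).θ ⊆ (chartAt E4 (p i)).target) (O : ι → Set E4) (hO : ∀ i, IsOpen (O i)) (hO1 : ∀ i, ∀ y ∈ O i, (c i).θ y = 1) (hcov : ∀ x : M, ∃ i, x ∈ (chartAt E4 (p i)).source ∧ chartAt E4 (p i) x ∈ O i) (l : List ι …  -- field `rep`.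

### R240/SmRep2 [ns Crest.Agent.R240.SmRep] Row 240 (S0371), block R (helper599): field `rep` of `SmPack` for the operators `Sm7.AL`.
* def A1X (G : Fam E4) (p : M) (hG : G.K ⊆ (chartAt E4 p).target) (κ : E4 → ℝ) (hk : Sm7.Ker κ) (e : ℝ) (he : 0 < e) (her : e < G.r) : X2 M →ₗ[ℝ] X2 M  -- the one-chart averaging as a linear operator on smooth two-forms
* theorem rep_AL (D : Dat M) (𝒰 : Cover M) {ι : Type} [Fintype ι] [DecidableEq ι] (p : ι → M) (c : ι → Cut E4) (hc : ∀ i y, (c i).θ y ∈ Icc (0 : ℝ) 1) (hct : ∀ i, tsupport (c i).θ ⊆ (chartAt E4 (p i)).target) (O : ι → Set E4) (hO : ∀ i, IsOpen (O i)) (hO1 : ∀ i, ∀ y ∈ O i, (c i).θ y = 1) (hcov : ∀ x : M, ∃ i, x ∈ (chartAt E4 (p i)).source ∧ chartAt E4 (p i) x ∈ O i) (l : List ι)  …  -- field `rep`, for the composition `AL` of the one-chart averagings.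

### R240/SmRep3 [ns Crest.Agent.R240.Sm] Row 240 (S0371), block R (helper599): field `rep` of `SmPack` for the system `Sys M`.
* theorem fRep (D : Dat M) (𝒰 : Cover M) (S : Sys M) : FRep D 𝒰 S  -- field `rep` of the smoothing package.

### R240/SmSign [ns Crest.Agent.R240.SmSign] # Row 240, block R, N8 field `sign` (helper136): reduction to non-negative kernels, abstract part * `abs_le_of_split` : a functional on families `p = (p_i)` which is bounded by `R` on the families with all `p_i ∈ T i` is bounded by `2 ^ |ι| R` on the families with all `p_i ∈ S i`, if every `f ∈ S i`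
* theorem abs_le_of_split (S T : ∀ i, Set (V i)) (hTS : ∀ i, T i ⊆ S i) (φ : (∀ i, V i) → ℝ) {R : ℝ} (hsplit : ∀ i, ∀ p : ∀ i, V i, (∀ j, p j ∈ S j) → ∃ g ∈ T i, ∃ h ∈ T i, |φ p| ≤ |φ (update p i g)| + |φ (update p i h)|) (hR : ∀ p : ∀ i, V i, (∀ j, p j ∈ T j) → |φ p| ≤ R) (p : ∀ i, V i) (hp : ∀ j, p j ∈ S j) : |φ p| ≤ 2 ^ Fintype.card ι * R  -- the sign lemma, abstract form.
* theorem abs_le_of_sub (S T : ∀ i, Set (V i)) (hTS : ∀ i, T i ⊆ S i) (φ : (∀ i, V i) → ℝ) {R : ℝ} (hsplit : ∀ i, ∀ p : ∀ i, V i, (∀ j, p j ∈ S j) → ∃ g ∈ T i, ∃ h ∈ T i, φ p = φ (update p i g) - φ (update p i h)) (hR : ∀ p : ∀ i, V i, (∀ j, p j ∈ T j) → |φ p| ≤ R) (p : ∀ i, V i) (hp : ∀ j, p j ∈ S j) : |φ p| ≤ 2 ^ Fintype.card ι * R  -- the sign lemma for a functional which is additive in each slot (subtraction form).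
* theorem norm_half_le {k : ℕ} {p : E → ℝ} (hp : ContDiff ℝ k p) {x : E} (h : ∀ j ≤ k, ‖iteratedFDeriv ℝ j p x‖ ≤ 1) {s : ℝ} (hs : |s| ≤ 1) {j : ℕ} (hj : j ≤ k) : ‖iteratedFDeriv ℝ j (fun y => (1 + s * p y) / 2) x‖ ≤ 1  -- jets of `(1 + s p) / 2`, `|s| ≤ 1`.

### R240/SmSignA [ns Crest.Agent.R240.SmSign] # Row 240, block R, N8 field `sign` (helper136): the sign lemma for compositions of operators `B i q : X →ₗ[ℝ] X` is the one-chart operator with kernel `q`, linear in `q`; `fold B l q b` is the composition over the list `l` (`foldr`).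
* abbrev SmQ (E : Type*) [NormedAddCommGroup E] [NormedSpace ℝ E] : Type _  -- smooth kernels.
* def halfQ (s : ℝ) (q : SmQ E) : SmQ E  -- `(1 + s q) / 2`
* theorem sign_fold (B : Fin n → SmQ E → X →ₗ[ℝ] X) (K : Set E) (hB : ∀ i (q g h : SmQ E), (∀ z, q.1 z = g.1 z - h.1 z) → ∀ b, B i q b = B i g b - B i h b) (k : ℕ) (L : X →ₗ[ℝ] ℝ) (b : X) (R : ℝ) (hR : ∀ q : Fin n → SmQ E, (∀ i, ∀ j ≤ k, ∀ z ∈ K, ‖iteratedFDeriv ℝ j (q i).1 z‖ ≤ 1) → (∀ i, ∀ z ∈ K, 0 ≤ (q i).1 z) → |L ((List.finRange n).foldr (fun i b => B i (q i) b) b)| ≤ R) (q  …  -- the sign lemma for compositions of one-chart operators.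

### R240/SmSignF [ns Crest.Agent.R240.SmSign] # Row 240, N8 (helper136): the field `sign` of `SmPack`
* theorem fSign (S : Sys M) : FSign S  -- field `sign` of `SmPack`.

### R240/SmSignL [ns Crest.Agent.R240.SmSign] # Row 240, block R, N8 field `sign` (helper136): slot linearity of the composed averages * `A1_lin_left`, `A1_lin_right` : the one-chart average is linear in the kernel and in the form; * `AL_update_lin` : the composition over a `Nodup` list is linear in each kernel; * `sign_AL` : the sign lemma for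
* theorem AL_update_lin (hG : ∀ i, (G i).K ⊆ (chartAt E4 (p i)).target) {κ : ι → E4 → ℝ} (hk : ∀ i, Ker (κ i)) {ρ : ι → ℝ} (hρ : ∀ i, ρ i < (G i).r) {g h : E4 → ℝ} (hg : Ker g) (hh : Ker h) (c c' : ℝ) (l : List ι) (hl : l.Nodup) {i : ι} (hi : i ∈ l) {e : ℝ} (he : 0 < e) (heρ : ∀ i ∈ l, e ≤ ρ i) {b : F2 E4 M} (hb : Smooth2 b) : AL G p (update κ i fun z => c * g z + c' * h z) l e b …  -- linearity in each kernel
* theorem sign_AL (hG : ∀ i, (G i).K ⊆ (chartAt E4 (p i)).target) {κ₀ : E4 → ℝ} (hκ₀ : Ker κ₀) {ρ : Fin n → ℝ} (hρ : ∀ i, ρ i < (G i).r) {e : ℝ} (he : 0 < e) (heρ : ∀ i, e ≤ ρ i) (A : (Fin n → SmQ E4) → X2 M →ₗ[ℝ] X2 M) (hA : ∀ q b, (A q b : F2 E4 M) = AL G p (fun i z => (q i).1 z * κ₀ z) (List.finRange n) e (b : F2 E4 M)) (K : Set E4) (k : ℕ) (L : X2 M →ₗ[ℝ] ℝ) (b : X2 M) (R : ℝ …  -- field `sign` of `SmPack` for operators of the form `AL` with kernels `q i * κ₀`.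

### R240/SmSlice [ns Crest.Agent.R240.SmJ] # Row 240, block R (helper245): slices of jets, averages with a continuous weight * `norm_jy_le`, `norm_dx_jy_le`, `norm_jy_sub_le` : the jets of slices against joint jets; * `iteratedFDeriv_avg` : `D_y^j ∫ κ(z) G(z,y) dz = ∫ κ(z) D_y^j G(z,y) dz`.
* theorem integrable_wt {U : Set Z} (hU : IsOpen U) {κ : Z → ℝ} (hκ : Continuous κ) (hc : HasCompactSupport κ) (hs : tsupport κ ⊆ U) {f : Z → V} (hf : ContinuousOn f U) : Integrable (fun z => κ z • f z) μ  -- integrability of `κ • f`, `f` continuous on `U ⊇ tsupport κ`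
* theorem hasFDerivAt_avg {U : Set Z} (hU : IsOpen U) {T : Set E'} (hT : IsOpen T) {κ : Z → ℝ} (hκ : Continuous κ) (hc : HasCompactSupport κ) (hs : tsupport κ ⊆ U) {G : Z × E' → V} (hG : ContDiffOn ℝ ∞ G (U ×ˢ T)) {y : E'} (hy : y ∈ T) : HasFDerivAt (fun y => ∫ z, κ z • G (z, y) ∂μ) (∫ z, κ z • dy G (z, y) ∂μ) y  -- derivative of the weighted average
* theorem iteratedFDeriv_avg {U : Set Z} (hU : IsOpen U) {T : Set E'} (hT : IsOpen T) {κ : Z → ℝ} (hκ : Continuous κ) (hc : HasCompactSupport κ) (hs : tsupport κ ⊆ U) {G : Z × E' → V} (hG : ContDiffOn ℝ ∞ G (U ×ˢ T)) [CompleteSpace V] (j : ℕ) : ∀ y ∈ T, iteratedFDeriv ℝ j (fun y => ∫ z, κ z • G (z, y) ∂μ) y = ∫ z, κ z • jy j G (z, y) ∂μ  -- jets of the weighted average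

### R240/SmSys [ns Crest.Agent.R240.Sm / Sys] Row 240, N8 (helper915): the concrete smoothing system on `M`: a finite system of charts with cut-offs, the operators `S.A e q` on smooth two-forms and `S.a e` on functions, the kernel classes, and the exact form of every field of `SmPack` (`FExact`, `FApprox`, ...).
* def A [T2Space M] (e : ℝ) (q : Fin S.n → KF) : X2 M →ₗ[ℝ] X2 M  -- the smoothing operator on two-forms.
* def a (e : ℝ) : (M → ℝ) → M → ℝ  -- the smoothing operator on functions.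
* theorem smPack_of (D : Dat M) (𝒰 : Cover M) (S : Sys M) (h1 : FExact S) (h2 : FApprox 𝒰 S) (h3 : FBd D S) (h4 : FPos D S) (h5 : FLeak1 D S) (h6 : FLeak2 D S) (h7 : FLow D S) (h8 : FRep D 𝒰 S) (h9 : FRepm D S) (h10 : FCrude D 𝒰 S) (h11 : FLeak D 𝒰 S) (h12 : FAdj D S) (h13 : FSign S) : Nonempty (SmPack D 𝒰)  -- assembly of the smoothing package.

### R240/SmSysEx [ns Crest.Agent.R240.Sm] Row 240, N8 (helper915): existence of a smoothing system.
* theorem exists_sys [CompactSpace M] : Nonempty (Sys M)  -- a smoothing system exists.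

### R240/St1 [ns Crest.Agent.R240.St1] Row 240 (S0371), Step 1 of note 10247 in abstract form (helper630). `X` = smooth two-forms, `jp`, `jm` = invariant / anti-invariant part, `I` = the pairing `I(b,c) = ∫ q(b,c) dμ`, `P` = semipositive invariant forms, `Ex` = exact forms, `al` = the taming form, `F = jp al`.
* theorem apriori (I : X →ₗ[ℝ] X →ₗ[ℝ] ℝ) (hsymm : ∀ b c, I b c = I c b) (jp jm : X →ₗ[ℝ] X) (hadd : ∀ b, jp b + jm b = b) (hmix : ∀ b c, I (jp b) (jm c) = 0) (hanti : ∀ b, 0 ≤ I (jm b) (jm b)) {al e : X} (hF : 0 < I (jp al) (jp al)) (hale : I al e = 0) (hee : I e e = 0) {t : ℝ} (hpp : 0 ≤ I (jp (t • al + e)) (jp (t • al + e))) (hFp : 0 ≤ I (jp al) (jp (t • al + e))) : 0 ≤ t ∧ I  …  -- the a priori bound of Step 1.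
* theorem n1_abs (I : X →ₗ[ℝ] X →ₗ[ℝ] ℝ) (hsymm : ∀ b c, I b c = I c b) (jp jm : X →ₗ[ℝ] X) (hadd : ∀ b, jp b + jm b = b) (hpp : ∀ b, jp (jp b) = jp b) (hpm : ∀ b, jp (jm b) = 0) (hmix : ∀ b c, I (jp b) (jm c) = 0) (hanti : ∀ b, 0 ≤ I (jm b) (jm b)) (P : Set X) (h0 : (0 : X) ∈ P) (hPadd : ∀ x ∈ P, ∀ y ∈ P, x + y ∈ P) (hPsmul : ∀ c : ℝ, 0 < c → ∀ x ∈ P, c • x ∈ P) (hPinv : ∀ x ∈ P …  -- Step 1 (abstract form).

### R240/Step6Core [ns Crest.Agent.R240.S6] Row 240 (S0371), helper548: STEP 6 (the final contradiction), abstract core. `X` = smooth two-forms, `Sm` = smooth functions on `M`, `j1 b = b'`, `j2 b = b''`, `Pp` = cone of semi-positive invariant forms, `q b c` = pointwise pairing, `nn b x = |b|_x`, `fm f b = f b`.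
* structure Ctx (μ : Measure M) (Sm : (M → ℝ) → Prop) (fm : (M → ℝ) → X → X) (F : X) (j1 j2 : X →ₗ[ℝ] X) (Pp : Set X) (q : X → X → M → ℝ) (nn : X → M → ℝ) (K : ℝ) : Prop where sm_cont : ∀ f, Sm f → Continuous f sm_mul : ∀ f g, Sm f → Sm g → Sm (fun x => f x * g x) sm_const : ∀ c : ℝ, Sm (fun _ => c) sm_add : ∀ f g, Sm f → Sm g → Sm (fun x => f x + g x) sm_sqrt : ∀ f, Sm f → (∀ x, …  -- The pointwise calculus used in Step 6.
* theorem anti_bound (C : Ctx μ Sm fm F j1 j2 Pp q nn K) [IsFiniteMeasure μ] (s0 : Measure M) [IsFiniteMeasure s0] (Φ : X →ₗ[ℝ] ℝ) (A : X →ₗ[ℝ] X) (a : (M → ℝ) → (M → ℝ)) (b : X) (se : M → ℝ) {c1 c3 : ℝ} (hc1 : 0 ≤ c1) (hc3 : 0 ≤ c3) (hΦj : ∀ c, Φ (j1 c) = Φ c) (hΦn : ∀ c, |Φ (j1 c)| ≤ c3 * ∫ x, nn (j1 c) x ∂s0) (hnnc : ∀ c, Continuous (nn c)) (ha : ∀ f, Sm f → Sm (a f)) (hrep :  …  -- upper bound for `‖b''‖_2`.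
* structure SmE (μ : Measure M) (Sm : (M → ℝ) → Prop) (fm : (M → ℝ) → X → X) (F : X) (j1 j2 : X →ₗ[ℝ] X) (Pp : Set X) (q : X → X → M → ℝ) (nn : X → M → ℝ) (s0 : Measure M) (Φ : X →ₗ[ℝ] ℝ) (c e : ℝ) (A : X →ₗ[ℝ] X) (a : (M → ℝ) → (M → ℝ)) (b : X) (se : M → ℝ) : Prop where a_sm : ∀ f, Sm f → Sm (a f) a_nonneg : ∀ f, Sm f → (∀ x, 0 ≤ f x) → ∀ x, 0 ≤ a f x rep : ∀ d, Φ (A d) = ∫ x, q …  -- what Step 6 needs from the smoothing at scale `e` (constant `c`): `b = b_e`.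

### R240/TopAbs [ns Crest.Agent.R240.Top] Row 240, PART T (helper23): abstract assembly of Step 4 and Step 6.
* theorem energy_int {Q p a b : M → ℝ} {c C e : ℝ} (hc : 0 < c) (hC : 0 ≤ C) (hQ : Integrable Q μ) (hp : MemLp p 2 μ) (ha : MemLp a 2 μ) (hb : MemLp b 2 μ) (hI : ∫ x, Q x ∂μ = 0) (hpt : ∀ x, c * b x ^ 2 - C * (e ^ 2 * p x ^ 2 + |p x| * |a x| + a x ^ 2) ≤ Q x) : ∫ x, b x ^ 2 ∂μ ≤ C / c * (e ^ 2 * (√(∫ x, p x ^ 2 ∂μ)) ^ 2 + √(∫ x, p x ^ 2 ∂μ) * √(∫ x, a x ^ 2 ∂μ) + (√(∫ x, a x ^ 2  …  -- pointwise energy inequality: `Q` = `q(η,η)`, `p` = density of `|T|_e`, `a = |B_e'|`, `b = |B_e''|`.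
* def DenB (s : Measure M) (e D : ℝ) : Prop  -- two-dimensional upper density bound for radii `≥ e`.

### R240/TopAll [ns Crest.Agent.R240] Row 240 (S0371), TOP (helper23): everything except the open nodes N8, N6, N3, N5.
* theorem Dat.goal_of_open (D : Dat M) (h8 : D.N8) (h5 : D.N5) (h6 : D.N6) (h3 : D.N3) : D.Goal  -- the goal from the nodes N8, N5, N6, N3.
* theorem Dat.goal_of_N8 (D : Dat M) (h8 : D.N8) : D.Goal  -- the goal from the node N8.

### R240/TopDefs [ns Crest.Agent.R240 / Dat] Row 240 (S0371), TOP (helper23): common DEFINITIONS for the frozen interface (no proofs). Everything is about unbundled forms `F2 E4 M`; bundled `X2 M`, `Z2 M` are in `XDefs` (helper456).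
* structure Cover where N : ℕ p : Fin N → M K : Fin N → Set E4 cpt : ∀ i, IsCompact (K i) sub : ∀ i, K i ⊆ (chartAt E4 (p i)).target cov : ∀ x : M, ∃ i, x ∈ (chartAt E4 (p i)).source ∧ chartAt E4 (p i) x ∈ interior (K i)  -- a finite family of compact chart pieces whose interiors cover `M`.
* structure Dat (M : Type*) [MetricSpace M] [CompactSpace M] [ChartedSpace E4 M] [IsManifold 𝓘(ℝ, E4) ∞ M] [MeasurableSpace M] [BorelSpace M] where bl : Met.BiLip E4 M J : EndF E4 M smJ : SmoothJ J sq : ∀ x v, atJ J x (atJ J x v) = -v al : F2 E4 M sm_al : Smooth2 al cl_al : Closed2 al tames : ∀ x v, v ≠ 0 → 0 < at2 al x v (atJ J x v) μ : Measure M fin : IsFiniteMeasure μ vol : Is …  -- All the data: `M` compact with a metric bi-Lipschitz to the charts, `J`, the taming form `al`, its invariant part `F = al'`, and the volume measure `μ` of `F`.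
* def n2 (D : Dat M) (b : F2 E4 M) : ℝ  -- `‖b‖_2`.

### R240/TopFin [ns Crest.Agent.R240 / Dat] Row 240 (S0371), TOP (helper23): last steps.
* theorem vg_int (D : Dat M) : D.VG  -- node VG.

### R240/TopNum [ns Crest.Agent.R240.Top] Row 240, PART T (helper23): real-number lemmas for the bootstrap of Step 4.
* theorem quad_small {C e t N : ℝ} (hC : 1 ≤ C) (he : 0 ≤ e) (heC : C * e ≤ 1 / 8) (ht : 0 ≤ t) (hN : 0 ≤ N) (h : N ^ 2 ≤ C * (e ^ 2 * t ^ 2 + t * (e * (N + 1)) + (e * (N + 1)) ^ 2)) : N ≤ 8 * C * (1 + e * t)  -- A quadratic inequality with a small coefficient.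
* theorem energy_boot {ι : Type*} {pos : Set ι} {f g h : ι → ℝ} {C e t : ℝ} (hC : 1 ≤ C) (he : 0 ≤ e) (heC : 8 * C ^ 6 * e ≤ 1 / 8) (ht : 0 ≤ t) (hf0 : ∀ κ, 0 ≤ f κ) (hg0 : ∀ κ, 0 ≤ g κ) (hbdd : BddAbove (Set.range f)) (hfgh : ∀ κ ∈ pos, f κ ^ 2 ≤ C * (g κ ^ 2 + h κ ^ 2)) (hpos : ∀ κ ∈ pos, h κ ^ 2 ≤ C * (e ^ 2 * t ^ 2 + t * g κ + g κ ^ 2)) (hg : ∀ N : ℝ, (∀ κ, f κ ≤ N) → ∀ κ, g  …  -- Abstract energy bootstrap at a fixed scale `e`: `f κ = ‖B_κ‖`, `g κ = ‖B_κ'‖`, `h κ = ‖B_κ''‖` in `L²`.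
* theorem boot_final {C y N D : ℝ} (hC : 1 ≤ C) (hN0 : 0 ≤ N) (hy0 : 0 ≤ y) (h1 : N ≤ C * (1 + y)) (h2 : y ^ 2 ≤ C * D) (h3 : D ≤ C * (1 + N)) : N ≤ 4 * C ^ 4 ∧ D ≤ C * (1 + 4 * C ^ 4)  -- The last step of the bootstrap: `N ≤ C(1+y)`, `y² ≤ C D`, `D ≤ C(1+N)`.

### R240/TopVol [ns Crest.Agent.R240 / Dat] Row 240 (S0371), node VG (helper587): volume growth of balls, `μ (ball x r) ≤ C r ^ 4`.
* theorem vg_local (D : Dat M) (p : M) {ρ : ℝ} (hρ : closedBall (chartAt E4 p p) ρ ⊆ (chartAt E4 p).target) : ∃ C : ℝ, 0 ≤ C ∧ ∀ x : M, ∀ r : ℝ, 0 < r → ball x r ⊆ (chartAt E4 p).source ∩ chartAt E4 p ⁻¹' ball (chartAt E4 p p) ρ → D.μ.real (ball x r) ≤ C * r ^ 4  -- one chart piece: small balls inside it have volume `≤ C r ^ 4`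
* theorem vg (D : Dat M) : D.VG  -- VG

### R240/Vm1 [ns Crest.Agent.R240.Vm] # R240, block V: a vector valued Riesz theorem (polar form of a current of order 0) `exists_density`: a linear functional on a space of (square integrable) fields `X → V`, bounded by `C ∫ ‖f‖ ds`, is `f ↦ ∫ ⟪φ, f⟫ ds` with `φ` measurable and `‖φ‖ ≤ C` everywhere.
* def L2fun (s : Measure X) (V : Type*) [NormedAddCommGroup V] [InnerProductSpace ℝ V] : Submodule ℝ (X → V)  -- square integrable functions as a submodule of all functions.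
* theorem exists_density (s : Measure X) [IsFiniteMeasure s] {C : ℝ} (hC : 0 ≤ C) (D : Submodule ℝ (X → V)) (hD : ∀ f ∈ D, MemLp f 2 s) (Phi : D →ₗ[ℝ] ℝ) (hPhi : ∀ f : D, Phi f ≤ C * ∫ x, ‖(f : X → V) x‖ ∂s) : ∃ φ : X → V, Measurable φ ∧ (∀ x, ‖φ x‖ ≤ C) ∧ ∀ f : D, Phi f = ∫ x, inner ℝ (φ x) ((f : X → V) x) ∂s  -- Vector valued Riesz theorem.

### R240/Vm2 [ns Crest.Agent.R240.Vm] # R240, block V: restriction of a functional of order 0 to a Borel set Abstract setting: `A` = smooth functions on `M` (evaluated by `ev`), `X` = smooth forms, with a pointwise norm `N b : M → ℝ` and a multiplication `mul f : X →ₗ X`. A functional `Φ` on `X` with `|Φ b| ≤ ∫ N b ds` is restricted to 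
* structure Cut (s : Measure M) (ev : A →ₗ[ℝ] (M → ℝ)) (S : Set M) (χ : ℕ → A) : Prop where nonneg : ∀ n x, 0 ≤ ev (χ n) x le_one : ∀ n x, ev (χ n) x ≤ 1 lim : Tendsto (fun n => ∫ x, |ev (χ n) x - S.indicator (fun _ => (1:ℝ)) x| ∂s) atTop (𝓝 0)  -- a sequence of test functions with values in `[0,1]` converging to the indicator of `S` in `L¹(s)`.
* theorem exists_cut (s : Measure M) [IsFiniteMeasure s] [s.Regular] (ev : A →ₗ[ℝ] (M → ℝ)) (hcont : ∀ f, Continuous (ev f)) (hdense : ∀ f : M → ℝ, Continuous f → (∀ x, 0 ≤ f x) → (∀ x, f x ≤ 1) → ∀ ε > 0, ∃ g, (∀ x, 0 ≤ ev g x) ∧ (∀ x, ev g x ≤ 1) ∧ ∀ x, |ev g x - f x| < ε) {S : Set M} (hS : MeasurableSet S) : ∃ χ : ℕ → A, Cut s ev S χ  -- existence of cutting sequences.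
* theorem exists_restrict (hcont : ∀ f, Continuous (ev f)) (hNc : ∀ b, Continuous (N b)) (hN0 : ∀ b x, 0 ≤ N b x) (hNm : ∀ f b x, N (mul f b) x = |ev f x| * N b x) (Phi : X →ₗ[ℝ] ℝ) (hPhi : ∀ b, |Phi b| ≤ ∫ x, N b x ∂s) {S : Set M} (hS : MeasurableSet S) (hcut : ∃ χ : ℕ → A, Cut s ev S χ) : ∃ PS : X →ₗ[ℝ] ℝ, (∀ χ : ℕ → A, Cut s ev S χ → ∀ b, Tendsto (fun n => Phi (mul (χ n) b)) a …  -- Restriction of a functional to a Borel set.

### R240/Vm3 [ns Crest.Agent.R240.Vm] # R240, block V: inherited properties of the restricted functional (abstract form)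
* theorem IsRestr.ge_setIntegral (h : IsRestr s ev mul Phi PS S) {μ : Measure M} [IsFiniteMeasure μ] (hcont : ∀ f, Continuous (ev f)) (hS : MeasurableSet S) (hcut : ∃ χ : ℕ → A, Cut (s + μ) ev S χ) {b : X} {k : M → ℝ} {C : ℝ} (hk : AEStronglyMeasurable k μ) (hkC : ∀ x, |k x| ≤ C) (hb : ∀ f, (∀ x, 0 ≤ ev f x) → ∫ x, ev f x * k x ∂μ ≤ Phi (mul f b)) : ∫ x in S, k x ∂μ ≤ PS b  -- Lower bounds are inherited: if `Phi (f b) ≥ ∫ f k dμ` for `f ≥ 0` then `PS b ≥ ∫_S k dμ`.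
* theorem IsRestr.nonneg (h : IsRestr s ev mul Phi PS S) (hcut : ∃ χ : ℕ → A, Cut s ev S χ) {b : X} (hb : ∀ f, (∀ x, 0 ≤ ev f x) → 0 ≤ Phi (mul f b)) : 0 ≤ PS b  -- Positivity is inherited.
* theorem IsRestr.congr (h : IsRestr s ev mul Phi PS S) (hcut : ∃ χ : ℕ → A, Cut s ev S χ) {b c : X} (hb : ∀ f, Phi (mul f b) = Phi (mul f c)) : PS b = PS c  -- Equality of restrictions on two vectors.

### R240/Vm4 [ns Crest.Agent.R240.Vm] # R240, block V: smooth cutting sequences on a compact manifold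
* theorem evSmooth_dense01 (f : M → ℝ) (hf : Continuous f) (h0 : ∀ x, 0 ≤ f x) (h1 : ∀ x, f x ≤ 1) (ε : ℝ) (hε : 0 < ε) : ∃ g : C^∞⟮I, M; 𝓘(ℝ, ℝ), ℝ⟯, (∀ x, 0 ≤ evSmooth I g x) ∧ (∀ x, evSmooth I g x ≤ 1) ∧ ∀ x, |evSmooth I g x - f x| < ε  -- smooth approximation with values in `[0,1]`.
* theorem exists_cut_smooth (s : Measure M) [IsFiniteMeasure s] [s.Regular] {S : Set M} (hS : MeasurableSet S) : ∃ χ : ℕ → C^∞⟮I, M; 𝓘(ℝ, ℝ), ℝ⟯, Cut s (evSmooth I (M := M)) S χ  -- existence of smooth cutting sequences.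

### R240/Vm5 [ns Crest.Agent.R240.Vm] # R240, block V: push-forward of a measure to a chart core, chart formula of the restriction
* def smap (s : Measure M) (e : OpenPartialHomeomorph M E) (K : Set E) : Measure E  -- push-forward of `s` restricted to the core `e.symm '' K`.
* theorem smap_restrict (hK : IsCompact K) (hKe : K ⊆ e.target) {S : Set M} (hS : MeasurableSet S) : smap (s.restrict S) e K = (smap s e K).restrict {y | y ∈ K ∧ e.symm y ∈ S}  -- restriction of the push-forward.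
* theorem IsRestr.chart (h : IsRestr s ev mul Phi PS S) (hcont : ∀ f, Continuous (ev f)) (hS : MeasurableSet S) (hcut : ∃ χ : ℕ → A, Cut s ev S χ) (hK : IsCompact K) (hKe : K ⊆ e.target) {b : X} {G : E → ℝ} {C : ℝ} (hG : Measurable G) (hGC : ∀ y, |G y| ≤ C) (hb : ∀ f, Phi (mul f b) = ∫ y, ev f (e.symm y) * G y ∂(smap s e K)) : PS b = ∫ y in {y | y ∈ K ∧ e.symm y ∈ S}, G y ∂(smap  …  -- Chart formula of the restriction.

### R240/Vm6 [ns Crest.Agent.R240.Vm] # R240, block V: the restriction of a current to a Borel set, all properties (abstract forms)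
* structure Restr (s μ : Measure M) (ev : A →ₗ[ℝ] (M → ℝ)) (mul : A →ₗ[ℝ] X →ₗ[ℝ] X) (N : X → M → ℝ) (Phi Phi0 : X →ₗ[ℝ] ℝ) (G : Set M) : Prop where isRestr : IsRestr s ev mul Phi Phi0 G bound : ∀ b, |Phi0 b| ≤ ∫ x in G, N b x ∂s congr : ∀ b c, (∀ f, Phi (mul f b) = Phi (mul f c)) → Phi0 b = Phi0 c lower : ∀ b (k : M → ℝ) (C : ℝ), AEStronglyMeasurable k μ → (∀ x, |k x| ≤ C) → (∀  …  -- All properties of the restriction.

### R240/XDefs [ns Crest.Agent.R240.Ch] Row 240 (S0371), helper456: the spaces `X2` (smooth two-forms), `Z2` (closed ones), `X1` (smooth one-forms), the linear projections `invM`, `antiM`, the cone `PosM`.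
* def invM (J : EndF E4 M) (hJ : SmoothJ J) : X2 M →ₗ[ℝ] X2 M  -- the projection to the `J`-invariant part.
* def antiM (J : EndF E4 M) (hJ : SmoothJ J) : X2 M →ₗ[ℝ] X2 M  -- the projection to the `J`-anti-invariant part.
* def PosM (J : EndF E4 M) : Set (X2 M)  -- the cone of semi-positive `J`-invariant smooth forms.

### R240/XInst [ns Crest.Agent.R240.Ch] Row 240, TOP (helper23): instance shortcuts for the space `X2 M` of smooth two-forms.
-/
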