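/-
R249 PART E1 (helper274): inventory of R275: torus Sobolev scale, sections of bundles over finite atlases (holomorphic atlases!), Rellich scales, Fredholm theory, indices, supertraces (headlines). Automatic extract.

==================== R275 torus

### R275/TorA_812 [ns Crest.Agent.R275.Tor812] # R275, torus block B1 (helper812), part A Smooth `ℤ^d`-periodic functions on `ℝ^d`, Fourier coefficients, Parseval, derivatives, rapid decay, synthesis.
* theorem summable_wt {N : ℕ} (hN : Fintype.card d ≤ N) : Summable fun k : d → ℤ => (wt k ^ N)⁻¹  -- `∑ (1+|k|²)^{-card d} < ∞`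
* def Rapid (a : (d → ℤ) → ℂ) : Prop  -- rapidly decreasing coefficients
* def lin (k : d → ℤ) : (d → ℝ) →L[ℝ] ℝ  -- the linear functional `x ↦ ∑ k_i x_i`
* def syn (a : (d → ℤ) → ℂ) (h : Rapid a) : SPer d  -- synthesis of a smooth periodic function

### R275/TorB_812 [ns Crest.Agent.R275.Tor812] # R275, torus block B1 (helper812), part B The Sobolev scale `nrm s f` (`s : ℕ`) on smooth periodic functions, as the norm of an embedding `emb s` into `ℓ²(ℤ^d)`; recursion in `s`, multiplication, Rellich, Sobolev embedding.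
* theorem nrm_succ_sq (s : ℕ) (f : SPer d) : nrm (s + 1) f ^ 2 = nrm s f ^ 2 + (4 * π ^ 2)⁻¹ * ∑ j, nrm s (pd j f) ^ 2  -- recursion: `|f|²_{s+1} = |f|²_s + (2π)⁻² ∑ |∂_j f|²_s`
* theorem nrm_mul_le (s : ℕ) : ∀ p : SPer d, ∃ C, 0 ≤ C ∧ ∀ f : SPer d, nrm s (p * f) ≤ C * nrm s f  -- multiplication is bounded on every level of the scale
* theorem rellich (s : ℕ) {ε : ℝ} (hε : 0 < ε) : ∃ S : Finset (d → ℤ), ∀ f : SPer d, nrm s (f - proj S f) ≤ ε * nrm (s + 1) f  -- Rellich: the identity `H^{s+1} → H^s` is a norm limit of finite rank projections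
* theorem sup_le {s : ℕ} (hs : Fintype.card d < 2 * s) : ∃ C, 0 ≤ C ∧ ∀ (f : SPer d) (x : d → ℝ), ‖f x‖ ≤ C * nrm s f  -- Sobolev embedding

### R275/TorC_812 [ns Crest.Agent.R275.Tor812] # R275, torus block B1 (helper812), part C Fourier multipliers; the complex coordinates `ℂⁿ = ℝ^{Fin n × Fin 2}`: `dbar j`, `ddp j`, `box`, the Bessel operator `G = (1+box)⁻¹`, the homotopy components `Kop j = dbar_j^* G`, and the commutators with multiplication operators.
* theorem sum_dbar_Kop (f : SPer (CI n)) : ∑ j, dbar j (Kop j f) = f - G f  -- the homotopy identity `∑ ∂̄_j K_j = 1 - G`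
* def box' : SPer (CI n) →ₗ[ℂ] SPer (CI n)  -- `box = -∑ ∂_j ∂̄_j`
* theorem comm_G (p f : SPer (CI n)) : G (p * f) - p * G f = G (∑ j : Fin n, (ddp j p * dbar j (G f) + dbar j p * ddp j (G f)) - box' p * G f)  -- the commutator `[G, p]`
* theorem nrm_comm_Kop_le (s : ℕ) (j : Fin n) (p : SPer (CI n)) : ∃ C, 0 ≤ C ∧ ∀ f : SPer (CI n), nrm (s + 2) (Kop j (p * f) - p * Kop j f) ≤ C * nrm s f  -- the commutator `[K_j, p]` gains two derivatives

### R275/TorCpl_912 [ns Crest.Agent.R275.TorCpl912] # R275 (helper912): completeness of `SPer d` for the whole scale of norms `nrm s`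
* theorem exists_limit {f : ℕ → SPer d} (h : ∀ s, CauchyN s f) : ∃ g : SPer d, ∀ s, Tendsto (fun m => nrm s (f m - g)) atTop (𝓝 0)  -- completeness of the space of smooth periodic functions for the scale of norms
* theorem tendsto_apply {f : ℕ → SPer d} {g : SPer d} (h : ∀ s, Tendsto (fun m => nrm s (f m - g)) atTop (𝓝 0)) (x : d → ℝ) : Tendsto (fun m => f m x) atTop (𝓝 (g x))  -- convergence in the scale implies pointwise convergence
* theorem limit_unique {f : ℕ → SPer d} {g g' : SPer d} {s : ℕ} (h : Tendsto (fun m => nrm s (f m - g)) atTop (𝓝 0)) (h' : Tendsto (fun m => nrm s (f m - g')) atTop (𝓝 0)) : g = g'  -- uniqueness of limits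
* theorem tendsto_map {d' : Type} [Fintype d'] {T : SPer d →ₗ[ℂ] SPer d'} (hT : ∀ s, ∃ t C, 0 ≤ C ∧ ∀ f, nrm s (T f) ≤ C * nrm t f) {f : ℕ → SPer d} {g : SPer d} (h : ∀ s, Tendsto (fun m => nrm s (f m - g)) atTop (𝓝 0)) (s : ℕ) : Tendsto (fun m => nrm s (T (f m) - T g)) atTop (𝓝 0)  -- limits and multiplication operators etc.: a linear map bounded in the scale is continuous

### R275/TorD_812 [ns Crest.Agent.R275.Tor812] # R275, torus block B1 (helper812), part D Vector valued operators on the torus, in the format of `GeoLE_509`: `nrmv s f = ∑ k, nrm s (f k)`, `opv m P = ∑ₐ mₐ ⊗ Pₐ`, `mulS` (matrix of periodic functions), `projv`, vector Rellich, and the Fock valued parametrix `KT io = ∑ₐ ioₐ ⊗ Kopₐ` with `DT e (KT io f) + KT io (DT e f) = f - Gv f`, `KT (KT f) = 0`, `DT (DT f) = 0`, gain of one derivative, and the commutator with multiplication by a periodic function gains two.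
* theorem DT_KT [DecidableEq κ] {e io : Fin n → Matrix κ κ ℂ} (h : ∀ a b, e a * io b + io b * e a = if a = b then 1 else 0) (f : κ → SPer (RI n)) : DT e (KT io f) + KT io (DT e f) = f - Gv f  -- homotopy identity on the torus
* theorem DT_smS (e : Fin n → Matrix κ κ ℂ) (p : SPer (RI n)) (f : κ → SPer (RI n)) : DT e (smS p f) = smS p (DT e f) + fun k => ∑ a, ∑ l, e a k l • (dbar a p * f l)  -- Leibniz rule
* theorem nrmv_comm_KT_le (io : Fin n → Matrix κ κ ℂ) (s : ℕ) (p : SPer (RI n)) : ∃ C, 0 ≤ C ∧ ∀ f : κ → SPer (RI n), nrmv (s + 2) (KT io (smS p f) - smS p (KT io f)) ≤ C * nrmv s f  -- the commutator of the parametrix with multiplication by a periodic function gains two derivatives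
* def IsDegT (deg : κ → ℕ) (q : ℕ) (f : κ → SPer d) : Prop  -- homogeneous vectors

### R275/TorE_812 [ns Crest.Agent.R275.TorE812] # R275, torus block B1 (helper812), part E (namespace `TorE812`) * completeness of the scale: a sequence which is Cauchy for every `nrm s` converges for every `nrm s` (also vector valued), and pointwise; * the bilinear pairing `ip f g = ∫ f g`, transposes of `pd`, multipliers, `dbar`, `G`, `Kop`, `opv`, `mulS`; Cauchy-Schwarz; nondegeneracy.
* theorem complete_SPer {f : ℕ → SPer d} (hf : CauchyAll f) : ∃ g : SPer d, ∀ s : ℕ, Tendsto (fun m => nrm s (f m - g)) atTop (𝓝 0)  -- completeness of the scale `SPer`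
* theorem norm_ip_le (f g : SPer d) : ‖ip f g‖ ≤ nrm 0 f * nrm 0 g  -- Cauchy-Schwarz
* theorem eq_zero_of_ip {f : SPer d} (h : ∀ g, ip f g = 0) : f = 0  -- nondegeneracy
* def ipv (f g : κ → SPer d) : ℂ  -- the pairing of vectors

### R275/TorF_812 [ns Crest.Agent.R275.TorF812] # R275, torus block (helper812), part F: explicit constants * `cn s p` : `C^s` norm of a periodic function (recursively defined), seminorm properties. * `nrm_mul_explicit` : `nrm s (p * f) ≤ mc s * cn s p * nrm s f`, `mc s` depends on `s` and `d` only. * `nrm_Tc_mul_le` : `nrm s (Tc (p·a) f) ≤ mc s * cn s p * C * nrm s f`, `C` the constant of `Tc a`. * uniform bounds for families of operators with finitely many values.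
* def mc (d : Type) [Fintype d] (s : ℕ) : ℝ  -- the constant of `nrm_mul_explicit`
* def cnm (s : ℕ) (m : Matrix κ κ' (SPer d)) : ℝ  -- `C^s` norm of a matrix
* theorem nrm_Tc_mul_le (c : Chg d) {a : (d → ℝ) → ℂ} (ha : IsCC c.U a) (s : ℕ) : ∃ C, 0 ≤ C ∧ ∀ p f : SPer d, nrm s (c.Tc (ha.mul_SPer p) f) ≤ C * cn s p * nrm s f  -- amplitude `p · a`
* theorem uniform_of_finite {V W X : Type*} (nV : V → ℝ) (nW : W → ℝ) (hV : ∀ v, 0 ≤ nV v) (T : X → V → W) (hfin : (range T).Finite) (h : ∀ x, ∃ C, 0 ≤ C ∧ ∀ v, nW (T x v) ≤ C * nV v) : ∃ C, 0 ≤ C ∧ ∀ x v, nW (T x v) ≤ C * nV v  -- a family of operators with finitely many values, each of them bounded, is uniformly bounded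

### R275/TorS_666 [ns Crest.Agent.R275.TorS666 / IsCC / Chg] # R275, block TorS (helper666): periodisation and localised changes of variables on the torus * `IsCC U F` : `F` is smooth with compact support in `U`. * `perz F` : the `ℤ^d`-periodic extension of a smooth function with compact support in the open unit cube. * `Tc a φ f` : the periodisation of `a * (f ∘ φ)`.
* structure IsCC (U : Set (d → ℝ)) (F : (d → ℝ) → ℂ) : Prop where smooth : ContDiff ℝ ∞ F supp : ∃ K : Set (d → ℝ), IsCompact K ∧ K ⊆ U ∧ ∀ x, x ∉ K → F x = 0  -- smooth functions with compact support in `U`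
* structure Chg (d : Type) [Fintype d] where U : Set (d → ℝ) φ : (d → ℝ) → (d → ℝ) isOpen : IsOpen U sub : U ⊆ Qo d smooth : ContDiffOn ℝ ∞ φ U maps : ∀ x ∈ U, φ x ∈ Qo d inj : InjOn φ U det_ne : ∀ x ∈ U, (fderiv ℝ φ x).det ≠ 0  -- a change of variables between open subsets of the unit cube
* theorem nrm_Tc (s : ℕ) {a : (d → ℝ) → ℂ} (h : IsCC c.U a) : ∃ C, 0 ≤ C ∧ ∀ f : SPer d, nrm s (c.Tc h f) ≤ C * nrm s f  -- boundedness of localised changes of variables on the Sobolev scale
* def Chg.id (d : Type) [Fintype d] : Chg d  -- the identity change of variables on the open unit cube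

### R275/TorT2_539 [ns Crest.Agent.R275.TorT2539] # R275: the one-variable Cauchy transform in a chart of a complex surface (helper539) `A : Atl 2 M`, `p : A.ι` a chart with small target. * `lp A i F` : the function `F`, read in the chart `i`, as a periodic function (`loc A i a v k = lp A i (fun x => (a x *ᵥ v x) k)`). * `nrm_lp_mul_le` : transfer between charts, `nrm s (lp A i (G F)) ≤ C nrm s (lp A j F)`. * `TU A p a` : the Cauchy transform in the first coordinate of the chart `p`. * `smP_TU`, `db_TU_zero`, `db_TU_one` : smoothness and `∂̄`. * `nrm_TU_le`, `nrm_TU_form_le` : the bounds.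
* theorem nrm_lp_mul_le (s : ℕ) {i j : A.ι} {G : M → ℂ} (h : Amp2 A i j G) : ∃ C, 0 ≤ C ∧ ∀ F : M → ℂ, A.SmAt j F → CptIn A j F → nrm s (lp A i (fun x => G x * F x)) ≤ C * nrm s (lp A j F)  -- transfer between charts
* structure Small (A : Atl 2 M) (p : A.ι) (c : ℂ) (r : ℝ) : Prop where pos : 0 < r tgt : ∀ z ∈ (A.e p).target, ‖z 0 - c‖ < r box : ∀ t : ℂ, ‖t - c‖ < 3 * r → t.re ∈ Ioo (0 : ℝ) 1 ∧ t.im ∈ Ioo (0 : ℝ) 1  -- the chart `p` is small in the first coordinate
* theorem nrm_TU_le (s : ℕ) {p i : A.ι} {c : ℂ} {r : ℝ} (hp : Small A p c r) {m : M → ℂ} (hm : Amp2 A i p m) : ∃ C, 0 ≤ C ∧ ∀ a : M → ℂ, A.SmAt p a → CptIn A p a → nrm s (lp A i (fun x => m x * TU A p a x)) ≤ C * nrm s (lp A p a)  -- the bound of the Cauchy transform, chart level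
* theorem nrm_TU_form_le [T2Space M] (s : ℕ) (F : Part A) (hg : IsLC A g) {p : A.ι} {c : ℂ} {r : ℝ} (hp : Small A p c r) {Q : Set M} (hQ : IsCompact Q) (hQp : Q ⊆ (A.e p).source) {κ : Type} [Fintype κ] {m : A.ι → M → κ → ℂ} (hm : ∀ i k, A.SmAt i (fun x => m i x k)) {K : Set M} (hK : IsCompact K) (hKp : K ⊆ (A.e p).source) (hmK : ∀ i, ∀ x ∉ K, m i x = 0) : ∃ J J' : Finset A.ι, ∃ C …  -- the bound of the Cauchy transform for forms. `b` is a smooth `(0,1)`-form supported in the compact set `Q` of the chart `p`, `w = T_u (b_ū)`, `m` a fixed fa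

### R275/TorT_539 [ns Crest.Agent.R275.TorT539] # R275: convolution along a complex coordinate line on the torus scale (helper539) `conv a κ f (x) = ∫ κ t * f (x - dir a t)` for `κ : ℂ → ℂ` integrable, as a bounded operator of every order on `SPer (CI n)`: `nrm s (conv a κ f) ≤ (∫ ‖κ‖) * nrm s f`. With `κ = 1/(π t)` on `|t| < R` this is the one-variable Cauchy transform (967's `T`) for functions supported in a small box.
* theorem nrm_conv_le (s : ℕ) (a : Fin n) (κ : ℂ → ℂ) (f : SPer (CI n)) : nrm s (conv a κ f) ≤ (∫ t, ‖κ t‖) * nrm s f  -- the convolution is bounded on every Sobolev norm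
* theorem conv_apply (a : Fin n) {κ : ℂ → ℂ} (hκ : Integrable κ) (f : SPer (CI n)) (x : CI n → ℝ) : conv a κ f x = ∫ t, κ t * f (x - dir a t)  -- pointwise formula
* def TR (a : Fin n) (R : ℝ) : SPer (CI n) →ₗ[ℂ] SPer (CI n)  -- the truncated Cauchy transform on the torus
* theorem TR_eq_T (a : Fin 2) {R : ℝ} {f : SPer (CI 2)} {φ : Cn 2 → ℂ} {z : Cn 2} (h1 : ∀ t : ℂ, ‖t‖ < R → f (rc z - dir a t) = φ (z - EuclideanSpace.single a t)) (h2 : ∀ t : ℂ, R ≤ ‖t‖ → φ (z - EuclideanSpace.single a t) = 0) : TR a R f (rc z) = T a φ z  -- on a small box the torus operator is the Cauchy transform `T` of `Dol967`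

==================== R275 scales and Fredholm

### R275/ScaleA_685 [ns Crest.Agent.R275.Fred685] # R275, block A v2 (helper685): index theory on scales of smooth sections No completions, no Banach spaces.
* structure Scale (𝕜 V : Type*) [RCLike 𝕜] [AddCommGroup V] [Module 𝕜 V] where nrm : ℕ → Seminorm 𝕜 V mono : ∀ s v, nrm s v ≤ nrm (s + 1) v eq_zero : ∀ v, nrm 0 v = 0 → v = 0 complete : ∀ u : ℕ → V, (∀ s, ∀ ε > 0, ∃ N, ∀ m ≥ N, ∀ n ≥ N, nrm s (u m - u n) < ε) → ∃ v, ∀ s, ∀ ε > 0, ∃ N, ∀ n ≥ N, nrm s (u n - v) < ε  -- A scale: a vector space of "smooth" elements with an increasing sequence of norms, complete for all the norms together.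
* def SmFin (S : Scale 𝕜 V) (T : Scale 𝕜 W) (F : V →ₗ[𝕜] W) : Prop  -- Smoothing finite rank operators.
* def Neg (S : Scale 𝕜 V) (T : Scale 𝕜 W) (N : V →ₗ[𝕜] W) : Prop  -- Negligible operators: order `-1` and approximable by smoothing finite rank operators.
* theorem exists_nonneg_const {S : Scale 𝕜 V} {T : Scale 𝕜 W} {A : V →ₗ[𝕜] W} {s t : ℕ} (h : ∃ C : ℝ, ∀ v, T.nrm t (A v) ≤ C * S.nrm s v) : ∃ C : ℝ, 0 ≤ C ∧ ∀ v, T.nrm t (A v) ≤ C * S.nrm s v  -- one can take the constants nonnegative.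

### R275/ScaleB_685 [ns Crest.Agent.R275.Fred685] # R275, block A v2 (helper685): Riesz theorem on a scale `1 - N` has finite index `0` for negligible `N`.
* theorem nrm_pow_le {M : V →ₗ[𝕜] V} (hM : Opm S S M) (hM0 : ∀ v, S.nrm 0 (M v) ≤ (1 / 2) * S.nrm 0 v) (s : ℕ) : ∃ C : ℝ, 0 ≤ C ∧ ∀ k, s ≤ k → ∀ v, S.nrm s ((M ^ k) v) ≤ C * (1 / 2) ^ k * S.nrm 0 v  -- powers of an operator of order `-1` which is small for `nrm 0`.
* theorem exists_one_sub_eq {M : V →ₗ[𝕜] V} (hM : Opm S S M) (hM0 : ∀ v, S.nrm 0 (M v) ≤ (1 / 2) * S.nrm 0 v) (v : V) : ∃ w, w - M w = v  -- Neumann series: `1 - M` is surjective.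
* theorem exists_inverse {M : V →ₗ[𝕜] V} (hM : Opm S S M) (hM0 : ∀ v, S.nrm 0 (M v) ≤ (1 / 2) * S.nrm 0 v) : ∃ e : V ≃ₗ[𝕜] V, (∀ v, e v = v - M v) ∧ Op0 S S (e.symm : V →ₗ[𝕜] V)  -- `1 - M` is bijective with inverse of order zero, for `M` of order `-1` and small.
* theorem finIdx_one_sub_neg {N : V →ₗ[𝕜] V} (hN : Neg S S N) : FinIdx (LinearMap.id - N) ∧ idx (LinearMap.id - N) = 0  -- RIESZ THEOREM ON A SCALE.

### R275/ScaleC_685 [ns Crest.Agent.R275.Fred685] # R275, block A v2 (helper685): Fredholm operators on scales `Scale.sub` (closed submodules), `Scale.ran` (ranges of idempotents), `Scale.prod`, `Scale.pi`; `FredS` = Fredholm operators of order `0`; index calculus; `1 + Y` has index `0` when a power of `Y` is negligible.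
* theorem FredS.idx_add_neg {A N : V →ₗ[𝕜] W} (hA : FredS S T A) (hN : Neg S T N) : idx (A + N) = idx A  -- the index is invariant under negligible perturbations
* theorem FredS.of_two {A : V →ₗ[𝕜] W} {B B' : W →ₗ[𝕜] V} (hA : Op0 S T A) (hB : Op0 T S B) (hB' : Op0 T S B') (h1 : Neg S S (LinearMap.id - B ∘ₗ A)) (h2 : Neg T T (LinearMap.id - A ∘ₗ B')) : FredS S T A  -- left and right parametrices
* theorem FredS.corner {p : V →ₗ[𝕜] V} (hp0 : Op0 S S p) (hp : p ∘ₗ p = p) {q : W →ₗ[𝕜] W} (hq0 : Op0 T T q) (hq : q ∘ₗ q = q) {A : V →ₗ[𝕜] W} {B : W →ₗ[𝕜] V} (hA : Op0 S T A) (hB : Op0 T S B) (h1 : Neg S S (LinearMap.id - B ∘ₗ A)) (h2 : Neg T T (LinearMap.id - A ∘ₗ B)) (hqA : q ∘ₗ A = A ∘ₗ p) (hpB : p ∘ₗ B = B ∘ₗ q) : FredS (S.ran hp0 hp) (T.ran hq0 hq) (corner p q A)  -- corners of Fredholm operators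
* theorem fredS_one_add {Y : V →ₗ[𝕜] V} (hY : Op0 S S Y) {N : ℕ} (hN : Neg S S (Y ^ N)) : FredS S S (LinearMap.id + Y) ∧ idx (LinearMap.id + Y) = 0  -- `1 + Y` is Fredholm of index `0` if a power of `Y` is negligible.

### R275/ScaleD_685 [ns Crest.Agent.R275.Fred685] # R275, block A v2 (helper685): graded quasi-complexes on scales `Gr` : finite grading of a vector space by projections `π q`. `Deg` : homogeneous operators. `Gd S` : grading + grading involution `T` (default `(-1)^deg`) of order `0` on a scale. `QC` : quasi-complexes `d` with parametrix `K`; `QC.ind`.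
* structure Gr (𝕜 V : Type*) [Field 𝕜] [AddCommGroup V] [Module 𝕜 V] where m : ℕ π : ℕ → V →ₗ[𝕜] V idem : ∀ q v, π q (π q v) = π q v orth : ∀ q r v, q ≠ r → π q (π r v) = 0 top : ∀ q v, m < q → π q v = 0 sum : ∀ v, ∑ q ∈ Finset.range (m + 1), π q v = v  -- finite grading
* structure Gd (S : Scale 𝕜 V) extends Gr 𝕜 V where π_op : ∀ q, Op0 S S (π q) T : V →ₗ[𝕜] V T_op : Op0 S S T T_sq : ∀ v, T (T v) = v T_π : ∀ q v, T (π q v) = π q (T v)  -- grading with an involution, on a scale
* structure QC {S : Scale 𝕜 V} (G : Gd S) where d : V →ₗ[𝕜] V K : V →ₗ[𝕜] V d_op : Op0 S S d K_op : Op0 S S K d_deg : Deg G.toGr G.toGr 1 d K_deg : Deg G.toGr G.toGr (-1) K d_odd : OddT G G d K_odd : OddT G G K sq : Neg S S (d ∘ₗ d) htpy : Neg S S (LinearMap.id - d ∘ₗ K - K ∘ₗ d)  -- graded quasi-complexes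
* theorem QC.ind_congr (Q Q' : QC G) (h : Neg S S (Q'.d - Q.d)) : Q'.ind = Q.ind  -- T1: the index depends only on `d` modulo negligible operators.

### R275/ScaleE_511 [ns Crest.Agent.R275.ScaleE511] # R275, block A, T4 graded (helper511): index = Euler characteristic For a graded quasi-complex `Q : QC G` with `d ∘ d = 0` exactly, the cohomology groups `H^q = {π_q v = v, d v = 0} / d V` are finite dimensional and `Q.ind = ∑_q tr (T | H^q)`; for `T = (-1)^deg`: `Q.ind = ∑_q (-1)^q dim H^q`.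
* theorem QC.finite (Q : QC G) (h : Q.d ∘ₗ Q.d = 0) (q : ℕ) : FiniteDimensional 𝕜 (Hq G.toGr Q.d q)  -- T4, finiteness
* theorem QC.ind_eq_trace (Q : QC G) (h : Q.d ∘ₗ Q.d = 0) : (Q.ind : 𝕜) = ∑ q ∈ Finset.range (G.m + 1), trace 𝕜 (Hq G.toGr Q.d q) (Tq (QC.sc Q h) (QC.T_comm Q h) q)  -- T4, traces of the involution on the `H^q`
* theorem QC.ind_eq_euler (Q : QC G) (h : Q.d ∘ₗ Q.d = 0) (hT : G.T = G.toGr.sgn) : Q.ind = ∑ q ∈ Finset.range (G.m + 1), (-1) ^ q * (finrank 𝕜 (Hq G.toGr Q.d q) : ℤ)  -- T4, `T = (-1)^deg`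
* theorem QC.ind_eq_two (Q : QC G) (h : Q.d ∘ₗ Q.d = 0) (hT : G.T = G.toGr.sgn) (hm : G.m = 2) : Q.ind = (finrank 𝕜 (Hq G.toGr Q.d 0) : ℤ) - finrank 𝕜 (Hq G.toGr Q.d 1) + finrank 𝕜 (Hq G.toGr Q.d 2)  -- T4 for complexes of length `2`

### R275/ScaleF_685 [ns Crest.Agent.R275.Fred685] # R275, block A v2 (helper685): T2 (isomorphisms mod negligible), T3 (sums), T5 (cuts by idempotents), T6 (Bunke's lemma), sign change of the grading involution.
* structure IsoG (G : Gd S) (G' : Gd S') (Φ : V ≃ₗ[𝕜] W) : Prop where op : Op0 S S' (Φ : V →ₗ[𝕜] W) op_symm : Op0 S' S (Φ.symm : W →ₗ[𝕜] V) pi : ∀ q v, Φ (G.π q v) = G'.π q (Φ v) T : ∀ v, Φ (G.T v) = G'.T (Φ v)  -- isomorphisms of graded scales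
* structure Cut (G : Gd S) (p : V →ₗ[𝕜] V) : Prop where op : Op0 S S p idem : p ∘ₗ p = p pi : ∀ q v, p (G.π q v) = G.π q (p v) T : ∀ v, p (G.T v) = G.T (p v)  -- idempotents adapted to a quasi-complex
* def splitEquiv {p : V →ₗ[𝕜] V} (hp : p ∘ₗ p = p) : V ≃ₗ[𝕜] range p × range (LinearMap.id - p)  -- splitting of a space by an idempotent
* theorem QC.ind_cut (Q : QC G) {p : V →ₗ[𝕜] V} (h : Cut G p) (hd : Neg S S (Q.d ∘ₗ p - p ∘ₗ Q.d)) : Q.ind = (Q.cut h hd).ind + (Q.cut h.compl (Q.neg_compl hd)).ind  -- T5: additivity of the index under cuts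

### R275/FredA_685 [ns Crest.Agent.R275.Fred685] # R275, block A (helper685): algebraic index of linear maps `FinIdx T`: kernel and cokernel finite dimensional. `idx T = dim ker - dim coker`.
* def kerProdMapEquiv {V' W' : Type*} [AddCommGroup V'] [Module K V'] [AddCommGroup W'] [Module K W'] (T : V →ₗ[K] W) (T' : V' →ₗ[K] W') : ker (T.prodMap T') ≃ₗ[K] ker T × ker T'  -- the kernel of `T × T'`.
* def cokerProdMapEquiv {V' W' : Type*} [AddCommGroup V'] [Module K V'] [AddCommGroup W'] [Module K W'] (T : V →ₗ[K] W) (T' : V' →ₗ[K] W') : ((W × W') ⧸ range (T.prodMap T')) ≃ₗ[K] (W ⧸ range T) × (W' ⧸ range T')  -- the cokernel of `T × T'`.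
* theorem finIdx_prodMap {V' W' : Type*} [AddCommGroup V'] [Module K V'] [AddCommGroup W'] [Module K W'] {T : V →ₗ[K] W} {T' : V' →ₗ[K] W'} (h : FinIdx T) (h' : FinIdx T') : FinIdx (T.prodMap T')  -- Index of a direct sum.
* theorem idx_eq_neg_of_comp {S : W →ₗ[K] U} {T : V →ₗ[K] W} (hS : FinIdx S) (hT : FinIdx T) (h : idx (S ∘ₗ T) = 0) : idx T = - idx S  -- If `S T` and `T S'` have finite index, and `idx (S T) = 0` with `S` of finite index then `idx S = - idx T`.

### R275/FredB_685 [ns Crest.Agent.R275.Fred685] # R275, block A (helper685): index of compact perturbations of the identity, Fredholm operators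
* theorem bijective_of_injective_one_sub {K : X →L[𝕜] X} (hK : IsCompactOperator K) (hinj : Function.Injective (1 - K : X →L[𝕜] X)) : Function.Bijective (1 - K : X →L[𝕜] X)  -- An injective compact perturbation of the identity is bijective.
* theorem injective_of_surjective_one_sub {K : X →L[𝕜] X} (hK : IsCompactOperator K) (hsurj : Function.Surjective (1 - K : X →L[𝕜] X)) : Function.Injective (1 - K : X →L[𝕜] X)  -- A surjective compact perturbation of the identity is injective.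
* theorem isCompactOperator_comp_finiteDimensional {Y Z N : Type*} [NormedAddCommGroup Y] [NormedSpace 𝕜 Y] [NormedAddCommGroup Z] [NormedSpace 𝕜 Z] [NormedAddCommGroup N] [NormedSpace 𝕜 N] [FiniteDimensional 𝕜 N] (f : N →L[𝕜] Z) (P : Y →L[𝕜] N) : IsCompactOperator (f.comp P)  -- A map out of a finite dimensional space composed with a continuous map is compact.
* theorem finIdx_one_sub {K : X →L[𝕜] X} (hK : IsCompactOperator K) : FinIdx ((1 - K : X →L[𝕜] X) : X →ₗ[𝕜] X) ∧ idx ((1 - K : X →L[𝕜] X) : X →ₗ[𝕜] X) = 0  -- Riesz: a compact perturbation of the identity has finite index, equal to zero.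

### R275/FredC_685 [ns Crest.Agent.R275.Fred685] # R275, block A (helper685): Fredholm operators via parametrices, stability of the index
* theorem exists_equiv_one_sub {A : E →L[𝕜] E} (hA : ‖A‖ < 1) : ∃ e : E ≃L[𝕜] E, (e : E →L[𝕜] E) = 1 - A  -- `1 - A` is invertible for `‖A‖ < 1`, as a continuous linear equivalence.
* theorem fred_add_small {T : E →L[𝕜] F} {S : F →L[𝕜] E} (h1 : IsCompactOperator ((1 : E →L[𝕜] E) - S.comp T)) (h2 : IsCompactOperator ((1 : F →L[𝕜] F) - T.comp S)) {A : E →L[𝕜] F} (hA : ‖S‖ * ‖A‖ < 1) : Fred (T + A) ∧ ind (T + A) = ind T  -- Small perturbations.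
* theorem exists_nhds_fred {T : E →L[𝕜] F} (h : Fred T) : ∃ ε > 0, ∀ T' : E →L[𝕜] F, ‖T' - T‖ < ε → Fred T' ∧ ind T' = ind T  -- The index is locally constant: neighbourhood form.
* theorem ind_eq_of_path {T : ℝ → (E →L[𝕜] F)} (hc : ContinuousOn T (Set.Icc 0 1)) (hF : ∀ s ∈ Set.Icc (0 : ℝ) 1, Fred (T s)) : ind (T 0) = ind (T 1)  -- Homotopy invariance of the index.

### R275/FredD_685 [ns Crest.Agent.R275.Fred685 / QC3] # R275, block A (helper685): congruence modulo compacts; three-term quasi-complexes and their index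
* structure QC3 where d0 : H0 →L[𝕜] H1 d1 : H1 →L[𝕜] H2 k1 : H1 →L[𝕜] H0 k2 : H2 →L[𝕜] H1 hdd : Eqc (d1.comp d0) 0 h0 : Eqc (k1.comp d0) 1 h1 : Eqc (d0.comp k1 + k2.comp d1) 1 h2 : Eqc (d1.comp k2) 1  -- A three-term Fredholm quasi-complex with a chosen parametrix.
* def transport {H0' H1' H2' : Type*} [NormedAddCommGroup H0'] [NormedSpace 𝕜 H0'] [NormedAddCommGroup H1'] [NormedSpace 𝕜 H1'] [NormedAddCommGroup H2'] [NormedSpace 𝕜 H2'] (Q : QC3 𝕜 H0 H1 H2) (e0 : H0 ≃L[𝕜] H0') (e1 : H1 ≃L[𝕜] H1') (e2 : H2 ≃L[𝕜] H2') : QC3 𝕜 H0' H1' H2'  -- Transport of a quasi-complex along equivalences.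
* theorem index_eq_of_iso {H0' H1' H2' : Type*} [NormedAddCommGroup H0'] [NormedSpace 𝕜 H0'] [NormedAddCommGroup H1'] [NormedSpace 𝕜 H1'] [NormedAddCommGroup H2'] [NormedSpace 𝕜 H2'] [CompleteSpace H0'] [CompleteSpace H1'] [CompleteSpace H2'] {Q : QC3 𝕜 H0 H1 H2} {Q' : QC3 𝕜 H0' H1' H2'} (e0 : H0 ≃L[𝕜] H0') (e1 : H1 ≃L[𝕜] H1') (e2 : H2 ≃L[𝕜] H2') (h0 : Eqc ((e1 : H1 →L[𝕜] H1').co …  -- Quasi-complexes which are isomorphic modulo compact operators have the same index.
* theorem index_eq_of_path (Q : ℝ → QC3 𝕜 H0 H1 H2) (hc0 : ContinuousOn (fun s => (Q s).d0) (Set.Icc 0 1)) (hc2 : ContinuousOn (fun s => (Q s).k2) (Set.Icc 0 1)) : (Q 0).index = (Q 1).index  -- Homotopy invariance of the index of quasi-complexes.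

### R275/FredE_685 [ns Crest.Agent.R275.Fred685 / QC3] # R275, block A (helper685): index of an honest Fredholm complex = Euler characteristic
* abbrev Coh1 (Q : QC3 𝕜 H0 H1 H2) : Type _  -- `H^1 = ker d1 / im d0`.
* abbrev Coh2 (Q : QC3 𝕜 H0 H1 H2) : Type _  -- `H^2 = coker d1`.
* def d0Z (Q : QC3 𝕜 H0 H1 H2) (hd : Q.d1.comp Q.d0 = 0) : H0 →ₗ[𝕜] ker (Q.d1 : H1 →ₗ[𝕜] H2)  -- the differential `d0`, with values in `ker d1`.
* theorem index_eq_euler (Q : QC3 𝕜 H0 H1 H2) (hd : Q.d1.comp Q.d0 = 0) : Q.index = (finrank 𝕜 Q.Coh0 : ℤ) - finrank 𝕜 Q.Coh1 + finrank 𝕜 Q.Coh2  -- The index of a Fredholm complex is its Euler characteristic.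

### R275/MId_683 [ns Crest.Agent.R275.MI683] # R275, PART I' (helper683): order `-1` operators, Rellich scales, shifts and finite powers
* def pw (N : Type) [Fintype N] (S : Scale 𝕜 V) : Scale 𝕜 (N → V)  -- the scale on `N → V`
* def mop (X : M → N → (V →ₗ[𝕜] W)) : (N → V) →ₗ[𝕜] (M → W)  -- operators given by matrices of operators
* def dg (N : Type) [Fintype N] (X : V →ₗ[𝕜] W) : (N → V) →ₗ[𝕜] (N → W)  -- entrywise action
* def dgs (t : N → ℤˣ) (X : V →ₗ[𝕜] W) : (N → V) →ₗ[𝕜] (N → W)  -- entrywise action with signs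

### R275/AvgK_470 [ns Crest.Agent.R275.AvgK470] # R275, PART I' (helper470): Rellich at every level; averaging the parametrix; `GMod` data * `rell_sc`, `rell_scS` : `MI683.Rell` (all levels) for retracts with finitely many charts and for 666's scale `scS P B N` on `Sec B`. * `avg T K₀ = (K₀ - T K₀ T) / 2` : odd for `T`, still a parametrix, same commutators. * `GMod.ofK0` : a `GMod E` from a parametrix which is not odd. * `gmodL` : the geometric instance on `Sec B` (compact case), from `Op0 σ`, `Opm [f, K]`, `lin`.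
* theorem rell_sc (R : Ret d V) [Finite R.J] : Rell R.sc  -- Rellich at every level
* def _root_.Crest.Agent.R275.MI683.GMod.ofK0 (S : Scale ℂ V) (rell : Rell S) (K₀ : Module.End ℂ V) (d0 : Op0 S S E.d) (T0 : Op0 S S E.T) (K0 : Op0 S S K₀) (dK : Opm S S (1 - (E.d * K₀ + K₀ * E.d))) (Kc : ∀ f : A, Opm S S (MI683.sm f * K₀ - K₀ * MI683.sm f)) (lin : ∀ (Z : V →ₗ[A] V) (r : ℤ), (∀ q v, Z (E.pr q v) = E.pr (q + r) (Z v)) → ∀ s t : ℕ, (t : ℤ) = s + r → ∃ C : ℝ, ∀ v, S …  -- `GMod` from a parametrix which is not odd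
* def Hw (B : FBun A) (c : ℕ → ℂ) : FHom 0 B B  -- constants depending on the degree, as a bundle map
* def gmodL {B : FBun A} (P : Part A) (hB : ∀ u : Sec B, nabL B (nabL B u) = 0) (L : Lift B) {N : ℕ} (hN : ∀ k, B.deg k ≤ N) (hσ : Op0 (scS P B N) (scS P B N) L.σ) (hKc : ∀ f : smf A, Opm (scS P B N) (scS P B N) (MI683.sm f * (KML B P : Module.End ℂ (Sec B)) - (KML B P : Module.End ℂ (Sec B)) * MI683.sm f)) (hlin : ∀ (Z : Sec B →ₗ[smf A] Sec B) (r : ℤ), (∀ q v, Z (prZ B q v) = pr …  -- the geometric `GMod`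

==================== R275 sections, localisation, parametrix

### R275/GeoLE_509 [ns Crest.Agent.R275.Geo] # R275, PART I: localisation to the torus and extension from the torus (helper509) * `IsAmp A i a` : `a` is a matrix amplitude, smooth, with compact support inside the chart `i`. * `loc A i a v` : the vector of periodic functions `a · v` read in the chart `i` (`v : M → κ → ℂ` is typically `u i`). * `ext B j b f` : the family `x ↦ τ i j x (b x) f(z_j(x))` (a section of `B` when `b` is an amplitude). * `DT e f` : the flat operator `∑ e_a ∂̄_a` on vectors of periodic functions.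
* structure IsAmp (A : Atl n M) (i : A.ι) {κ κ' : Type} (a : M → Matrix κ κ' ℂ) : Prop where sm : ∀ k l, A.SmAt i (fun x => a x k l) cpt : IsCompact (tsupport a) sub : tsupport a ⊆ (A.e i).source  -- amplitude in the chart `i`
* def mT {κ κ' : Type} [Fintype κ'] (m : Matrix κ κ' ℂ) (f : κ' → SPer (RI n)) : κ → SPer (RI n)  -- constant matrix acting on a vector of periodic functions
* def DT {κ : Type} [Fintype κ] (e : Fin n → Matrix κ κ ℂ) (f : κ → SPer (RI n)) : κ → SPer (RI n)  -- the flat operator `∑ e_a ∂̄_a`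
* def cdb (B : FBun A) (i : A.ι) (f : M → ℝ) (x : M) : Matrix B.κ B.κ ℂ  -- `c(∂̄ f)` : Clifford multiplication by `∂̄ f` in the chart `i`

### R275/RetA_666 [ns Crest.Agent.R275.Ret666] # R275, block C (helper666): families of periodic functions with weighted `ℓ²` Sobolev norms `WS J` : weights `om j > 0` and shifts `sh j`. `TS W` : families `f : J → SPer d` with `(om j • emb (s + sh j) (f j))_j ∈ ℓ²` for every `s`. `nT s f` : the corresponding `ℓ²` norm. Completeness, Schur bound, finite rank projections, Rellich.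
* structure WS (J : Type) where om : J → ℝ pos : ∀ j, 0 < om j sh : J → ℕ  -- weights and shifts
* structure Nb (I J : Type) where N : I → Finset J N' : J → Finset I D : ℕ D' : ℕ card_le : ∀ i, (N i).card ≤ D card_le' : ∀ j, (N' j).card ≤ D' mem' : ∀ i j, j ∈ N i → i ∈ N' j  -- neighbourhood relation with bounded degrees
* theorem nT_projT_le (s t : ℕ) (F : Finset J) (S : Finset (d → ℤ)) : ∃ C, 0 ≤ C ∧ ∀ f : FT d W, nT s (projT W F S f) ≤ C * nT t f  -- finite rank projections are smoothing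
* theorem rellichT {ε : ℝ} (hε : 0 < ε) : ∃ S : Finset (d → ℤ), ∀ (F : Finset J) (s : ℕ) (f : FT d W), nT s (f - projT W F S f) ≤ nT s (cut W (↑F)ᶜ f) + ε * nT (s + 1) f  -- Rellich for families, up to the tail outside a finite set of indices

### R275/RetB_666 [ns Crest.Agent.R275.Ret666 / Ret] # R275, block C (helper666): retracts of the torus scale `scT W` : the scale (helper685) of families of periodic functions. `Ret d V` : `V` is a retract (`Loc`, `Ext`) of a torus family space with `Loc ∘ Ext` of order `0`; `R.sc` is the resulting scale on `V`.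
* structure Ret (d : Type) [Fintype d] (V : Type*) [AddCommGroup V] [Module ℂ V] where J : Type W : WS J Loc : V →ₗ[ℂ] FT d W Ext : FT d W →ₗ[ℂ] V left : ∀ v, Ext (Loc v) = v bdd : Op0 (scT W) (scT W) (Loc ∘ₗ Ext)  -- a retract of a torus family space
* theorem neg_of_tail (R : Ret d V) (R' : Ret d V') {N : V →ₗ[ℂ] V'} (hN : Opm R.sc R'.sc N) (ht : ∀ ε > 0, ∃ F : Finset R'.J, ∀ v, nT 0 (cut R'.W (↑F)ᶜ (R'.Loc (N v))) ≤ ε * R.sc.nrm 0 v) : Neg R.sc R'.sc N  -- order `-1` and small tails imply negligible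
* theorem neg_of_opm (R : Ret d V) (R' : Ret d V') [Finite R'.J] {N : V →ₗ[ℂ] V'} (hN : Opm R.sc R'.sc N) : Neg R.sc R'.sc N  -- if the target involves only finitely many charts, order `-1` implies negligible
* theorem rellich_fin (R : Ret d V) [Finite R.J] : ∀ ε > 0, ∃ F : V →ₗ[ℂ] V, SmFin R.sc R.sc F ∧ ∀ v, R.sc.nrm 0 (v - F v) ≤ ε * R.sc.nrm 1 v  -- Rellich: approximation of the identity by smoothing finite rank operators

### R275/RetC_666 [ns Crest.Agent.R275.RetC666 / FTp] # R275, block C (helper666): uniform bounds for `loc_i (a_i) ∘ ExtF (b)` on an arbitrary manifold * `FTp A a` : the family `a` has finitely many local types (automatic for finite atlases and for periodic families on a covering). * `PTy P B` : the pairs of neighbouring charts have finitely many types for the bundle `B`. * `ub` : uniform bound of the operators `loc_i (a_i) ∘ ext_j (b_j)`. * `loc_ExtF` : `loc_i (a_i, ExtF b f) = ∑_{j ∈ nb i} ∑_l Tkl (f j l)`. * `bound_LE` : the bound,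 with shifts.
* class PTy (P : Part A) (B : FBun A) : Prop where card : ∃ D, ∀ i, (nb P i).card ≤ D pairs : ∃ (T : Type) (_ : Finite T) (t : A.ι → A.ι → T), ∀ i j i' j', j ∈ nb P i → j' ∈ nb P i' → t i j = t i' j' → (A.e i).target = (A.e i').target ∧ (A.e j).target = (A.e j').target ∧ ∀ z ∈ (A.e i).target, ((A.e i).symm z ∈ (A.e j).source ↔ (A.e i').symm z ∈ (A.e j').source) ∧ ((A.e i).symm z  …  -- finitely many types of pairs of charts, for the bundle `B`
* theorem ub (hG : PTy P B) (ha : AmpF P a) (hb : AmpF P b) (ta : FTp A a) (tb : FTp A b) (s : ℕ) : ∃ C, 0 ≤ C ∧ ∀ i, ∀ j ∈ nb P i, ∀ k l f, nrm s (Tkl B (ha.amp i) (hb.amp j) k l f) ≤ C * nrm s f  -- uniform bound of `loc_i (a_i) ∘ ext_j (b_j)`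
* theorem loc_ExtF (ha : AmpF P a) (hb : AmpF P b) (f : A.ι → κ₂ → SPer (RI n)) (i : A.ι) (k : κ₁) : loc A i (a i) (ExtF B b f i) k = ∑ j ∈ nb P i, ∑ l, Tkl B (ha.amp i) (hb.amp j) k l (f j l)  -- `loc_i (a_i) ∘ ExtF (b)`
* theorem bound_LE (hG : PTy P B) (ha : AmpF P a) (hb : AmpF P b) (ta : FTp A a) (tb : FTp A b) {sh₁ : κ₁ → ℕ} {sh₂ : κ₂ → ℕ} {r : ℕ} (hd : ∀ i j x k l, (a i x * B.τ i j x * b j x) k l ≠ 0 → sh₁ k + r ≤ sh₂ l) (s : ℕ) : ∃ C, 0 ≤ C ∧ ∀ (f : A.ι → κ₂ → SPer (RI n)) (i : A.ι) (k : κ₁), nrm (s + r + sh₁ k) (loc A i (a i) (ExtF B b f i) k) ≤ C * ∑ p ∈ nb P i ×ˢ Finset.univ, nrm (s + s …  -- the bound with shifts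

### R275/RetD_666 [ns Crest.Agent.R275.RetC666 / SV] # R275, block C (helper666): section spaces with weighted Sobolev scales, general operators * `Wt P` : positive weights on the charts, comparable on neighbours. * `AF P κ κ'` : amplitude families (subordinate to the partition, finitely many types). * `SV w B V` : `V` is the space of smooth sections of `B` with finite weighted norms. `SV.full` (finite atlas, `V = Sec B`), `SV.wt` (`V = SecW w B`). * `SV.ret N` : the retract structure, `SV.sc N` its scale: `(X.sc N).nrm s v = nT s (w_i, loc_i (ψ_i, v)_k ∈ H^{s + N - deg k})`. * `OpR r` : operators of order `-r` (`OpR 0 = Op0`, `OpR 1 = Opm`). * 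
* structure AF (P : Part A) (κ κ' : Type) where f : A.ι → M → Matrix κ κ' ℂ amp : AmpF P f ftp : FTp A f  -- good amplitude families
* structure SV (w : Wt P) (B : FBun A) (V : Type*) [AddCommGroup V] [Module ℂ V] where inc : V →ₗ[ℂ] Sec B inj : Function.Injective inc mem_iff : ∀ u : Sec B, (∃ v, inc v = u) ↔ LocV P u ∈ TS (ws w fun _ => 0)  -- `V` is the space of smooth sections of `B` all of whose weighted norms are finite
* def ret (N : ℕ) : Ret (RI n) V  -- the retract structure of the section space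
* def sc (N : ℕ) : Scale ℂ V  -- the scale of the section space

### R275/RetE_666 [ns Crest.Agent.R275.RetC666 / SV] # R275, block C (helper666): `∇`, the parametrix `K` and the remainder `R` on section spaces For `X : SV w B V` (finite atlas: `SV.full`; weighted sections: `SV.wt`): * `X.nab`, `X.K`, `X.R : V →ₗ V`, `inc_nab`, `inc_K`, `inc_R`, `nab_K`; * `op0_nab`, `op0_K`, `opm_R` for the scales `X.sc N`, `N ≥ deg`.
* theorem op0_nab {N : ℕ} (hN : ∀ k, B.deg k ≤ N) : Op0 (X.sc N) (X.sc N) X.nab  -- `∇` has order `0` for the shifted norms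
* theorem op0_K (N : ℕ) : Op0 (X.sc N) (X.sc N) X.K  -- `K` has order `0` for the shifted norms (it gains one derivative and lowers the degree)
* def RN (N : ℕ) : V →ₗ[ℂ] V  -- `R` written with the shift `N`
* theorem opm_R {N : ℕ} (hN : ∀ k, B.deg k ≤ N) : Opm (X.sc N) (X.sc N) X.R  -- `R` has order `-1`

### R275/RetF_666 [ns Crest.Agent.R275.RetC666 / SV] # R275, block C (helper666): multiplications (FHom of helper556), change of weights, `∇²` * `chw` : change of weights on the indices of a set `S` where `w' ≤ C w`. * `WLe w w' H` : `w' ≤ C w` on the charts where `χ_i H_i ≠ 0`. * `SV.act X X' H` : `V →ₗ V'` induced by a bundle map `H : FHom r B B'`, order `-r`. * `SV.pq q` : degree projections, order `0`. * `SV.opm_nab_sq` : `∇ ∇` has order `-1`. * `SV.nrm_loc_le` : `w_i ‖loc_i (a_i, u_i)_k‖ ≤ C ‖u‖` for every amplitude family.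
* theorem opR_act {r : ℕ} (H : FHom r B B') (hH : FTp A H.h) (hw : WLe w w' H) {N : ℕ} (hN : ∀ k, B'.deg k ≤ N) : OpR r (X.sc N) (X'.sc N) (X.act X' H hH hw)  -- a bundle map raising the degree by `r` has order `-r` for the shifted norms
* theorem opm_nab_sq {N : ℕ} (hN : ∀ k, B.deg k ≤ N) : Opm (X.sc N) (X.sc N) (X.nab ∘ₗ X.nab)  -- `∇ ∇` has order `-1`
* theorem nrm_loc_le {N : ℕ} {κ₁ : Type} [Fintype κ₁] (a : AF P κ₁ B.κ) (sh₁ : κ₁ → ℕ) (hd : ∀ i x k l, a.f i x k l ≠ 0 → sh₁ k ≤ N - B.deg l) (s : ℕ) : ∃ C : ℝ, ∀ (v : V) (i : A.ι) (k : κ₁), w.w i * nrm (s + sh₁ k) (loc A i (a.f i) ((X.inc v).1 i) k) ≤ C * (X.sc N).nrm s v  -- comparison of the localisations with the norms of the scale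
* theorem nrm_loc_le' {κ₁ : Type} [Fintype κ₁] (a : AF P κ₁ B.κ) (N s : ℕ) : ∃ C : ℝ, ∀ (v : V) (i : A.ι) (k : κ₁), w.w i * nrm s (loc A i (a.f i) ((X.inc v).1 i) k) ≤ C * (X.sc N).nrm s v  -- comparison without shifts

### R275/RetG_666 [ns Crest.Agent.R275.RetC666] # R275, block C (helper666): the compact case (finite atlas), literally on `Sec B` `scS P B N : Scale ℂ (Sec B)`; for `N ≥ deg`: * `op0_nabL`, `op0_KML`, `neg_RML`, `neg_nabL_sq`, `op0_actL`, `neg_actL` (`1 ≤ r`), `op0_pqL`, `op0_fmul`; * `rellichS` : `∀ ε > 0, ∃ F, SmFin F ∧ ∀ u, ‖u - F u‖₀ ≤ ε ‖u‖₁`; `neg_of_opmS`; * `nrm_loc_any`, `nrm_ext_any` : comparison with the localisations / extensions for ANY amplitude in one chart; `op0_id_part` : independence of the partition.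
* theorem rellichS (N : ℕ) : ∀ ε > 0, ∃ F : Sec B →ₗ[ℂ] Sec B, SmFin (scS P B N) (scS P B N) F ∧ ∀ u, (scS P B N).nrm 0 (u - F u) ≤ ε * (scS P B N).nrm 1 u  -- Rellich
* theorem nrm_loc_any {i : A.ι} {a : M → Matrix κ₁ B.κ ℂ} (ha : IsAmp A i a) (N r : ℕ) (sh₁ : κ₁ → ℕ) (hd : ∀ x k l, a x k l ≠ 0 → sh₁ k + r ≤ N - B.deg l) (s : ℕ) : ∃ C, 0 ≤ C ∧ ∀ (u : Sec B) (k : κ₁), nrm (s + r + sh₁ k) (loc A i a (u.1 i) k) ≤ C * (scS P B N).nrm s u  -- comparison with the localisation with an arbitrary amplitude in one chart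
* theorem nrm_ext_any {j : A.ι} {b : M → Matrix B.κ κ₂ ℂ} (hb : IsAmp A j b) (N r : ℕ) (sh₂ : κ₂ → ℕ) (hd : ∀ x k l, b x k l ≠ 0 → (N - B.deg k) + r ≤ sh₂ l) (s : ℕ) : ∃ C, 0 ≤ C ∧ ∀ f : κ₂ → SPer (RI n), (scS P B N).nrm (s + r) (extS B j hb f) ≤ C * ∑ l, nrm (s + sh₂ l) (f l)  -- comparison with the extension with an arbitrary amplitude in one chart
* theorem op0_id_part (P' : Part A) (N : ℕ) : Op0 (scS P B N) (scS P' B N) (LinearMap.id : Sec B →ₗ[ℂ] Sec B)  -- independence of the partition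

### R275/RetH_666 [ns Crest.Agent.R275.RetC666 / SV] # R275, block C (helper666): commutators of the parametrix with bundle maps For `H : FHom 0 B B'` commuting with the contractions (`IoC H`): * `comm_KM` : `K' (H u) = H (K u) + ExtF χ' (C_p loc u) - ExtF (χ' H) (C_q loc u)`; * `SV.opm_comm` : `K' H - H K` has order `-1` (different weights allowed); * `opm_commS`, `neg_commS` : the compact case on `Sec B`; `neg_comm_fmulS`.
* theorem comm_KM (P : Part A) (H : FHom 0 B B') {u : A.ι → M → B.κ → ℂ} (hu : u ∈ Sec B) : KM B' P (H.act u) = H.act (KM B P u) + ExtF B' (P.chi B'.κ) (fun j => Cp P H j (LocF B (P.psi B.κ) u j)) - ExtF B' (fun j x => P.chi B'.κ j x * H.h j x) (fun j => Cq P B j (LocF B (P.psi B.κ) u j))  -- commutator formula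
* theorem opm_comm {H : FHom 0 B B'} (hH : FTp A H.h) (hw : WLe w w' H) (hio : IoC H) (N : ℕ) : Opm (X.sc N) (X'.sc N) (X'.K ∘ₗ X.act X' H hH hw - X.act X' H hH hw ∘ₗ X.K)  -- the commutator with a bundle map has order `-1`
* def fmS (B : FBun A) {f : M → ℂ} (hf : A.Sm f) : Sec B →ₗ[ℂ] Sec B  -- multiplication by a smooth function
* theorem neg_comm_fmulS (P : Part A) (B : FBun A) {f : M → ℂ} (hf : A.Sm f) (N : ℕ) : Neg (scS P B N) (scS P B N) (KML B P ∘ₗ fmS B hf - fmS B hf ∘ₗ KML B P)  -- `[K, f]` is negligible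

### R275/RetI_666 [ns Crest.Agent.R275.RetC666] # R275, block C (helper666): zero order operators of arbitrary integer degree (compact case) `nrm_mat_le` : `T u = h u` (smooth matrices), `t + (N - deg' k) ≤ s + (N - deg l)` on the non zero entries ⟹ `‖T u‖_t ≤ C ‖u‖_s`; `nrm_mat_le_int` : homogeneous of degree `r : ℤ`, `t = s + r`.
* theorem nrm_mat_le {h : A.ι → M → Matrix B'.κ B.κ ℂ} (hs : ∀ i k l, A.SmAt i (fun x => h i x k l)) {T : Sec B →ₗ[ℂ] Sec B'} (hT : ∀ (u : Sec B) i, ∀ x ∈ (A.e i).source, (T u).1 i x = h i x *ᵥ u.1 i x) {N s t : ℕ} (hd : ∀ i, ∀ x ∈ (A.e i).source, ∀ k l, h i x k l ≠ 0 → t + (N - B'.deg k) ≤ s + (N - B.deg l)) : ∃ C, 0 ≤ C ∧ ∀ u : Sec B, (scS P B' N).nrm t (T u) ≤ C * (scS P B N). …  -- zero order operators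
* theorem nrm_mat_le_int {h : A.ι → M → Matrix B'.κ B.κ ℂ} (hs : ∀ i k l, A.SmAt i (fun x => h i x k l)) {T : Sec B →ₗ[ℂ] Sec B'} (hT : ∀ (u : Sec B) i, ∀ x ∈ (A.e i).source, (T u).1 i x = h i x *ᵥ u.1 i x) {r : ℤ} (hr : ∀ i, ∀ x ∈ (A.e i).source, ∀ k l, h i x k l ≠ 0 → (B'.deg k : ℤ) = B.deg l + r) {N : ℕ} (hN : ∀ k, B.deg k ≤ N) (hN' : ∀ k, B'.deg k ≤ N) {s t : ℕ} (hst : (t : ℤ …  -- zero order operators homogeneous of degree `r : ℤ`

### R275/C10_195 [ns Crest.Agent.R275.C10195] # R275, leaf C10 (helper195), file 1: uniform constants Any atlas `A`, any partition `P : Part A`. * `nbr P i` : the charts whose cut-offs meet the cut-off of `i`; `BN P` : bounded number of neighbours. * `loc_ExtF` : `loc_i (a) ∘ Ext (b)` in terms of the blocks. * `UBw P B hA hB w` : the blocks are bounded by `C_s w i j`, uniformly; `UB` : `w = 1`. * `BG P` : uniform bounds for the scalar changes of charts (no bundle). * `UBw.of_cn` : `BG P` and `C^s` bounds of the amplitudes give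 `UBw`.
* theorem UBw.of_cn {a : A.ι → M → Matrix κ B.κ ℂ} {b : A.ι → M → Matrix B.κ κ' ℂ} {hA : AmpF P a} {hB : AmpF P b} {w : A.ι → A.ι → ℝ} (hG : BG P) (h : CB B hA hB w) : UBw B hA hB w  -- uniform bounds of the blocks from `C^s` bounds of the amplitudes
* def Kij (i j : A.ι) : Set (RI n → ℝ)  -- the common support of the cut-offs, in the chart `i`
* theorem exists_cutoff {K U : Set (RI n → ℝ)} (hK : IsCompact K) (hU : IsOpen U) (hKU : K ⊆ U) : ∃ θ : (RI n → ℝ) → ℂ, IsCC U θ ∧ ∀ x ∈ K, θ x = 1  -- smooth cut-off in the cube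
* theorem pair_bound (s : ℕ) (i j : A.ι) : ∃ C : ℝ, 0 ≤ C ∧ ∀ (a : (RI n → ℝ) → ℂ) (ha : IsCC (Uij A i j) a), (∀ x ∈ Uij A i j, a x ≠ 0 → (A.e i).symm (cc x) ∈ tsupport (P.χ i) ∩ tsupport (P.χ j)) → ∀ f : SPer (RI n), nrm s ((chg A i j).Tc (a := a) ha f) ≤ C * cn s (perz a (ha.mono (Uij_sub i j))) * nrm s f  -- the bound for one pair of charts

### R275/C10b_195 [ns Crest.Agent.R275.C10195 / Auto] # R275, leaf C10 (helper195), file 2: homogeneous atlases * `Auto A` : automorphisms of the atlas (`p : M ≃ₜ M`, `r : A.ι ≃ A.ι`). * `Homog P G` : `P` is invariant under `G`, finitely many orbits of (active) charts. * `Homog.bn`, `Homog.bg`, `CB.of_homog`, `UBw.of_homog` : uniform constants.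
* structure Homog (P : Part A) (G : Set (Auto A)) : Prop where inv : ∀ φ ∈ G, InvP P φ orb : ∃ F : Finset A.ι, ∀ i, (tsupport (P.χ i)).Nonempty → ∃ φ ∈ G, φ.r i ∈ F  -- the active charts form finitely many orbits under `G`, and `P` is invariant
* theorem Homog.bg {G : Set (Auto A)} (h : Homog P G) : BG P  -- uniform scalar bounds for homogeneous atlases
* theorem CB.of_homog {G : Set (Auto A)} (h : Homog P G) (hτ : ∀ φ ∈ G, InvB B φ) {a : A.ι → M → Matrix κ B.κ ℂ} {b : A.ι → M → Matrix B.κ κ' ℂ} (hA : AmpF P a) (hB : AmpF P b) (ha : ∀ φ ∈ G, InvF a φ) (hb : ∀ φ ∈ G, InvF b φ) : CB B hA hB fun _ _ => 1  -- `C^s` bounds of the amplitudes of invariant data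
* theorem UB.of_homog {G : Set (Auto A)} (h : Homog P G) (hτ : ∀ φ ∈ G, InvB B φ) {a : A.ι → M → Matrix κ B.κ ℂ} {b : A.ι → M → Matrix B.κ κ' ℂ} (hA : AmpF P a) (hB : AmpF P b) (ha : ∀ φ ∈ G, InvF a φ) (hb : ∀ φ ∈ G, InvF b φ) : UB B hA hB  -- uniform bounds of the blocks of invariant data

### R275/C10c_195 [ns Crest.Agent.R275.C10195 / Auto] # R275, leaf C10 (helper195), file 3: instances of homogeneous atlases * `Auto.zpow`, powers of an automorphism and invariance under powers; * `deckA C m : Auto C.lift` for `C : KCov A Z K`, `invP_liftP`, `invB_up`, `InvF.of_ainv`, `homog_lift`; * `perA` : the generator of the deck group of a periodic `NAtl`, `homog_per`.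
* def decks : Set (Auto C.lift)  -- all deck transformations
* theorem homog_lift (hf : {i | (tsupport (P.χ i)).Nonempty}.Finite) : Homog (liftP C P) (decks C)  -- the lifted partition is homogeneous
* theorem UB.lift (hh : Homog (liftP C P) (decks C)) (B : FBun A) {κ κ' : Type} [Fintype κ] [Fintype κ'] {a : C.lift.ι → Z → Matrix κ B.κ ℂ} {b : C.lift.ι → Z → Matrix B.κ κ' ℂ} (hA : AmpF (liftP C P) a) (hB : AmpF (liftP C P) b) (ha : AInv C a) (hb : AInv C b) : UB (up C B) hA hB  -- uniform bounds of the blocks of invariant amplitudes on the cover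
* def perA (p : N.Per g h) {ρ : ℝ} (hρ : N.r ≤ ρ) : Auto (N.at' ρ hρ)  -- the generator of the deck group

### R275/C10d_195 [ns Crest.Agent.R275.C10195] # R275, leaf C10 (helper195), file 4: uniform bounds of derivatives on homogeneous atlases * `Homog.bound` : an invariant family of smooth functions on the overlaps has uniformly bounded derivatives on the intersections of the cores `tsupport (P.χ i)`; * `Homog.tb : TB P`, `JO.of_homog`, `JC.of_homog` (812's classes).
* theorem Homog.bound {G : Set (Auto A)} (h : Homog P G) {Φ : A.ι → A.ι → Cn n → W} (hs : ∀ i j, ContDiffOn ℝ ∞ (Φ i j) (A.ov i j)) (hinv : ∀ φ ∈ G, ∀ i j, ∀ z ∈ A.ov i j, Φ (φ.r i) (φ.r j) z = Φ i j z) (k : ℕ) : ∃ C : ℝ, 0 ≤ C ∧ ∀ i j, ∀ x ∈ tsupport (P.χ i) ∩ tsupport (P.χ j), ‖iteratedFDeriv ℝ k (Φ i j) (A.e i x)‖ ≤ C  -- uniform bounds of the derivatives of invariant families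
* theorem Homog.tb {G : Set (Auto A)} (h : Homog P G) : TB P  -- 812's `TB` : the transition maps are bounded on the cores
* theorem JO.of_homog {G : Set (Auto A)} (h : Homog P G) {f : A.ι → A.ι → M → W} (hs : ∀ i j, ContDiffOn ℝ ∞ (fun z => f i j ((A.e i).symm z)) (A.ov i j)) (hinv : ∀ φ ∈ G, ∀ i j, ∀ x ∈ (A.e i).source ∩ (A.e j).source, f (φ.r i) (φ.r j) (φ.p x) = f i j x) : JO P (fun _ _ => 1) f  -- 812's `JO` with weight `1` for invariant families on the overlaps
* theorem JC.of_homog {G : Set (Auto A)} (h : Homog P G) {f : A.ι → M → W} (hs : ∀ i, A.SmAt i (f i)) (hinv : ∀ φ ∈ G, InvF f φ) : JC P (fun _ => 1) f  -- 812's `JC` with weight `1` for invariant families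

### R275/C10e_195 [ns Crest.Agent.R275.C10195] # R275, C10e (helper195): bounded geometry `BGeo` of `WYb_681` from homogeneity. * `card_nb` : the bound of the number of neighbours in the form of `RetC_666` / `WYb_681` * `BGeo.of_homog` : `BGeo P B` for a homogeneous partition and invariant `B` * `BGeo.of_compact` : compact `M` * `BGeo.lift` : `up C B` over `liftP C P` * `BGeo.per` : periodic nested atlases
* theorem BGeo.of_homog {G : Set (Auto A)} (h : Homog P G) (hτ : ∀ φ ∈ G, InvB B φ) (hB : ∀ k, B.deg k ≤ n) : WY681.BGeo P B  -- bounded geometry of homogeneous partitions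
* theorem BGeo.of_compact [CompactSpace M] (hB : ∀ k, B.deg k ≤ n) : WY681.BGeo P B  -- bounded geometry of compact manifolds
* theorem BGeo.lift (hh : Homog (liftP C P) (decks C)) {B : FBun A} (hB : ∀ k, B.deg k ≤ n) : WY681.BGeo (liftP C P) (up C B)  -- bounded geometry of the lift to the cover
* theorem BGeo.per (p : N.Per g h) {ρ : ℝ} (hρ : N.r ≤ ρ) {Q : Part (N.at' ρ hρ)} (hQ : InvP Q (perA p hρ)) {B : FBun (N.at' ρ hρ)} (hτ : InvB B (perA p hρ)) (hB : ∀ k, B.deg k ≤ n) : WY681.BGeo Q B  -- bounded geometry of periodic nested atlases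

### R275/C1a_509 [ns Crest.Agent.R275.Geo] # R275, block C1 (helper509): `∂̄` under change of charts, `nab` on sections, Leibniz rule
* theorem nab_tr {u : A.ι → M → B.κ → ℂ} (hu : u ∈ Sec B) {i j : A.ι} {x : M} (hx : x ∈ (A.e i).source ∩ (A.e j).source) : nab B u i x = (B.τ i j x) *ᵥ (nab B u j x)  -- covariance of `∇`
* def nabL : Sec B →ₗ[ℂ] Sec B  -- `∇` as a linear map on smooth sections
* def cdC (i : A.ι) (f : M → ℂ) (x : M) : Matrix B.κ B.κ ℂ  -- Clifford multiplication by `∂̄ f` for complex valued `f`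
* def fmul {κ : Type} (f : M → ℂ) (u : A.ι → M → κ → ℂ) : A.ι → M → κ → ℂ  -- multiplication of a family by a function

### R275/C1c_193 [ns Crest.Agent.R275.C1c193 / CptIn] # R275, block C1c (helper193): reading functions in a chart as periodic functions * `rcE : Cn n ≃L[ℝ] (RI n → ℝ)` : real coordinates as a continuous linear equivalence. * `rdU A i` : the target of the chart `i` in real coordinates (open subset of the unit cube). * `CptIn A i F` : `F` vanishes on the chart domain off a compact subset of it. * `isCC_rd` : a smooth `F` with `CptIn` gives `IsCC (rdU A i) (rd A i F)`. * `pf A i F h` : the periodic function, `pf_rc` its values, `dbT_pf`, `pd_pf`. * `loc_eq`, `loc_rc`, `loc_off`, `loc_add`, `loc_smul`, `loc_amp_add`, `loc_amp_mul`, `mT_loc`, `mul_loc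
* theorem isCC_rd {i : A.ι} {F : M → ℂ} (hF : A.SmAt i F) (hc : CptIn A i F) : IsCC (rdU A i) (rd A i F)  -- C1c : reading a smooth function with compact support in the chart
* def locL (B : FBun A) (i : A.ι) (a : M → Matrix κ B.κ ℂ) (ha : IsAmp A i a) : Sec B →ₗ[ℂ] (κ → SPer (RI n))  -- the localisation operator on sections, as a linear map
* theorem mT_comm (T : SPer (RI n) →ₗ[ℂ] SPer (RI n)) (m : Matrix κ κ' ℂ) (f : κ' → SPer (RI n)) : mT m (fun l => T (f l)) = fun k => T (mT m f k)  -- constant matrices commute with a linear operator applied entrywise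
* theorem DT_loc {i : A.ι} {κ κ' : Type} [Fintype κ] [Fintype κ'] {a : M → Matrix κ κ' ℂ} (e : Fin n → Matrix κ κ ℂ) (ha : IsAmp A i a) {v : M → κ' → ℂ} (hv : ∀ l, A.SmAt i (fun x => v x l)) : DT e (loc A i a v) = loc A i (fun x => ∑ b, e b * dbA' A i b a x) v + ∑ b, loc A i (fun x => e b * a x) (A.db i b v)  -- the symbol identity for localisations: `D (loc a v) = loc (∑ e_b ∂̄_b a) v + ∑ loc (e_b a) ∂̄_b v`

### R275/C1d_194 [ns Crest.Agent.R275.C1d194] # R275, PART I, leaf C1d (helper194): extension from the torus * `trans_contDiffOn` : the chart transitions are real smooth. * `SmAt.on_ov` : a function smooth in the chart `j` is smooth on the overlap, read in chart `i`. * `contDiff_rc`, `continuous_rc`, `cc`. * `ext_mem_Sec`, `ext_mem_SecC` : `ext B j b f` is a (compactly supported) section if `b` is an amplitude; `extL` linear map; support, degree. * calculus of amplitudes (`IsAmp`). * `rd_isCC`, `loc_apply`, `loc_ext` : `loc_j (a, ext_j (b, f)) = (a b)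 f`.
* def ampT {c : M → Matrix κ κ' ℂ} (hc : IsAmp A i c) : Matrix κ κ' (SPer (RI n))  -- the amplitude as a matrix of periodic functions
* theorem loc_ext (B : FBun A) [Fintype κ''] {a : M → Matrix κ B.κ ℂ} (ha : IsAmp A i a) {b : M → Matrix B.κ κ'' ℂ} (hb : IsAmp A i b) (f : κ'' → SPer (RI n)) : loc A i a (ext B i b f i) = ampT (isAmp_mul_right ha (c := b) hb.sm) *ᵥ f  -- `loc_i (a) ∘ ext_i (b) = a b` on the torus
* theorem ext_loc (B : FBun A) {j : A.ι} {a : M → Matrix κ' B.κ ℂ} (ha : IsAmp A j a) (b : M → Matrix B.κ κ' ℂ) {u : A.ι → M → B.κ → ℂ} (hu : u ∈ Sec B) {i : A.ι} {x : M} (hi : x ∈ (A.e i).source) (hj : x ∈ (A.e j).source) : ext B j b (loc A j a (u j)) i x = B.τ i j x *ᵥ (b x *ᵥ (a x *ᵥ u j x))  -- `ext_j (b) ∘ loc_j (a)` is multiplication by `b a` transported by the transition matrices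
* theorem ext_loc_scalar (B : FBun A) {j : A.ι} {a : M → Matrix κ' B.κ ℂ} (ha : IsAmp A j a) {b : M → Matrix B.κ κ' ℂ} {ψ : M → ℂ} (h : ∀ x, b x * a x = ψ x • (1 : Matrix B.κ B.κ ℂ)) {u : A.ι → M → B.κ → ℂ} (hu : u ∈ Sec B) (hψ : ∀ x ∉ (A.e j).source, ψ x = 0) : ext B j b (loc A j a (u j)) = fun i x => ψ x • u i x  -- `ext_j (b) ∘ loc_j (a) = ψ` when `b a = ψ` is scalar

### R275/C1e_509 [ns Crest.Agent.R275.Geo] # R275, block C1e (helper509): reading a function in a chart as a periodic function, # `loc`, `DT`, the torus homotopy `KT`, and `loc (∇ u) = DT (loc u) - ...`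
* structure IsCF (A : Atl n M) (i : A.ι) (f : M → ℂ) : Prop where sm : A.SmAt i f supp : ∃ K : Set M, IsCompact K ∧ K ⊆ (A.e i).source ∧ ∀ x ∈ (A.e i).source, x ∉ K → f x = 0  -- `f` is smooth in the chart `i` and vanishes in the chart off a compact part of it
* theorem dbar_pz {i : A.ι} {f : M → ℂ} (h : IsCF A i f) (a : Fin n) : dbar a (pz h) = pz (h.db a)  -- `∂̄` commutes with reading in a chart
* theorem DT_KT [DecidableEq κ] {e io : Fin n → Matrix κ κ ℂ} (ei : ∀ a b, e a * io b + io b * e a = if a = b then 1 else 0) (f : κ → SPer (RI n)) : DT e (KT io f) + KT io (DT e f) = f - GT f  -- the homotopy identity on the torus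
* theorem dbar_loc {i : A.ι} {κ κ' : Type} [Fintype κ'] {a : M → Matrix κ κ' ℂ} (ha : IsAmp A i a) {v : M → κ' → ℂ} (hv : ∀ l, A.SmAt i (fun x => v x l)) (b : Fin n) (k : κ) : dbar b (loc A i a v k) = pz ((ha.cf hv k).db b)  -- `∂̄_b` of a localisation

### R275/C1f_509 [ns Crest.Agent.R275.Geo / Part] # R275, block C1e (helper509), part 2: commutation of `∇` with `loc` and `ext`, # locally finite extension `ExtF`, the global parametrix `KM` and the identity # `∇ K + K ∇ = 1 - R`.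
* structure AmpF (P : Part A) {κ κ' : Type} (b : A.ι → M → Matrix κ κ' ℂ) : Prop where amp : ∀ j, IsAmp A j (b j) sub : ∀ j, tsupport (b j) ⊆ tsupport (P.χ j)  -- family of amplitudes subordinate to the partition
* def KM (P : Part A) (u : A.ι → M → B.κ → ℂ) : A.ι → M → B.κ → ℂ  -- the global parametrix
* def RM (P : Part A) (u : A.ι → M → B.κ → ℂ) : A.ι → M → B.κ → ℂ  -- the remainder
* theorem nab_KM (P : Part A) {u : A.ι → M → B.κ → ℂ} (hu : u ∈ Sec B) : nab B (KM B P u) + KM B P (nab B u) = u - RM B P u  -- the homotopy identity on `M`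

### R275/C1g_509 [ns Crest.Agent.R275.Geo] # R275, block C (helper509): parametrix for a general pair of amplitude families, linear versions, # degree projections, commutators with smooth functions
* theorem nab_KG (hb : AmpF P b) (ha : AmpF P a) (hbc : ∀ j c x, B.e c * b j x = b j x * B.e c) (hac : ∀ j c x, B.e c * a j x = a j x * B.e c) (h1 : ∀ u ∈ Sec B, ExtF B b (LocF B a u) = u) {u : A.ι → M → B.κ → ℂ} (hu : u ∈ Sec B) : nab B (KG B b a u) + KG B b a (nab B u) = u - RG B b a u  -- the homotopy identity for a general pair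
* theorem loc_fmul {j : A.ι} {c : M → Matrix B.κ B.κ ℂ} (hc : IsAmp A j c) {f : M → ℂ} (hf : A.SmAt j f) {F : SPer (RI n)} (hF : ∀ x ∈ tsupport c, F (rc (A.e j x)) = f x) {u : M → B.κ → ℂ} (hu : ∀ l, A.SmAt j (fun x => u x l)) : loc A j c (fun x => f x • u x) = sT F (loc A j c u)  -- multiplication by a function and localisation
* theorem exists_perF (P : Part A) {f : M → ℂ} (hf : A.Sm f) : ∃ F : A.ι → SPer (RI n), ∀ j, ∀ x ∈ tsupport (P.χ j), F j (rc (A.e j x)) = f x  -- existence of periodic functions representing a smooth function near the supports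
* theorem KG_fmul (hb : AmpF P b) (ha : AmpF P a) {f : M → ℂ} (hf : A.Sm f) {F : A.ι → SPer (RI n)} (hF : ∀ j, ∀ x ∈ tsupport (P.χ j), F j (rc (A.e j x)) = f x) {u : A.ι → M → B.κ → ℂ} (hu : u ∈ Sec B) : KG B b a (fmul f u) = fmul f (KG B b a u) + ExtF B b (fun j => CK B.io (F j) (LocF B a u j))  -- commutator of the parametrix with a smooth function

### R275/C1h_509 [ns Crest.Agent.R275.Geo] # R275, block C (helper509): `∇ ∘ ext` for arbitrary amplitudes, `DT ∘ DT = 0`, # and `∇ ∘ ∇` as an operator of order one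
* theorem nab_ExtF_gen {P : Part A} {κ' : Type} [Fintype κ'] {b : A.ι → M → Matrix B.κ κ' ℂ} (hb : AmpF P b) (f : A.ι → κ' → SPer (RI n)) : nab B (ExtF B b f) = ExtF B (fun j x => dAmp B j (b j) x + B.α j x * b j x) f + ∑ c, ExtF B (fun j x => B.e c * b j x) (fun j => cw (dbar c) (f j))  -- `∇ ∘ Ext` for arbitrary amplitudes : an operator of order `≤ 1`
* theorem nab_nab (P : Part A) {u : A.ι → M → B.κ → ℂ} (hu : u ∈ Sec B) : nab B (nab B u) = ExtF B (dchi B P) (fun j => DT B.e (LocF B (P.psi B.κ) u j)) + (ExtF B (fun j x => dAmp B j (dchi B P j) x + B.α j x * dchi B P j x) (LocF B (P.psi B.κ) u) + ∑ c, ExtF B (fun j x => B.e c * dchi B P j x) (fun j => cw (dbar c) (LocF B (P.psi B.κ) u j)))  -- `∇ ∘ ∇` is an operator of order `≤ 1`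

### R275/C2_812 [ns Crest.Agent.R275.C2812] # R275, PART I, leaf C2 (helper812): `loc_i (a) ∘ ext_j (b)` is bounded for every norm * `chg A i j` : the change of charts in real coordinates, a `Chg (RI n)` of `TorS_666`. * `ampF`, `isCC_ampF` : the amplitude `a τ_ij b` read in the chart `i`. * `loc_ext_eq` : `loc A i a (ext B j b f i) k = ∑ l, (chg A i j).Tc (amplitude k l) (f l)`. * `nrm_loc_ext_le`, `nrmv_loc_ext_le`.
* theorem loc_ext_eq (ha : IsAmp A i a) (hb : IsAmp A j b) (f : κ'' → SPer (RI n)) (k : κ) : loc A i a (ext B j b f i) k = ∑ l, Tkl B ha hb k l (f l)  -- C2, exact form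
* theorem Tkl_eq_zero (ha : IsAmp A i a) (hb : IsAmp A j b) {k : κ} {l : κ''} (h : ∀ x, (a x * B.τ i j x * b x) k l = 0) (f : SPer (RI n)) : Tkl B ha hb k l f = 0  -- entries of the amplitude which vanish give zero operators
* theorem nrm_loc_ext_le (s : ℕ) (ha : IsAmp A i a) (hb : IsAmp A j b) (k : κ) : ∃ C, 0 ≤ C ∧ ∀ f : κ'' → SPer (RI n), nrm s (loc A i a (ext B j b f i) k) ≤ C * ∑ l, nrm s (f l)  -- C2, componentwise bound
* theorem nrmv_loc_ext_le [Fintype κ] (s : ℕ) (ha : IsAmp A i a) (hb : IsAmp A j b) : ∃ C, 0 ≤ C ∧ ∀ f : κ'' → SPer (RI n), nrmv s (loc A i a (ext B j b f i)) ≤ C * nrmv s f  -- C2, vector bound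

### R275/SupA_912 [ns Crest.Agent.R275.Sup912] # R275, block C6a / W4 part 1 (helper912): pointwise values of sections are controlled by the Sobolev norms of the localisations, and conversely at level `0`.
* def msz {κ κ' : Type} [Fintype κ] [Fintype κ'] (m : Matrix κ κ' ℂ) : ℝ  -- the size of a matrix
* theorem eq_sum_act (hu : u ∈ Sec B) {i : A.ι} {x : M} (hx : x ∈ (A.e i).source) : u i x = ∑ j ∈ act P x, B.τ i j x *ᵥ ((P.ψ j x : ℂ) • u j x)  -- reconstruction of a section at a point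
* theorem norm_apply_le (hu : u ∈ Sec B) {i : A.ι} {x : M} (hx : x ∈ (A.e i).source) : ‖u i x‖ ≤ cSob n * ∑ j ∈ act P x, msz (B.τ i j x) * nrmv (n + 1) (loc A j (sca B.κ (P.ψ j)) (u j))  -- sup control
* theorem nrm_zero_loc_le {κ' : Type} {j : A.ι} {a : M → Matrix κ' B.κ ℂ} (ha : IsAmp A j a) (hu : u ∈ Sec B) {k : κ'} {C : ℝ} (hC : 0 ≤ C) (h : ∀ x ∈ tsupport a, ‖(a x *ᵥ u j x) k‖ ≤ C) : nrm 0 (loc A j a (u j) k) ≤ C  -- general localisation: level `0` is controlled by the sup of `a u_j` over the chart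

### R275/SupB_912 [ns Crest.Agent.R275.Sup912] # R275, W4 part 2 (helper912): any localisation of a section in terms of the standard ones
* theorem ext_loc_psi (hu : u ∈ Sec B) (k : A.ι) : ext B k (sca B.κ (P.χ k)) (loc A k (sca B.κ (P.ψ k)) (u k)) = fun i x => (P.ψ k x : ℂ) • u i x  -- `ext_k(χ_k) loc_k(ψ_k) u = ψ_k u`
* theorem loc_eq_sum (hu : u ∈ Sec B) {κ' : Type} {j : A.ι} {a : M → Matrix κ' B.κ ℂ} (ha : IsAmp A j a) {T : Finset A.ι} (hT : ∀ x ∈ tsupport a, ∀ k, x ∈ tsupport (P.χ k) → k ∈ T) : loc A j a (u j) = ∑ k ∈ T, loc A j a (ext B k (sca B.κ (P.χ k)) (loc A k (sca B.κ (P.ψ k)) (u k)) j)  -- any localisation of `u` through the standard ones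
* theorem nrmv_loc_le (hu : u ∈ Sec B) {κ' : Type} [Fintype κ'] {j : A.ι} {a : M → Matrix κ' B.κ ℂ} (ha : IsAmp A j a) {T : Finset A.ι} (hT : ∀ x ∈ tsupport a, ∀ k, x ∈ tsupport (P.χ k) → k ∈ T) {s : ℕ} {C : ℝ} (hC : ∀ k ∈ T, ∀ f : B.κ → SPer (RI n), nrmv s (loc A j a (ext B k (sca B.κ (P.χ k)) f j)) ≤ C * nrmv s f) : nrmv s (loc A j a (u j)) ≤ C * ∑ k ∈ T, nrmv s (loc A k (sca B …  -- norm estimate of any localisation through the standard ones

### R275/SupBoot_912 [ns Crest.Agent.R275.Sup912] # R275 (helper912): Schur-type summation and bootstrapping of local estimates with weights `N s j` is the norm of level `s` of the `j`-th localisation; `nb j` the (finite) set of neighbours.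
* structure Nbh (nb : J → Finset J) (m : ℕ) : Prop where card : ∀ j, (nb j).card ≤ m card' : ∀ k, ∀ T : Finset J, (∀ j ∈ T, k ∈ nb j) → T.card ≤ m  -- a finite-range relation with uniformly bounded degrees in both directions
* theorem schur_finset {nb : J → Finset J} {m : ℕ} (hm : Nbh nb m) {ω a b : J → ℝ} {c C : ℝ} (hω : ∀ j, 0 ≤ ω j) (hc0 : 0 ≤ c) (hC : 0 ≤ C) (hc : ∀ j, ∀ k ∈ nb j, ω j ≤ c * ω k) (ha : ∀ j, 0 ≤ a j) (hb : ∀ j, 0 ≤ b j) (h : ∀ j, a j ≤ C * ∑ k ∈ nb j, b k) (hs : Summable fun k => (ω k * b k) ^ 2) (T : Finset J) : ∑ j ∈ T, (ω j * a j) ^ 2 ≤ (C * c * m) ^ 2 * ∑' k, (ω k * b k) ^ 2  -- Schur step, finite version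
* theorem schur {nb : J → Finset J} {m : ℕ} (hm : Nbh nb m) {ω a b : J → ℝ} {c C : ℝ} (hω : ∀ j, 0 ≤ ω j) (hc0 : 0 ≤ c) (hC : 0 ≤ C) (hc : ∀ j, ∀ k ∈ nb j, ω j ≤ c * ω k) (ha : ∀ j, 0 ≤ a j) (hb : ∀ j, 0 ≤ b j) (h : ∀ j, a j ≤ C * ∑ k ∈ nb j, b k) (hs : Summable fun k => (ω k * b k) ^ 2) : (Summable fun j => (ω j * a j) ^ 2) ∧ ∑' j, (ω j * a j) ^ 2 ≤ (C * c * m) ^ 2 * ∑' k, (ω k  …  -- Schur step
* theorem boot {nb : J → Finset J} {m : ℕ} (hm : Nbh nb m) {ω : J → ℝ} {c : ℝ} (hω : ∀ j, 0 ≤ ω j) (hc0 : 0 ≤ c) (hc : ∀ j, ∀ k ∈ nb j, ω j ≤ c * ω k) {N : ℕ → J → ℝ} (h0 : ∀ s j, 0 ≤ N s j) {D : ℕ → ℝ} (hD : ∀ s, 0 ≤ D s) (h : ∀ s j, N (s + 1) j ≤ D s * ∑ k ∈ nb j, N s k) (hs : Summable fun k => (ω k * N 0 k) ^ 2) (s : ℕ) : (Summable fun j => (ω j * N s j) ^ 2) ∧ ∑' j, (ω j * N  …  -- bootstrapping with weights: local estimates `N (s+1) j ≤ C ∑_{nb j} N s k` propagate weighted square summability from level `0` to all levels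

### R275/SupC_912 [ns Crest.Agent.R275.Sup912] # R275, W4 part 3 (helper912): the local elliptic estimate in degree `0` `w_j := loc_j(ψ_j)(u_j)`; if `u` has degree `0`, then `w_j = G w_j + K (loc_j(bamp j) u_j + loc_j(ψ_j) (nab u)_j)`, hence `|w_j|_{s+1} ≤ |w_j|_s + C (|loc_j(bamp j) u_j|_s + |loc_j(ψ_j)(nab u)_j|_s)`.
* theorem nrmv_loc_psi_succ_le (hu : u ∈ Sec B) (h0 : IsDeg B 0 u) (s : ℕ) (j : A.ι) : nrmv (s + 1) (loc A j (sca B.κ (P.ψ j)) (u j)) ≤ nrmv s (loc A j (sca B.κ (P.ψ j)) (u j)) + cK B * (nrmv s (loc A j (bamp P B j) (u j)) + nrmv s (loc A j (sca B.κ (P.ψ j)) (nab B u j)))  -- the local elliptic estimate in degree `0`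
* theorem UB.step (U : UB P B) (hu : u ∈ Sec B) (h0 : IsDeg B 0 u) (hn : nab B u = 0) (s : ℕ) (j : A.ι) : Nj P u (s + 1) j ≤ (1 + cK B * U.cb s) * ∑ k ∈ U.nb j, Nj P u s k  -- the bootstrapping inequality for `u` in degree `0` with `nab u = 0`
* theorem UB.inWs_of_bound (U : UB P B) (hu : u ∈ Sec B) (h0 : IsDeg B 0 u) (hn : nab B u = 0) {om : A.ι → ℝ} (hom : ∀ j, 0 < om j) {c : ℝ} (hc0 : 0 ≤ c) (hc : ∀ j, ∀ k ∈ U.nb j, om j ≤ c * om k) {E : ℝ} (hE : 0 ≤ E) (h : ∀ j, ∀ x ∈ tsupport (P.ψ j), om j * ‖(P.ψ j x : ℂ) • u j x‖ ≤ E) : InWs P om u  -- pointwise bounds imply weighted Sobolev bounds on all levels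
* theorem UB.norm_le (U : UB P B) (hu : u ∈ Sec B) {om : A.ι → ℝ} (hom : ∀ j, 0 < om j) {E : ℝ} (hE : 0 ≤ E) (h : ∀ j, om j * Nj P u (n + 1) j ≤ E) {W : M → ℝ} {c : ℝ} (hW : ∀ j, ∀ x ∈ tsupport (P.χ j), (om j)⁻¹ ≤ c * W x) {i : A.ι} {x : M} (hx : x ∈ (A.e i).source) (hcW : 0 ≤ c * W x) : ‖u i x‖ ≤ cSob n * U.m * U.ct * E * c * W x  -- weighted Sobolev bounds imply pointwise bounds

### R275/SupD_912 [ns Crest.Agent.R275.Sup912] # R275, W4 part 4 (helper912): heights and exponential weights * `HD P h` : reference heights `ht j` of the charts, `|h - ht j| ≤ R` on the supports, uniformly finitely many charts in every unit slab * `wj H a b j` : the weight `(wgt a b (ht j))⁻¹` * `inW_of_Bd` : `u` holomorphic (degree `0`, `nab u = 0`), `Bd A h (wgt a b) u`, `a < a'`, `b < b'` imply `InW P (wj H a' b') u` * `Bd_of_inW` : `InW P (wj H a b) u → Bd A h (wgt a b) u` * `inW_iff_TS` : `InW` is membership of the family of localisations in helper666's `TS`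
* theorem inWs_of_Bd (U : UB P B) (H : HD P h) {R' : ℝ} (hR' : U.Near H R') (hu : u ∈ Sec B) (h0 : IsDeg B 0 u) (hn : nab B u = 0) {a b : ℝ} (hB : Bd A h (wgt a b) u) : InWs P (wj H a b) u  -- W4, first half: pointwise bounds of holomorphic sections give weighted Sobolev bounds (sup version, same weight)
* theorem inW_of_Bd (U : UB P B) (H : HD P h) {R' : ℝ} (hR' : U.Near H R') (hu : u ∈ Sec B) (h0 : IsDeg B 0 u) (hn : nab B u = 0) {a b a' b' : ℝ} (ha : a < a') (hb : b < b') (hB : Bd A h (wgt a b) u) : InW P (wj H a' b') u  -- W4, first half: `ℓ²` version, with a loss in the rates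
* theorem Bd_of_inWs (U : UB P B) (H : HD P h) (hu : u ∈ Sec B) {a b : ℝ} (hW : InWs P (wj H a b) u) : Bd A h (wgt a b) u  -- W4, second half (sup version)
* theorem Bd_of_inW (U : UB P B) (H : HD P h) (hu : u ∈ Sec B) {a b : ℝ} (hW : InW P (wj H a b) u) : Bd A h (wgt a b) u  -- W4, second half: `ℓ²` weighted Sobolev bounds give pointwise bounds with the same rates

### R275/SupE_912 [ns Crest.Agent.R275.Sup912] # R275, (S1) and (S2) (helper912): weighted Sobolev spaces versus pointwise weighted bounds of all derivatives part 1: periodic functions: `cn` versus `iteratedFDeriv` versus `nrm`.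
* theorem Core1.WB_of_inWs {K : A.ι → Set M} (Q : Core1 P B K) (hu : u ∈ Sec B) {om : A.ι → ℝ} (hom : ∀ j, 0 < om j) {w : M → ℝ} {C : ℝ} (hw : ∀ i, ∀ x ∈ K i, ∀ k ∈ Q.nb i, (om k)⁻¹ ≤ C * w x) (hCw : ∀ x, 0 ≤ C * w x) (hC : 0 ≤ C) (h : InWs P om u) (k : B.κ) : WB A (fun i => i) K w (fun i x => u i x k)  -- (S1): weighted Sobolev bounds imply weighted pointwise bounds of all derivatives on the cores
* theorem inWs_of_WB_wgt (H : HD P h) (hu : u ∈ Sec B) {a b : ℝ} (hψ : WB A (fun i => i) (fun i => tsupport (P.ψ i)) (fun _ => 1) (fun i x => (P.ψ i x : ℂ))) (hW : ∀ k, WB A (fun i => i) (fun i => tsupport (P.ψ i)) (fun x => wgt a b (h x)) (fun i x => u i x k)) : InWs P (wj H a b) u  -- (S2) with exponential weights, sup version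
* theorem inW_of_WB_wgt (H : HD P h) (hu : u ∈ Sec B) {a b a' b' : ℝ} (ha : a < a') (hb : b < b') (hψ : WB A (fun i => i) (fun i => tsupport (P.ψ i)) (fun _ => 1) (fun i x => (P.ψ i x : ℂ))) (hW : ∀ k, WB A (fun i => i) (fun i => tsupport (P.ψ i)) (fun x => wgt a b (h x)) (fun i x => u i x k)) : InW P (wj H a' b') u  -- (S2) with exponential weights
* theorem Core1.WB_wgt_of_inWs {K : A.ι → Set M} (Q : Core1 P B K) (H : HD P h) (hu : u ∈ Sec B) {R' : ℝ} (hR' : ∀ i, ∀ x ∈ K i, ∀ k ∈ Q.nb i, |h x - H.ht k| ≤ R') {a b : ℝ} (hW : InWs P (wj H a b) u) (k : B.κ) : WB A (fun i => i) K (fun x => wgt a b (h x)) (fun i x => u i x k)  -- (S1) with exponential weights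

### R275/SupF_912 [ns Crest.Agent.R275.Sup912] # R275 (helper912): the data `UB`, `Core1`, `HD` of SupC / SupE / SupD from * helper195's `BN P` (bounded number of neighbours) and `C10195.UB` (uniform blocks); * helper938's `NAtl.Per` (heights, counting).
* def hc (N : NAtl n M) (h : M → ℝ) (i : N.ι) : ℝ  -- reference height
* def HD.ofPer (Q : N.Per g h) (P : Part (N.at' ρ hρ)) {c : ℝ} (hc0 : 0 ≤ c) (hψ : ∀ j x, |P.ψ j x| ≤ c) : HD P h  -- the height data of a periodic atlas, for any partition of one of its atlases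
* theorem UB.near_ofPer (Q : N.Per g h) {P : Part (N.at' ρ hρ)} {B : FBun (N.at' ρ hρ)} {c : ℝ} (hc0 : 0 ≤ c) (hψ : ∀ j x, |P.ψ j x| ≤ c) (U : UB P B) (hU : U.nb = nbi P) : U.Near (HD.ofPer Q P hc0 hψ) (2 * Q.W)  -- `Near` for the data of helper195 over a periodic atlas
* theorem Core1.near_ofPer (Q : N.Per g h) {P : Part (N.at' ρ hρ)} {B : FBun (N.at' ρ hρ)} {c : ℝ} (hc0 : 0 ≤ c) (hψ : ∀ j x, |P.ψ j x| ≤ c) {K : N.ι → Set M} (C : Core1 P B K) (hC : C.nb = nbi P) : ∀ i, ∀ x ∈ K i, ∀ k ∈ C.nb i, |h x - (HD.ofPer Q P hc0 hψ).ht k| ≤ 3 * Q.W  -- the hypothesis of (S1) over a periodic atlas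

### R275/SupG_912 [ns Crest.Agent.R275.Sup912] # R275 (helper912): the data `UB` of SupC from helper681's `BGeo`, and bounded transition matrices of `tw (lam2 A) E` over a periodic nested atlas.
* theorem exists_J_bd [T2Space M] (Q : N.Per g h) (hR : ρ < N.R) : ∃ C : ℝ, 0 ≤ C ∧ ∀ (i j : N.ι), ∀ x ∈ N.B ρ i ∩ N.B ρ j, ∀ b a, ‖(N.at' ρ hρ).J i j x b a‖ ≤ C  -- the Jacobians of a periodic atlas are bounded
* theorem exists_tau_bd [T2Space M] (Q : N.Per g h) (hR : ρ < N.R) (P : Part (N.at' ρ hρ)) (E : VBun (N.at' ρ hρ)) {D : ℝ} (hD : 0 ≤ D) (hE : ∀ (i j : N.ι), ∀ x ∈ N.B ρ i ∩ N.B ρ j, msz (E.g i j x) ≤ D) : ∃ ct : ℝ, 0 ≤ ct ∧ ∀ (i j : N.ι), ∀ x ∈ ((N.at' ρ hρ).e i).source, x ∈ tsupport (P.χ j) → msz ((tw (lam2 (N.at' ρ hρ)) E).τ i j x) ≤ ct  -- bounded transition matrices over a periodic atlas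
* theorem exists_UB_per [T2Space M] (Q : N.Per g h) (hR : ρ < N.R) (P : Part (N.at' ρ hρ)) (E : VBun (N.at' ρ hρ)) {D : ℝ} (hD : 0 ≤ D) (hE : ∀ (i j : N.ι), ∀ x ∈ N.B ρ i ∩ N.B ρ j, msz (E.g i j x) ≤ D) (hB : WY681.BGeo P (tw (lam2 (N.at' ρ hρ)) E)) : ∃ U : UB P (tw (lam2 (N.at' ρ hρ)) E), U.nb = nbi P  -- `UB` over a periodic nested atlas
* theorem exists_UB_per_LB [T2Space M] (Q : N.Per g h) (hR : ρ < N.R) (P : Part (N.at' ρ hρ)) {L : LB (N.at' ρ hρ)} {D : ℝ} (hD : 0 ≤ D) (hL : ∀ i j, ∀ x ∈ ((N.at' ρ hρ).e i).source ∩ ((N.at' ρ hρ).e j).source, ‖L.g i j x‖ ≤ D) (hB : WY681.BGeo P (BL L)) : ∃ U : UB P (BL L), U.nb = nbi P  -- a uniformly bounded line cocycle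

### R275/CIdxB_509 [ns Crest.Agent.R275.CIdx509] # R275, block C (helper509): the index of a bundle, geometric instance `M` compact, `[Finite A.ι]`, `P : Part A`, `B : FBun A` with `∇∇ = 0`, `X := (gmodP P hB).ms`: * 683's `geoI P hB : KIndex (smf A)`; * for EVERY `E : VBun A` (integrable or not): `indB P' (tw B E) = X.ind (pr P E.sb) 1 = indE P (geoI P hB) E.sb`; * integrable bundles: `(scB (tw B E) hE).st = indE P (geoI P hB) E.sb`, finite dimension, Euler characteristic.
* theorem indB_tw (E : VBun A) : indB P' (tw B E) = (gmodP P hB).ms.ind (pr P E.sb) 1  -- the index of the twisted bundle is the index of the idempotent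
* theorem indB_tw_eq_indE (E : VBun A) : indB P' (tw B E) = indE P (geoI P hB) E.sb  -- the same in the ring of classes
* theorem indE_euler (E : VBun A) (m : ℕ) (hm : topDeg (tw B E) ≤ m) (hE : ∀ u : Sec (tw B E), nabL (tw B E) (nabL (tw B E) u) = 0) : (∀ q, FiniteDimensional ℂ (Eul473.Hq (qc P' (tw B E) m hm) q)) ∧ indE P (geoI P hB) E.sb = ∑ q ∈ Finset.range (m + 1), (-1 : ℤ) ^ q * (finrank ℂ (Eul473.Hq (qc P' (tw B E) m hm) q) : ℤ)  -- Euler characteristic of an integrable bundle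
* theorem indE_part (E : VBun A) : indE P (geoI P hB) E.sb = indE P' (geoI P' hB) E.sb  -- the index functional does not depend on the partition, on bundles

### R275/CIdx_509 [ns Crest.Agent.R275.CIdx509] # R275, block C (helper509): the index of a bundle over a finite atlas (compact manifolds) * `gd`, `qc` : the graded scale and the quasi-complex `(∇_B, K)` of ANY `B : FBun A`; * `indB P B` : its index; `indB_part` (independence of the partition), `indB_iso` (isomorphic bundles whose differentials differ by a zero order term), `indB_prod`; * `indB_euler`, `st_scB` : integrable bundles (Euler characteristic, supertrace); * `indB_eq_ind` : `indB P (tw B E) = G.ms.ind (pr P E.sb) 1` for EVERY `E : VBun A` (integrable or not), `G : GMod (dolP hB)`.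
* theorem indB_fiso (Φ : FIso B B') (hs : Φ.f.Sup 1) : indB P B = indB P B'  -- isomorphic bundles with the same symbol have the same index (the connections may differ)
* theorem indB_euler (m : ℕ) (hm : topDeg B ≤ m) (h : ∀ u : Sec B, nabL B (nabL B u) = 0) : (∀ q, FiniteDimensional ℂ (Eul473.Hq (qc P B m hm) q)) ∧ indB P B = ∑ q ∈ Finset.range (m + 1), (-1 : ℤ) ^ q * (finrank ℂ (Eul473.Hq (qc P B m hm) q) : ℤ)  -- Euler characteristic
* theorem indB_eq_ind {hB : ∀ u : Sec B, nabL B (nabL B u) = 0} (G : GMod (dolP hB)) {N : ℕ} (hN : topDeg B ≤ N) (hS : G.S = scS P B N) (hK : KDeg B G.K) : indB P (tw B E) = G.ms.ind (pr P E.sb) 1  -- the link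
* theorem indB_eq_indE {hB : ∀ u : Sec B, nabL B (nabL B u) = 0} (G : GMod (dolP hB)) {N : ℕ} (hN : topDeg B ≤ N) (hS : G.S = scS P B N) (hK : KDeg B G.K) (hσ : ∀ f : smf A, G.ms.σ f = f) : indB P (tw B E) = indE P (G.ms.kIndex hσ) E.sb  -- the link in the ring of classes

### R275/Kun1_570 [ns Crest.Agent.R275.Kun570] R275, PART I', leaf NA9b (helper570): KÜNNETH in supertrace form. `A` is the Dolbeault complex of `X` (with `T` = parity), `AA` the one of `X × X` (with `T` = parity composed with the graded swap), `bil` the exterior product. If the identity of `A` is homotopic to a finite rank operator `Π`, and the homotopy extends to the first variable of `AA`, then `AA.st = A.st`.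
* theorem trace_swap {E : Type*} [AddCommGroup E] [Module k E] [FiniteDimensional k E] (f g : E →ₗ[k] E) : trace k (E ⊗[k] E) (TensorProduct.map f g ∘ₗ (TensorProduct.comm k E E).toLinearMap) = trace k E (f ∘ₗ g)  -- the trace of `a ⊗ b ↦ f b ⊗ g a` is the trace of `f ∘ g`.
* theorem exists_even {V : Type*} [AddCommGroup V] [Module k V] (A : SC k V) (h2 : (2 : k) ≠ 0) (hγ : ∀ a, A.T (A.T a) = a) (h Q : V →ₗ[k] V) (hh : ∀ a, A.d (h a) + h (A.d a) = a - Q a) [FiniteDimensional k (range Q)] : ∃ h' Q' : V →ₗ[k] V, h' = (2 : k)⁻¹ • (h - A.T ∘ₗ h ∘ₗ A.T) ∧ Q' = (2 : k)⁻¹ • (Q + A.T ∘ₗ Q ∘ₗ A.T) ∧ (∀ a, A.d (h' a) + h' (A.d a) = a - Q' a) ∧ FiniteDimension …  -- averaging over the parity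
* theorem kunneth {V VV : Type*} [AddCommGroup V] [Module k V] [AddCommGroup VV] [Module k VV] (h2 : (2 : k) ≠ 0) (A : SC k V) (AA : SC k VV) (bil : V →ₗ[k] V →ₗ[k] VV) (hγ : ∀ a, A.T (A.T a) = a) (hTT : ∀ x, AA.T (AA.T x) = x) (hD : ∀ a b, AA.d (bil a b) = bil (A.d a) b + bil (A.T a) (A.d b)) (hT : ∀ a b, (2 : k) • AA.T (bil a b) = bil (A.T b) (A.T a) + bil b (A.T a) + bil (A.T  …  -- KÜNNETH, supertrace form.
* theorem lift_injective {V VV : Type*} [AddCommGroup V] [Module k V] [AddCommGroup VV] [Module k VV] (bil : V →ₗ[k] V →ₗ[k] VV) (E : Submodule k V) (hb : ∀ (n : ℕ) (a b : Fin n → V), LinearIndependent k a → ∑ j, bil (a j) (b j) = 0 → ∀ j, b j = 0) [FiniteDimensional k E] : Function.Injective (TensorProduct.lift (bil.compl₁₂ E.subtype E.subtype))  -- injectivity of `E ⊗ E → VV` from the separation property of the exterior product.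

### R275/Kun2_570 [ns Crest.Agent.R275.Kun570] R275, PART I', leaf NA9a (helper570), torus part: Fourier series in the second group of variables. * `sl k F` : the `k`-th Fourier coefficient of `F ∈ SPer (d ⊕ e)` in the second variable. * `atl y F`, `atr x F` : partial functions. * `syn2 g` : synthesis of `∑ₖ g k (x) ch k y` for rapidly decreasing `g : (e → ℤ) → SPer d`.
* theorem hasSum_emb {ι : Type*} (s : ℕ) {g : ι → SPer d} {f : SPer d} (hs : Summable fun k => nrm s (g k)) (hfc : ∀ m, HasSum (fun k => fc (g k) m) (fc f m)) : HasSum (fun k => emb s (g k)) (emb s f)  -- convergence of a series in the norm `nrm s`, from convergence of Fourier coefficients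
* theorem tendsto_nrm {ι : Type*} (s : ℕ) {g : ι → SPer d} {f : SPer d} (hs : Summable fun k => nrm s (g k)) (hfc : ∀ m, HasSum (fun k => fc (g k) m) (fc f m)) : Tendsto (fun S : Finset ι => nrm s (∑ k ∈ S, g k - f)) atTop (𝓝 0)  -- partial sums converge in the norm `nrm s`
* theorem hasSum_fc_atl (y : e → ℝ) (F : SPer (d ⊕ e)) (m : d → ℤ) : HasSum (fun k : e → ℤ => fc (sl k F) m * ch k y) (fc (atl y F) m)  -- for fixed `y` the Fourier coefficients of `x ↦ F (x, y)`
* theorem tendsto_atl (s : ℕ) (y : e → ℝ) (F : SPer (d ⊕ e)) : Tendsto (fun S : Finset (e → ℤ) => nrm s (∑ k ∈ S, ch k y • sl k F - atl y F)) atTop (𝓝 0)  -- `F (·, y) = ∑ₖ ch k y • sl k F` in every norm.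

### R275/Kun3_570 [ns Crest.Agent.R275.Kun570] R275, PART I', leaf NA9a (helper570), geometric part: operators acting on the first variable. * `reix` : `SPer (RI (n + m)) → SPer (RI n ⊕ RI m)`. * `pf2` : a compactly supported function on a product chart as a periodic function of two groups of variables. * `CFam` : compactly supported smooth families `N → Sec B` in a chart `j` of `N`; Fourier coefficients `co k ∈ Sec B`.
* structure Cut (A : Atl n M) (i : A.ι) (a : M → ℂ) : Prop where sm : A.SmAt i a cpt : IsCompact (tsupport a) sub : tsupport a ⊆ (A.e i).source  -- scalar cut-off in the chart `i`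
* theorem coS_map (hT : ContA B T) (hv : SmF j v) (hc : CSupp j v) (k : RI m → ℤ) : coS (hv.map_of_cpt hc hT) (hc.map T) k = T (coS hv hc k)  -- Fourier coefficients commute with continuous operators.
* def lam (k : RI m → ℤ) (b : Fin m) : ℂ  -- symbol of `∂̄_b`
* theorem dbF_map {T : Sec B →ₗ[ℂ] Sec B} (hT : ContA B T) (hv : SmF j v) (b : Fin m) {y : N} (hy : y ∈ (A'.e j).source) : dbF (hv.map hT) b y = T (dbF hv b y)  -- `∂̄` in the second variable commutes with operators in the first variable.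

### R275/Kun4_570 [ns Crest.Agent.R275.Kun570] R275, PART I', leaf NA0 (helper570): the Kunneth theorem for the Dolbeault bundle on `M × M`. * `T1 hT` : a continuous operator `T : Sec B → Sec B` acting in the first variable on `Sec (B.prod C)`; `sl1_T1`, `T1_comp` ... * `D2_T1` : `D2 ∘ T1 = T1' ∘ D2`. * `exists_par` : abstract construction of a homotopy and a finite rank operator from a parametrix. * `kunneth_geo` : `H(M × M)` is finite-dimensional and the supertrace of the swap is `χ(M)`.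
* theorem D2_T1_odd {T : Sec B →ₗ[ℂ] Sec B} (hT : ContA B T) (hodd : ∀ a, T (gam B a) = - gam B (T a)) (w : Sec (B.prod C)) : D2L B C (T1 C hT w) + T1 C hT (D2L B C w) = 0  -- an odd operator in the first variable anticommutes with `D2`
* theorem exists_par {d K : V →ₗ[ℂ] V} (hd : Op0 S S d) (hK : Op0 S S K) (dd : ∀ x, d (d x) = 0) (hR : Neg S S (LinearMap.id - d ∘ₗ K - K ∘ₗ d)) : ∃ h Q : V →ₗ[ℂ] V, Op0 S S h ∧ Op0 S S Q ∧ FiniteDimensional ℂ (LinearMap.range Q) ∧ ∀ a, d (h a) + h (d a) = a - Q a  -- from a parametrix to an exact homotopy modulo a finite rank operator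
* structure Nice (S : Scale ℂ (Sec B)) : Prop where ub : ∀ s : ℕ, ∃ (F : Finset A.ι) (ψ : A.ι → M → ℂ) (hψ : ∀ i, Cut A i (ψ i)) (s' : ℕ) (C : ℝ), 0 ≤ C ∧ ∀ w : Sec B, S.nrm s w ≤ C * ∑ i' ∈ F, ∑ κ' : B.κ, nrm s' (La B (hψ i') κ' w) lb : ∀ (i : A.ι) (a : M → ℂ) (ha : Cut A i a) (κ : B.κ) (s : ℕ), ∃ (s' : ℕ) (C : ℝ), 0 ≤ C ∧ ∀ w : Sec B, nrm s (La B ha κ w) ≤ C * S.nrm s' w  -- the norms of the scale are equivalent to the chart norms
* theorem kunneth_geo {S : Scale ℂ (Sec B)} (hS : Nice S) (hn : Op0 S S (nabL B)) (hg : Op0 S S (gam B)) {K : Sec B →ₗ[ℂ] Sec B} (hK : Op0 S S K) (hR : Neg S S (LinearMap.id - nabL B ∘ₗ K - K ∘ₗ nabL B)) (A0 : SC ℂ (Sec B)) (h0d : A0.d = nabL B) (h0T : A0.T = gam B) (AA : SC ℂ (Sec (B.prod B))) (hd : AA.d = nabL (B.prod B)) (hT : AA.T = gam (B.prod B) ∘ₗ swpL B) : FiniteDimension …  -- Kunneth for the Dolbeault bundle: the supertrace of the (graded) swap on `H(M × M)` is the Euler characteristic.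

### R275/Kun5_570 [ns Crest.Agent.R275.Kun570] R275, PART I', leaf NA0 = XS0 (helper570): the Kunneth theorem, final form. * `nice_scS` : the scale `scS P B N` of 666 is equivalent to the chart norms. * `kunneth_SC` : `AA.st = A0.st` for the supercomplexes on `Sec (B.prod B)`, `Sec B`. * `kunneth_dol` : `(dolL hBB (swLift B)).sc.st = (scB B hB).st`.
* theorem kunneth_SC (P : Part A) (B : FBun A) (A0 : SC ℂ (Sec B)) (h0d : A0.d = nabL B) (h0T : A0.T = gam B) (AA : SC ℂ (Sec (B.prod B))) (hd : AA.d = nabL (B.prod B)) (hT : AA.T = gam (B.prod B) ∘ₗ swpL B) : FiniteDimensional ℂ AA.H ∧ AA.st = A0.st  -- Kunneth, supercomplex form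
* theorem kunneth_dol (P : Part A) (B : FBun A) (hB : ∀ u : Sec B, nabL B (nabL B u) = 0) (hBB : ∀ u : Sec (B.prod B), nabL (B.prod B) (nabL (B.prod B) u) = 0) : FiniteDimensional ℂ (dolL hBB (swLift B)).sc.H ∧ (dolL hBB (swLift B)).sc.st = (Brix509.scB B hB).st  -- Kunneth, final form (XS0)

### R275/LinO_425 [ns Crest.Agent.R275.LinO425] # R275 (helper425): the order of `smf A`-linear operators `M` compact, finite atlas. A `smf A`-linear map `T : Sec B → Sec B'` raising the degree by `r : ℤ` satisfies `nrm t (T v) ≤ C nrm s v` whenever `t = s + r` (`lin`).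
* theorem linMat_degZ (P : Part A) (T : Sec B →ₗ[smf A] Sec B') {r : ℤ} (hT : ∀ (q : ℤ) (v : Sec B), T (prZ B q v) = prZ B' (q + r) (T v)) {i : A.ι} {x : M} {l : B'.κ} {k : B.κ} (h : linMat P T i x l k ≠ 0) : (B'.deg l : ℤ) = B.deg k + r  -- degree of the entries for an integer shift
* def linAF (P : Part A) (T : Sec B →ₗ[smf A] Sec B') : AF P B'.κ B.κ  -- `ψ_i h_i` as an amplitude family
* theorem opR_lin_neg (P : Part A) (w : Wt P) (T : Sec B →ₗ[smf A] Sec B') {r N : ℕ} (hT : ∀ (q : ℤ) (v : Sec B), T (prZ B q v) = prZ B' (q - r) (T v)) (s : ℕ) : ∃ C : ℝ, ∀ v, ((SV.full w B').sc N).nrm s (T v) ≤ C * ((SV.full w B).sc N).nrm (s + r) v  -- negative shifts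
* theorem lin (P : Part A) (w : Wt P) (T : Sec B →ₗ[smf A] Sec B') {r : ℤ} {N : ℕ} (hN : ∀ k, B'.deg k ≤ N) (hT : ∀ (q : ℤ) (v : Sec B), T (prZ B q v) = prZ B' (q + r) (T v)) {s t : ℕ} (hst : (t : ℤ) = s + r) : ∃ C : ℝ, ∀ v, ((SV.full w B').sc N).nrm t (T v) ≤ C * ((SV.full w B).sc N).nrm s v  -- `lin` : a linear map raising the degree by `r : ℤ` has order `-r`
-/
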