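import Crest.Agent.R249.Kg4_285
import Crest.Agent.R249.DicB_129
import Crest.Agent.R249.Tz0_805

/-!
# R249, C3-GLOB (helper285), part 5: adapters

`IsKill`, `Kill5` (as frozen in post #2563), `kill_of_isKill`, `tI_of_kill5`;
`vc_eq_vg` : my `vc` is 805's `Tz805.vg` and 129's `ONF.vg` for smooth fields.
-/

set_option autoImplicit false
set_option maxSynthPendingDepth 3
set_option linter.unusedSectionVars false

open Filter Topology Set Bundle
open scoped ContDiff Manifold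
open Crest.GeometryTopology.CoordMetric Crest.GeometryTopology.ChartCurvature
  Crest.GeometryTopology.PointedLimit
open Crest.Agent.R202.Tens Crest.Agent.R247.Bo84 Crest.Agent.R249.FrmB_285
open Crest.Agent.R249.FrmC_285 Crest.Agent.R249.FrmD_285 Crest.Agent.R249.OriD_285
open Crest.Agent.R249.Fr129 Crest.Agent.R249.Sg129 Crest.Agent.R249.Vf281
  Crest.Agent.R249.Kil1_805 Crest.Agent.R249.Kg3_285 Crest.Agent.R249.Kg4_285
  Crest.Agent.R249.Trw_285 Crest.Agent.R249.Trx_285 Crest.Agent.R249.Qr_285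

noncomputable section

namespace Crest.Agent.R249.Kg5_285

section gen

variable {n : ℕ} {M : Type*} [TopologicalSpace M] [ChartedSpace (EuclideanSpace ℝ (Fin n)) M]
  [IsManifold 𝓘(ℝ, EuclideanSpace ℝ (Fin n)) ∞ M]
  [RiemannianBundle (fun x : M => TangentSpace 𝓘(ℝ, EuclideanSpace ℝ (Fin n)) x)]
  [IsContMDiffRiemannianBundle 𝓘(ℝ, EuclideanSpace ℝ (Fin n)) ∞ (EuclideanSpace ℝ (Fin n))
      (fun x : M => TangentSpace 𝓘(ℝ, EuclideanSpace ℝ (Fin n)) x)]

local notation "𝔼" => EuclideanSpace ℝ (Fin n)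
local notation "𝓘E" => 𝓘(ℝ, EuclideanSpace ℝ (Fin n))

/-- Killing fields. -/
def IsKill (V : (z : M) → TangentSpace 𝓘(ℝ, EuclideanSpace ℝ (Fin n)) z) : Prop :=
  (∀ z, VSm n ∞ V z) ∧ ∀ (z : M) (v w : TangentSpace 𝓘(ℝ, EuclideanSpace ℝ (Fin n)) z),
    inner ℝ (mCov n V z v) w + inner ℝ v (mCov n V z w) = 0

variable {z : M} {e : Fin n → EuclideanSpace ℝ (Fin n) → EuclideanSpace ℝ (Fin n)}
  {X : (q : M) → TangentSpace 𝓘(ℝ, EuclideanSpace ℝ (Fin n)) q}

theorem vc_eq_tg (h : ONF (chartMetric n M z) (chartAt 𝔼 z).target (chartCentre n M z) e)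
    (hX : VSm n ∞ X z) : vc h hX = h.vg X := by
  funext i
  exact (tg_eq (h.cd_bil hX (h.smooth i))).symm

theorem vc_eq_vg (h : ONF (chartMetric n M z) (chartAt 𝔼 z).target (chartCentre n M z) e)
    (hX : VSm n ∞ X z) : vc h hX = Tz805.vg z e X := by
  funext i
  have h1 : ContDiffAt ℝ ∞ (fun y => bil (chartMetric n M z y) (vCh n z X y) (e i y))
    (chartCentre n M z) := h.cd_bil hX (h.smooth i)
  exact (dif_pos h1).symm

theorem kill_of_isKill (h : ONF (chartMetric n M z) (chartAt 𝔼 z).target (chartCentre n M z) e)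
    {V : (z : M) → TangentSpace 𝓘E z} (hV : IsKill V) : Kill h.frameOf (vc h (hV.1 z)) := by
  rw [vc_eq_tg]
  have ht := centre_mem (n := n) z
  have hW : ∀ k, vCh n z (Tz2_805.fld z (e k)) =ᶠ[𝓝 (chartCentre n M z)] e k := by
    intro k
    filter_upwards [(chartAt 𝔼 z).open_target.mem_nhds ht] with y hy
    exact Tz2_805.vCh_fld z (e k) hy
  have hWs : ∀ k, ContDiffAt ℝ ∞ (vCh n z (Tz2_805.fld z (e k))) (chartCentre n M z) :=
    fun k => (h.smooth k).congr_of_eventuallyEq (hW k)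
  have hWv : ∀ k i, h.vg (Tz2_805.fld z (e k)) i = if k = i then 1 else 0 := by
    intro k i
    rw [← h.vt_frame k i]
    exact congrFun (h.vt_congr (hW k)) i
  have hm : ∀ k i, h.vg (fun q => mCov n V q (Tz2_805.fld z (e k) q)) i =
      BV h.frameOf (h.vg V) k i := by
    intro k i
    rw [h.vg_mCov_at (hV.1 z) (hWs k)]
    simp only [hWv, ite_mul, one_mul, zero_mul, Finset.sum_ite_eq, Finset.mem_univ, if_true]
    rfl
  intro k j
  have hms : ∀ k, ContDiffAt ℝ ∞ (vCh n z (fun q => mCov n V q (Tz2_805.fld z (e k) q)))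
      (chartCentre n M z) := fun k => cd_vCh_mCov ht (hV.1 z) (hWs k)
  have h1 := h.fg_inner_at (hms k) (hWs j)
  have h2 := h.fg_inner_at (hWs k) (hms j)
  simp only [hWv, hm, mul_ite, mul_one, mul_zero, ite_mul, one_mul, zero_mul, Finset.sum_ite_eq,
    Finset.mem_univ, if_true] at h1 h2
  have h3 : (Sg129.fg z (fun q => (inner ℝ (mCov n V q (Tz2_805.fld z (e k) q))
      (Tz2_805.fld z (e j) q) : ℝ)) : SG (chartCentre n M z)) +
      Sg129.fg z (fun q => (inner ℝ (Tz2_805.fld z (e k) q)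
        (mCov n V q (Tz2_805.fld z (e j) q)) : ℝ)) = 0 := by
    have s1 : ContDiffAt ℝ ∞ (inCh n z (fun q => (inner ℝ (mCov n V q (Tz2_805.fld z (e k) q))
      (Tz2_805.fld z (e j) q) : ℝ))) (chartCentre n M z) :=
      (h.cd_bil (hms k) (hWs j)).congr_of_eventuallyEq (inCh_inner ht)
    have s2 : ContDiffAt ℝ ∞ (inCh n z (fun q => (inner ℝ (Tz2_805.fld z (e k) q)
        (mCov n V q (Tz2_805.fld z (e j) q)) : ℝ))) (chartCentre n M z) :=
      (h.cd_bil (hWs k) (hms j)).congr_of_eventuallyEq (inCh_inner ht)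
    rw [← fg_add_at s1 s2]
    have h4 : (Sg129.fg z (fun q => (inner ℝ (mCov n V q (Tz2_805.fld z (e k) q))
      (Tz2_805.fld z (e j) q) : ℝ) + (inner ℝ (Tz2_805.fld z (e k) q)
        (mCov n V q (Tz2_805.fld z (e j) q)) : ℝ)) : SG (chartCentre n M z)) =
        Sg129.fg z (fun _ : M => (0:ℝ)) :=
      fg_congr (Eventually.of_forall fun w => hV.2 _ _ _)
    exact h4.trans (fg_zero (z := z))
  rw [h1, h2] at h3
  exact eq_neg_of_add_eq_zero_left h3

end gen

local notation "𝔼" => EuclideanSpace ℝ (Fin 4)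
local notation "𝓘E" => 𝓘(ℝ, EuclideanSpace ℝ (Fin 4))

section four

variable (N : Type*) [TopologicalSpace N] [ChartedSpace (EuclideanSpace ℝ (Fin 4)) N]
  [IsManifold 𝓘(ℝ, EuclideanSpace ℝ (Fin 4)) ∞ N]
  [RiemannianBundle (fun x : N => TangentSpace 𝓘(ℝ, EuclideanSpace ℝ (Fin 4)) x)]
  [IsContMDiffRiemannianBundle 𝓘(ℝ, EuclideanSpace ℝ (Fin 4)) ∞ (EuclideanSpace ℝ (Fin 4))
      (fun x : N => TangentSpace 𝓘(ℝ, EuclideanSpace ℝ (Fin 4)) x)]

/-- five independent Killing fields. -/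
def Kill5 : Prop := ∃ V : Fin 5 → (z : N) → TangentSpace 𝓘(ℝ, EuclideanSpace ℝ (Fin 4)) z,
  (∀ i, IsKill (V i)) ∧ ∀ c : Fin 5 → ℝ, (∀ z, ∑ i, c i • V i z = 0) → c = 0

end four

variable {N : Type*} [TopologicalSpace N] [ChartedSpace (EuclideanSpace ℝ (Fin 4)) N]
  [IsManifold 𝓘(ℝ, EuclideanSpace ℝ (Fin 4)) ∞ N]
  [RiemannianBundle (fun x : N => TangentSpace 𝓘(ℝ, EuclideanSpace ℝ (Fin 4)) x)]
  [IsContMDiffRiemannianBundle 𝓘(ℝ, EuclideanSpace ℝ (Fin 4)) ∞ (EuclideanSpace ℝ (Fin 4))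
      (fun x : N => TangentSpace 𝓘(ℝ, EuclideanSpace ℝ (Fin 4)) x)]

/-- linear combinations. -/
def comb (V : Fin 5 → (z : N) → TangentSpace 𝓘(ℝ, EuclideanSpace ℝ (Fin 4)) z) :
    (Fin 5 → ℝ) →ₗ[ℝ] ((z : N) → TangentSpace 𝓘(ℝ, EuclideanSpace ℝ (Fin 4)) z) where
  toFun c z := ∑ i, c i • V i z
  map_add' c d := by
    funext z
    simp only [Pi.add_apply, add_smul, Finset.sum_add_distrib]
  map_smul' r c := by
    funext z
    simp only [Pi.smul_apply, smul_eq_mul, mul_smul, Finset.smul_sum, RingHom.id_apply]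

theorem vsm_comb {V : Fin 5 → (z : N) → TangentSpace 𝓘E z} (hV : ∀ i z, VSm 4 ∞ (V i) z)
    (c : Fin 5 → ℝ) (z : N) : VSm 4 ∞ (comb V c) z := by
  have h : vCh 4 z (comb V c) = fun w => ∑ i, c i • vCh 4 z (V i) w := by
    funext w
    have h1 := ONF.vCh_sum (n := 4) Finset.univ (fun i q => c i • V i q) z w
    refine h1.trans (Finset.sum_congr rfl fun i _ => ?_)
    exact vCh_smul (fun _ => c i) (V i) z w
  rw [VSm, h]
  exact ContDiffAt.sum fun i _ => (hV i z).const_smul (c i)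

theorem vg_comb {V : Fin 5 → (z : N) → TangentSpace 𝓘E z} (hV : ∀ i z, VSm 4 ∞ (V i) z) {z : N}
    {e : Fin 4 → 𝔼 → 𝔼}
    (h : ONF (chartMetric 4 N z) (chartAt 𝔼 z).target (chartCentre 4 N z) e)
    (c : Fin 5 → ℝ) (k : Fin 4) : vc h (vsm_comb hV c z) k = ∑ i, c i • vc h (hV i z) k := by
  have h1 : h.vg (comb V c) k = ∑ i, h.vg (fun q => c i • V i q) k :=
    h.vg_sum_at Finset.univ (F := fun i q => c i • V i q) (fun i => by
      have : vCh 4 z (fun q => c i • V i q) = fun w => c i • vCh 4 z (V i) w :=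
        funext fun w => vCh_smul (fun _ => c i) (V i) z w
      rw [this]
      exact (hV i z).const_smul (c i)) k
  rw [vc_eq_tg, h1]
  refine Finset.sum_congr rfl fun i _ => ?_
  rw [vc_eq_tg, h.vg_csmul_at (c i) (hV i z)]

/-- linear combinations of Killing germs. -/
theorem kill_sum {S : Type*} [CommRing S] [Algebra ℝ S] (F : Frame 4 S) {V : Fin 5 → Fin 4 → S}
    (hV : ∀ i, Kill F (V i)) (c : Fin 5 → ℝ) : Kill F (fun k => ∑ i, c i • V i k) := by
  have h1 : ∀ k j, BV F (fun k => ∑ i, c i • V i k) k j = ∑ i, c i • BV F (V i) k j := by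
    intro k j
    have h2 : (fun k => ∑ i, c i • V i k) = ∑ i, (algebraMap ℝ S (c i)) • V i := by
      funext k
      rw [Finset.sum_apply]
      refine Finset.sum_congr rfl fun i _ => ?_
      rw [Pi.smul_apply, Algebra.smul_def, smul_eq_mul]
    rw [h2, BV, Frame.cov_sum, Finset.sum_apply]
    refine Finset.sum_congr rfl fun i _ => ?_
    rw [Frame.cov_smul, Derivation.map_algebraMap, zero_smul, zero_add, Pi.smul_apply,
      smul_eq_mul, Algebra.smul_def]
    rfl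
  intro k j
  rw [h1, h1, ← Finset.sum_neg_distrib]
  refine Finset.sum_congr rfl fun i _ => ?_
  rw [hV i k j, smul_neg]

/-- `∇W⁺ = 0` from five Killing fields. -/
theorem nn_of_kill5 [ConnectedSpace N] (hO : Oriented 4 N) {c : ℝ} (hc : 0 < c)
    (hE : IsEinsteinWith 4 N c) (h5 : Kill5 N) (p : N) (e : Fin 4 → 𝔼 → 𝔼)
    (h : ONF (chartMetric 4 N p) (chartAt 𝔼 p).target (chartCentre 4 N p) e)
    (hpos : ∀ᶠ z in 𝓝 (chartCentre 4 N p), Orth (chartMetric 4 N p z) (fun i => e i z) ∧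
      0 < (mat fun i => e i z).det) (q : Fin 4) (a b : Fin 3) : h.frameOf.NN q a b = 0 := by
  obtain ⟨V, hV, hli⟩ := h5
  refine nn_of_killing hO hc hE (comb V) ?_ (vsm_comb fun i => (hV i).1) ?_ (by simp) p e h hpos
    q a b
  · rw [← LinearMap.ker_eq_bot, LinearMap.ker_eq_bot']
    intro c hc
    exact hli c fun z => congrFun hc z
  · intro q
    obtain ⟨e, h, hpos⟩ := exists_onf (n := 4) q (centre_mem (n := 4) q)
    refine ⟨e, h, hpos, fun c => ?_⟩
    have h1 : vc h (vsm_comb (fun i => (hV i).1) c q) =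
        fun k => ∑ i, c i • vc h ((hV i).1 q) k := by
      funext k
      exact vg_comb (fun i => (hV i).1) h c k
    rw [h1]
    exact kill_sum h.frameOf (fun i => kill_of_isKill h (hV i)) c

/-- **T-I from five Killing fields.** -/
theorem tI_of_kill5
    (H : ∀ (N : Type) [MetricSpace N] [ChartedSpace (EuclideanSpace ℝ (Fin 4)) N]
      [IsManifold 𝓘(ℝ, EuclideanSpace ℝ (Fin 4)) ∞ N] [CompactSpace N] [ConnectedSpace N]
      [RiemannianBundle (fun x : N => TangentSpace 𝓘(ℝ, EuclideanSpace ℝ (Fin 4)) x)]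
      [IsContMDiffRiemannianBundle 𝓘(ℝ, EuclideanSpace ℝ (Fin 4)) ∞ (EuclideanSpace ℝ (Fin 4))
        (fun x : N => TangentSpace 𝓘(ℝ, EuclideanSpace ℝ (Fin 4)) x)]
      [IsRiemannianManifold 𝓘(ℝ, EuclideanSpace ℝ (Fin 4)) N],
      Oriented 4 N → ∀ c : ℝ, 0 < c → IsEinsteinWith 4 N c → HasNonnegSectionalCurvature 4 N →
        (∀ x : N, mInv (Qm Qp c) x = 0) → Kill5 N) :
    TI Qp B2Fin_474.RS B2Fin_474.RC := by
  refine Par7_493.tI_of qfp qfm ?_
  intro N _ _ _ _ _ _ _ _ hO c hc hE hK hq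
  exact nn_of_kill5 hO hc hE (H N hO c hc hE hK hq)

end Crest.Agent.R249.Kg5_285
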