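import Crest.Agent.R249.Ker57d_57
import Crest.Agent.R249.Tz3_805
import Crest.Agent.R249.Kg5_285

/-!
# R249 part C, [KER] 5 (helper57): the Killing fields of `ker A` for `G = Λ⁻`.
-/

set_option autoImplicit false
set_option linter.unusedSectionVars false
set_option linter.unusedSimpArgs false
set_option maxSynthPendingDepth 3

open Filter Topology Set Bundle Manifold Matrix MeasureTheory
open scoped ContDiff ENNReal NNReal
open Crest.GeometryTopology.CoordMetric Crest.GeometryTopology.ChartCurvature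
  Crest.GeometryTopology.PointedLimit
open Crest.Agent.R202.Tens Crest.Agent.R247.Bo84 Crest.Agent.R249.Vf281
  Crest.Agent.R249.Tz1_805 Crest.Agent.R249.Tz2_805
open Crest.Agent.R249.Fr129 Crest.Agent.R249.C2_198
open Crest.Agent.R247.Ms322 Crest.Agent.R247.Dir593 Crest.Agent.R247.Frd657
open Crest.Agent.R249.Tv57
open Crest.Agent.R249.Sg129 hiding fg fg_add fg_sub fg_mul fg_const fg_sum ev_fg contMDiff_inner
  VSm_mCov fg_zero
open Crest.Agent.R249.Tz805 Crest.Agent.R249.Wk198 Crest.Agent.R249.Kil1_805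

noncomputable section

namespace Crest.Agent.R249.Ker57

/-! ### ring computation -/

section ring
variable {S : Type*} [CommRing S] [Algebra ℝ S]

lemma dot_iso {κ ι : Type*} [Fintype κ] [Fintype ι] [DecidableEq ι] {j : Matrix κ ι S}
    (hj : jᵀ * j = 1) (u v : ι → S) : (j *ᵥ u) ⬝ᵥ (j *ᵥ v) = u ⬝ᵥ v := by
  rw [Matrix.dotProduct_mulVec, ← Matrix.mulVec_transpose, Matrix.mulVec_mulVec, hj,
    Matrix.one_mulVec]

lemma vf_ring {κ μ : Type*} [Fintype κ] [Fintype μ] {jT : Matrix κ (Fin 4) S}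
    {jL : Matrix μ (Fin 3) S} (hT : jTᵀ * jT = 1) (hL : jLᵀ * jL = 1) (X : Fin 4 → Fin 3 → S)
    (k : Fin 4) :
    ∑ A, (∑ y, ∑ i, (∑ b, jL y b * (2 * X i b)) *
      (∑ l, ∑ b, jT A l * K S b l i * jL y b)) * jT A k = 2 * ∑ a, ∑ i, K S a k i * X i a := by
  have e1 : ∀ A, (∑ y, ∑ i, (∑ b, jL y b * (2 * X i b)) *
      (∑ l, ∑ b, jT A l * K S b l i * jL y b)) = ∑ i, ∑ b, (2 * X i b) * ∑ l, jT A l * K S b l i := by
    intro A
    rw [Finset.sum_comm]
    refine Finset.sum_congr rfl fun i _ => ?_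
    have h1 := dot_iso hL (fun b => 2 * X i b) (fun b => ∑ l, jT A l * K S b l i)
    simp only [dotProduct, Matrix.mulVec] at h1
    rw [← h1]
    refine Finset.sum_congr rfl fun y _ => ?_
    congr 1
    rw [Finset.sum_comm]
    refine Finset.sum_congr rfl fun b _ => ?_
    rw [Finset.mul_sum]
    exact Finset.sum_congr rfl fun l _ => by ring
  have e2 : ∀ l, ∑ A, jT A l * jT A k = if l = k then 1 else 0 := by
    intro l
    have := congrFun (congrFun hT l) k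
    rw [Matrix.mul_apply, Matrix.one_apply] at this
    exact this
  have e4 : ∀ A, (∑ i, ∑ b, (2 * X i b) * ∑ l, jT A l * K S b l i) * jT A k =
      ∑ i, ∑ b, ∑ l, 2 * X i b * K S b l i * (jT A l * jT A k) := by
    intro A
    rw [Finset.sum_mul]
    refine Finset.sum_congr rfl fun i _ => ?_
    rw [Finset.sum_mul]
    refine Finset.sum_congr rfl fun b _ => ?_
    rw [Finset.mul_sum, Finset.sum_mul]
    exact Finset.sum_congr rfl fun l _ => by ring
  have e5 : ∑ A, ∑ i, ∑ b, ∑ l, 2 * X i b * K S b l i * (jT A l * jT A k) =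
      ∑ i, ∑ b, ∑ l, 2 * X i b * K S b l i * ∑ A, jT A l * jT A k := by
    rw [Finset.sum_comm]
    refine Finset.sum_congr rfl fun i _ => ?_
    rw [Finset.sum_comm]
    refine Finset.sum_congr rfl fun b _ => ?_
    rw [Finset.sum_comm]
    exact Finset.sum_congr rfl fun l _ => by rw [Finset.mul_sum]
  simp only [e1, e4]
  rw [e5]
  simp only [e2, mul_ite, mul_one, mul_zero, Finset.sum_ite_eq', Finset.mem_univ, if_true]
  rw [Finset.sum_comm, Finset.mul_sum]
  refine Finset.sum_congr rfl fun b _ => ?_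
  rw [Finset.mul_sum]
  exact Finset.sum_congr rfl fun i _ => by ring

lemma emb_smul (r : S) (σ : Fin 3 → S) : emb (r • σ) = r • emb σ := by
  funext ⟨a, b⟩
  fin_cases a <;> fin_cases b <;> simp [emb] <;> ring

lemma emb_zero : emb (0 : Fin 3 → S) = 0 := by
  funext ⟨a, b⟩
  fin_cases a <;> fin_cases b <;> simp [emb]

/-- an eigenvector is a twistor vector -/
lemma eq_emb {u : Fin 4 × Fin 3 → S} (h : NN S *ᵥ u = (-2 : S) • u) :
    u = emb (algebraMap ℝ S (1 / 6) • embT u) := by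
  have h6 := eig_m2 h
  rw [emb_smul, ← h6, smul_smul]
  have : algebraMap ℝ S (1 / 6) * 6 = 1 := by
    have e : (6 : S) = algebraMap ℝ S 6 := (map_ofNat (algebraMap ℝ S) 6).symm
    rw [e, ← map_mul]; norm_num
  rw [this, one_smul]

end ring

/-! ### local data -/

section loc

variable {M : Type*} [TopologicalSpace M] [ChartedSpace (EuclideanSpace ℝ (Fin 4)) M]
  [IsManifold 𝓘(ℝ, EuclideanSpace ℝ (Fin 4)) ∞ M]
  [RiemannianBundle (fun x : M => TangentSpace 𝓘(ℝ, EuclideanSpace ℝ (Fin 4)) x)]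
  [IsContMDiffRiemannianBundle 𝓘(ℝ, EuclideanSpace ℝ (Fin 4)) ∞ (EuclideanSpace ℝ (Fin 4))
      (fun x : M => TangentSpace 𝓘(ℝ, EuclideanSpace ℝ (Fin 4)) x)]

local notation "𝓘E" => 𝓘(ℝ, EuclideanSpace ℝ (Fin 4))

variable {κ : Type} [Fintype κ]

/-- Local data at `z` of the pair `G = Λ⁻`. -/
structure KerLoc (s : PF 4 M κ)
    (vol : (z : M) → (Fin 4 → TangentSpace 𝓘(ℝ, EuclideanSpace ℝ (Fin 4)) z) → ℝ)
    (D0 : Bun 4 M (Option (κ × κ) × (κ × κ))) (D1 : Bun 4 M (κ × (κ × κ))) {z : M}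
    {e : Fin 4 → EuclideanSpace ℝ (Fin 4) → EuclideanSpace ℝ (Fin 4)}
    (h : ONF (chartMetric 4 M z) (chartAt (EuclideanSpace ℝ (Fin 4)) z).target
      (chartCentre 4 M z) e)
    (jL : Matrix (κ × κ) (Fin 3) (SG (chartCentre 4 M z)))
    (j0 : Matrix (Option (κ × κ) × (κ × κ)) (Fin 4 × Fin 3) (SG (chartCentre 4 M z)))
    (j1 : Matrix (κ × (κ × κ)) (Fin 4 × Fin 3) (SG (chartCentre 4 M z))) : Prop where
  jtj : jLᵀ * jL = 1
  sym : ∀ A y k, vg z e (ccR s vol A (some y)) k =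
    ∑ l, ∑ b, tanJ s z e A l * K _ b l k * jL y b
  none_ : ∀ y a b, j0 (none, y) (a, b) = if a = 0 then jL y b else 0
  cl : CLoc D0 D1 (ccT (ccR s vol) (lamP s vol)) h (Frame.tens (e0 h.frameOf) (asc h.frameOf))
    (Frame.tens h.frameOf.tan (asc h.frameOf)) (tw (cK _)) j0 j1

/-- the vector field of a section -/
def VF (s : PF 4 M κ)
    (vol : (z : M) → (Fin 4 → TangentSpace 𝓘(ℝ, EuclideanSpace ℝ (Fin 4)) z) → ℝ)
    (D0 : Bun 4 M (Option (κ × κ) × (κ × κ))) (u : Option (κ × κ) × (κ × κ) → M → ℝ) (z : M) :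
    TangentSpace 𝓘(ℝ, EuclideanSpace ℝ (Fin 4)) z :=
  (1 / 6 : ℝ) • ∑ A, (∑ y, (inner ℝ (D0.cv u (none, y) z) (ccR s vol A (some y) z) : ℝ)) • s.s A z

variable {s : PF 4 M κ}
  {vol : (z : M) → (Fin 4 → TangentSpace 𝓘(ℝ, EuclideanSpace ℝ (Fin 4)) z) → ℝ}
  {D0 : Bun 4 M (Option (κ × κ) × (κ × κ))} {D1 : Bun 4 M (κ × (κ × κ))}
  (smR : ∀ A y q, VSm 4 ∞ (ccR s vol A (some y)) q)

section VFs
variable {u : Option (κ × κ) × (κ × κ) → M → ℝ} (hu : SmU (n := 4) u)
include smR hu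

lemma sm_co (A : κ) : ContMDiff 𝓘E 𝓘(ℝ, ℝ) ∞
    (fun z => ∑ y, (inner ℝ (D0.cv u (none, y) z) (ccR s vol A (some y) z) : ℝ)) :=
  ContMDiff.sum fun y _ => Dic805.contMDiff_inner (VSm_cv D0 hu (none, y)) (smR A y)

lemma VSm_VF (z : M) : VSm 4 ∞ (VF s vol D0 u) z := by
  have h1 : VSm 4 ∞ (fun z => ∑ A, (∑ y, (inner ℝ (D0.cv u (none, y) z)
      (ccR s vol A (some y) z) : ℝ)) • s.s A z) z :=
    VSm.sum _ fun A _ => VSm.smul le_rfl (sm_co (D0 := D0) smR hu A).contMDiffAt (s.sm A z)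
  exact VSm.smul (f := fun _ => (1 / 6 : ℝ)) le_rfl contMDiffAt_const h1

end VFs

variable {z : M} {e : Fin 4 → EuclideanSpace ℝ (Fin 4) → EuclideanSpace ℝ (Fin 4)}
  {h : ONF (chartMetric 4 M z) (chartAt (EuclideanSpace ℝ (Fin 4)) z).target
      (chartCentre 4 M z) e}
  {jL : Matrix (κ × κ) (Fin 3) (SG (chartCentre 4 M z))}
  {j0 : Matrix (Option (κ × κ) × (κ × κ)) (Fin 4 × Fin 3) (SG (chartCentre 4 M z))}
  {j1 : Matrix (κ × (κ × κ)) (Fin 4 × Fin 3) (SG (chartCentre 4 M z))}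
  (L : KerLoc s vol D0 D1 h jL j0 j1)
include L smR

/-- components of the vector field of a section -/
theorem vg_VF {u : Option (κ × κ) × (κ × κ) → M → ℝ} (hu : SmU (n := 4) u) (hs : D0.Sec u)
    {σ : Fin 3 → SG (chartCentre 4 M z)} (hσ : j0ᵀ *ᵥ fv z u = emb σ) (k : Fin 4) :
    vg z e (VF s vol D0 u) k = Frame.third * V3 h.frameOf σ k := by
  have s1 := fun A => sm_co (D0 := D0) smR hu A
  have s2 : ∀ A q, VSm 4 ∞ (fun z => (∑ y, (inner ℝ (D0.cv u (none, y) z)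
      (ccR s vol A (some y) z) : ℝ)) • s.s A z) q := fun A q =>
    VSm.smul le_rfl (s1 A).contMDiffAt (s.sm A q)
  have s3 : ∀ q, VSm 4 ∞ (fun z => ∑ A, (∑ y, (inner ℝ (D0.cv u (none, y) z)
      (ccR s vol A (some y) z) : ℝ)) • s.s A z) q := fun q => VSm.sum _ fun A _ => s2 A q
  have e0 : vg z e (VF s vol D0 u) k = (1 / 6 : ℝ) • vg z e (fun z => ∑ A,
      (∑ y, (inner ℝ (D0.cv u (none, y) z) (ccR s vol A (some y) z) : ℝ)) • s.s A z) k :=
    vg_csmul h (1 / 6) s3 k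
  have e1 : ∀ y i, vg z e (D0.cv u (none, y)) i =
      ∑ b, jL y b * (2 * h.frameOf.cov (asc h.frameOf) i σ b) := by
    intro y i
    rw [lf_cv L.cl.l0 hu hs, hσ, cov_emb, Matrix.mulVec, dotProduct, Fintype.sum_prod_type]
    simp only [L.none_, ite_mul, zero_mul]
    rw [Finset.sum_comm]
    refine Finset.sum_congr rfl fun b _ => ?_
    rw [Finset.sum_ite_eq', if_pos (Finset.mem_univ _)]
    congr 1
    fin_cases b <;> simp [emb]
  have e2 : ∀ A, fg z (fun z => ∑ y, (inner ℝ (D0.cv u (none, y) z)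
      (ccR s vol A (some y) z) : ℝ)) = ∑ y, ∑ i,
        (∑ b, jL y b * (2 * h.frameOf.cov (asc h.frameOf) i σ b)) *
        (∑ l, ∑ b, tanJ s z e A l * K _ b l i * jL y b) := by
    intro A
    rw [fg_sum (n := 4) (z := z) Finset.univ
      (F := fun y z => (inner ℝ (D0.cv u (none, y) z) (ccR s vol A (some y) z) : ℝ))
      (fun y => Dic805.contMDiff_inner (VSm_cv D0 hu (none, y)) (smR A y))]
    refine Finset.sum_congr rfl fun y _ => ?_
    rw [fg_inner h (VSm_cv D0 hu (none, y)) (smR A y)]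
    exact Finset.sum_congr rfl fun i _ => by rw [e1, L.sym]
  have e3 : vg z e (fun z => ∑ A,
      (∑ y, (inner ℝ (D0.cv u (none, y) z) (ccR s vol A (some y) z) : ℝ)) • s.s A z) k =
      2 * V3 h.frameOf σ k := by
    rw [vg_sum h _ s2]
    have e4 := vf_ring (tanJ_jtj s h) L.jtj (fun i b => h.frameOf.cov (asc h.frameOf) i σ b) k
    rw [V3, ← e4]
    refine Finset.sum_congr rfl fun A _ => ?_
    rw [vg_smul h (s1 A) (s.sm A), e2]
    rfl
  rw [e0, e3, Frame.third, Algebra.smul_def]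
  have e5 : algebraMap ℝ (SG (chartCentre 4 M z)) (1 / 6) * 2 = algebraMap ℝ _ (1 / 3) := by
    have e : (2 : SG (chartCentre 4 M z)) = algebraMap ℝ _ 2 :=
      (map_ofNat (algebraMap ℝ (SG (chartCentre 4 M z))) 2).symm
    rw [e, ← map_mul]; norm_num
  rw [← mul_assoc, e5]

end loc

end Crest.Agent.R249.Ker57
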