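import Crest.Agent.R249.Ker57e_57

/-!
# R249 part C, [KER] 6 (helper57): assembly.
-/

set_option autoImplicit false
set_option linter.unusedSectionVars false
set_option linter.unusedSimpArgs false
set_option maxSynthPendingDepth 3

open Filter Topology Set Bundle Manifold Matrix MeasureTheory
open scoped ContDiff ENNReal NNReal
open Crest.GeometryTopology.CoordMetric Crest.GeometryTopology.ChartCurvature
  Crest.GeometryTopology.PointedLimit
open Crest.Agent.R202.Tens Crest.Agent.R247.Bo84 Crest.Agent.R249.Vf281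
  Crest.Agent.R249.Tz1_805 Crest.Agent.R249.Tz2_805
open Crest.Agent.R249.Fr129 Crest.Agent.R249.C2_198
open Crest.Agent.R247.Ms322 Crest.Agent.R247.Dir593 Crest.Agent.R247.Frd657
open Crest.Agent.R249.Tv57
open Crest.Agent.R249.Sg129 hiding fg fg_add fg_sub fg_mul fg_const fg_sum ev_fg contMDiff_inner
  VSm_mCov fg_zero
open Crest.Agent.R249.Tz805 Crest.Agent.R249.Wk198 Crest.Agent.R249.Kil1_805
open Crest.Agent.R249.HK9_714 (WD)

noncomputable section

namespace Crest.Agent.R249.Ker57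

variable {M : Type*} [MetricSpace M] [ChartedSpace (EuclideanSpace ℝ (Fin 4)) M]
  [IsManifold (𝓡 4) ∞ M]
  [RiemannianBundle (fun p : M => TangentSpace (𝓡 4) p)]
  [IsContMDiffRiemannianBundle (𝓡 4) ∞ (EuclideanSpace ℝ (Fin 4)) (fun p : M => TangentSpace (𝓡 4) p)]
  [IsRiemannianManifold (𝓡 4) M] [MeasurableSpace M] [BorelSpace M]
  [SecondCountableTopology M] [Nonempty M]

/-- matrices of values -/
def evm {z : M} {α β : Type*} (A : Matrix α β (SG (chartCentre 4 M z))) : Matrix α β ℝ :=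
  A.map (ev : SG (chartCentre 4 M z) →ₐ[ℝ] ℝ)

section evm
variable {z : M} {α β γ : Type*} [Fintype β]

lemma evm_mul (A : Matrix α β (SG (chartCentre 4 M z))) (B : Matrix β γ (SG (chartCentre 4 M z))) :
    evm (A * B) = evm A * evm B := by
  ext i k
  simp [evm, Matrix.mul_apply]

lemma evm_t (A : Matrix α β (SG (chartCentre 4 M z))) : evm Aᵀ = (evm A)ᵀ := rfl

lemma evm_one [DecidableEq α] : evm (1 : Matrix α α (SG (chartCentre 4 M z))) = 1 := by
  ext i k
  by_cases hik : i = k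
  · subst hik; simp [evm]
  · simp [evm, Matrix.one_apply, hik]

lemma evm_NN (c : ℝ) : evm (algebraMap ℝ (SG (chartCentre 4 M z)) c • NN (SG (chartCentre 4 M z))) =
    c • NN ℝ := by
  ext i k
  have e1 : NN (SG (chartCentre 4 M z)) i k = ((NZ i k : ℤ) : SG (chartCentre 4 M z)) := rfl
  have e2 : NN ℝ i k = ((NZ i k : ℤ) : ℝ) := rfl
  rw [Matrix.smul_apply, e2, evm, Matrix.map_apply, Matrix.smul_apply, e1, smul_eq_mul, map_mul,
    map_intCast, smul_eq_mul]
  congr 1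

end evm

variable {κ : Type} [Fintype κ] {T : ToF 4 M}
  {P : CPair 4 M κ (Option (κ × κ) × (κ × κ)) (κ × (κ × κ))}
  {D0 : Dat 4 M (Option (κ × κ) × (κ × κ))} {D1 : Dat 4 M (κ × (κ × κ))}
  {vol : (z : M) → (Fin 4 → TangentSpace (𝓡 4) z) → ℝ}

/-- everything needed at a point -/
structure KerPt (P : CPair 4 M κ (Option (κ × κ) × (κ × κ)) (κ × (κ × κ)))
    (vol : (z : M) → (Fin 4 → TangentSpace (𝓡 4) z) → ℝ) (c : ℝ) {z : M}
    {e : Fin 4 → EuclideanSpace ℝ (Fin 4) → EuclideanSpace ℝ (Fin 4)}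
    (h : ONF (chartMetric 4 M z) (chartAt (EuclideanSpace ℝ (Fin 4)) z).target
      (chartCentre 4 M z) e) : Prop where
  ein : ∃ lam, h.frameOf.Einstein lam
  csc : CScal h.frameOf (algebraMap ℝ _ c)
  loc : ∃ jL j0 j1, KerLoc P.s vol P.D0 P.D1 h jL j0 j1

section pt

variable (W : WD T P D0 D1) (hcc : P.cc = ccT (ccR P.s vol) (lamP P.s vol)) {c : ℝ}
  {z : M} {e : Fin 4 → EuclideanSpace ℝ (Fin 4) → EuclideanSpace ℝ (Fin 4)}
  {h : ONF (chartMetric 4 M z) (chartAt (EuclideanSpace ℝ (Fin 4)) z).target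
      (chartCentre 4 M z) e}
  {jL : Matrix (κ × κ) (Fin 3) (SG (chartCentre 4 M z))}
  {j0 : Matrix (Option (κ × κ) × (κ × κ)) (Fin 4 × Fin 3) (SG (chartCentre 4 M z))}
  {j1 : Matrix (κ × (κ × κ)) (Fin 4 × Fin 3) (SG (chartCentre 4 M z))}
  (L : KerLoc P.s vol P.D0 P.D1 h jL j0 j1) (hC : CScal h.frameOf (algebraMap ℝ _ c))
include W hcc L hC

lemma germQ : (Matrix.of fun y y' => fg (n := 4) z (D0.Q y y')) =
    j0 * (algebraMap ℝ (SG (chartCentre 4 M z)) c • NN (SG (chartCentre 4 M z))) * j0ᵀ := by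
  have hc' : CLoc P.D0 P.D1 P.cc h (Frame.tens (e0 h.frameOf) (asc h.frameOf))
    (Frame.tens h.frameOf.tan (asc h.frameOf)) (tw (cK _)) j0 j1 := by
    rw [hcc]; exact L.cl
  rw [W.germ0 hc', Q0_twist hC]

lemma valJ : (evm j0)ᵀ * evm j0 = 1 := by
  rw [← evm_t, ← evm_mul, L.cl.l0.jtj, evm_one]

lemma valQ : (Matrix.of fun y y' => D0.Q y y' z) = evm j0 * (c • NN ℝ) * (evm j0)ᵀ := by
  rw [← evm_NN (M := M) (z := z) c, ← evm_t, ← evm_mul, ← evm_mul, ← germQ W hcc L hC]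
  ext y y'
  exact (Tz805.ev_fg (n := 4) (M := M) (z := z) (D0.smQ y y')).symm

lemma valp : (Matrix.of fun y y' => D0.p y y' z) = evm j0 * (evm j0)ᵀ := by
  rw [← evm_t, ← evm_mul, L.cl.l0.jjt, W.p0]
  ext y y'
  exact (Tz805.ev_fg (n := 4) (M := M) (z := z) (P.D0.smp y y')).symm

end pt

section glob

variable (W : WD T P D0 D1) (hcc : P.cc = ccT (ccR P.s vol) (lamP P.s vol)) {c : ℝ}
  (hloc : ∀ z, ∃ e, ∃ h : ONF (chartMetric 4 M z) (chartAt (EuclideanSpace ℝ (Fin 4)) z).target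
      (chartCentre 4 M z) e, KerPt P vol c h)
include W hcc hloc

theorem polyPot : PolyPot D0 c where
  qp a b z := by
    obtain ⟨e, h, hp⟩ := hloc z
    obtain ⟨jL, j0, j1, L⟩ := hp.loc
    have h1 := valJ W hcc L hp.csc
    have h2 := valQ W hcc L hp.csc
    have h3 := valp W hcc L hp.csc
    have h4 : (Matrix.of fun y y' => D0.Q y y' z) * (Matrix.of fun y y' => D0.p y y' z) =
        Matrix.of fun y y' => D0.Q y y' z := by
      rw [h2, h3]
      have : evm j0 * (c • NN ℝ) * (evm j0)ᵀ * (evm j0 * (evm j0)ᵀ) =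
          evm j0 * (c • NN ℝ) * ((evm j0)ᵀ * evm j0) * (evm j0)ᵀ := by
        simp only [Matrix.mul_assoc]
      rw [this, h1, Matrix.mul_one]
    have h5 := congrFun (congrFun h4 a) b
    rw [Matrix.mul_apply] at h5
    exact h5
  par a b z := by
    obtain ⟨e, h, hp⟩ := hloc z
    obtain ⟨jL, j0, j1, L⟩ := hp.loc
    have hN : ∀ k x y, h.frameOf.D k ((algebraMap ℝ (SG (chartCentre 4 M z)) c •
        NN (SG (chartCentre 4 M z))) x y) = 0 := by
      intro k x y
      have e1 : NN (SG (chartCentre 4 M z)) x y = ((NZ x y : ℤ) : SG (chartCentre 4 M z)) := rfl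
      rw [Matrix.smul_apply, e1, smul_eq_mul, Derivation.leibniz, D_intCast,
        Derivation.map_algebraMap, smul_zero, smul_zero, add_zero]
    have hcm : ∀ k, Frame.tens (e0 h.frameOf) (asc h.frameOf) k *
        (algebraMap ℝ (SG (chartCentre 4 M z)) c • NN (SG (chartCentre 4 M z))) =
        (algebraMap ℝ (SG (chartCentre 4 M z)) c • NN (SG (chartCentre 4 M z))) *
          Frame.tens (e0 h.frameOf) (asc h.frameOf) k := by
      intro k
      rw [Matrix.mul_smul, Matrix.smul_mul, NN_comm]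
    have h1 := par_pt (n := 4) L.cl.l0 hN hcm (Q := D0.Q) D0.smQ (germQ W hcc L hp.csc) a b
    have h2 := congrArg (T.toF z) h1
    rw [map_add, map_sum, T.grad _ _ (D0.smQ a b), map_zero] at h2
    simp only [map_sub, map_smul, ← W.X0] at h2
    exact h2
  poly z := by
    obtain ⟨e, h, hp⟩ := hloc z
    obtain ⟨jL, j0, j1, L⟩ := hp.loc
    exact polyAt_of (valJ W hcc L hp.csc) (valQ W hcc L hp.csc)

theorem finrank_W0 (hc : c ≠ 0) (z : M) : Module.finrank ℝ (W0 D0 z) ≤ 1 := by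
  obtain ⟨e, h, hp⟩ := hloc z
  obtain ⟨jL, j0, j1, L⟩ := hp.loc
  have h1 : W0 D0 z ≤ Submodule.span ℝ {evm j0 *ᵥ embd (1:ℝ)} := by
    rintro y ⟨hy1, hy2⟩
    have := ker_pt (valJ W hcc L hp.csc) hc (valQ W hcc L hp.csc) (valp W hcc L hp.csc) hy1 hy2
    rw [this]
    exact Submodule.smul_mem _ _ (Submodule.mem_span_singleton_self _)
  exact (Submodule.finrank_mono h1).trans ((finrank_span_le_card _).trans (by simp))

/-- **counting** -/
theorem count [CompactSpace M] [PreconnectedSpace M] [IsFiniteMeasureOnCompacts (μHE[4] : Measure M)]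
    (hc : 0 < c) {R : DPair D0 D1} {N : ℕ} (K : KerD D0 R.A N) :
    N ≤ Module.finrank ℝ (kerSub2 R c) + 1 := by
  obtain ⟨z0⟩ := (inferInstance : Nonempty M)
  exact ker_count (polyPot W hcc hloc) hc K z0 (finrank_W0 W hcc hloc hc.ne' z0)

end glob

/-! ### twistor sections -/

section tw

variable (W : WD T P D0 D1) (hcc : P.cc = ccT (ccR P.s vol) (lamP P.s vol)) {c : ℝ} (hc : c ≠ 0)
  {R : DPair D0 D1} (hR : R.A = opA P.D0 P.cc)
include W hcc hc hR

/-- the local form of a twistor section -/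
theorem exists_sigma {u : Option (κ × κ) × (κ × κ) → M → ℝ} (hu : u ∈ kerSub2 R c) {z : M}
    {e : Fin 4 → EuclideanSpace ℝ (Fin 4) → EuclideanSpace ℝ (Fin 4)}
    {h : ONF (chartMetric 4 M z) (chartAt (EuclideanSpace ℝ (Fin 4)) z).target
      (chartCentre 4 M z) e}
    {jL : Matrix (κ × κ) (Fin 3) (SG (chartCentre 4 M z))}
    {j0 : Matrix (Option (κ × κ) × (κ × κ)) (Fin 4 × Fin 3) (SG (chartCentre 4 M z))}
    {j1 : Matrix (κ × (κ × κ)) (Fin 4 × Fin 3) (SG (chartCentre 4 M z))}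
    (L : KerLoc P.s vol P.D0 P.D1 h jL j0 j1) (hC : CScal h.frameOf (algebraMap ℝ _ c)) :
    ∃ σ : Fin 3 → SG (chartCentre 4 M z), j0ᵀ *ᵥ fv z u = emb σ ∧
      TwistM h.frameOf σ (fun j => Frame.third * V3 h.frameOf σ j) := by
  obtain ⟨⟨hu1, hu2, hu3⟩, hu4⟩ := hu
  have hs : P.D0.Sec u := by
    intro a q
    rw [← W.p0]
    exact hu2 a q
  have hsec := lf_sec L.cl.l0 hu1 hs
  set v := j0ᵀ *ᵥ fv z u with hv
  set c' : SG (chartCentre 4 M z) := algebraMap ℝ _ c with hc'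
  -- the eigenvalue equation
  have e1 : (Matrix.of fun y y' => fg (n := 4) z (D0.Q y y')) *ᵥ fv z u = (-(2 * c')) • fv z u := by
    funext a
    have f1 : (fun q => ∑ b, D0.Q a b q * u b q) = fun q => (-(2 * c)) * u a q := funext fun q => hu4 a q
    have f2 : fg (n := 4) z (fun q => ∑ b, D0.Q a b q * u b q) = fg z (fun q => (-(2 * c)) * u a q) := by
      rw [f1]
    rw [fg_sum (n := 4) (z := z) Finset.univ (F := fun b q => D0.Q a b q * u b q)
      (fun b => (D0.smQ a b).mul (hu1 b)), fg_cmul (n := 4) (z := z) _ (hu1 a)] at f2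
    rw [Pi.smul_apply, smul_eq_mul, Matrix.mulVec, dotProduct]
    have f3 : ∀ b, fg (n := 4) z (fun q => D0.Q a b q * u b q) = fg z (D0.Q a b) * fg z (u b) :=
      fun b => fg_mul (D0.smQ a b) (hu1 b)
    simp only [f3] at f2
    refine Eq.trans ?_ (f2.trans ?_)
    · rfl
    · rw [Algebra.smul_def, map_neg, map_mul, map_ofNat]
      rfl
  have e2 : (c' • NN (SG (chartCentre 4 M z))) *ᵥ v = (-(2 * c')) • v := by
    have f1 := congrArg (fun w => j0ᵀ *ᵥ w) e1
    simp only [germQ W hcc L hC, ← Matrix.mulVec_mulVec, Matrix.mulVec_smul] at f1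
    rw [← hv] at f1
    simp only [Matrix.mulVec_mulVec] at f1
    rw [← Matrix.mul_assoc, L.cl.l0.jtj, Matrix.one_mul] at f1
    exact f1
  have e3 : NN (SG (chartCentre 4 M z)) *ᵥ v = (-2 : SG (chartCentre 4 M z)) • v := by
    have f1 : algebraMap ℝ (SG (chartCentre 4 M z)) c⁻¹ * c' = 1 := by
      rw [hc', ← map_mul, inv_mul_cancel₀ hc, map_one]
    have f2 := congrArg (fun w => algebraMap ℝ (SG (chartCentre 4 M z)) c⁻¹ • w) e2
    simp only [Matrix.smul_mulVec, smul_smul, f1, one_smul] at f2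
    rw [f2]
    congr 1
    linear_combination -2 * f1
  refine ⟨_, eq_emb e3, twistM_of h.frameOf ?_⟩
  rw [← eq_emb e3]
  -- the operator
  have hc'' : CLoc P.D0 P.D1 P.cc h (Frame.tens (e0 h.frameOf) (asc h.frameOf))
    (Frame.tens h.frameOf.tan (asc h.frameOf)) (tw (cK _)) j0 j1 := by
    rw [hcc]; exact L.cl
  have e4 := cl_opA hc'' P.smc hu1 hs
  have e5 : fv (n := 4) z (opA P.D0 P.cc u) = 0 := by
    funext x
    have : opA P.D0 P.cc u x = fun _ => (0:ℝ) := by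
      funext q
      rw [← hR]
      exact hu3 x q
    change fg (n := 4) z (opA P.D0 P.cc u x) = 0
    rw [this]
    exact Tz805.fg_zero (n := 4) (M := M) z
  rw [e5] at e4
  have e6 := congrArg (fun w => j1ᵀ *ᵥ w) e4
  simp only [Matrix.mulVec_zero, Matrix.mulVec_mulVec, L.cl.l1.jtj, Matrix.one_mulVec] at e6
  exact e6.symm

end tw

/-! ### assembly -/

section final

variable [CompactSpace M] [PreconnectedSpace M] [IsFiniteMeasureOnCompacts (μHE[4] : Measure M)]

/-- the Killing field of a twistor section, linear -/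
def VL {R : DPair D0 D1} (P : CPair 4 M κ (Option (κ × κ) × (κ × κ)) (κ × (κ × κ)))
    (vol : (z : M) → (Fin 4 → TangentSpace (𝓡 4) z) → ℝ) (c : ℝ) :
    kerSub2 R c →ₗ[ℝ] ((z : M) → TangentSpace (𝓡 4) z) where
  toFun u := VF P.s vol P.D0 (u : Option (κ × κ) × (κ × κ) → M → ℝ)
  map_add' u v := by
    have hu : ∀ a, ContMDiff (𝓡 4) 𝓘(ℝ, ℝ) ∞ ((u : Option (κ × κ) × (κ × κ) → M → ℝ) a) := u.2.1.1
    have hv : ∀ a, ContMDiff (𝓡 4) 𝓘(ℝ, ℝ) ∞ ((v : Option (κ × κ) × (κ × κ) → M → ℝ) a) := v.2.1.1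
    funext z
    have h1 : ∀ a, P.D0.cv ((u + v : kerSub2 R c) : Option (κ × κ) × (κ × κ) → M → ℝ) a z =
        P.D0.cv (u : Option (κ × κ) × (κ × κ) → M → ℝ) a z +
          P.D0.cv (v : Option (κ × κ) × (κ × κ) → M → ℝ) a z := by
      intro a
      rw [Bun.cv, Bun.cv, Bun.cv]
      have e1 : mgrad 4 ((((u + v : kerSub2 R c) : Option (κ × κ) × (κ × κ) → M → ℝ)) a) z =
          mgrad 4 ((u : Option (κ × κ) × (κ × κ) → M → ℝ) a) z +
            mgrad 4 ((v : Option (κ × κ) × (κ × κ) → M → ℝ) a) z :=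
        mgrad_add ((hu a).mdifferentiable (by simp) z) ((hv a).mdifferentiable (by simp) z)
      rw [e1]
      have e2 : ∀ b, (((u + v : kerSub2 R c) : Option (κ × κ) × (κ × κ) → M → ℝ)) b z =
          (u : Option (κ × κ) × (κ × κ) → M → ℝ) b z +
            (v : Option (κ × κ) × (κ × κ) → M → ℝ) b z := fun b => rfl
      simp only [e2, add_smul, Finset.sum_add_distrib]
      abel
    simp only [VF, h1, inner_add_left, Finset.sum_add_distrib, add_smul, smul_add, Pi.add_apply]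
  map_smul' t u := by
    have hu : ∀ a, ContMDiff (𝓡 4) 𝓘(ℝ, ℝ) ∞ ((u : Option (κ × κ) × (κ × κ) → M → ℝ) a) := u.2.1.1
    funext z
    have h1 : ∀ a, P.D0.cv ((t • u : kerSub2 R c) : Option (κ × κ) × (κ × κ) → M → ℝ) a z =
        t • P.D0.cv (u : Option (κ × κ) × (κ × κ) → M → ℝ) a z := by
      intro a
      rw [Bun.cv, Bun.cv]
      have e1 : mgrad 4 ((((t • u : kerSub2 R c) : Option (κ × κ) × (κ × κ) → M → ℝ)) a) z =
          t • mgrad 4 ((u : Option (κ × κ) × (κ × κ) → M → ℝ) a) z := by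
        have e3 : ((((t • u : kerSub2 R c) : Option (κ × κ) × (κ × κ) → M → ℝ)) a) =
          fun q => t * (u : Option (κ × κ) × (κ × κ) → M → ℝ) a q := rfl
        rw [e3, mgrad_mul (f := fun _ => t) mdifferentiableAt_const
          ((hu a).mdifferentiable (by simp) z), mgrad_const, smul_zero, add_zero]
      rw [e1]
      have e2 : ∀ b, (((t • u : kerSub2 R c) : Option (κ × κ) × (κ × κ) → M → ℝ)) b z =
          t * (u : Option (κ × κ) × (κ × κ) → M → ℝ) b z := fun b => rfl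
      simp only [e2, smul_add, Finset.smul_sum, mul_smul]
    simp only [VF, h1, real_inner_smul_left, ← Finset.mul_sum, mul_smul, ← Finset.smul_sum,
      RingHom.id_apply, Pi.smul_apply]
    rw [smul_comm]

variable {c : ℝ} {R : DPair D0 D1}

omit [CompactSpace M] [PreconnectedSpace M] [IsFiniteMeasureOnCompacts (μHE[4] : Measure M)] in
/-- the Killing fields, one point -/
theorem kill_pt (W : WD T P D0 D1) (hcc : P.cc = ccT (ccR P.s vol) (lamP P.s vol)) (hc : c ≠ 0)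
    (hR : R.A = opA P.D0 P.cc) (smR : ∀ A y q, VSm 4 ∞ (ccR P.s vol A (some y)) q)
    {z : M} {e : Fin 4 → EuclideanSpace ℝ (Fin 4) → EuclideanSpace ℝ (Fin 4)}
    {h : ONF (chartMetric 4 M z) (chartAt (EuclideanSpace ℝ (Fin 4)) z).target
      (chartCentre 4 M z) e} (hp : KerPt P vol c h)
    {u : Option (κ × κ) × (κ × κ) → M → ℝ} (hu : u ∈ kerSub2 R c) :
    Kill h.frameOf (vg z e (VF P.s vol P.D0 u)) ∧
      ((∀ k, vg z e (VF P.s vol P.D0 u) k = 0) → ∀ a, u a z = 0) := by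
  obtain ⟨jL, j0, j1, L⟩ := hp.loc
  obtain ⟨lam, hE⟩ := hp.ein
  obtain ⟨σ, h1, h2⟩ := exists_sigma W hcc hc hR hu L hp.csc
  have hs : P.D0.Sec u := by
    intro a q
    rw [← W.p0]
    exact hu.1.2.1 a q
  have h3 : vg z e (VF P.s vol P.D0 u) = fun j => Frame.third * V3 h.frameOf σ j :=
    funext fun k => vg_VF smR L hu.1.1 hs h1 k
  have h4 := twist_killing h.frameOf hE (κ := algebraMap ℝ _ c) hp.csc h2
  refine ⟨by rw [h3]; exact h4.1, fun h0 a => ?_⟩
  have h5 : (fun j => Frame.third * V3 h.frameOf σ j) = 0 := by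
    rw [← h3]; funext k; exact h0 k
  have h6 : ∀ k j, BV h.frameOf (fun j => Frame.third * V3 h.frameOf σ j) k j = 0 := by
    intro k j
    rw [h5]
    simp [BV, Frame.cov]
  have h7 : σ = 0 := by
    funext b
    have h8 := h4.2 h6 b
    have f1 : algebraMap ℝ (SG (chartCentre 4 M z)) c⁻¹ * algebraMap ℝ _ c = 1 := by
      rw [← map_mul, inv_mul_cancel₀ hc, map_one]
    have h9 := congrArg (fun w => algebraMap ℝ (SG (chartCentre 4 M z)) c⁻¹ * w) h8
    simp only [← mul_assoc, f1, one_mul, mul_zero] at h9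
    exact h9
  have h8 := lf_sec L.cl.l0 hu.1.1 hs
  rw [h1, h7, emb_zero, Matrix.mulVec_zero] at h8
  have h9 := congrFun h8 a
  have h10 : fg (n := 4) z (u a) = 0 := h9.symm
  have h11 := Tz805.ev_fg (n := 4) (M := M) (z := z) (hu.1.1 a)
  rw [h10, map_zero] at h11
  exact h11.symm

/-- **[KER]**: the kernel of `A` for `G = Λ⁻` gives Killing fields. -/
theorem kill_of_ker (W : WD T P D0 D1) (hcc : P.cc = ccT (ccR P.s vol) (lamP P.s vol)) (hc : 0 < c)
    (hR : R.A = opA P.D0 P.cc) (smR : ∀ A y q, VSm 4 ∞ (ccR P.s vol A (some y)) q)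
    (Pos : (z : M) → (Fin 4 → EuclideanSpace ℝ (Fin 4) → EuclideanSpace ℝ (Fin 4)) → Prop)
    (hloc : ∀ z, ∃ e, ∃ h : ONF (chartMetric 4 M z) (chartAt (EuclideanSpace ℝ (Fin 4)) z).target
      (chartCentre 4 M z) e, Pos z e ∧ KerPt P vol c h)
    {N : ℕ} (hN : 6 ≤ N) (K : KerD D0 R.A N) :
    ∃ (V : kerSub2 R c →ₗ[ℝ] ((z : M) → TangentSpace (𝓡 4) z)) (hsm : ∀ k q, VSm 4 ∞ (V k) q),
      Function.Injective V ∧ 5 ≤ Module.finrank ℝ (kerSub2 R c) ∧
      ∀ q, ∃ (e : Fin 4 → EuclideanSpace ℝ (Fin 4) → EuclideanSpace ℝ (Fin 4))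
        (h : ONF (chartMetric 4 M q) (chartAt (EuclideanSpace ℝ (Fin 4)) q).target
          (chartCentre 4 M q) e), Pos q e ∧ ∀ k, Kill h.frameOf (Kg3_285.vc h (hsm k q)) := by
  have hloc' : ∀ z, ∃ e, ∃ h : ONF (chartMetric 4 M z)
      (chartAt (EuclideanSpace ℝ (Fin 4)) z).target (chartCentre 4 M z) e, KerPt P vol c h := by
    intro z
    obtain ⟨e, h, -, hp⟩ := hloc z
    exact ⟨e, h, hp⟩
  have hsm : ∀ (k : kerSub2 R c) q, VSm 4 ∞ (VL (R := R) P vol c k) q := fun k q =>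
    VSm_VF smR k.2.1.1 q
  refine ⟨VL P vol c, hsm, ?_, ?_, ?_⟩
  · rw [← LinearMap.ker_eq_bot, LinearMap.ker_eq_bot']
    intro k hk
    apply Subtype.ext
    funext a z
    obtain ⟨e, h, hp⟩ := hloc' z
    refine (kill_pt W hcc hc.ne' hR smR hp k.2).2 (fun i => ?_) a
    have : VF P.s vol P.D0 (k : Option (κ × κ) × (κ × κ) → M → ℝ) = fun _ => 0 := hk
    rw [this]
    exact vg_zero h i
  · have := count W hcc hloc' hc K
    omega
  · intro q
    obtain ⟨e, h, hpos, hp⟩ := hloc q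
    refine ⟨e, h, hpos, fun k => ?_⟩
    rw [Kg5_285.vc_eq_vg]
    exact (kill_pt W hcc hc.ne' hR smR hp k.2).1

end final

end Crest.Agent.R249.Ker57
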