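import Crest.Agent.R249.Kg2_285
import Crest.Agent.R249.SgD_129
import Crest.Agent.R249.Vf1_281
import Crest.Agent.R249.FrmD_285

/-!
# R249, C3-GLOB (helper285), part 3: unique continuation for Killing fields

`uc_ball` (Gronwall), `uc_germ` (a closed linear first order system of germs), `vc` (components of
a vector field in an orthonormal frame germ), `kill_uc` (a Killing field on a connected manifold
which vanishes to first order at a point is zero; any dimension, no completeness).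
-/

set_option autoImplicit false
set_option maxSynthPendingDepth 3
set_option linter.unusedSectionVars false

open Filter Topology Set Bundle
open scoped ContDiff Manifold
open Crest.GeometryTopology.CoordMetric Crest.GeometryTopology.ChartCurvature
  Crest.GeometryTopology.PointedLimit
open Crest.Agent.R202.Tens Crest.Agent.R247.Bo84 Crest.Agent.R249.FrmB_285
open Crest.Agent.R249.Fr129 Crest.Agent.R249.Sg129 Crest.Agent.R249.Vf281
  Crest.Agent.R249.Kil1_805

noncomputable section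

namespace Crest.Agent.R249.Kg3_285

/-! ### Gronwall -/

theorem uc_ball {E G : Type*} [NormedAddCommGroup E] [NormedSpace ℝ E] [NormedAddCommGroup G]
    [NormedSpace ℝ G] {f : E → G} {s : Set E} (hs : Convex ℝ s) {C : ℝ}
    (hd : ∀ y ∈ s, DifferentiableAt ℝ f y) (hC : ∀ y ∈ s, ‖fderiv ℝ f y‖ ≤ C * ‖f y‖)
    {a b : E} (ha : a ∈ s) (hb : b ∈ s) (h0 : f a = 0) : f b = 0 := by
  set γ : ℝ → E := fun t => a + t • (b - a) with hγ
  have hmem : ∀ t ∈ Icc (0:ℝ) 1, γ t ∈ s := by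
    intro t ht
    have h1 := hs.add_smul_sub_mem ha hb ht
    exact h1
  have hγd : ∀ t, HasDerivAt γ (b - a) t := by
    intro t
    have h1 : HasDerivAt (fun t : ℝ => t • (b - a)) ((1:ℝ) • (b - a)) t :=
      (hasDerivAt_id t).smul_const (b - a)
    rw [one_smul] at h1
    exact h1.const_add a
  have hφ : ∀ t ∈ Icc (0:ℝ) 1, HasDerivAt (fun t => f (γ t)) (fderiv ℝ f (γ t) (b - a)) t :=
    fun t ht => (hd _ (hmem t ht)).hasFDerivAt.comp_hasDerivAt t (hγd t)
  have hg := norm_le_gronwallBound_of_norm_deriv_right_le (f := fun t => f (γ t))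
    (f' := fun t => fderiv ℝ f (γ t) (b - a)) (δ := 0) (K := C * ‖b - a‖) (ε := 0)
    (a := 0) (b := 1)
    (fun t ht => (hφ t ht).continuousAt.continuousWithinAt)
    (fun t ht => (hφ t ⟨ht.1, ht.2.le⟩).hasDerivWithinAt)
    (by simp [hγ, h0]) (fun t ht => by
      have h1 := hC _ (hmem t ⟨ht.1, ht.2.le⟩)
      calc ‖fderiv ℝ f (γ t) (b - a)‖ ≤ ‖fderiv ℝ f (γ t)‖ * ‖b - a‖ :=
            ContinuousLinearMap.le_opNorm _ _
        _ ≤ (C * ‖f (γ t)‖) * ‖b - a‖ := by gcongr
        _ = C * ‖b - a‖ * ‖f (γ t)‖ + 0 := by ring)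
    1 (by simp)
  rw [gronwallBound_ε0_δ0] at hg
  have h1 : γ 1 = b := by simp [hγ]
  have h2 : ‖f (γ 1)‖ = 0 := le_antisymm hg (norm_nonneg _)
  rw [h1] at h2
  exact norm_eq_zero.1 h2

section germ

variable {n : ℕ}

local notation "𝔼" => EuclideanSpace ℝ (Fin n)

variable {x : EuclideanSpace ℝ (Fin n)}

/-- a closed linear system of germs has unique continuation on a small ball. -/
theorem uc_germ {ι : Type*} [Fintype ι] {u : ι → 𝔼 → ℝ} (hu : ∀ b, ContDiffAt ℝ ∞ (u b) x)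
    (hI : ∀ a b, pd a (germ (u b) (hu b)) ∈ Ideal.span (Set.range fun c => germ (u c) (hu c))) :
    ∃ r > 0, ∀ y₁ ∈ Metric.ball x r, (∀ c, u c y₁ = 0) → ∀ y ∈ Metric.ball x r, ∀ c, u c y = 0 := by
  have h1 : ∀ a b, ∃ C : ι → SG x, ∑ c, C c * germ (u c) (hu c) = pd a (germ (u b) (hu b)) :=
    fun a b => Ideal.mem_span_range_iff_exists_fun.1 (hI a b)
  choose C hC using h1
  choose Cf hCf hCg using fun a b c => exists_germ (C a b c)
  have h2 : ∀ a b, ∀ᶠ y in 𝓝 x, pderiv a (u b) y = ∑ c, Cf a b c y * u c y := by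
    intro a b
    have h := hC a b
    simp only [← hCg, germ_mul] at h
    rw [germ_sum, pd_germ] at h
    exact (germ_eq_iff.1 h).symm
  set B : ℝ := ∑ a, ∑ b, ∑ c, (|Cf a b c x| + 1) with hB
  have hB0 : 0 ≤ B := by positivity
  have hBle : ∀ a b c, |Cf a b c x| + 1 ≤ B := by
    intro a b c
    calc |Cf a b c x| + 1 ≤ ∑ c, (|Cf a b c x| + 1) :=
          Finset.single_le_sum (f := fun c => |Cf a b c x| + 1) (fun _ _ => by positivity)
            (Finset.mem_univ c)
      _ ≤ ∑ b, ∑ c, (|Cf a b c x| + 1) :=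
          Finset.single_le_sum (f := fun b => ∑ c, (|Cf a b c x| + 1))
            (fun _ _ => by positivity) (Finset.mem_univ b)
      _ ≤ B := Finset.single_le_sum (f := fun a => ∑ b, ∑ c, (|Cf a b c x| + 1))
            (fun _ _ => by positivity) (Finset.mem_univ a)
  have h3 : ∀ a b c, ∀ᶠ y in 𝓝 x, |Cf a b c y| ≤ B := by
    intro a b c
    have hc : ContinuousAt (fun y => |Cf a b c y|) x := (hCf a b c).continuousAt.abs
    have : ∀ᶠ y in 𝓝 x, |Cf a b c y| < |Cf a b c x| + 1 :=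
      hc.eventually_lt_const (lt_add_one _)
    filter_upwards [this] with y hy
    exact hy.le.trans (hBle a b c)
  have h4 : ∀ᶠ y in 𝓝 x, ∀ b, DifferentiableAt ℝ (u b) y :=
    eventually_all.2 fun b => ev_diff (hu b)
  have h5 : ∀ᶠ y in 𝓝 x, (∀ b, DifferentiableAt ℝ (u b) y) ∧
      (∀ a b, pderiv a (u b) y = ∑ c, Cf a b c y * u c y) ∧ ∀ a b c, |Cf a b c y| ≤ B := by
    refine h4.and ((eventually_all.2 fun a => eventually_all.2 fun b => h2 a b).and ?_)
    exact eventually_all.2 fun a => eventually_all.2 fun b => eventually_all.2 fun c => h3 a b c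
  obtain ⟨r, hr, hball⟩ := Metric.eventually_nhds_iff_ball.1 h5
  refine ⟨r, hr, fun y₁ hy₁ hz y hy c => ?_⟩
  set f : 𝔼 → (ι → ℝ) := fun y b => u b y with hf
  have hfd : ∀ y ∈ Metric.ball x r, DifferentiableAt ℝ f y := fun y hy =>
    differentiableAt_pi.2 fun b => (hball y hy).1 b
  have hfC : ∀ y ∈ Metric.ball x r,
      ‖fderiv ℝ f y‖ ≤ (n * (Fintype.card ι * B)) * ‖f y‖ := by
    intro y hy
    obtain ⟨hd, hp, hb⟩ := hball y hy
    refine ContinuousLinearMap.opNorm_le_bound _ (by positivity) fun v => ?_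
    refine (pi_norm_le_iff_of_nonneg (by positivity)).2 fun b => ?_
    have e1 : fderiv ℝ f y v b = fderiv ℝ (u b) y v := by
      have : fderiv ℝ f y = ContinuousLinearMap.pi fun b => fderiv ℝ (u b) y :=
        fderiv_pi fun b => hd b
      rw [this]; rfl
    rw [e1, fderiv_eq_sum, Real.norm_eq_abs]
    have e2 : ∀ a, |v a * pderiv a (u b) y| ≤ ‖v‖ * (Fintype.card ι * B * ‖f y‖) := by
      intro a
      rw [abs_mul]
      have e3 : |v a| ≤ ‖v‖ := by
        have := EuclideanSpace.norm_eq v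
        have h6 : |v a| ^ 2 ≤ ‖v‖ ^ 2 := by
          rw [EuclideanSpace.norm_sq_eq]
          have := Finset.single_le_sum (f := fun i => ‖v i‖ ^ 2) (fun i _ => sq_nonneg _)
            (Finset.mem_univ a)
          simpa [Real.norm_eq_abs] using this
        exact abs_le_of_sq_le_sq' h6 (norm_nonneg v) |>.2 |> fun h => by
          simpa using h
      have e4 : |pderiv a (u b) y| ≤ Fintype.card ι * B * ‖f y‖ := by
        rw [hp a b]
        calc |∑ c, Cf a b c y * u c y| ≤ ∑ c, |Cf a b c y * u c y| :=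
              Finset.abs_sum_le_sum_abs _ _
          _ ≤ ∑ _c : ι, B * ‖f y‖ := by
              refine Finset.sum_le_sum fun c _ => ?_
              rw [abs_mul]
              have : |u c y| ≤ ‖f y‖ := by
                have := norm_le_pi_norm (f y) c
                simpa [Real.norm_eq_abs, hf] using this
              exact mul_le_mul (hb a b c) this (abs_nonneg _) hB0
          _ = Fintype.card ι * B * ‖f y‖ := by
              rw [Finset.sum_const, Finset.card_univ, nsmul_eq_mul]; ring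
      exact mul_le_mul e3 e4 (abs_nonneg _) (norm_nonneg v)
    calc |∑ a, v a * pderiv a (u b) y| ≤ ∑ a, |v a * pderiv a (u b) y| :=
          Finset.abs_sum_le_sum_abs _ _
      _ ≤ ∑ _a : Fin n, ‖v‖ * (Fintype.card ι * B * ‖f y‖) :=
          Finset.sum_le_sum fun a _ => e2 a
      _ = (n * (Fintype.card ι * B)) * ‖f y‖ * ‖v‖ := by
          rw [Finset.sum_const, Finset.card_univ, nsmul_eq_mul, Fintype.card_fin]; ring
  have h6 : f y = 0 := uc_ball (convex_ball x r) hfd hfC hy₁ hy (funext fun c => hz c)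
  exact congrFun h6 c

variable {g : MetricField n} {U : Set (EuclideanSpace ℝ (Fin n))}
  {e : Fin n → EuclideanSpace ℝ (Fin n) → EuclideanSpace ℝ (Fin n)}

/-- coordinate derivatives from frame derivatives. -/
theorem pd_of_frame (h : ONF g U x e) (a : Fin n) (φ : SG x) :
    pd a φ = ∑ i, (h.mf.E.transpose * h.mf.g) i a * h.frameOf.D i φ := by
  have h1 : ∀ i, h.frameOf.D i φ = ∑ k, h.mf.E k i * pd k φ := fun i => MF.frame_D _ i φ
  simp only [h1, Finset.mul_sum]
  rw [Finset.sum_comm]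
  have h2 : ∀ k, ∑ i, (h.mf.E.transpose * h.mf.g) i a * (h.mf.E k i * pd k φ) =
      (if k = a then 1 else 0) * pd k φ := by
    intro k
    have h3 := congrFun (congrFun h.mf.E_Et_g k) a
    rw [Matrix.mul_apply, Matrix.one_apply] at h3
    rw [← h3, Finset.sum_mul]
    exact Finset.sum_congr rfl fun i _ => by ring
  simp only [h2, ite_mul, one_mul, zero_mul, Finset.sum_ite_eq', Finset.mem_univ, if_true]

/-- the prolonged system of a vector field. -/
def pro {S : Type*} [CommRing S] [Algebra ℝ S] (F : Frame n S) (V : Fin n → S) :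
    Fin n ⊕ Fin n × Fin n → S :=
  Sum.elim V fun q => BV F V q.1 q.2

/-- the prolonged system of a Killing field is closed. -/
theorem pro_mem {S : Type*} [CommRing S] [Algebra ℝ S] (F : Frame n S) {V : Fin n → S}
    (hV : Kill F V) (k : Fin n) (b : Fin n ⊕ Fin n × Fin n) :
    F.D k (pro F V b) ∈ Ideal.span (Set.range (pro F V)) := by
  have hv : ∀ i, V i ∈ Ideal.span (Set.range (pro F V)) := fun i =>
    Ideal.subset_span ⟨Sum.inl i, rfl⟩
  have hb : ∀ i j, BV F V i j ∈ Ideal.span (Set.range (pro F V)) := fun i j =>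
    Ideal.subset_span ⟨Sum.inr (i, j), rfl⟩
  rcases b with j | ⟨l, j⟩
  · have h : F.D k (V j) = BV F V k j - ∑ i, F.w k i j * V i := by
      change _ = (F.D k (V j) + ∑ i, F.w k i j * V i) - _
      ring
    change F.D k (V j) ∈ _
    rw [h]
    exact sub_mem (hb k j) (sum_mem fun i _ => Ideal.mul_mem_left _ _ (hv i))
  · have h : F.D k (BV F V l j) = - ∑ i, F.Rm l j i k * V i - ∑ i, F.w k i j * BV F V l i
        + ∑ m, F.w k l m * BV F V m j := by
      rw [← DB_killing F hV, DB]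
      ring
    change F.D k (BV F V l j) ∈ _
    rw [h]
    refine add_mem (sub_mem (neg_mem (sum_mem fun i _ => Ideal.mul_mem_left _ _ (hv i)))
      (sum_mem fun i _ => Ideal.mul_mem_left _ _ (hb l i)))
      (sum_mem fun m _ => Ideal.mul_mem_left _ _ (hb m j))

/-- components of a vector field along the frame. -/
def cf (g : MetricField n) (e : Fin n → EuclideanSpace ℝ (Fin n) → EuclideanSpace ℝ (Fin n))
    (X : EuclideanSpace ℝ (Fin n) → EuclideanSpace ℝ (Fin n)) (i : Fin n)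
    (y : EuclideanSpace ℝ (Fin n)) : ℝ :=
  bil (g y) (X y) (e i y)

theorem cd_cf (h : ONF g U x e) {X : 𝔼 → 𝔼} (hX : ContDiffAt ℝ ∞ X x) (i : Fin n) :
    ContDiffAt ℝ ∞ (cf g e X i) x := h.cd_bil hX (h.smooth i)

/-- the components of a vector field as germs. -/
def vcg (h : ONF g U x e) {X : 𝔼 → 𝔼} (hX : ContDiffAt ℝ ∞ X x) (i : Fin n) : SG x :=
  germ (cf g e X i) (cd_cf h hX i)

/-- the covariant derivative as a function. -/
def bf (g : MetricField n) (e : Fin n → EuclideanSpace ℝ (Fin n) → EuclideanSpace ℝ (Fin n))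
    (X : EuclideanSpace ℝ (Fin n) → EuclideanSpace ℝ (Fin n)) (k j : Fin n)
    (y : EuclideanSpace ℝ (Fin n)) : ℝ :=
  fderiv ℝ (cf g e X j) y (e k y) +
    ∑ i, bil (g y) (cov g (e i) y (e k y)) (e j y) * cf g e X i y

theorem cd_bf (h : ONF g U x e) {X : 𝔼 → 𝔼} (hX : ContDiffAt ℝ ∞ X x) (k j : Fin n) :
    ContDiffAt ℝ ∞ (bf g e X k j) x :=
  (h.cd_D (cd_cf h hX j) k).add (ContDiffAt.sum fun i _ =>
    (h.cd_bil (h.cd_cov i k) (h.smooth j)).mul (cd_cf h hX i))

theorem bf_germ (h : ONF g U x e) {X : 𝔼 → 𝔼} (hX : ContDiffAt ℝ ∞ X x) (k j : Fin n) :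
    BV h.frameOf (vcg h hX) k j = germ (bf g e X k j) (cd_bf h hX k j) := by
  change h.frameOf.D k (vcg h hX j) + ∑ i, h.frameOf.w k i j * vcg h hX i = _
  simp only [vcg, h.D_germ, h.w_germ, germ_mul]
  rw [germ_sum, germ_add]
  exact germ_eq (Eventually.of_forall fun y => rfl)

/-- the prolonged system as functions. -/
def pf (g : MetricField n) (e : Fin n → EuclideanSpace ℝ (Fin n) → EuclideanSpace ℝ (Fin n))
    (X : EuclideanSpace ℝ (Fin n) → EuclideanSpace ℝ (Fin n)) :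
    Fin n ⊕ Fin n × Fin n → EuclideanSpace ℝ (Fin n) → ℝ :=
  Sum.elim (cf g e X) fun q => bf g e X q.1 q.2

theorem cd_pf (h : ONF g U x e) {X : 𝔼 → 𝔼} (hX : ContDiffAt ℝ ∞ X x)
    (b : Fin n ⊕ Fin n × Fin n) : ContDiffAt ℝ ∞ (pf g e X b) x := by
  rcases b with i | ⟨k, j⟩
  · exact cd_cf h hX i
  · exact cd_bf h hX k j

theorem pro_germ (h : ONF g U x e) {X : 𝔼 → 𝔼} (hX : ContDiffAt ℝ ∞ X x)
    (b : Fin n ⊕ Fin n × Fin n) :
    pro h.frameOf (vcg h hX) b = germ (pf g e X b) (cd_pf h hX b) := by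
  rcases b with i | ⟨k, j⟩
  · rfl
  · exact bf_germ h hX k j

theorem eq_zero_of_cf {y : 𝔼} (hg : IsRiemannianOn g U) (hy : y ∈ U)
    (ho : ∀ i j, bil (g y) (e i y) (e j y) = if i = j then 1 else 0) {X : 𝔼 → 𝔼}
    (h0 : ∀ i, cf g e X i y = 0) : X y = 0 := by
  have hF : IsFrame (g y) (fun i => e i y) := Sg129.isFrame_of_orth ho
  rw [hF.expand hg hy (X y)]
  refine Finset.sum_eq_zero fun i _ => ?_
  have : bil (g y) (X y) (e i y) = 0 := h0 i
  rw [this, zero_smul]

/-- **local unique continuation for Killing fields.** -/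
theorem kill_local (h : ONF g U x e) {X : 𝔼 → 𝔼} (hX : ContDiffAt ℝ ∞ X x)
    (hK : Kill h.frameOf (vcg h hX)) :
    ∃ r > 0, Metric.ball x r ⊆ U ∧ ∀ y₁ ∈ Metric.ball x r, (∀ i, cf g e X i y₁ = 0) →
      (∀ k j, bf g e X k j y₁ = 0) → ∀ y ∈ Metric.ball x r, X y = 0 := by
  obtain ⟨r₁, hr₁, h1⟩ := uc_germ (fun b => cd_pf h hX b) (by
    intro a b
    have e1 : (fun c => germ (pf g e X c) (cd_pf h hX c)) = pro h.frameOf (vcg h hX) :=
      funext fun c => (pro_germ h hX c).symm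
    rw [e1, ← pro_germ h hX b, pd_of_frame h]
    exact sum_mem fun i _ => Ideal.mul_mem_left _ _ (pro_mem h.frameOf hK i b))
  obtain ⟨r₂, hr₂, h2⟩ := Metric.eventually_nhds_iff_ball.1
    ((eventually_mem h.riem h.mem).and h.orth)
  refine ⟨min r₁ r₂, lt_min hr₁ hr₂, fun y hy => ?_, fun y₁ hy₁ hc hb y hy => ?_⟩
  · exact (h2 y (Metric.ball_subset_ball (min_le_right _ _) hy)).1
  · have h3 := h1 y₁ (Metric.ball_subset_ball (min_le_left _ _) hy₁) (by
      rintro (i | ⟨k, j⟩)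
      · exact hc i
      · exact hb k j) y (Metric.ball_subset_ball (min_le_left _ _) hy)
    have h4 := h2 y (Metric.ball_subset_ball (min_le_right _ _) hy)
    exact eq_zero_of_cf h.riem h4.1 h4.2 fun i => h3 (Sum.inl i)

theorem cf_zero_of_eventually {y : 𝔼} {X : 𝔼 → 𝔼} (h : ∀ᶠ z in 𝓝 y, X z = 0) :
    (∀ i, cf g e X i y = 0) ∧ ∀ k j, bf g e X k j y = 0 := by
  have h1 : ∀ i, cf g e X i =ᶠ[𝓝 y] fun _ => 0 := by
    intro i
    filter_upwards [h] with z hz
    simp only [cf, hz, map_zero, _root_.zero_apply]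
  have h2 : ∀ i, cf g e X i y = 0 := fun i => (h1 i).self_of_nhds
  refine ⟨h2, fun k j => ?_⟩
  rw [bf, (h1 j).fderiv_eq, fderiv_fun_const]
  simp [h2]

end germ

section mfd

variable {n : ℕ} {M : Type*} [TopologicalSpace M] [ChartedSpace (EuclideanSpace ℝ (Fin n)) M]
  [IsManifold 𝓘(ℝ, EuclideanSpace ℝ (Fin n)) ∞ M]
  [RiemannianBundle (fun x : M => TangentSpace 𝓘(ℝ, EuclideanSpace ℝ (Fin n)) x)]
  [IsContMDiffRiemannianBundle 𝓘(ℝ, EuclideanSpace ℝ (Fin n)) ∞ (EuclideanSpace ℝ (Fin n))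
      (fun x : M => TangentSpace 𝓘(ℝ, EuclideanSpace ℝ (Fin n)) x)]

local notation "𝔼" => EuclideanSpace ℝ (Fin n)
local notation "𝓘E" => 𝓘(ℝ, EuclideanSpace ℝ (Fin n))

/-- the components of a vector field on `M` in an orthonormal frame germ at `p`. -/
def vc {p : M} {e : Fin n → 𝔼 → 𝔼}
    (h : ONF (chartMetric n M p) (chartAt 𝔼 p).target (chartCentre n M p) e)
    {X : (q : M) → TangentSpace 𝓘E q} (hX : VSm n ∞ X p) (i : Fin n) : SG (chartCentre n M p) :=
  vcg h (X := vCh n p X) hX i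

variable {X : (q : M) → TangentSpace 𝓘(ℝ, EuclideanSpace ℝ (Fin n)) q}

theorem eq_zero_of_vCh {p q : M} (hq : q ∈ (chartAt 𝔼 p).source)
    (h : vCh n p X (chartAt 𝔼 p q) = 0) : X q = 0 := by
  have h1 := dSy_vCh (X := X) ((chartAt 𝔼 p).map_source hq)
  rw [h, map_zero, (chartAt 𝔼 p).left_inv hq] at h1
  exact h1.symm

theorem vCh_eq_zero {p : M} {y : 𝔼} (h : X ((chartAt 𝔼 p).symm y) = 0) : vCh n p X y = 0 := by
  rw [vCh, h]
  exact map_zero _

/-- **unique continuation for Killing fields.** -/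
theorem kill_uc [PreconnectedSpace M] (hX : ∀ q, VSm n ∞ X q)
    (hK : ∀ q, ∃ e : Fin n → 𝔼 → 𝔼,
      ∃ h : ONF (chartMetric n M q) (chartAt 𝔼 q).target (chartCentre n M q) e,
        Kill h.frameOf (vc h (hX q)))
    {p : M} {e : Fin n → 𝔼 → 𝔼}
    (h : ONF (chartMetric n M p) (chartAt 𝔼 p).target (chartCentre n M p) e)
    (hKp : Kill h.frameOf (vc h (hX p))) (hv : ∀ i, ev (vc h (hX p) i) = 0)
    (hb : ∀ k j, ev (BV h.frameOf (vc h (hX p)) k j) = 0) (q : M) : X q = 0 := by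
  set Z : Set M := {q | ∀ᶠ q' in 𝓝 q, X q' = 0} with hZ
  have hopen : IsOpen Z := isOpen_setOfPred_eventually_nhds
  have hnhd : ∀ (q : M) (r : ℝ), 0 < r → ∀ᶠ q' in 𝓝 q, q' ∈ (chartAt 𝔼 q).source ∧
      chartAt 𝔼 q q' ∈ Metric.ball (chartCentre n M q) r := by
    intro q r hr
    have h1 : ContinuousAt (chartAt 𝔼 q) q :=
      (chartAt 𝔼 q).continuousAt (mem_chart_source 𝔼 q)
    have h2 : ∀ᶠ q' in 𝓝 q, q' ∈ (chartAt 𝔼 q).source :=
      (chartAt 𝔼 q).open_source.mem_nhds (mem_chart_source 𝔼 q)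
    exact h2.and (h1.eventually (Metric.ball_mem_nhds _ hr))
  have hclosed : IsClosed Z := by
    refine isClosed_of_closure_subset fun q hq => ?_
    obtain ⟨e, h, hKq⟩ := hK q
    obtain ⟨r, hr, -, h1⟩ := kill_local h (X := vCh n q X) (hX q) hKq
    obtain ⟨q', ⟨hs, hbq⟩, hq'⟩ := mem_closure_iff_nhds.1 hq _ (hnhd q r hr)
    have h2 : ∀ᶠ z in 𝓝 (chartAt 𝔼 q q'), vCh n q X z = 0 := by
      have hc : ContinuousAt (chartAt 𝔼 q).symm (chartAt 𝔼 q q') :=
        (chartAt 𝔼 q).continuousAt_symm ((chartAt 𝔼 q).map_source hs)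
      have h3 : ∀ᶠ q'' in 𝓝 ((chartAt 𝔼 q).symm (chartAt 𝔼 q q')), X q'' = 0 := by
        rw [(chartAt 𝔼 q).left_inv hs]
        exact hq'
      filter_upwards [hc.eventually h3] with z hz using vCh_eq_zero hz
    obtain ⟨h4, h5⟩ := cf_zero_of_eventually (g := chartMetric n M q) (e := e) h2
    have h6 := h1 _ hbq h4 h5
    filter_upwards [hnhd q r hr] with q'' hq''
    exact eq_zero_of_vCh hq''.1 (h6 _ hq''.2)
  have hp : p ∈ Z := by
    obtain ⟨r, hr, -, h1⟩ := kill_local h (X := vCh n p X) (hX p) hKp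
    have h6 := h1 _ (Metric.mem_ball_self hr) (fun i => hv i) (fun k j => by
      have h7 := hb k j
      change ev (BV h.frameOf (vcg h (X := vCh n p X) (hX p)) k j) = 0 at h7
      rw [bf_germ, ev_germ] at h7
      exact h7)
    filter_upwards [hnhd p r hr] with q'' hq''
    exact eq_zero_of_vCh hq''.1 (h6 _ hq''.2)
  have huniv : Z = univ := IsClopen.eq_univ ⟨hclosed, hopen⟩ ⟨p, hp⟩
  have hq : q ∈ Z := by rw [huniv]; trivial
  exact hq.self_of_nhds

end mfd

end Crest.Agent.R249.Kg3_285
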