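/-
Row 249, part B2 (helper662): product of two model spaces, and `S^2 × S^2` as `Mdl 4`.
-/
import Crest.Agent.R249.MS_662

set_option autoImplicit false
set_option maxSynthPendingDepth 3

open Real Set Filter Topology
open scoped ContDiff InnerProductSpace
open Crest.Agent.R244.CF (LocIsoAt)
open Crest.Agent.R249.B2Defs_474 (Mdl)

noncomputable section

namespace Crest.Agent.R249.MP_662

/-- orthogonal splitting `R^n = R^a ⊕ R^b` -/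
structure Split (a b n : ℕ) where
  p1 : EuclideanSpace ℝ (Fin n) →L[ℝ] EuclideanSpace ℝ (Fin a)
  p2 : EuclideanSpace ℝ (Fin n) →L[ℝ] EuclideanSpace ℝ (Fin b)
  i1 : EuclideanSpace ℝ (Fin a) →L[ℝ] EuclideanSpace ℝ (Fin n)
  i2 : EuclideanSpace ℝ (Fin b) →L[ℝ] EuclideanSpace ℝ (Fin n)
  p1_i1 : ∀ u, p1 (i1 u) = u
  p1_i2 : ∀ u, p1 (i2 u) = 0
  p2_i1 : ∀ u, p2 (i1 u) = 0
  p2_i2 : ∀ u, p2 (i2 u) = u
  dec : ∀ w, i1 (p1 w) + i2 (p2 w) = w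
  inner_eq : ∀ u v, inner ℝ u v = inner ℝ (p1 u) (p1 v) + inner ℝ (p2 u) (p2 v)

namespace Split

variable {a b n : ℕ} (S : Split a b n)

theorem norm_sq (u : EuclideanSpace ℝ (Fin n)) : ‖u‖ ^ 2 = ‖S.p1 u‖ ^ 2 + ‖S.p2 u‖ ^ 2 := by
  rw [← real_inner_self_eq_norm_sq, ← real_inner_self_eq_norm_sq, ← real_inner_self_eq_norm_sq,
    S.inner_eq]

theorem ext {u v : EuclideanSpace ℝ (Fin n)} (h1 : S.p1 u = S.p1 v) (h2 : S.p2 u = S.p2 v) :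
    u = v := by
  rw [← S.dec u, ← S.dec v, h1, h2]

theorem p1_add (u : EuclideanSpace ℝ (Fin a)) (v : EuclideanSpace ℝ (Fin b)) :
    S.p1 (S.i1 u + S.i2 v) = u := by
  rw [map_add, S.p1_i1, S.p1_i2, add_zero]

theorem p2_add (u : EuclideanSpace ℝ (Fin a)) (v : EuclideanSpace ℝ (Fin b)) :
    S.p2 (S.i1 u + S.i2 v) = v := by
  rw [map_add, S.p2_i1, S.p2_i2, zero_add]

theorem norm_le (u : EuclideanSpace ℝ (Fin n)) : ‖u‖ ≤ ‖S.p1 u‖ + ‖S.p2 u‖ := by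
  have h := S.norm_sq u
  have h1 := norm_nonneg (S.p1 u)
  have h2 := norm_nonneg (S.p2 u)
  have h3 := norm_nonneg u
  nlinarith

/-- a bilinear form on the sum -/
def bil (g1 : EuclideanSpace ℝ (Fin a) →L[ℝ] EuclideanSpace ℝ (Fin a) →L[ℝ] ℝ)
    (g2 : EuclideanSpace ℝ (Fin b) →L[ℝ] EuclideanSpace ℝ (Fin b) →L[ℝ] ℝ) :
    EuclideanSpace ℝ (Fin n) →L[ℝ] EuclideanSpace ℝ (Fin n) →L[ℝ] ℝ :=
  ((ContinuousLinearMap.compL ℝ (EuclideanSpace ℝ (Fin n)) (EuclideanSpace ℝ (Fin a)) ℝ).flip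
      S.p1).comp (g1.comp S.p1) +
  ((ContinuousLinearMap.compL ℝ (EuclideanSpace ℝ (Fin n)) (EuclideanSpace ℝ (Fin b)) ℝ).flip
      S.p2).comp (g2.comp S.p2)

theorem bil_apply (g1 : EuclideanSpace ℝ (Fin a) →L[ℝ] EuclideanSpace ℝ (Fin a) →L[ℝ] ℝ)
    (g2 : EuclideanSpace ℝ (Fin b) →L[ℝ] EuclideanSpace ℝ (Fin b) →L[ℝ] ℝ)
    (u v : EuclideanSpace ℝ (Fin n)) :
    S.bil g1 g2 u v = g1 (S.p1 u) (S.p1 v) + g2 (S.p2 u) (S.p2 v) := rfl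

/-- the product metric -/
def gP (g1 : EuclideanSpace ℝ (Fin a) → EuclideanSpace ℝ (Fin a) →L[ℝ]
      EuclideanSpace ℝ (Fin a) →L[ℝ] ℝ)
    (g2 : EuclideanSpace ℝ (Fin b) → EuclideanSpace ℝ (Fin b) →L[ℝ]
      EuclideanSpace ℝ (Fin b) →L[ℝ] ℝ) (w : EuclideanSpace ℝ (Fin n)) :
    EuclideanSpace ℝ (Fin n) →L[ℝ] EuclideanSpace ℝ (Fin n) →L[ℝ] ℝ :=
  S.bil (g1 (S.p1 w)) (g2 (S.p2 w))

theorem contDiffOn_gP
    {g1 : EuclideanSpace ℝ (Fin a) → EuclideanSpace ℝ (Fin a) →L[ℝ]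
      EuclideanSpace ℝ (Fin a) →L[ℝ] ℝ}
    {g2 : EuclideanSpace ℝ (Fin b) → EuclideanSpace ℝ (Fin b) →L[ℝ]
      EuclideanSpace ℝ (Fin b) →L[ℝ] ℝ} {D1 : Set (EuclideanSpace ℝ (Fin a))}
    {D2 : Set (EuclideanSpace ℝ (Fin b))}
    (h1 : ContDiffOn ℝ ∞ g1 D1) (h2 : ContDiffOn ℝ ∞ g2 D2) :
    ContDiffOn ℝ ∞ (S.gP g1 g2) {w | S.p1 w ∈ D1 ∧ S.p2 w ∈ D2} := by
  have e1 : ContDiffOn ℝ ∞ (fun w => g1 (S.p1 w)) {w | S.p1 w ∈ D1 ∧ S.p2 w ∈ D2} :=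
    h1.comp S.p1.contDiff.contDiffOn fun w hw => hw.1
  have e2 : ContDiffOn ℝ ∞ (fun w => g2 (S.p2 w)) {w | S.p1 w ∈ D1 ∧ S.p2 w ∈ D2} :=
    h2.comp S.p2.contDiff.contDiffOn fun w hw => hw.2
  unfold gP bil
  exact (contDiffOn_const.clm_comp (e1.clm_comp contDiffOn_const)).add
    (contDiffOn_const.clm_comp (e2.clm_comp contDiffOn_const))

theorem locIso
    {g1 : EuclideanSpace ℝ (Fin a) → EuclideanSpace ℝ (Fin a) →L[ℝ]
      EuclideanSpace ℝ (Fin a) →L[ℝ] ℝ}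
    {g2 : EuclideanSpace ℝ (Fin b) → EuclideanSpace ℝ (Fin b) →L[ℝ]
      EuclideanSpace ℝ (Fin b) →L[ℝ] ℝ} {D1 : Set (EuclideanSpace ℝ (Fin a))}
    {D2 : Set (EuclideanSpace ℝ (Fin b))}
    {k1 : EuclideanSpace ℝ (Fin a) → EuclideanSpace ℝ (Fin a)}
    {k2 : EuclideanSpace ℝ (Fin b) → EuclideanSpace ℝ (Fin b)} {w : EuclideanSpace ℝ (Fin n)}
    (h1 : LocIsoAt D1 g1 D1 g1 k1 (S.p1 w)) (h2 : LocIsoAt D2 g2 D2 g2 k2 (S.p2 w)) :
    LocIsoAt {w | S.p1 w ∈ D1 ∧ S.p2 w ∈ D2} (S.gP g1 g2) {w | S.p1 w ∈ D1 ∧ S.p2 w ∈ D2}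
      (S.gP g1 g2) (fun w => S.i1 (k1 (S.p1 w)) + S.i2 (k2 (S.p2 w))) w := by
  have c1 : Tendsto S.p1 (𝓝 w) (𝓝 (S.p1 w)) := S.p1.continuous.continuousAt
  have c2 : Tendsto S.p2 (𝓝 w) (𝓝 (S.p2 w)) := S.p2.continuous.continuousAt
  have s1 : ∀ᶠ y in 𝓝 w, ContDiffAt ℝ ∞ k1 (S.p1 y) := c1.eventually h1.smooth'
  have s2 : ∀ᶠ y in 𝓝 w, ContDiffAt ℝ ∞ k2 (S.p2 y) := c2.eventually h2.smooth'
  have hd : ∀ᶠ y in 𝓝 w, HasFDerivAt (fun w => S.i1 (k1 (S.p1 w)) + S.i2 (k2 (S.p2 w)))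
      (S.i1.comp ((fderiv ℝ k1 (S.p1 y)).comp S.p1) +
        S.i2.comp ((fderiv ℝ k2 (S.p2 y)).comp S.p2)) y := by
    filter_upwards [s1, s2] with y e1 e2
    have f1 : HasFDerivAt (fun w => k1 (S.p1 w)) ((fderiv ℝ k1 (S.p1 y)).comp S.p1) y :=
      (e1.differentiableAt (by simp)).hasFDerivAt.comp y S.p1.hasFDerivAt
    have f2 : HasFDerivAt (fun w => k2 (S.p2 w)) ((fderiv ℝ k2 (S.p2 y)).comp S.p2) y :=
      (e2.differentiableAt (by simp)).hasFDerivAt.comp y S.p2.hasFDerivAt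
    exact (S.i1.hasFDerivAt.comp y f1).add (S.i2.hasFDerivAt.comp y f2)
  refine ⟨⟨h1.mem, h2.mem⟩, ?_, ?_, ?_, ?_⟩
  · show S.p1 (S.i1 _ + S.i2 _) ∈ D1 ∧ S.p2 (S.i1 _ + S.i2 _) ∈ D2
    rw [S.p1_add, S.p2_add]
    exact ⟨h1.mem', h2.mem'⟩
  · filter_upwards [s1, s2] with y e1 e2
    exact (S.i1.contDiff.contDiffAt.comp y (e1.comp y S.p1.contDiff.contDiffAt)).add
      (S.i2.contDiff.contDiffAt.comp y (e2.comp y S.p2.contDiff.contDiffAt))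
  · filter_upwards [hd, c1.eventually h1.surj, c2.eventually h2.surj] with y e e1 e2
    rw [e.fderiv]
    intro z
    obtain ⟨u1, hu1⟩ := e1 (S.p1 z)
    obtain ⟨u2, hu2⟩ := e2 (S.p2 z)
    refine ⟨S.i1 u1 + S.i2 u2, ?_⟩
    simp only [_root_.add_apply, ContinuousLinearMap.comp_apply, S.p1_add, S.p2_add,
      hu1, hu2, S.dec]
  · filter_upwards [hd, c1.eventually h1.iso, c2.eventually h2.iso] with y e e1 e2
    intro u v
    rw [e.fderiv]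
    show g1 (S.p1 y) (S.p1 u) (S.p1 v) + g2 (S.p2 y) (S.p2 u) (S.p2 v) = _
    rw [e1, e2]
    unfold gP
    rw [bil_apply]
    simp only [_root_.add_apply, ContinuousLinearMap.comp_apply, S.p1_add, S.p2_add]

end Split

theorem sqrt_tri {a1 a2 b1 b2 c1 c2 : ℝ} (ha : 0 ≤ c1) (hb : 0 ≤ c2) (h1 : c1 ≤ a1 + b1)
    (h2 : c2 ≤ a2 + b2) : √(c1 ^ 2 + c2 ^ 2) ≤ √(a1 ^ 2 + a2 ^ 2) + √(b1 ^ 2 + b2 ^ 2) := by
  have h3 : √(c1 ^ 2 + c2 ^ 2) ≤ √((a1 + b1) ^ 2 + (a2 + b2) ^ 2) := by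
    apply Real.sqrt_le_sqrt
    nlinarith
  refine h3.trans ?_
  have h := norm_add_le ((a1 : ℂ) + a2 * Complex.I) ((b1 : ℂ) + b2 * Complex.I)
  have e1 : ((a1 : ℂ) + a2 * Complex.I) + ((b1 : ℂ) + b2 * Complex.I) =
      ((a1 + b1 : ℝ) : ℂ) + ((a2 + b2 : ℝ) : ℂ) * Complex.I := by push_cast; ring
  rw [e1, Complex.norm_add_mul_I, Complex.norm_add_mul_I, Complex.norm_add_mul_I] at h
  exact h

section prod

variable {a b n : ℕ} (S : Split a b n) (m1 : Mdl a) (m2 : Mdl b)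

theorem d_nonneg {n : ℕ} (m : Mdl n) (x y : m.X) : 0 ≤ m.d x y := by
  have h := m.d_tri x y x
  rw [m.d_self, m.d_symm y x] at h
  linarith

/-- product distance -/
def dP (x y : m1.X × m2.X) : ℝ := √(m1.d x.1 y.1 ^ 2 + m2.d x.2 y.2 ^ 2)

theorem dP_eq_zero {x y : m1.X × m2.X} (h : dP m1 m2 x y = 0) :
    m1.d x.1 y.1 = 0 ∧ m2.d x.2 y.2 = 0 := by
  unfold dP at h
  rw [Real.sqrt_eq_zero (by positivity)] at h
  constructor <;> nlinarith [sq_nonneg (m1.d x.1 y.1), sq_nonneg (m2.d x.2 y.2)]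

theorem d1_le_dP (x y : m1.X × m2.X) : m1.d x.1 y.1 ≤ dP m1 m2 x y :=
  Real.le_sqrt_of_sq_le (by nlinarith [sq_nonneg (m2.d x.2 y.2)])

theorem d2_le_dP (x y : m1.X × m2.X) : m2.d x.2 y.2 ≤ dP m1 m2 x y :=
  Real.le_sqrt_of_sq_le (by nlinarith [sq_nonneg (m1.d x.1 y.1)])

theorem dP_lt {x y : m1.X × m2.X} {ε : ℝ} (hε : 0 < ε) (h1 : m1.d x.1 y.1 < ε / 2)
    (h2 : m2.d x.2 y.2 < ε / 2) : dP m1 m2 x y < ε := by
  unfold dP
  have h3 := d_nonneg m1 x.1 y.1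
  have h4 := d_nonneg m2 x.2 y.2
  rw [Real.sqrt_lt' hε]
  nlinarith

/-- the action of the product group -/
@[reducible] def actP : MulAction (m1.G × m2.G) (m1.X × m2.X) where
  smul g x := (g.1 • x.1, g.2 • x.2)
  one_smul _ := Prod.ext (one_smul _ _) (one_smul _ _)
  mul_smul _ _ _ := Prod.ext (mul_smul _ _ _) (mul_smul _ _ _)

/-- The product of two model spaces. -/
def prod : Mdl n where
  X := m1.X × m2.X
  G := m1.G × m2.G
  act := actP m1 m2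
  d := dP m1 m2
  e := fun w => (m1.e (S.p1 w), m2.e (S.p2 w))
  lg := fun x => S.i1 (m1.lg x.1) + S.i2 (m2.lg x.2)
  D := {w | S.p1 w ∈ m1.D ∧ S.p2 w ∈ m2.D}
  Reg := {x | x.1 ∈ m1.Reg ∧ x.2 ∈ m2.Reg}
  R0 := fun u v w => S.i1 (m1.R0 (S.p1 u) (S.p1 v) (S.p1 w)) +
    S.i2 (m2.R0 (S.p2 u) (S.p2 v) (S.p2 w))
  g0 := S.gP m1.g0 m2.g0
  J := fun v u t => S.i1 (m1.J (S.p1 v) (S.p1 u) t) + S.i2 (m2.J (S.p2 v) (S.p2 u) t)
  J' := fun v u t => S.i1 (m1.J' (S.p1 v) (S.p1 u) t) + S.i2 (m2.J' (S.p2 v) (S.p2 u) t)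
  D_open := (m1.D_open.preimage S.p1.continuous).inter (m2.D_open.preimage S.p2.continuous)
  D_zero := ⟨by rw [map_zero]; exact m1.D_zero, by rw [map_zero]; exact m2.D_zero⟩
  D_star := fun w hw t ht => ⟨by rw [map_smul]; exact m1.D_star _ hw.1 t ht,
    by rw [map_smul]; exact m2.D_star _ hw.2 t ht⟩
  g0_smooth := S.contDiffOn_gP m1.g0_smooth m2.g0_smooth
  g0_symm := fun w hw u v => by
    show m1.g0 _ _ _ + m2.g0 _ _ _ = m1.g0 _ _ _ + m2.g0 _ _ _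
    rw [m1.g0_symm _ hw.1, m2.g0_symm _ hw.2]
  g0_pos := fun w hw u hu => by
    show 0 < m1.g0 _ _ _ + m2.g0 _ _ _
    have n1 : 0 ≤ m1.g0 (S.p1 w) (S.p1 u) (S.p1 u) := by
      by_cases h : S.p1 u = 0
      · rw [h, map_zero]
      · exact (m1.g0_pos _ hw.1 _ h).le
    have n2 : 0 ≤ m2.g0 (S.p2 w) (S.p2 u) (S.p2 u) := by
      by_cases h : S.p2 u = 0
      · rw [h, map_zero]
      · exact (m2.g0_pos _ hw.2 _ h).le
    by_cases h : S.p1 u = 0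
    · have h2 : S.p2 u ≠ 0 := fun h2 => hu (by rw [← S.dec u, h, h2]; simp)
      exact add_pos_of_nonneg_of_pos n1 (m2.g0_pos _ hw.2 _ h2)
    · exact add_pos_of_pos_of_nonneg (m1.g0_pos _ hw.1 _ h) n2
  J_zero := fun v u => by rw [m1.J_zero, m2.J_zero]; simp
  J_one := fun v u => by rw [m1.J_one, m2.J_one, S.dec]
  J_deriv := fun v u t =>
    (S.i1.hasFDerivAt.comp_hasDerivAt t (m1.J_deriv _ _ t)).add
      (S.i2.hasFDerivAt.comp_hasDerivAt t (m2.J_deriv _ _ t))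
  J'_deriv := fun v u t => by
    have h := (S.i1.hasFDerivAt.comp_hasDerivAt t (m1.J'_deriv (S.p1 v) (S.p1 u) t)).add
      (S.i2.hasFDerivAt.comp_hasDerivAt t (m2.J'_deriv (S.p2 v) (S.p2 u) t))
    refine h.congr_deriv ?_
    rw [S.p1_add, S.p2_add, map_neg, map_neg, neg_add]
  J_g0 := fun v hv u u' => by
    show m1.g0 _ _ _ + m2.g0 _ _ _ = _
    rw [m1.J_g0 _ hv.1, m2.J_g0 _ hv.2, S.inner_eq, S.p1_add, S.p1_add, S.p2_add, S.p2_add]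
    rfl
  d_symm := fun x y => by
    unfold dP
    rw [m1.d_symm, m2.d_symm]
  d_self := fun x => by
    unfold dP
    rw [m1.d_self, m2.d_self]; simp
  d_tri := fun x y z => sqrt_tri (d_nonneg _ _ _) (d_nonneg _ _ _) (m1.d_tri _ _ _)
    (m2.d_tri _ _ _)
  d_smul := fun g x y => by
    show √(m1.d (g.1 • x.1) (g.1 • y.1) ^ 2 + m2.d (g.2 • x.2) (g.2 • y.2) ^ 2) = dP m1 m2 x y
    rw [m1.d_smul, m2.d_smul]; rfl
  d_e := fun w hw => by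
    show √(m1.d (m1.e (S.p1 0)) (m1.e (S.p1 w)) ^ 2 + m2.d (m2.e (S.p2 0)) (m2.e (S.p2 w)) ^ 2) =
      ‖w‖
    rw [map_zero, map_zero, m1.d_e _ hw.1, m2.d_e _ hw.2, ← S.norm_sq, Real.sqrt_sq (norm_nonneg _)]
  e_cont := fun w hw ε hε => by
    obtain ⟨δ1, hδ1, h1⟩ := m1.e_cont _ hw.1 (ε / 2) (by positivity)
    obtain ⟨δ2, hδ2, h2⟩ := m2.e_cont _ hw.2 (ε / 2) (by positivity)
    refine ⟨min δ1 δ2, lt_min hδ1 hδ2, fun w' hw' => ?_⟩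
    have e1 : ‖S.p1 w' - S.p1 w‖ ≤ ‖w' - w‖ := by
      rw [← map_sub]
      have := S.norm_sq (w' - w)
      nlinarith [norm_nonneg (S.p1 (w' - w)), norm_nonneg (w' - w), sq_nonneg ‖S.p2 (w' - w)‖]
    have e2 : ‖S.p2 w' - S.p2 w‖ ≤ ‖w' - w‖ := by
      rw [← map_sub]
      have := S.norm_sq (w' - w)
      nlinarith [norm_nonneg (S.p2 (w' - w)), norm_nonneg (w' - w), sq_nonneg ‖S.p1 (w' - w)‖]
    exact dP_lt m1 m2 hε (h1 _ (e1.trans_lt (hw'.trans_le (min_le_left _ _))))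
      (h2 _ (e2.trans_lt (hw'.trans_le (min_le_right _ _))))
  e_mem := fun w hw => ⟨m1.e_mem _ hw.1, m2.e_mem _ hw.2⟩
  lg_mem := fun x hx => by
    show S.p1 (S.i1 _ + S.i2 _) ∈ m1.D ∧ S.p2 (S.i1 _ + S.i2 _) ∈ m2.D
    rw [S.p1_add, S.p2_add]
    exact ⟨m1.lg_mem _ hx.1, m2.lg_mem _ hx.2⟩
  lg_e := fun w hw => by
    show S.i1 (m1.lg (m1.e _)) + S.i2 (m2.lg (m2.e _)) = w
    rw [m1.lg_e _ hw.1, m2.lg_e _ hw.2, S.dec]
  e_lg := fun x hx => by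
    show √(m1.d (m1.e (S.p1 (S.i1 _ + S.i2 _))) x.1 ^ 2 +
      m2.d (m2.e (S.p2 (S.i1 _ + S.i2 _))) x.2 ^ 2) = 0
    rw [S.p1_add, S.p2_add, m1.e_lg _ hx.1, m2.e_lg _ hx.2]; simp
  lg_congr := fun x y h hx => by
    obtain ⟨h1, h2⟩ := dP_eq_zero m1 m2 h
    obtain ⟨a1, a2⟩ := m1.lg_congr _ _ h1 hx.1
    obtain ⟨b1, b2⟩ := m2.lg_congr _ _ h2 hx.2
    refine ⟨⟨a1, b1⟩, ?_⟩
    rw [a2, b2]
  lg_cont := fun x hx ε hε => by
    obtain ⟨δ1, hδ1, h1⟩ := m1.lg_cont _ hx.1 (ε / 2) (by positivity)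
    obtain ⟨δ2, hδ2, h2⟩ := m2.lg_cont _ hx.2 (ε / 2) (by positivity)
    refine ⟨min δ1 δ2, lt_min hδ1 hδ2, fun y hy => ?_⟩
    have e1 := h1 y.1 (((d1_le_dP m1 m2 x y).trans_lt hy).trans_le (min_le_left _ _))
    have e2 := h2 y.2 (((d2_le_dP m1 m2 x y).trans_lt hy).trans_le (min_le_right _ _))
    refine ⟨⟨e1.1, e2.1⟩, ?_⟩
    refine (S.norm_le _).trans_lt ?_
    rw [map_sub, map_sub, S.p1_add, S.p1_add, S.p2_add, S.p2_add]
    linarith [e1.2, e2.2]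
  trans := fun x => by
    obtain ⟨g1, h1⟩ := m1.trans x.1
    obtain ⟨g2, h2⟩ := m2.trans x.2
    refine ⟨(g1, g2), ?_⟩
    show (g1 • m1.e (S.p1 0), g2 • m2.e (S.p2 0)) = x
    rw [map_zero, map_zero, h1, h2]
  kappa := fun g w hw hg =>
    S.locIso (m1.kappa g.1 _ hw.1 hg.1) (m2.kappa g.2 _ hw.2 hg.2)
  star_dense := fun g hg w hw ε hε => by
    have hg1 : g.1 • m1.e 0 ∈ m1.Reg := by
      have : g.1 • m1.e (S.p1 0) ∈ m1.Reg := hg.1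
      rwa [map_zero] at this
    have hg2 : g.2 • m2.e 0 ∈ m2.Reg := by
      have : g.2 • m2.e (S.p2 0) ∈ m2.Reg := hg.2
      rwa [map_zero] at this
    obtain ⟨w1, h1, h1'⟩ := m1.star_dense g.1 hg1 _ hw.1 (ε / 2) (by positivity)
    obtain ⟨w2, h2, h2'⟩ := m2.star_dense g.2 hg2 _ hw.2 (ε / 2) (by positivity)
    refine ⟨S.i1 w1 + S.i2 w2, ?_, fun t ht => ?_⟩
    · refine (S.norm_le _).trans_lt ?_
      rw [map_sub, map_sub, S.p1_add, S.p2_add]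
      linarith
    · have q1 : S.p1 (t • (S.i1 w1 + S.i2 w2)) = t • w1 := by rw [map_smul, S.p1_add]
      have q2 : S.p2 (t • (S.i1 w1 + S.i2 w2)) = t • w2 := by rw [map_smul, S.p2_add]
      refine ⟨⟨?_, ?_⟩, ?_, ?_⟩
      · rw [q1]; exact (h1' t ht).1
      · rw [q2]; exact (h2' t ht).1
      · show g.1 • m1.e (S.p1 (t • (S.i1 w1 + S.i2 w2))) ∈ m1.Reg
        rw [q1]; exact (h1' t ht).2
      · show g.2 • m2.e (S.p2 (t • (S.i1 w1 + S.i2 w2))) ∈ m2.Reg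
        rw [q2]; exact (h2' t ht).2
  dense := fun x ε hε => by
    obtain ⟨z1, h1, h1'⟩ := m1.dense x.1 (ε / 2) (by positivity)
    obtain ⟨z2, h2, h2'⟩ := m2.dense x.2 (ε / 2) (by positivity)
    exact ⟨(z1, z2), ⟨h1, h2⟩, dP_lt m1 m2 hε h1' h2'⟩
  cov := fun x => by
    obtain ⟨g1, h1, h1'⟩ := m1.cov x.1
    obtain ⟨g2, h2, h2'⟩ := m2.cov x.2
    refine ⟨(g1, g2), ⟨?_, ?_⟩, h1', h2'⟩
    · show g1 • m1.e (S.p1 0) ∈ m1.Reg
      rw [map_zero]; exact h1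
    · show g2 • m2.e (S.p2 0) ∈ m2.Reg
      rw [map_zero]; exact h2

end prod

section split

variable (a b : ℕ)

/-- first block of coordinates -/
def q1 : EuclideanSpace ℝ (Fin (a + b)) →L[ℝ] EuclideanSpace ℝ (Fin a) :=
  LinearMap.toContinuousLinearMap
    { toFun := fun w => WithLp.toLp 2 fun i => w (Fin.castAdd b i)
      map_add' := fun _ _ => rfl
      map_smul' := fun _ _ => rfl }

theorem q1_apply (w : EuclideanSpace ℝ (Fin (a + b))) (i : Fin a) :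
    q1 a b w i = w (Fin.castAdd b i) := rfl

/-- second block of coordinates -/
def q2 : EuclideanSpace ℝ (Fin (a + b)) →L[ℝ] EuclideanSpace ℝ (Fin b) :=
  LinearMap.toContinuousLinearMap
    { toFun := fun w => WithLp.toLp 2 fun i => w (Fin.natAdd a i)
      map_add' := fun _ _ => rfl
      map_smul' := fun _ _ => rfl }

theorem q2_apply (w : EuclideanSpace ℝ (Fin (a + b))) (i : Fin b) :
    q2 a b w i = w (Fin.natAdd a i) := rfl

/-- inclusion of the first block -/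
def j1 : EuclideanSpace ℝ (Fin a) →L[ℝ] EuclideanSpace ℝ (Fin (a + b)) :=
  LinearMap.toContinuousLinearMap
    { toFun := fun w => WithLp.toLp 2 (Fin.append (fun i => w i) (fun _ : Fin b => (0 : ℝ)))
      map_add' := fun u v => by
        ext i
        refine Fin.addCases (fun i => ?_) (fun i => ?_) i <;> simp
      map_smul' := fun c v => by
        ext i
        refine Fin.addCases (fun i => ?_) (fun i => ?_) i <;> simp }

theorem j1_castAdd (w : EuclideanSpace ℝ (Fin a)) (i : Fin a) :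
    j1 a b w (Fin.castAdd b i) = w i := by
  show Fin.append (fun i => w i) (fun _ : Fin b => (0 : ℝ)) (Fin.castAdd b i) = w i
  simp

theorem j1_natAdd (w : EuclideanSpace ℝ (Fin a)) (i : Fin b) :
    j1 a b w (Fin.natAdd a i) = 0 := by
  show Fin.append (fun i => w i) (fun _ : Fin b => (0 : ℝ)) (Fin.natAdd a i) = 0
  simp

/-- inclusion of the second block -/
def j2 : EuclideanSpace ℝ (Fin b) →L[ℝ] EuclideanSpace ℝ (Fin (a + b)) :=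
  LinearMap.toContinuousLinearMap
    { toFun := fun w => WithLp.toLp 2 (Fin.append (fun _ : Fin a => (0 : ℝ)) (fun i => w i))
      map_add' := fun u v => by
        ext i
        refine Fin.addCases (fun i => ?_) (fun i => ?_) i <;> simp
      map_smul' := fun c v => by
        ext i
        refine Fin.addCases (fun i => ?_) (fun i => ?_) i <;> simp }

theorem j2_castAdd (w : EuclideanSpace ℝ (Fin b)) (i : Fin a) :
    j2 a b w (Fin.castAdd b i) = 0 := by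
  show Fin.append (fun _ : Fin a => (0 : ℝ)) (fun i => w i) (Fin.castAdd b i) = 0
  simp

theorem j2_natAdd (w : EuclideanSpace ℝ (Fin b)) (i : Fin b) :
    j2 a b w (Fin.natAdd a i) = w i := by
  show Fin.append (fun _ : Fin a => (0 : ℝ)) (fun i => w i) (Fin.natAdd a i) = w i
  simp

/-- `R^(a+b) = R^a ⊕ R^b` by blocks of coordinates -/
def splitAdd : Split a b (a + b) where
  p1 := q1 a b
  p2 := q2 a b
  i1 := j1 a b
  i2 := j2 a b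
  p1_i1 := fun u => by ext i; rw [q1_apply, j1_castAdd]
  p1_i2 := fun u => by ext i; rw [q1_apply, j2_castAdd]; rfl
  p2_i1 := fun u => by ext i; rw [q2_apply, j1_natAdd]; rfl
  p2_i2 := fun u => by ext i; rw [q2_apply, j2_natAdd]
  dec := fun w => by
    ext i
    refine Fin.addCases (fun i => ?_) (fun i => ?_) i
    · rw [PiLp.add_apply, j1_castAdd, j2_castAdd, q1_apply, add_zero]
    · rw [PiLp.add_apply, j1_natAdd, j2_natAdd, q2_apply, zero_add]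
  inner_eq := fun u v => by
    simp only [PiLp.inner_apply]
    rw [Fin.sum_univ_add]
    rfl

end split

/-- `S^2 × S^2` (two unit spheres) as a model space; coordinates `0, 1` and `2, 3`. -/
def mSS : Mdl 4 := prod (splitAdd 2 2) (MS_662.mS 2 le_rfl) (MS_662.mS 2 le_rfl)

theorem mSS_X : mSS.X = (Metric.sphere (0 : EuclideanSpace ℝ (Fin (2 + 1))) 1 ×
    Metric.sphere (0 : EuclideanSpace ℝ (Fin (2 + 1))) 1) := rfl

/-- distance of `S^2 × S^2` -/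
theorem mSS_d (x y : Metric.sphere (0 : EuclideanSpace ℝ (Fin (2 + 1))) 1 ×
    Metric.sphere (0 : EuclideanSpace ℝ (Fin (2 + 1))) 1) :
    mSS.d x y = √(arccos ⟪x.1.1, y.1.1⟫_ℝ ^ 2 + arccos ⟪x.2.1, y.2.1⟫_ℝ ^ 2) := rfl

/-- the curvature of `S^2 × S^2` -/
theorem mSS_R0 (u v w : EuclideanSpace ℝ (Fin 4)) :
    mSS.R0 u v w = WithLp.toLp 2 ![(v 0 * w 0 + v 1 * w 1) * u 0 - (u 0 * w 0 + u 1 * w 1) * v 0,
      (v 0 * w 0 + v 1 * w 1) * u 1 - (u 0 * w 0 + u 1 * w 1) * v 1,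
      (v 2 * w 2 + v 3 * w 3) * u 2 - (u 2 * w 2 + u 3 * w 3) * v 2,
      (v 2 * w 2 + v 3 * w 3) * u 3 - (u 2 * w 2 + u 3 * w 3) * v 3] := by
  have h : mSS.R0 u v w = j1 2 2 (TrigS_662.R0 (q1 2 2 u) (q1 2 2 v) (q1 2 2 w)) +
      j2 2 2 (TrigS_662.R0 (q2 2 2 u) (q2 2 2 v) (q2 2 2 w)) := rfl
  rw [h]
  have hR : ∀ (x y z : EuclideanSpace ℝ (Fin 2)) (i : Fin 2), TrigS_662.R0 x y z i =
      (y 0 * z 0 + y 1 * z 1) * x i - (x 0 * z 0 + x 1 * z 1) * y i := by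
    intro x y z i
    simp only [TrigS_662.R0, PiLp.sub_apply, PiLp.smul_apply, PiLp.inner_apply, Fin.sum_univ_two,
      smul_eq_mul, RCLike.inner_apply, RCLike.conj_to_real]
    ring
  ext i
  have e0 : (0 : Fin 4) = Fin.castAdd 2 (0 : Fin 2) := rfl
  have e1 : (1 : Fin 4) = Fin.castAdd 2 (1 : Fin 2) := rfl
  have e2 : (2 : Fin 4) = Fin.natAdd 2 (0 : Fin 2) := rfl
  have e3 : (3 : Fin 4) = Fin.natAdd 2 (1 : Fin 2) := rfl
  fin_cases i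
  · show (j1 2 2 _ + j2 2 2 _ : EuclideanSpace ℝ (Fin 4)) 0 = _
    rw [PiLp.add_apply, e0, j1_castAdd, j2_castAdd, hR]
    simp only [q1_apply, add_zero]
    rfl
  · show (j1 2 2 _ + j2 2 2 _ : EuclideanSpace ℝ (Fin 4)) 1 = _
    rw [PiLp.add_apply, e1, j1_castAdd, j2_castAdd, hR]
    simp only [q1_apply, add_zero]
    rfl
  · show (j1 2 2 _ + j2 2 2 _ : EuclideanSpace ℝ (Fin 4)) 2 = _
    rw [PiLp.add_apply, e2, j1_natAdd, j2_natAdd, hR]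
    simp only [q2_apply, zero_add]
    rfl
  · show (j1 2 2 _ + j2 2 2 _ : EuclideanSpace ℝ (Fin 4)) 3 = _
    rw [PiLp.add_apply, e3, j1_natAdd, j2_natAdd, hR]
    simp only [q2_apply, zero_add]
    rfl

end Crest.Agent.R249.MP_662
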