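/-
Row 249, part B2, leaf (MP) (helper850): the product of two model spaces, and `S² × S²`.
-/
import Crest.Agent.R249.B2Defs_474

set_option autoImplicit false
set_option maxSynthPendingDepth 3

open Set Filter Topology
open scoped ContDiff
open Crest.Agent.R244.CF (LocIsoAt)

noncomputable section

namespace Crest.Agent.R249.MdlP_850

open Crest.Agent.R249.B2Defs_474 (Mdl)

section split

variable (a b : ℕ)

local notation "𝔼" n => EuclideanSpace ℝ (Fin n)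

/-- first component -/
def p1 : (𝔼 (a + b)) →L[ℝ] (𝔼 a) :=
  LinearMap.toContinuousLinearMap
    { toFun := fun u => WithLp.toLp 2 (fun i => u (Fin.castAdd b i))
      map_add' := fun u v => by ext i; simp
      map_smul' := fun c u => by ext i; simp }

/-- second component -/
def p2 : (𝔼 (a + b)) →L[ℝ] (𝔼 b) :=
  LinearMap.toContinuousLinearMap
    { toFun := fun u => WithLp.toLp 2 (fun i => u (Fin.natAdd a i))
      map_add' := fun u v => by ext i; simp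
      map_smul' := fun c u => by ext i; simp }

/-- first inclusion -/
def i1 : (𝔼 a) →L[ℝ] (𝔼 (a + b)) :=
  LinearMap.toContinuousLinearMap
    { toFun := fun x => WithLp.toLp 2 (Fin.append (fun i => x i) (fun _ => (0 : ℝ)))
      map_add' := fun u v => by
        ext i
        refine Fin.addCases (fun i => ?_) (fun i => ?_) i <;> simp
      map_smul' := fun c u => by
        ext i
        refine Fin.addCases (fun i => ?_) (fun i => ?_) i <;> simp }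

/-- second inclusion -/
def i2 : (𝔼 b) →L[ℝ] (𝔼 (a + b)) :=
  LinearMap.toContinuousLinearMap
    { toFun := fun x => WithLp.toLp 2 (Fin.append (fun _ => (0 : ℝ)) (fun i => x i))
      map_add' := fun u v => by
        ext i
        refine Fin.addCases (fun i => ?_) (fun i => ?_) i <;> simp
      map_smul' := fun c u => by
        ext i
        refine Fin.addCases (fun i => ?_) (fun i => ?_) i <;> simp }

variable {a b}

theorem p1_apply (u : 𝔼 (a + b)) (i : Fin a) : p1 a b u i = u (Fin.castAdd b i) := rfl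

theorem p2_apply (u : 𝔼 (a + b)) (i : Fin b) : p2 a b u i = u (Fin.natAdd a i) := rfl

/-- the point with the two given components -/
def jj (x : 𝔼 a) (y : 𝔼 b) : 𝔼 (a + b) := i1 a b x + i2 a b y

@[simp] theorem p1_i1 (x : 𝔼 a) : p1 a b (i1 a b x) = x := by
  ext i
  rw [p1_apply]
  show Fin.append (fun i => x i) (fun _ => (0 : ℝ)) (Fin.castAdd b i) = x i
  simp

@[simp] theorem p2_i1 (x : 𝔼 a) : p2 a b (i1 a b x) = 0 := by
  ext i
  rw [p2_apply]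
  show Fin.append (fun i => x i) (fun _ => (0 : ℝ)) (Fin.natAdd a i) = 0
  simp

@[simp] theorem p1_i2 (y : 𝔼 b) : p1 a b (i2 a b y) = 0 := by
  ext i
  rw [p1_apply]
  show Fin.append (fun _ => (0 : ℝ)) (fun i => y i) (Fin.castAdd b i) = 0
  simp

@[simp] theorem p2_i2 (y : 𝔼 b) : p2 a b (i2 a b y) = y := by
  ext i
  rw [p2_apply]
  show Fin.append (fun _ => (0 : ℝ)) (fun i => y i) (Fin.natAdd a i) = y i
  simp

@[simp] theorem p1_jj (x : 𝔼 a) (y : 𝔼 b) : p1 a b (jj x y) = x := by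
  simp [jj]

@[simp] theorem p2_jj (x : 𝔼 a) (y : 𝔼 b) : p2 a b (jj x y) = y := by
  simp [jj]

theorem ext12 {u v : 𝔼 (a + b)} (h1 : p1 a b u = p1 a b v) (h2 : p2 a b u = p2 a b v) : u = v := by
  ext i
  refine Fin.addCases (fun i => ?_) (fun i => ?_) i
  · rw [← p1_apply, ← p1_apply, h1]
  · rw [← p2_apply, ← p2_apply, h2]

@[simp] theorem jj_p (u : 𝔼 (a + b)) : jj (p1 a b u) (p2 a b u) = u :=
  ext12 (by simp) (by simp)

theorem inner_eq (u v : 𝔼 (a + b)) : inner ℝ u v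
    = inner ℝ (p1 a b u) (p1 a b v) + inner ℝ (p2 a b u) (p2 a b v) := by
  simp only [PiLp.inner_apply, p1_apply, p2_apply]
  rw [Fin.sum_univ_add]

theorem norm_sq_eq (u : 𝔼 (a + b)) : ‖u‖ ^ 2 = ‖p1 a b u‖ ^ 2 + ‖p2 a b u‖ ^ 2 := by
  rw [← real_inner_self_eq_norm_sq, ← real_inner_self_eq_norm_sq, ← real_inner_self_eq_norm_sq,
    inner_eq]

theorem norm_eq (u : 𝔼 (a + b)) : ‖u‖ = √(‖p1 a b u‖ ^ 2 + ‖p2 a b u‖ ^ 2) := by
  rw [← norm_sq_eq, Real.sqrt_sq (norm_nonneg _)]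

theorem norm_le (u : 𝔼 (a + b)) : ‖u‖ ≤ ‖p1 a b u‖ + ‖p2 a b u‖ := by
  rw [norm_eq, Real.sqrt_le_left (by positivity)]
  nlinarith [norm_nonneg (p1 a b u), norm_nonneg (p2 a b u)]

theorem norm_p1_le (u : 𝔼 (a + b)) : ‖p1 a b u‖ ≤ ‖u‖ := by
  rw [norm_eq u]
  exact Real.le_sqrt_of_sq_le (by nlinarith [norm_nonneg (p2 a b u)])

theorem norm_p2_le (u : 𝔼 (a + b)) : ‖p2 a b u‖ ≤ ‖u‖ := by
  rw [norm_eq u]
  exact Real.le_sqrt_of_sq_le (by nlinarith [norm_nonneg (p1 a b u)])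

theorem norm_jj_lt {x : 𝔼 a} {y : 𝔼 b} {ε : ℝ} (hx : ‖x‖ < ε / 2) (hy : ‖y‖ < ε / 2) :
    ‖jj x y‖ < ε := by
  have := norm_le (jj x y)
  simp only [p1_jj, p2_jj] at this
  linarith

theorem ne_zero {u : 𝔼 (a + b)} (h : u ≠ 0) : p1 a b u ≠ 0 ∨ p2 a b u ≠ 0 := by
  by_contra hc
  push Not at hc
  exact h (ext12 (by simpa using hc.1) (by simpa using hc.2))

end split

/-! ### pythagorean sum of pseudo-distances -/

theorem sq_tri {p q r s t u : ℝ} (hp : 0 ≤ p) (hq : 0 ≤ q)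
    (h1 : p ≤ r + t) (h2 : q ≤ s + u) :
    √(p ^ 2 + q ^ 2) ≤ √(r ^ 2 + s ^ 2) + √(t ^ 2 + u ^ 2) := by
  have hA := Real.sqrt_nonneg (r ^ 2 + s ^ 2)
  have hB := Real.sqrt_nonneg (t ^ 2 + u ^ 2)
  have sA := Real.sq_sqrt (show 0 ≤ r ^ 2 + s ^ 2 by positivity)
  have sB := Real.sq_sqrt (show 0 ≤ t ^ 2 + u ^ 2 by positivity)
  have hAB : r * t + s * u ≤ √(r ^ 2 + s ^ 2) * √(t ^ 2 + u ^ 2) := by
    rw [← Real.sqrt_mul (by positivity)]
    apply Real.le_sqrt_of_sq_le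
    nlinarith [sq_nonneg (r * u - s * t)]
  rw [Real.sqrt_le_left (by positivity)]
  have e1 : p ^ 2 ≤ (r + t) ^ 2 := by gcongr
  have e2 : q ^ 2 ≤ (s + u) ^ 2 := by gcongr
  nlinarith

theorem sqrt_lt_of {p q ε : ℝ} (hp : 0 ≤ p) (hq : 0 ≤ q) (h1 : p < ε / 2) (h2 : q < ε / 2) :
    √(p ^ 2 + q ^ 2) < ε := by
  have hε : 0 < ε := by linarith
  rw [Real.sqrt_lt' hε]
  nlinarith

theorem le_sqrt1 (p q : ℝ) : p ≤ √(p ^ 2 + q ^ 2) :=
  Real.le_sqrt_of_sq_le (by nlinarith [sq_nonneg q])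

theorem le_sqrt2 (p q : ℝ) : q ≤ √(p ^ 2 + q ^ 2) :=
  Real.le_sqrt_of_sq_le (by nlinarith [sq_nonneg p])

theorem zero_of_sqrt {p q : ℝ} (h : √(p ^ 2 + q ^ 2) = 0) : p = 0 ∧ q = 0 := by
  rw [Real.sqrt_eq_zero (by positivity)] at h
  constructor <;> nlinarith [sq_nonneg p, sq_nonneg q]

section mdl

variable {a b : ℕ}

theorem d_nonneg (m : Mdl a) (x y : m.X) : 0 ≤ m.d x y := by
  have h := m.d_tri x y x
  rw [m.d_self, m.d_symm y x] at h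
  linarith

local notation "𝔼" n => EuclideanSpace ℝ (Fin n)

variable (a b) in
/-- precomposition with `p1` -/
def pre1 : ((𝔼 a) →L[ℝ] ℝ) →L[ℝ] ((𝔼 (a + b)) →L[ℝ] ℝ) :=
  (ContinuousLinearMap.compL ℝ (𝔼 (a + b)) (𝔼 a) ℝ).flip (p1 a b)

variable (a b) in
/-- precomposition with `p2` -/
def pre2 : ((𝔼 b) →L[ℝ] ℝ) →L[ℝ] ((𝔼 (a + b)) →L[ℝ] ℝ) :=
  (ContinuousLinearMap.compL ℝ (𝔼 (a + b)) (𝔼 b) ℝ).flip (p2 a b)

/-- product metric -/
def gP (g1 : (𝔼 a) → (𝔼 a) →L[ℝ] (𝔼 a) →L[ℝ] ℝ) (g2 : (𝔼 b) → (𝔼 b) →L[ℝ] (𝔼 b) →L[ℝ] ℝ)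
    (w : 𝔼 (a + b)) : (𝔼 (a + b)) →L[ℝ] (𝔼 (a + b)) →L[ℝ] ℝ :=
  (pre1 a b).comp ((g1 (p1 a b w)).comp (p1 a b)) + (pre2 a b).comp ((g2 (p2 a b w)).comp (p2 a b))

theorem gP_apply (g1 : (𝔼 a) → (𝔼 a) →L[ℝ] (𝔼 a) →L[ℝ] ℝ)
    (g2 : (𝔼 b) → (𝔼 b) →L[ℝ] (𝔼 b) →L[ℝ] ℝ) (w u v : 𝔼 (a + b)) :
    gP g1 g2 w u v = g1 (p1 a b w) (p1 a b u) (p1 a b v) + g2 (p2 a b w) (p2 a b u) (p2 a b v) :=
  rfl

/-- the product map in normal coordinates -/
def κP (φ : (𝔼 a) → (𝔼 a)) (ψ : (𝔼 b) → (𝔼 b)) (w : 𝔼 (a + b)) : 𝔼 (a + b) :=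
  jj (φ (p1 a b w)) (ψ (p2 a b w))

theorem hasFDerivAt_κP {φ : (𝔼 a) → (𝔼 a)} {ψ : (𝔼 b) → (𝔼 b)} {w : 𝔼 (a + b)}
    {φ' : (𝔼 a) →L[ℝ] (𝔼 a)} {ψ' : (𝔼 b) →L[ℝ] (𝔼 b)}
    (hφ : HasFDerivAt φ φ' (p1 a b w)) (hψ : HasFDerivAt ψ ψ' (p2 a b w)) :
    HasFDerivAt (κP φ ψ)
      ((i1 a b).comp (φ'.comp (p1 a b)) + (i2 a b).comp (ψ'.comp (p2 a b))) w := by
  have h1 : HasFDerivAt (fun w : 𝔼 (a + b) => i1 a b (φ (p1 a b w)))
      ((i1 a b).comp (φ'.comp (p1 a b))) w :=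
    (i1 a b).hasFDerivAt.comp w (hφ.comp w (p1 a b).hasFDerivAt)
  have h2 : HasFDerivAt (fun w : 𝔼 (a + b) => i2 a b (ψ (p2 a b w)))
      ((i2 a b).comp (ψ'.comp (p2 a b))) w :=
    (i2 a b).hasFDerivAt.comp w (hψ.comp w (p2 a b).hasFDerivAt)
  exact h1.add h2

theorem contDiffAt_κP {φ : (𝔼 a) → (𝔼 a)} {ψ : (𝔼 b) → (𝔼 b)} {w : 𝔼 (a + b)}
    (hφ : ContDiffAt ℝ ∞ φ (p1 a b w)) (hψ : ContDiffAt ℝ ∞ ψ (p2 a b w)) :
    ContDiffAt ℝ ∞ (κP φ ψ) w := by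
  have h1 : ContDiffAt ℝ ∞ (fun w : 𝔼 (a + b) => i1 a b (φ (p1 a b w))) w :=
    (i1 a b).contDiff.contDiffAt.comp w (hφ.comp w (p1 a b).contDiff.contDiffAt)
  have h2 : ContDiffAt ℝ ∞ (fun w : 𝔼 (a + b) => i2 a b (ψ (p2 a b w))) w :=
    (i2 a b).contDiff.contDiffAt.comp w (hψ.comp w (p2 a b).contDiff.contDiffAt)
  exact h1.add h2

theorem locIso_prod {D1 : Set (𝔼 a)} {D2 : Set (𝔼 b)} {g1 : (𝔼 a) → (𝔼 a) →L[ℝ] (𝔼 a) →L[ℝ] ℝ}
    {g2 : (𝔼 b) → (𝔼 b) →L[ℝ] (𝔼 b) →L[ℝ] ℝ} {φ : (𝔼 a) → (𝔼 a)} {ψ : (𝔼 b) → (𝔼 b)}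
    {w : 𝔼 (a + b)} (h1 : LocIsoAt D1 g1 D1 g1 φ (p1 a b w))
    (h2 : LocIsoAt D2 g2 D2 g2 ψ (p2 a b w)) :
    LocIsoAt (p1 a b ⁻¹' D1 ∩ p2 a b ⁻¹' D2) (gP g1 g2) (p1 a b ⁻¹' D1 ∩ p2 a b ⁻¹' D2)
      (gP g1 g2) (κP φ ψ) w := by
  have c1 := (p1 a b).continuous.tendsto w
  have c2 := (p2 a b).continuous.tendsto w
  refine ⟨⟨h1.mem, h2.mem⟩, ⟨?_, ?_⟩, ?_, ?_, ?_⟩
  · simpa [κP] using h1.mem'
  · simpa [κP] using h2.mem'
  · filter_upwards [c1.eventually h1.smooth', c2.eventually h2.smooth'] with y k1 k2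
    exact contDiffAt_κP k1 k2
  · filter_upwards [c1.eventually h1.smooth', c2.eventually h2.smooth', c1.eventually h1.surj,
      c2.eventually h2.surj] with y k1 k2 s1 s2
    rw [(hasFDerivAt_κP (k1.differentiableAt (by simp)).hasFDerivAt
      (k2.differentiableAt (by simp)).hasFDerivAt).fderiv]
    intro v
    obtain ⟨u1, hu1⟩ := s1 (p1 a b v)
    obtain ⟨u2, hu2⟩ := s2 (p2 a b v)
    refine ⟨jj u1 u2, ext12 ?_ ?_⟩
    · simp [hu1]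
    · simp [hu2]
  · filter_upwards [c1.eventually h1.smooth', c2.eventually h2.smooth', c1.eventually h1.iso,
      c2.eventually h2.iso] with y k1 k2 s1 s2 u v
    rw [(hasFDerivAt_κP (k1.differentiableAt (by simp)).hasFDerivAt
      (k2.differentiableAt (by simp)).hasFDerivAt).fderiv, gP_apply, gP_apply, s1, s2]
    simp [κP]

/-- Product of two model spaces. -/
def prod (m : Mdl a) (n : Mdl b) : Mdl (a + b) where
  X := m.X × n.X
  G := m.G × n.G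
  grp := inferInstance
  act :=
    { smul := fun g x => (g.1 • x.1, g.2 • x.2)
      one_smul := fun x => Prod.ext (one_smul _ _) (one_smul _ _)
      mul_smul := fun g h x => Prod.ext (mul_smul _ _ _) (mul_smul _ _ _) }
  d x y := √(m.d x.1 y.1 ^ 2 + n.d x.2 y.2 ^ 2)
  e w := (m.e (p1 a b w), n.e (p2 a b w))
  lg x := jj (m.lg x.1) (n.lg x.2)
  D := p1 a b ⁻¹' m.D ∩ p2 a b ⁻¹' n.D
  Reg := {x | x.1 ∈ m.Reg ∧ x.2 ∈ n.Reg}
  R0 u v w := jj (m.R0 (p1 a b u) (p1 a b v) (p1 a b w)) (n.R0 (p2 a b u) (p2 a b v) (p2 a b w))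
  g0 := gP m.g0 n.g0
  J v u t := jj (m.J (p1 a b v) (p1 a b u) t) (n.J (p2 a b v) (p2 a b u) t)
  J' v u t := jj (m.J' (p1 a b v) (p1 a b u) t) (n.J' (p2 a b v) (p2 a b u) t)
  D_open := (m.D_open.preimage (p1 a b).continuous).inter (n.D_open.preimage (p2 a b).continuous)
  D_zero := ⟨by simpa using m.D_zero, by simpa using n.D_zero⟩
  D_star w hw t ht := ⟨by simpa using m.D_star _ hw.1 t ht, by simpa using n.D_star _ hw.2 t ht⟩
  g0_smooth := by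
    have h1 : ContDiffOn ℝ ∞ (fun w => (m.g0 (p1 a b w)).comp (p1 a b))
        (p1 a b ⁻¹' m.D ∩ p2 a b ⁻¹' n.D) :=
      (m.g0_smooth.comp (p1 a b).contDiff.contDiffOn (fun w hw => hw.1)).clm_comp contDiffOn_const
    have h2 : ContDiffOn ℝ ∞ (fun w => (n.g0 (p2 a b w)).comp (p2 a b))
        (p1 a b ⁻¹' m.D ∩ p2 a b ⁻¹' n.D) :=
      (n.g0_smooth.comp (p2 a b).contDiff.contDiffOn (fun w hw => hw.2)).clm_comp contDiffOn_const
    exact (contDiffOn_const.clm_comp h1).add (contDiffOn_const.clm_comp h2)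
  g0_symm w hw u v := by
    rw [gP_apply, gP_apply, m.g0_symm _ hw.1, n.g0_symm _ hw.2]
  g0_pos w hw u hu := by
    rw [gP_apply]
    have q1 : 0 ≤ m.g0 (p1 a b w) (p1 a b u) (p1 a b u) := by
      by_cases h : p1 a b u = 0
      · simp [h]
      · exact (m.g0_pos _ hw.1 _ h).le
    have q2 : 0 ≤ n.g0 (p2 a b w) (p2 a b u) (p2 a b u) := by
      by_cases h : p2 a b u = 0
      · simp [h]
      · exact (n.g0_pos _ hw.2 _ h).le
    rcases ne_zero hu with h | h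
    · have := m.g0_pos _ hw.1 _ h
      linarith
    · have := n.g0_pos _ hw.2 _ h
      linarith
  J_zero v u := by simp [m.J_zero, n.J_zero, jj]
  J_one v u := by simp [m.J_one, n.J_one]
  J_deriv v u t := by
    have h1 := (i1 a b).hasFDerivAt.comp_hasDerivAt t (m.J_deriv (p1 a b v) (p1 a b u) t)
    have h2 := (i2 a b).hasFDerivAt.comp_hasDerivAt t (n.J_deriv (p2 a b v) (p2 a b u) t)
    exact h1.add h2
  J'_deriv v u t := by
    have h1 := (i1 a b).hasFDerivAt.comp_hasDerivAt t (m.J'_deriv (p1 a b v) (p1 a b u) t)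
    have h2 := (i2 a b).hasFDerivAt.comp_hasDerivAt t (n.J'_deriv (p2 a b v) (p2 a b u) t)
    refine (h1.add h2).congr_deriv ?_
    rw [map_neg, map_neg, ← neg_add]
    simp only [p1_jj, p2_jj]
    rfl
  J_g0 v hv u u' := by
    rw [gP_apply, inner_eq, m.J_g0 _ hv.1, n.J_g0 _ hv.2]
    simp
  d_symm x y := by rw [m.d_symm, n.d_symm]
  d_self x := by simp [m.d_self, n.d_self]
  d_tri x y z := sq_tri (d_nonneg _ _ _) (d_nonneg _ _ _) (m.d_tri _ _ _) (n.d_tri _ _ _)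
  d_smul g x y := by
    show √(m.d (g.1 • x.1) (g.1 • y.1) ^ 2 + n.d (g.2 • x.2) (g.2 • y.2) ^ 2) = _
    rw [m.d_smul, n.d_smul]
  d_e w hw := by
    show √(m.d (m.e (p1 a b 0)) (m.e (p1 a b w)) ^ 2 + n.d (n.e (p2 a b 0)) (n.e (p2 a b w)) ^ 2) = _
    rw [map_zero, map_zero, m.d_e _ hw.1, n.d_e _ hw.2, norm_eq]
  e_cont w hw ε hε := by
    obtain ⟨δ1, hδ1, h1⟩ := m.e_cont _ hw.1 (ε / 2) (by positivity)
    obtain ⟨δ2, hδ2, h2⟩ := n.e_cont _ hw.2 (ε / 2) (by positivity)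
    refine ⟨min δ1 δ2, lt_min hδ1 hδ2, fun w' hw' => ?_⟩
    refine sqrt_lt_of (d_nonneg _ _ _) (d_nonneg _ _ _) (h1 _ ?_) (h2 _ ?_)
    · rw [← map_sub]
      exact (norm_p1_le _).trans_lt (hw'.trans_le (min_le_left _ _))
    · rw [← map_sub]
      exact (norm_p2_le _).trans_lt (hw'.trans_le (min_le_right _ _))
  e_mem w hw := ⟨m.e_mem _ hw.1, n.e_mem _ hw.2⟩
  lg_mem x hx := ⟨by simpa using m.lg_mem _ hx.1, by simpa using n.lg_mem _ hx.2⟩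
  lg_e w hw := by
    show jj (m.lg (m.e _)) (n.lg (n.e _)) = w
    rw [m.lg_e _ hw.1, n.lg_e _ hw.2, jj_p]
  e_lg x hx := by
    show √(m.d (m.e (p1 a b (jj _ _))) _ ^ 2 + n.d (n.e (p2 a b (jj _ _))) _ ^ 2) = 0
    rw [p1_jj, p2_jj, m.e_lg _ hx.1, n.e_lg _ hx.2]
    simp
  lg_congr x y h hx := by
    obtain ⟨h1, h2⟩ := zero_of_sqrt h
    obtain ⟨k1, l1⟩ := m.lg_congr _ _ h1 hx.1
    obtain ⟨k2, l2⟩ := n.lg_congr _ _ h2 hx.2
    exact ⟨⟨k1, k2⟩, by rw [l1, l2]⟩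
  lg_cont x hx ε hε := by
    obtain ⟨δ1, hδ1, h1⟩ := m.lg_cont _ hx.1 (ε / 2) (by positivity)
    obtain ⟨δ2, hδ2, h2⟩ := n.lg_cont _ hx.2 (ε / 2) (by positivity)
    refine ⟨min δ1 δ2, lt_min hδ1 hδ2, fun y hy => ?_⟩
    obtain ⟨k1, l1⟩ := h1 y.1 ((le_sqrt1 _ _).trans_lt (hy.trans_le (min_le_left _ _)))
    obtain ⟨k2, l2⟩ := h2 y.2 ((le_sqrt2 _ _).trans_lt (hy.trans_le (min_le_right _ _)))
    refine ⟨⟨k1, k2⟩, ?_⟩
    have : jj (m.lg y.1) (n.lg y.2) - jj (m.lg x.1) (n.lg x.2)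
        = jj (m.lg y.1 - m.lg x.1) (n.lg y.2 - n.lg x.2) := ext12 (by simp) (by simp)
    rw [this]
    exact norm_jj_lt l1 l2
  trans x := by
    obtain ⟨g, hg⟩ := m.trans x.1
    obtain ⟨h, hh⟩ := n.trans x.2
    refine ⟨(g, h), Prod.ext ?_ ?_⟩
    · show g • m.e (p1 a b 0) = x.1
      rw [map_zero, hg]
    · show h • n.e (p2 a b 0) = x.2
      rw [map_zero, hh]
  kappa g w hw hgw := locIso_prod (m.kappa g.1 _ hw.1 hgw.1) (n.kappa g.2 _ hw.2 hgw.2)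
  star_dense g hg w hw ε hε := by
    have hg1 : g.1 • m.e 0 ∈ m.Reg := by
      have := hg.1
      change g.1 • m.e (p1 a b 0) ∈ m.Reg at this
      rwa [map_zero] at this
    have hg2 : g.2 • n.e 0 ∈ n.Reg := by
      have := hg.2
      change g.2 • n.e (p2 a b 0) ∈ n.Reg at this
      rwa [map_zero] at this
    obtain ⟨w1, hw1, k1⟩ := m.star_dense g.1 hg1 _ hw.1 (ε / 2) (by positivity)
    obtain ⟨w2, hw2, k2⟩ := n.star_dense g.2 hg2 _ hw.2 (ε / 2) (by positivity)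
    refine ⟨jj w1 w2, ?_, fun t ht => ⟨⟨?_, ?_⟩, ?_, ?_⟩⟩
    · have : jj w1 w2 - w = jj (w1 - p1 a b w) (w2 - p2 a b w) := ext12 (by simp) (by simp)
      rw [this]
      exact norm_jj_lt hw1 hw2
    · simpa using (k1 t ht).1
    · simpa using (k2 t ht).1
    · show g.1 • m.e (p1 a b (t • jj w1 w2)) ∈ m.Reg
      simpa using (k1 t ht).2
    · show g.2 • n.e (p2 a b (t • jj w1 w2)) ∈ n.Reg
      simpa using (k2 t ht).2
  dense x ε hε := by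
    obtain ⟨z1, hz1, k1⟩ := m.dense x.1 (ε / 2) (by positivity)
    obtain ⟨z2, hz2, k2⟩ := n.dense x.2 (ε / 2) (by positivity)
    exact ⟨(z1, z2), ⟨hz1, hz2⟩, sqrt_lt_of (d_nonneg _ _ _) (d_nonneg _ _ _) k1 k2⟩
  cov x := by
    obtain ⟨g, hg, hg'⟩ := m.cov x.1
    obtain ⟨h, hh, hh'⟩ := n.cov x.2
    refine ⟨(g, h), ⟨?_, ?_⟩, hg', hh'⟩
    · show g • m.e (p1 a b 0) ∈ m.Reg
      rwa [map_zero]
    · show h • n.e (p2 a b 0) ∈ n.Reg
      rwa [map_zero]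

/-- The product of a two dimensional model space with itself, as a model of dimension four. -/
def sq (m : Mdl 2) : Mdl 4 := prod m m

end mdl

end Crest.Agent.R249.MdlP_850
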