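/-
Row 249, leaf (MS) (helper581), file 2: the round sphere: distance, logarithm, transition maps.
-/
import Crest.Agent.R249.MdlS1_581
import Crest.Agent.R244.CF

set_option autoImplicit false
set_option maxSynthPendingDepth 3

open Filter Topology Set
open scoped ContDiff RealInnerProductSpace
open Crest.Agent.R208.GH
open Crest.Agent.R244.CF (LocIsoAt)

noncomputable section

namespace Crest.Agent.R249.MdlS_581

attribute [-simp] WithLp.prod_inner_apply

variable {n : ℕ}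

/-- the unit sphere -/
abbrev SS (n : ℕ) := {x : VV n // ‖x‖ = 1}

/-- the orthogonal group -/
abbrev GG (n : ℕ) := VV n ≃ₗᵢ[ℝ] VV n

instance : MulAction (GG n) (SS n) where
  smul g x := ⟨g x.1, by rw [g.norm_map]; exact x.2⟩
  one_smul x := Subtype.ext rfl
  mul_smul g h x := Subtype.ext rfl

lemma coe_smul (g : GG n) (x : SS n) : (g • x).1 = g x.1 := rfl

/-- angular distance -/
def dd (x y : SS n) : ℝ := Real.arccos ⟪x.1, y.1⟫

lemma inner_le (x y : SS n) : ⟪x.1, y.1⟫ ≤ 1 := by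
  have := real_inner_le_norm x.1 y.1
  rwa [x.2, y.2, one_mul] at this

lemma neg_one_le_inner (x y : SS n) : -1 ≤ ⟪x.1, y.1⟫ := by
  have := neg_le_of_abs_le (abs_real_inner_le_norm x.1 y.1)
  rwa [x.2, y.2, one_mul] at this

lemma cos_dd (x y : SS n) : Real.cos (dd x y) = ⟪x.1, y.1⟫ :=
  Real.cos_arccos (neg_one_le_inner x y) (inner_le x y)

lemma dd_nonneg (x y : SS n) : 0 ≤ dd x y := Real.arccos_nonneg _

lemma dd_symm (x y : SS n) : dd x y = dd y x := by
  unfold dd; rw [real_inner_comm]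

lemma dd_self (x : SS n) : dd x x = 0 := by
  unfold dd; rw [real_inner_self_eq_norm_sq, x.2]; simp

lemma dd_tri (x y z : SS n) : dd x z ≤ dd x y + dd y z := by
  have h : ∀ a b : SS n, dd a b = InnerProductGeometry.angle a.1 b.1 := by
    intro a b
    rw [dd, InnerProductGeometry.angle, a.2, b.2]; simp
  rw [h, h, h]
  exact InnerProductGeometry.angle_le_angle_add_angle _ _ _

lemma dd_smul (g : GG n) (x y : SS n) : dd (g • x) (g • y) = dd x y := by
  unfold dd; rw [coe_smul, coe_smul, g.inner_map_map]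

lemma norm_sub_le_dd (x y : SS n) : ‖x.1 - y.1‖ ≤ dd x y := by
  apply le_of_sq_le_sq _ (dd_nonneg x y)
  rw [norm_sub_sq_real, x.2, y.2, ← cos_dd]
  have := Real.one_sub_sq_div_two_le_cos (x := dd x y)
  linarith

lemma eq_of_dd {x y : SS n} (h : dd x y = 0) : x = y := by
  have h1 := norm_sub_le_dd x y
  rw [h] at h1
  have h2 : ‖x.1 - y.1‖ = 0 := le_antisymm h1 (norm_nonneg _)
  exact Subtype.ext (sub_eq_zero.1 (norm_eq_zero.1 h2))

lemma continuous_dd (x : SS n) : Continuous (dd x) :=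
  Real.continuous_arccos.comp (continuous_const.inner continuous_subtype_val)

/-- exponential map -/
def ee (w : EE n) : SS n := ⟨ex w, norm_ex w⟩

lemma coe_ee (w : EE n) : (ee w).1 = ex w := rfl

lemma continuous_ee : Continuous (ee : EE n → SS n) :=
  contDiff_ex.continuous.subtype_mk _

lemma dd_ee {w : EE n} (hw : ‖w‖ < Real.pi) : dd (ee 0) (ee w) = ‖w‖ := by
  rw [dd, coe_ee, coe_ee, ex_zero, inner_pp_ex]
  exact Real.arccos_cos (norm_nonneg _) hw.le

/-- complement of the antipode of `pp` -/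
def Rg : Set (SS n) := {x | -1 < ⟪pp, x.1⟫}

lemma ee_mem {w : EE n} (hw : ‖w‖ < Real.pi) : ee w ∈ (Rg : Set (SS n)) := by
  change -1 < ⟪pp, (ee w).1⟫
  rw [coe_ee, inner_pp_ex, ← Real.cos_pi]
  exact Real.cos_lt_cos_of_nonneg_of_le_pi (norm_nonneg _) le_rfl hw

/-- logarithm -/
def lgV (x : VV n) : EE n := (Real.arccos ⟪pp, x⟫ * ‖pr x‖⁻¹) • pr x

lemma norm_lgV_le (x : VV n) : ‖lgV x‖ ≤ Real.arccos ⟪pp, x⟫ := by
  have h0 := Real.arccos_nonneg ⟪(pp : VV n), x⟫
  rw [lgV, norm_smul, norm_mul, norm_inv, norm_norm, Real.norm_of_nonneg h0]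
  rcases eq_or_ne (pr x) 0 with h | h
  · rw [h]; simpa using h0
  · have := norm_pos_iff.2 h
    rw [mul_assoc, inv_mul_cancel₀ this.ne', mul_one]

lemma norm_lgV {x : VV n} (h : pr x ≠ 0) : ‖lgV x‖ = Real.arccos ⟪pp, x⟫ := by
  have h0 := Real.arccos_nonneg ⟪(pp : VV n), x⟫
  rw [lgV, norm_smul, norm_mul, norm_inv, norm_norm, Real.norm_of_nonneg h0]
  have := norm_pos_iff.2 h
  rw [mul_assoc, inv_mul_cancel₀ this.ne', mul_one]

lemma norm_pr (x : SS n) : ‖pr x.1‖ ^ 2 = 1 - ⟪pp, x.1⟫ ^ 2 := by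
  have h := inner_dec x.1 x.1
  rw [real_inner_self_eq_norm_sq, real_inner_self_eq_norm_sq, x.2] at h
  linarith

lemma sin_arccos_pp (x : SS n) : Real.sin (Real.arccos ⟪pp, x.1⟫) = ‖pr x.1‖ := by
  rw [Real.sin_arccos, ← norm_pr, Real.sqrt_sq (norm_nonneg _)]

lemma eq_pp {x : SS n} (hx : x ∈ (Rg : Set (SS n))) (h : pr x.1 = 0) : x.1 = pp := by
  have h1 := norm_pr x
  rw [h, norm_zero] at h1
  have h2 : -1 < ⟪pp, x.1⟫ := hx
  have h3 : (⟪pp, x.1⟫ - 1) * (⟪pp, x.1⟫ + 1) = 0 := by linarith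
  have h4 : ⟪pp, x.1⟫ = 1 := by
    rcases mul_eq_zero.1 h3 with h5 | h5 <;> linarith
  have h5 := dec x.1
  rw [h4, h] at h5
  simpa using h5

lemma arccos_lt {x : SS n} (hx : x ∈ (Rg : Set (SS n))) : Real.arccos ⟪pp, x.1⟫ < Real.pi := by
  rw [← Real.arccos_neg_one]
  refine Real.strictAntiOn_arccos (by simp) ?_ hx
  refine ⟨le_of_lt hx, ?_⟩
  have := inner_le (ee 0) x
  rwa [coe_ee, ex_zero] at this

lemma lgV_mem {x : SS n} (hx : x ∈ (Rg : Set (SS n))) : ‖lgV x.1‖ < Real.pi :=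
  (norm_lgV_le x.1).trans_lt (arccos_lt hx)

lemma lgV_ee {w : EE n} (hw : ‖w‖ < Real.pi) : lgV (ee w).1 = w := by
  rw [coe_ee, lgV, inner_pp_ex, pr_ex, Real.arccos_cos (norm_nonneg _) hw.le]
  rcases eq_or_ne w 0 with rfl | h
  · simp
  · have h1 := Sn_pos_of hw
    have h2 := norm_pos_iff.2 h
    rw [norm_smul, Real.norm_of_nonneg h1.le, smul_smul]
    have : ‖w‖ * (Sn (‖w‖ ^ 2) * ‖w‖)⁻¹ * Sn (‖w‖ ^ 2) = 1 := by field_simp
    rw [this, one_smul]

lemma ex_lgV {x : SS n} (hx : x ∈ (Rg : Set (SS n))) : ex (lgV x.1) = x.1 := by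
  rcases eq_or_ne (pr x.1) 0 with h | h
  · have h1 := eq_pp hx h
    rw [lgV, h, smul_zero, ex_zero, h1]
  · have hn := norm_pos_iff.2 h
    have h1 : ⟪pp, x.1⟫ ≤ 1 := by
      have := inner_le (ee 0) x
      rwa [coe_ee, ex_zero] at this
    rw [ex, norm_lgV h, Cs_sq, Real.cos_arccos (le_of_lt hx) h1, lgV, map_smul, smul_smul]
    have h2 : Sn (Real.arccos ⟪pp, x.1⟫ ^ 2) * (Real.arccos ⟪pp, x.1⟫ * ‖pr x.1‖⁻¹) = 1 := by
      have h3 := Sn_sq (Real.arccos ⟪pp, x.1⟫)
      rw [sin_arccos_pp] at h3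
      rw [← mul_assoc, mul_comm (Sn _), h3]
      exact mul_inv_cancel₀ hn.ne'
    rw [h2, one_smul]
    exact (dec x.1).symm

lemma ee_lgV {x : SS n} (hx : x ∈ (Rg : Set (SS n))) : ee (lgV x.1) = x :=
  Subtype.ext (ex_lgV hx)

lemma isOpen_Rg : IsOpen (Rg : Set (SS n)) :=
  isOpen_lt continuous_const (continuous_const.inner continuous_subtype_val)

lemma continuousAt_lgV {x : SS n} (hx : x ∈ (Rg : Set (SS n))) :
    ContinuousAt (fun y : SS n => lgV y.1) x := by
  have hc : Continuous (fun y : SS n => Real.arccos ⟪pp, y.1⟫) :=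
    Real.continuous_arccos.comp (continuous_const.inner continuous_subtype_val)
  have hp : Continuous (fun y : SS n => pr y.1) := pr.continuous.comp continuous_subtype_val
  rcases eq_or_ne (pr x.1) 0 with h | h
  · have h1 := eq_pp hx h
    have h2 : lgV x.1 = 0 := by rw [lgV, h, smul_zero]
    have h3 : Tendsto (fun y : SS n => Real.arccos ⟪pp, y.1⟫) (𝓝 x) (𝓝 0) := by
      have h4 := hc.tendsto x
      simp only [h1, inner_pp_pp, Real.arccos_one] at h4
      exact h4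
    change Tendsto _ _ (𝓝 (lgV x.1))
    rw [h2]
    exact squeeze_zero_norm (fun y => norm_lgV_le y.1) h3
  · exact (hc.continuousAt.mul (hp.norm.continuousAt.inv₀ (norm_ne_zero_iff.2 h))).smul
      hp.continuousAt

/-! ### transition maps -/

/-- transition map -/
def kap (g : GG n) (w : EE n) : EE n := lgV (g (ex w))

lemma kap_eq (g : GG n) (w : EE n) : kap g w = lgV (g • ee w).1 := rfl

/-- good points -/
def Ug (g : GG n) : Set (EE n) := {w | ‖w‖ < Real.pi ∧ g • ee w ∈ (Rg : Set (SS n))}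

lemma continuous_smul_ee (g : GG n) : Continuous (fun w : EE n => g • ee w) :=
  Continuous.subtype_mk (g.continuous.comp contDiff_ex.continuous) _

lemma isOpen_Ug (g : GG n) : IsOpen (Ug g) :=
  (isOpen_lt continuous_norm continuous_const).inter (isOpen_Rg.preimage (continuous_smul_ee g))

lemma kap_mem {g : GG n} {w : EE n} (hw : w ∈ Ug g) : ‖kap g w‖ < Real.pi := by
  rw [kap_eq]; exact lgV_mem hw.2

lemma ex_kap {g : GG n} {w : EE n} (hw : w ∈ Ug g) : ex (kap g w) = g (ex w) := by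
  rw [kap_eq, ex_lgV hw.2]; rfl

lemma continuousAt_kap {g : GG n} {w : EE n} (hw : w ∈ Ug g) : ContinuousAt (kap g) w := by
  have h1 := continuousAt_lgV hw.2
  exact ContinuousAt.comp (f := fun w : EE n => g • ee w) (g := fun y : SS n => lgV y.1) h1
    (continuous_smul_ee g).continuousAt

/-- polar map -/
def Ph (z : EE n × ℝ) : VV n := (1 + z.2) • ex z.1

lemma contDiff_Ph : ContDiff ℝ ∞ (Ph : EE n × ℝ → VV n) :=
  (contDiff_const.add contDiff_snd).smul (contDiff_ex.comp contDiff_fst)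

lemma inner_ex_LL (w u : EE n) : ⟪ex w, LL w u⟫ = 0 := by
  have h1 : HasFDerivAt (fun w : EE n => ⟪ex w, ex w⟫)
      (((fderivInnerCLM ℝ (ex w, ex w))).comp ((LL w).prod (LL w))) w :=
    (hasFDerivAt_ex w).inner ℝ (hasFDerivAt_ex w)
  have h2 : HasFDerivAt (fun w : EE n => ⟪ex w, ex w⟫) (0 : EE n →L[ℝ] ℝ) w := by
    have : (fun w : EE n => ⟪ex w, ex w⟫) = fun _ => (1 : ℝ) := by ext w; exact inner_ex_ex w
    rw [this]; exact hasFDerivAt_const _ _
  have h3 := congrArg (fun l => l u) (h1.unique h2)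
  simp only [ContinuousLinearMap.comp_apply, ContinuousLinearMap.prod_apply,
    fderivInnerCLM_apply, zero_apply] at h3
  rw [real_inner_comm (ex w) (LL w u)] at h3
  linarith

lemma fderiv_Ph (w : EE n) (z : EE n × ℝ) : fderiv ℝ Ph (w, 0) z = LL w z.1 + z.2 • ex w := by
  have h1 : HasFDerivAt (fun z : EE n × ℝ => 1 + z.2) (ContinuousLinearMap.snd ℝ (EE n) ℝ) (w, 0) :=
    hasFDerivAt_snd.const_add 1
  have h2 : HasFDerivAt (fun z : EE n × ℝ => ex z.1) ((LL w).comp (ContinuousLinearMap.fst ℝ (EE n) ℝ))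
      (w, (0 : ℝ)) :=
    HasFDerivAt.comp (g := ex) (f := fun z : EE n × ℝ => z.1) (w, (0 : ℝ)) (hasFDerivAt_ex w)
      hasFDerivAt_fst
  have h3 : HasFDerivAt Ph _ (w, (0 : ℝ)) := h1.smul h2
  rw [h3.fderiv]
  simp

lemma LL_inj {w : EE n} (hw : ‖w‖ < Real.pi) {u : EE n} (h : LL w u = 0) : u = 0 := by
  by_contra hu
  have h1 := g0_pos hw u hu
  rw [g0_eq_LL, h] at h1
  simp at h1

lemma contDiffAt_kap {g : GG n} {w : EE n} (hw : w ∈ Ug g) : ContDiffAt ℝ ∞ (kap g) w := by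
  have hz := kap_mem hw
  have hinj : ∀ v, fderiv ℝ Ph (kap g w, (0 : ℝ)) v = 0 → v = 0 := by
    intro v hv
    rw [fderiv_Ph] at hv
    have h1 : ⟪ex (kap g w), LL (kap g w) v.1 + v.2 • ex (kap g w)⟫ = 0 := by rw [hv]; simp
    rw [inner_add_right, inner_ex_LL, real_inner_smul_right, inner_ex_ex] at h1
    have h2 : v.2 = 0 := by linarith
    rw [h2, zero_smul, add_zero] at hv
    exact Prod.ext (LL_inj hz hv) h2
  have hdim : Module.finrank ℝ (EE n × ℝ) = Module.finrank ℝ (VV n) := by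
    rw [finrank_VV]; simp
  obtain ⟨h, h1, h2, -, h4⟩ := exists_local_inverse contDiff_Ph.contDiffAt hinj hdim
  have e1 : Ph (kap g w, (0 : ℝ)) = g (ex w) := by simp [Ph, ex_kap hw]
  rw [e1] at h1
  have h5 : ContDiffAt ℝ ∞ (fun y => (h (g (ex y))).1) w := by
    have h6 : ContDiffAt ℝ ∞ (fun y => g (ex y)) w :=
      g.toContinuousLinearEquiv.contDiff.contDiffAt.comp w contDiff_ex.contDiffAt
    have h7 : ContDiffAt ℝ ∞ (fun y => h (g (ex y))) w := ContDiffAt.comp w h1 h6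
    exact contDiffAt_fst.comp w h7
  refine h5.congr_of_eventuallyEq ?_
  have h8 : Tendsto (fun y => (kap g y, (0 : ℝ))) (𝓝 w) (𝓝 (kap g w, (0 : ℝ))) :=
    (continuousAt_kap hw).prodMk continuousAt_const
  filter_upwards [h8.eventually h4, (isOpen_Ug g).mem_nhds hw] with y hy hy2
  have e2 : Ph (kap g y, (0 : ℝ)) = g (ex y) := by simp [Ph, ex_kap hy2]
  rw [e2] at hy
  rw [hy]

lemma LL_fderiv_kap {g : GG n} {w : EE n} (hw : w ∈ Ug g) (u : EE n) :
    LL (kap g w) (fderiv ℝ (kap g) w u) = g (LL w u) := by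
  have h1 : HasFDerivAt (kap g) (fderiv ℝ (kap g) w) w :=
    ((contDiffAt_kap hw).differentiableAt (by simp)).hasFDerivAt
  have h2 : HasFDerivAt (fun y => ex (kap g y)) ((LL (kap g w)).comp (fderiv ℝ (kap g) w)) w :=
    (hasFDerivAt_ex (kap g w)).comp w h1
  have h3 : HasFDerivAt (fun y => g (ex y))
      ((g.toContinuousLinearEquiv : VV n →L[ℝ] VV n).comp (LL w)) w :=
    (g.toContinuousLinearEquiv.hasFDerivAt).comp w (hasFDerivAt_ex w)
  have h4 : (fun y => ex (kap g y)) =ᶠ[𝓝 w] (fun y => g (ex y)) := by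
    filter_upwards [(isOpen_Ug g).mem_nhds hw] with y hy
    exact ex_kap hy
  have h5 := h2.unique (h3.congr_of_eventuallyEq h4)
  exact congrArg (fun l => l u) h5

lemma iso_kap {g : GG n} {w : EE n} (hw : w ∈ Ug g) (u v : EE n) :
    g0 w u v = g0 (kap g w) (fderiv ℝ (kap g) w u) (fderiv ℝ (kap g) w v) := by
  rw [g0_eq_LL, g0_eq_LL, LL_fderiv_kap hw, LL_fderiv_kap hw, g.inner_map_map]

lemma surj_kap {g : GG n} {w : EE n} (hw : w ∈ Ug g) :
    Function.Surjective (fderiv ℝ (kap g) w) := by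
  have hi : Function.Injective (fderiv ℝ (kap g) w : EE n →ₗ[ℝ] EE n) := by
    rw [injective_iff_map_eq_zero]
    intro u hu
    by_contra h0
    have h1 := g0_pos hw.1 u h0
    have h2 : fderiv ℝ (kap g) w u = 0 := hu
    rw [iso_kap hw, h2] at h1
    simp at h1
  exact LinearMap.injective_iff_surjective.1 hi

theorem locIso_kap {g : GG n} {w : EE n} (hw : w ∈ Ug g) :
    LocIsoAt (Metric.ball (0 : EE n) Real.pi) g0 (Metric.ball (0 : EE n) Real.pi) g0 (kap g) w where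
  mem := by simpa using hw.1
  mem' := by simpa using kap_mem hw
  smooth' := by
    filter_upwards [(isOpen_Ug g).mem_nhds hw] with y hy using contDiffAt_kap hy
  surj := by
    filter_upwards [(isOpen_Ug g).mem_nhds hw] with y hy using surj_kap hy
  iso := by
    filter_upwards [(isOpen_Ug g).mem_nhds hw] with y hy using iso_kap hy

end Crest.Agent.R249.MdlS_581
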