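/-
Row 249, leaf (MS) (helper581), file 3: **the round sphere is a model space** (`mS`).
-/
import Crest.Agent.R249.MdlS2_581
import Crest.Agent.R249.B2Defs_474

set_option autoImplicit false
set_option maxSynthPendingDepth 3

open Filter Topology Set
open scoped ContDiff RealInnerProductSpace
open Crest.Agent.R208.GH
open Crest.Agent.R244.CF (LocIsoAt)
open Crest.Agent.R249.B2Defs_474 (Mdl)

noncomputable section

namespace Crest.Agent.R249.MdlS_581

attribute [-simp] WithLp.prod_inner_apply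

variable {n : ℕ}

lemma exists_smul_eq (x y : SS n) : ∃ g : GG n, g • x = y := by
  refine ⟨(Submodule.span ℝ {x.1 - y.1})ᗮ.reflection, Subtype.ext ?_⟩
  rw [coe_smul]
  exact Submodule.reflection_sub (by rw [x.2, y.2])

lemma inv_smul_inner (g : GG n) (x y : SS n) : ⟪x.1, (g⁻¹ • y).1⟫ = ⟪(g • x).1, y.1⟫ := by
  have h := g.inner_map_map x.1 (g⁻¹ • y).1
  rw [← coe_smul, ← coe_smul, smul_inv_smul] at h
  exact h.symm

lemma eq_neg_pp {x : SS n} (hx : x ∉ (Rg : Set (SS n))) : x.1 = -pp := by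
  have h1 := norm_pr x
  have h2 : ⟪pp, x.1⟫ ≤ -1 := not_lt.1 hx
  have h3 : -1 ≤ ⟪pp, x.1⟫ := by
    have := neg_one_le_inner (ee 0) x
    rwa [coe_ee, ex_zero] at this
  have h4 : ⟪pp, x.1⟫ = -1 := le_antisymm h2 h3
  rw [h4] at h1
  have h5 : ‖pr x.1‖ = 0 := by
    have : ‖pr x.1‖ ^ 2 = 0 := by rw [h1]; norm_num
    exact pow_eq_zero_iff (two_ne_zero) |>.1 this
  have h6 := dec x.1
  rw [h4, norm_eq_zero.1 h5] at h6
  simpa using h6

lemma exists_unit (hn : 2 ≤ n) : ∃ u : EE n, ‖u‖ = 1 :=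
  ⟨EuclideanSpace.single ⟨0, by omega⟩ 1, by simp⟩

lemma exists_not_mem (hn : 2 ≤ n) (a : EE n) : ∃ u : EE n, ∀ c : ℝ, u ≠ c • a := by
  have h : Submodule.span ℝ {a} ≠ ⊤ := by
    intro h
    have h1 : Module.finrank ℝ (Submodule.span ℝ {a}) ≤ 1 := by
      refine (finrank_span_le_card ({a} : Set (EE n))).trans ?_
      simp
    rw [h, finrank_top, finrank_euclideanSpace, Fintype.card_fin] at h1
    omega
  obtain ⟨u, -, hu⟩ := SetLike.exists_of_lt (lt_top_iff_ne_top.2 h)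
  exact ⟨u, fun c hc => hu (Submodule.mem_span_singleton.2 ⟨c, hc.symm⟩)⟩

lemma star_dense_aux (hn : 2 ≤ n) (g : GG n) (hg : g • ee (0 : EE n) ∈ (Rg : Set (SS n)))
    (w : EE n) (hw : ‖w‖ < Real.pi) (ε : ℝ) (hε : 0 < ε) : ∃ w' : EE n, ‖w' - w‖ < ε ∧
    ∀ t ∈ Icc (0 : ℝ) 1, ‖t • w'‖ < Real.pi ∧ g • ee (t • w') ∈ (Rg : Set (SS n)) := by
  have hD : ∀ w' : EE n, ‖w'‖ < Real.pi → ∀ t ∈ Icc (0 : ℝ) 1, ‖t • w'‖ < Real.pi := by
    intro w' hw' t ht
    rw [norm_smul, Real.norm_of_nonneg ht.1]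
    nlinarith [norm_nonneg w', ht.2, ht.1]
  by_cases hb : ∀ t ∈ Icc (0 : ℝ) 1, g • ee (t • w) ∈ (Rg : Set (SS n))
  · exact ⟨w, by simpa using hε, fun t ht => ⟨hD w hw t ht, hb t ht⟩⟩
  push Not at hb
  obtain ⟨t1, ht1, h1⟩ := hb
  obtain ⟨u, hu⟩ := exists_not_mem hn w
  have hu0 : u ≠ 0 := by have := hu 0; simpa using this
  have hun : 0 < ‖u‖ := norm_pos_iff.2 hu0
  obtain ⟨δ, hδ, hδ1⟩ : ∃ δ : ℝ, 0 < δ ∧ δ * ‖u‖ < min ε (Real.pi - ‖w‖) := by
    have hm : 0 < min ε (Real.pi - ‖w‖) := lt_min hε (by linarith)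
    refine ⟨min ε (Real.pi - ‖w‖) / 2 / ‖u‖, by positivity, ?_⟩
    rw [div_mul_cancel₀ _ hun.ne']
    linarith
  have hn' : ‖w + δ • u - w‖ = δ * ‖u‖ := by
    rw [add_sub_cancel_left, norm_smul, Real.norm_of_nonneg hδ.le]
  have hw' : ‖w + δ • u‖ < Real.pi := by
    have h2 := norm_add_le w (δ • u)
    rw [norm_smul, Real.norm_of_nonneg hδ.le] at h2
    have := hδ1.trans_le (min_le_right _ _)
    linarith
  refine ⟨w + δ • u, by rw [hn']; exact hδ1.trans_le (min_le_left _ _), fun t ht =>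
    ⟨hD _ hw' t ht, ?_⟩⟩
  by_contra h2
  have h3 := (eq_neg_pp h1).trans (eq_neg_pp h2).symm
  have h4 : ee (t1 • w) = ee (t • (w + δ • u)) :=
    MulAction.injective g (Subtype.ext h3)
  have h5 : t1 • w = t • (w + δ • u) := by
    rw [← lgV_ee (hD w hw t1 ht1), ← lgV_ee (hD _ hw' t ht), h4]
  have ht0 : t ≠ 0 := by
    rintro rfl
    rw [zero_smul] at h2
    exact h2 hg
  apply hu ((t * δ)⁻¹ * (t1 - t))
  have h6 : (t * δ) • u = (t1 - t) • w := by
    rw [sub_smul, h5]; module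
  rw [mul_smul, ← h6, smul_smul, inv_mul_cancel₀ (mul_ne_zero ht0 hδ.ne'), one_smul]

/-- **The round sphere as a model space.** -/
def mS (n : ℕ) (hn : 2 ≤ n) : Mdl n where
  X := SS n
  G := GG n
  d := dd
  e := ee
  lg x := lgV x.1
  D := Metric.ball 0 Real.pi
  Reg := Rg
  R0 := R0
  g0 := g0
  J := Jf
  J' := Jf'
  D_open := Metric.isOpen_ball
  D_zero := by simp [Real.pi_pos]
  D_star := by
    intro w hw t ht
    rw [mem_ball_zero_iff] at hw ⊢
    rw [norm_smul, Real.norm_of_nonneg ht.1]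
    nlinarith [norm_nonneg w, ht.2, ht.1]
  g0_smooth := contDiff_g0.contDiffOn
  g0_symm w _ u v := g0_symm w u v
  g0_pos w hw u hu := g0_pos (by simpa using hw) u hu
  J_zero := Jf_zero
  J_one := Jf'_zero
  J_deriv := hasDerivAt_Jf
  J'_deriv := hasDerivAt_Jf'
  J_g0 v _ u u' := Jf_one v u u'
  d_symm := dd_symm
  d_self := dd_self
  d_tri := dd_tri
  d_smul := dd_smul
  d_e w hw := dd_ee (by simpa using hw)
  e_cont := by
    intro w _ ε hε
    have h1 : ContinuousAt (fun w' => dd (ee w) (ee w')) w :=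
      ((continuous_dd (ee w)).comp continuous_ee).continuousAt
    have h2 : ∀ᶠ w' in 𝓝 w, dd (ee w) (ee w') < ε := by
      have h3 := h1.tendsto
      rw [dd_self] at h3
      exact h3.eventually (gt_mem_nhds hε)
    obtain ⟨δ, hδ, h4⟩ := Metric.eventually_nhds_iff.1 h2
    exact ⟨δ, hδ, fun w' hw' => h4 (by rwa [dist_eq_norm])⟩
  e_mem w hw := ee_mem (by simpa using hw)
  lg_mem x hx := by simpa using lgV_mem hx
  lg_e w hw := lgV_ee (by simpa using hw)
  e_lg x hx := by rw [ee_lgV hx]; exact dd_self x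
  lg_congr := by
    intro x y h hx
    have h1 := eq_of_dd h
    subst h1
    exact ⟨hx, rfl⟩
  lg_cont := by
    intro x hx ε hε
    have h1 : ∀ᶠ y in 𝓝 x, y ∈ Rg ∧ dist (lgV y.1) (lgV x.1) < ε :=
      Filter.Eventually.and (p := fun y => y ∈ Rg) (isOpen_Rg.mem_nhds hx)
        (Metric.continuousAt_iff'.1 (continuousAt_lgV hx) ε hε)
    obtain ⟨δ, hδ, h4⟩ := Metric.eventually_nhds_iff.1 h1
    refine ⟨δ, hδ, fun y hy => ?_⟩
    have h5 : dist y x < δ := by
      rw [dist_comm, Subtype.dist_eq, dist_eq_norm]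
      exact (norm_sub_le_dd x y).trans_lt hy
    have h6 := h4 h5
    exact ⟨h6.1, by rw [← dist_eq_norm]; exact h6.2⟩
  trans x := exists_smul_eq (ee 0) x
  kappa g w hw hr := locIso_kap ⟨by simpa using hw, hr⟩
  star_dense g hg w hw ε hε := by
    obtain ⟨w', h1, h2⟩ := star_dense_aux hn g hg w (by simpa using hw) ε hε
    exact ⟨w', h1, fun t ht => ⟨by simpa using (h2 t ht).1, (h2 t ht).2⟩⟩
  dense := by
    intro x ε hε
    by_cases hx : x ∈ (Rg : Set (SS n))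
    · exact ⟨x, hx, by rw [dd_self]; exact hε⟩
    · obtain ⟨u, hu⟩ := exists_unit hn
      obtain ⟨s, hs0, hs1, hs2⟩ : ∃ s : ℝ, 0 ≤ s ∧ s < Real.pi ∧ Real.pi - s < ε := by
        refine ⟨max 0 (Real.pi - ε / 2), le_max_left _ _, ?_, ?_⟩
        · exact max_lt Real.pi_pos (by linarith)
        · have := le_max_right 0 (Real.pi - ε / 2)
          linarith
      have hsu : ‖s • u‖ = s := by rw [norm_smul, hu, mul_one, Real.norm_of_nonneg hs0]
      refine ⟨ee (s • u), ee_mem (by rw [hsu]; exact hs1), ?_⟩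
      rw [dd, eq_neg_pp hx, coe_ee, inner_neg_left, inner_pp_ex, hsu, Real.arccos_neg,
        Real.arccos_cos hs0 hs1.le]
      exact hs2
  cov := by
    intro x
    by_cases hx : x ∈ (Rg : Set (SS n))
    · refine ⟨1, ?_, ?_⟩
      · rw [one_smul]; exact ee_mem (by simp [Real.pi_pos])
      · rw [inv_one, one_smul]; exact hx
    · obtain ⟨u, hu⟩ := exists_unit hn
      obtain ⟨g, hg⟩ := exists_smul_eq (ee (0 : EE n)) (ee ((Real.pi / 2) • u))
      have hsu : ‖(Real.pi / 2) • u‖ = Real.pi / 2 := by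
        rw [norm_smul, hu, mul_one, Real.norm_of_nonneg (by positivity)]
      refine ⟨g, ?_, ?_⟩
      · rw [hg]; exact ee_mem (by rw [hsu]; linarith [Real.pi_pos])
      · have h1 := inv_smul_inner g (ee 0) x
        rw [hg, eq_neg_pp hx, coe_ee, coe_ee, ex_zero, inner_neg_right, real_inner_comm pp (ex _),
          inner_pp_ex, hsu, Real.cos_pi_div_two] at h1
        change -1 < ⟪pp, (g⁻¹ • x).1⟫
        rw [h1]; norm_num

@[simp] lemma mS_R0 (hn : 2 ≤ n) (u v w : EE n) :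
    (mS n hn).R0 u v w = (inner ℝ v w : ℝ) • u - (inner ℝ u w : ℝ) • v := rfl

@[simp] lemma mS_D (hn : 2 ≤ n) : (mS n hn).D = Metric.ball 0 Real.pi := rfl

end Crest.Agent.R249.MdlS_581
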