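import Crest.Agent.R249.St1_174
import Crest.Agent.R249.Vm_274
import Crest.Agent.R249.VE_222

/-!
# R249 (helper222), D3-LIM/MS, part 2: the ellipsoid sandwich and the limit measure

* `exists_T` : linear isomorphism with `‖T v‖ ^ 2 = qf G v`;
* `bf` : cut-off functions of ellipsoids;
* `sandwich` : the limit measure `ν` of `(u k)_* μ_k` has density `1` at the infinitesimal
  ellipsoids of `h⁻¹`;
* `msOut_of` : `MsOut` from the existence of `ν`.
-/

set_option autoImplicit false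
set_option linter.unusedSectionVars false
noncomputable section
open Set Filter Topology Bundle MeasureTheory Metric
open scoped ContDiff Manifold ENNReal NNReal Matrix
open Crest.GeometryTopology.CoordMetric Crest.GeometryTopology.ChartCurvature
  Crest.GeometryTopology.RicciEnergy Crest.GeometryTopology.PointedLimit
open Crest.Agent.R247.Bo84
open Crest.Agent.R249.D1Def104 Crest.Agent.R249.Ul174 Crest.Agent.R249.Len47
open Crest.Agent.R249.AsmD832 Crest.Agent.R249.LimDef41 Crest.Agent.R249.St174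
open Crest.Agent.R249.VE_222

namespace Crest.Agent.R249.Ms2_222

local notation "𝔼" => EuclideanSpace ℝ (Fin 4)

/-! ### linear algebra -/

/-- a positive definite form is the square of the norm in linear coordinates. -/
theorem exists_T {n : ℕ} {G : Matrix (Fin n) (Fin n) ℝ} (hG : G.PosDef) :
    ∃ T : EuclideanSpace ℝ (Fin n) ≃L[ℝ] EuclideanSpace ℝ (Fin n), ∀ v, ‖T v‖ ^ 2 = qf G v := by
  have hdet := hG.det_pos
  obtain ⟨B, hB⟩ : ∃ B : Matrix (Fin n) (Fin n) ℝ, G = star B * B := by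
    open scoped MatrixOrder in
    exact CStarAlgebra.nonneg_iff_eq_star_mul_self.mp hG.posSemidef.nonneg
  have hdB : G.det = B.det ^ 2 := by
    rw [hB, Matrix.det_mul, Matrix.star_eq_conjTranspose,
      Matrix.conjTranspose_eq_transpose_of_trivial, Matrix.det_transpose, sq]
  have hB0 : B.det ≠ 0 := by
    intro h0; rw [hdB, h0] at hdet; simp at hdet
  have hinj : Function.Injective B.toEuclideanLin := by
    rw [← LinearMap.ker_eq_bot, LinearMap.ker_eq_bot']
    intro v hv
    have h1 : qf G v = 0 := by rw [hB, qf_star_mul, hv, norm_zero]; simp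
    by_contra hne
    have h2 := hG.dotProduct_mulVec_pos (x := v.ofLp) (by
      intro h; exact hne (by ext i; simpa using congrFun h i))
    have h3 : star v.ofLp = v.ofLp := by ext i; simp
    rw [h3] at h2
    exact h2.ne' h1
  refine ⟨(LinearEquiv.ofInjectiveEndo B.toEuclideanLin hinj).toContinuousLinearEquiv,
    fun v => ?_⟩
  rw [hB, qf_star_mul]
  rfl

theorem qf_near {h : Matrix (Fin 4) (Fin 4) ℝ} {ε₁ : ℝ}
    (hn : ∑ a, ∑ b, |h a b - if a = b then 1 else 0| ≤ ε₁) (v : 𝔼) :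
    |qf h v - ‖v‖ ^ 2| ≤ ε₁ * ‖v‖ ^ 2 := by
  have h1 : qf h v - ‖v‖ ^ 2 = ∑ a, ∑ b, (h a b - if a = b then 1 else 0) * (v a * v b) := by
    rw [EuclideanSpace.real_norm_sq_eq, qf, dotProduct, ← Finset.sum_sub_distrib]
    refine Finset.sum_congr rfl fun a _ => ?_
    rw [Matrix.mulVec, dotProduct, Finset.mul_sum]
    simp only [sub_mul, Finset.sum_sub_distrib, ite_mul, one_mul, zero_mul,
      Finset.sum_ite_eq, Finset.mem_univ, if_true]
    congr 1
    · refine Finset.sum_congr rfl fun b _ => ?_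
      ring
    · ring
  rw [h1]
  have h2 : ∀ a b, |v a * v b| ≤ ‖v‖ ^ 2 := by
    intro a b
    rw [abs_mul, sq]
    have h3 : ∀ a, |v a| ≤ ‖v‖ := fun a => by
      have := PiLp.norm_apply_le v a
      rwa [Real.norm_eq_abs] at this
    exact mul_le_mul (h3 a) (h3 b) (abs_nonneg _) (norm_nonneg _)
  calc |∑ a, ∑ b, (h a b - if a = b then 1 else 0) * (v a * v b)|
      ≤ ∑ a, |∑ b, (h a b - if a = b then 1 else 0) * (v a * v b)| :=
        Finset.abs_sum_le_sum_abs _ _
    _ ≤ ∑ a, ∑ b, |h a b - if a = b then 1 else 0| * ‖v‖ ^ 2 := by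
        refine Finset.sum_le_sum fun a _ => (Finset.abs_sum_le_sum_abs _ _).trans ?_
        refine Finset.sum_le_sum fun b _ => ?_
        rw [abs_mul]
        exact mul_le_mul_of_nonneg_left (h2 a b) (abs_nonneg _)
    _ = (∑ a, ∑ b, |h a b - if a = b then 1 else 0|) * ‖v‖ ^ 2 := by
        simp only [Finset.sum_mul]
    _ ≤ ε₁ * ‖v‖ ^ 2 := by gcongr

/-! ### cut-off functions -/

section bf

variable (T : 𝔼 ≃L[ℝ] 𝔼) (w₀ : 𝔼) (a b : ℝ)

/-- cut-off function: `1` on the ellipsoid of size `a`, `0` outside the one of size `b`. -/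
def bf (y : 𝔼) : ℝ := max 0 (min 1 ((b - dist (T y) (T w₀)) / (b - a)))

theorem bf_cont : Continuous (bf T w₀ a b) := by
  unfold bf
  fun_prop

theorem bf_nonneg (y : 𝔼) : 0 ≤ bf T w₀ a b y := le_max_left _ _

theorem bf_le_one (y : 𝔼) : bf T w₀ a b y ≤ 1 := max_le zero_le_one (min_le_left _ _)

variable {T w₀ a b}

theorem bf_eq_one (hab : a < b) {y : 𝔼} (hy : dist (T y) (T w₀) ≤ a) : bf T w₀ a b y = 1 := by
  unfold bf
  have h1 : 1 ≤ (b - dist (T y) (T w₀)) / (b - a) := by
    rw [le_div_iff₀ (by linarith)]; linarith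
  rw [min_eq_left h1, max_eq_right zero_le_one]

theorem bf_eq_zero (hab : a < b) {y : 𝔼} (hy : b ≤ dist (T y) (T w₀)) : bf T w₀ a b y = 0 := by
  unfold bf
  have h1 : (b - dist (T y) (T w₀)) / (b - a) ≤ 0 :=
    div_nonpos_of_nonpos_of_nonneg (by linarith) (by linarith)
  exact max_eq_left ((min_le_right _ _).trans h1)

theorem lt_of_bf_ne (hab : a < b) {y : 𝔼} (hy : bf T w₀ a b y ≠ 0) :
    dist (T y) (T w₀) < b := by
  by_contra hlt
  exact hy (bf_eq_zero hab (not_lt.1 hlt))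

theorem bf_comp (hab : a < b) : HasCompactSupport (bf T w₀ a b) := by
  refine HasCompactSupport.of_support_subset_isCompact
    ((isCompact_closedBall (T w₀) b).image T.symm.continuous) fun y hy => ?_
  refine ⟨T y, ?_, by simp⟩
  exact (lt_of_bf_ne hab hy).le

end bf

/-! ### sequences -/

section ul

variable {M : ℕ → Type} [∀ k, MetricSpace (M k)] {q : ∀ k, M k}

theorem tend_u {x : ∀ k, M k} {hx : Bd q x} {R : ℝ} {u : ∀ k, Fin 4 → M k → ℝ} {U : UL q → 𝔼}
    (hlim : ∀ a, LimOn (ball (UL.mk x hx) R) (fun k => u k a) fun y => U y a)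
    {y : ∀ k, M k} (hy : Bd q y) (hY : UL.mk y hy ∈ ball (UL.mk x hx) R) :
    Tendsto (fun k => (WithLp.toLp 2 fun a => u k a (y k) : 𝔼)) om (𝓝 (U (UL.mk y hy))) := by
  have h2 : Tendsto (fun k => (fun a => u k a (y k) : Fin 4 → ℝ)) om
      (𝓝 fun a => U (UL.mk y hy) a) := by
    rw [tendsto_pi_nhds]
    exact fun a => hlim a y hy hY
  exact ((PiLp.continuous_toLp 2 _).tendsto _).comp h2

/-- sequences in balls around a representative -/
theorem bd_rep_closedBall (z : UL q) {r : ℝ} {y : ∀ k, M k}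
    (hy : ∀ᶠ k in om, y k ∈ closedBall (z.rep k) r) : Bd q y :=
  bd_of_closedBall z.bd_rep hy

theorem mem_rep_closedBall (z : UL q) {r : ℝ} {y : ∀ k, M k} (hyb : Bd q y)
    (hy : ∀ᶠ k in om, y k ∈ closedBall (z.rep k) r) : UL.mk y hyb ∈ closedBall z r := by
  have := mem_closedBall_mk z.bd_rep hyb hy
  rwa [UL.mk_rep] at this

end ul

section main

variable {M : ℕ → Type} [∀ k, MetricSpace (M k)] {q : ∀ k, M k}
  {x : ∀ k, M k} {hx : Bd q x} {R : ℝ} {u : ∀ k, Fin 4 → M k → ℝ} {U : UL q → 𝔼}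
  {T : 𝔼 ≃L[ℝ] 𝔼} {z : UL q} {η s : ℝ}

/-- near isometry along the sequence -/
theorem ev_near (hlim : ∀ a, LimOn (ball (UL.mk x hx) R) (fun k => u k a) fun y => U y a)
    (hs : 0 < s) (hη : 0 < η) (hsub : closedBall z s ⊆ ball (UL.mk x hx) R)
    (hni : ∀ y ∈ closedBall z s, ∀ y' ∈ closedBall z s,
      |dist (T (U y)) (T (U y')) - dist y y'| ≤ η * dist y y') :
    ∀ᶠ k in om, ∀ y ∈ ball (z.rep k) s, ∀ y' ∈ ball (z.rep k) s,
      |dist (T (WithLp.toLp 2 fun a => u k a y)) (T (WithLp.toLp 2 fun a => u k a y')) -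
        dist y y'| ≤ 3 * η * s := by
  have : ∀ k, Nonempty (M k × M k) := fun k => ⟨(x k, x k)⟩
  have key : ∀ᶠ k in om, ∀ w : M k × M k, w ∈ (ball (z.rep k) s ×ˢ ball (z.rep k) s) →
      |dist (T (WithLp.toLp 2 fun a => u k a w.1)) (T (WithLp.toLp 2 fun a => u k a w.2)) -
        dist w.1 w.2| ≤ 3 * η * s := by
    refine ev_forall (M := fun k => M k × M k)
      (S := fun k => ball (z.rep k) s ×ˢ ball (z.rep k) s) fun w hw => ?_
    have hw1 : ∀ᶠ k in om, (w k).1 ∈ closedBall (z.rep k) s :=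
      hw.mono fun k hk => ball_subset_closedBall hk.1
    have hw2 : ∀ᶠ k in om, (w k).2 ∈ closedBall (z.rep k) s :=
      hw.mono fun k hk => ball_subset_closedBall hk.2
    have hb1 := bd_rep_closedBall z hw1
    have hb2 := bd_rep_closedBall z hw2
    have hm1 := mem_rep_closedBall z hb1 hw1
    have hm2 := mem_rep_closedBall z hb2 hw2
    have h1 := tend_u hlim hb1 (hsub hm1)
    have h2 := tend_u hlim hb2 (hsub hm2)
    have h3 := ((T.continuous.tendsto _).comp h1).dist ((T.continuous.tendsto _).comp h2)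
    have h4 := (h3.sub (UL.tendsto_dist hb1 hb2)).abs
    have h5 := hni _ hm1 _ hm2
    have h6 : dist (UL.mk (fun k => (w k).1) hb1) (UL.mk (fun k => (w k).2) hb2) ≤ 2 * s := by
      have h7 := dist_triangle (UL.mk (fun k => (w k).1) hb1) z (UL.mk (fun k => (w k).2) hb2)
      have h8 := mem_closedBall.1 hm1
      have h9 := mem_closedBall'.1 hm2
      linarith
    have h7 : |dist (T (U (UL.mk (fun k => (w k).1) hb1))) (T (U (UL.mk (fun k => (w k).2) hb2))) -
        dist (UL.mk (fun k => (w k).1) hb1) (UL.mk (fun k => (w k).2) hb2)| < 3 * η * s := by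
      refine h5.trans_lt ?_
      have : 0 < η * s := by positivity
      nlinarith
    exact (h4.eventually_lt_const h7).mono fun k hk => hk.le
  exact key.mono fun k hk y hy y' hy' => hk (y, y') ⟨hy, hy'⟩

/-- almost surjectivity along the sequence -/
theorem ev_full (hlim : ∀ a, LimOn (ball (UL.mk x hx) R) (fun k => u k a) fun y => U y a)
    (hs : 0 < s) (hη : 0 < η) (hz : z ∈ ball (UL.mk x hx) R)
    (hsub : ball z s ⊆ ball (UL.mk x hx) R)
    (hfull : ∀ w ∈ closedBall (T (U z)) (s / 2), ∃ y ∈ ball z s, T (U y) = w) :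
    ∀ᶠ k in om, ∀ w ∈ ball (T (WithLp.toLp 2 fun a => u k a (z.rep k))) (s / 2),
      ∃ y ∈ ball (z.rep k) s, dist (T (WithLp.toLp 2 fun a => u k a y)) w ≤ η * s := by
  have hz0 : Tendsto (fun k => T (WithLp.toLp 2 fun a => u k a (z.rep k) : 𝔼)) om
      (𝓝 (T (U z))) := by
    have h1 := tend_u hlim z.bd_rep (by rw [UL.mk_rep]; exact hz)
    rw [UL.mk_rep] at h1
    exact (T.continuous.tendsto _).comp h1
  refine ev_forall (M := fun _ => 𝔼)
    (S := fun k => ball (T (WithLp.toLp 2 fun a => u k a (z.rep k))) (s / 2)) fun w hw => ?_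
  have hwb : ∀ᶠ k in om, dist (w k) (T (U z)) ≤ s := by
    filter_upwards [hw, (Metric.tendsto_nhds.1 hz0) (s / 2) (by positivity)] with k hk1 hk2
    have := dist_triangle (w k) (T (WithLp.toLp 2 fun a => u k a (z.rep k))) (T (U z))
    have := mem_ball.1 hk1
    linarith
  obtain ⟨w₁, -, hw₁⟩ := exists_lim hwb
  have hw₁m : w₁ ∈ closedBall (T (U z)) (s / 2) := by
    have h1 := hw₁.dist hz0
    exact le_of_tendsto h1 (hw.mono fun k hk => (mem_ball.1 hk).le)
  obtain ⟨Y, hY, hYw⟩ := hfull w₁ hw₁m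
  have h1 : ∀ᶠ k in om, dist (Y.rep k) (z.rep k) < s := by
    refine UL.ev_lt Y.bd_rep z.bd_rep ?_
    rw [UL.mk_rep, UL.mk_rep]
    exact hY
  have h2 : Tendsto (fun k => T (WithLp.toLp 2 fun a => u k a (Y.rep k) : 𝔼)) om
      (𝓝 w₁) := by
    have h1 := tend_u hlim Y.bd_rep (by rw [UL.mk_rep]; exact hsub hY)
    rw [UL.mk_rep] at h1
    rw [← hYw]
    exact (T.continuous.tendsto _).comp h1
  have h3 := h2.dist hw₁
  rw [dist_self] at h3
  filter_upwards [h1, h3.eventually_lt_const (show (0 : ℝ) < η * s by positivity)] with k hk1 hk2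
  exact ⟨Y.rep k, hk1, hk2.le⟩

/-- the preimage of a small ellipsoid is contained in a small ball -/
theorem ev_sub_ball (hlim : ∀ a, LimOn (ball (UL.mk x hx) R) (fun k => u k a) fun y => U y a)
    {r₀ c b r : ℝ} (hr₀ : r₀ < R) (hcb : c < b)
    (hin : ∀ y ∈ closedBall (UL.mk x hx) r₀, dist (T (U y)) (T (U z)) ≤ r → dist y z ≤ c) :
    ∀ᶠ k in om, ∀ y ∈ ball (x k) r₀,
      dist (T (WithLp.toLp 2 fun a => u k a y)) (T (U z)) ≤ r → y ∈ ball (z.rep k) b := by
  have : ∀ k, Nonempty (M k) := fun k => ⟨x k⟩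
  have key : ∀ᶠ k in om, ∀ y ∈ (ball (x k) r₀ ∩
      {y | dist (T (WithLp.toLp 2 fun a => u k a y)) (T (U z)) ≤ r}), y ∈ ball (z.rep k) b := by
    refine ev_forall fun y hy => ?_
    have hy1 : ∀ᶠ k in om, y k ∈ closedBall (x k) r₀ :=
      hy.mono fun k hk => ball_subset_closedBall hk.1
    have hyb := bd_of_closedBall hx hy1
    have hm := mem_closedBall_mk hx hyb hy1
    have h1 := tend_u hlim hyb (closedBall_subset_ball hr₀ hm)
    have h2 : dist (T (U (UL.mk y hyb))) (T (U z)) ≤ r := by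
      have h3 := ((T.continuous.tendsto _).comp h1).dist (tendsto_const_nhds (x := T (U z)))
      exact le_of_tendsto h3 (hy.mono fun k hk => hk.2)
    have h3 := hin _ hm h2
    refine UL.ev_lt hyb z.bd_rep ?_
    rw [UL.mk_rep]
    linarith
  exact key.mono fun k hk y hy hy' => hk y ⟨hy, hy'⟩

/-- a small ball is mapped into a small ellipsoid -/
theorem ev_ball_sub (hlim : ∀ a, LimOn (ball (UL.mk x hx) R) (fun k => u k a) fun y => U y a)
    {r₀ c b r : ℝ} (hsub : closedBall z b ⊆ ball (UL.mk x hx) R)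
    (hsub0 : closedBall z b ⊆ ball (UL.mk x hx) r₀) (hcr : c < r)
    (hin : ∀ y ∈ closedBall z b, dist (T (U y)) (T (U z)) ≤ c) :
    ∀ᶠ k in om, ∀ y ∈ ball (z.rep k) b, y ∈ ball (x k) r₀ ∧
      dist (T (WithLp.toLp 2 fun a => u k a y)) (T (U z)) ≤ r := by
  have : ∀ k, Nonempty (M k) := fun k => ⟨x k⟩
  refine ev_forall fun y hy => ?_
  have hy1 : ∀ᶠ k in om, y k ∈ closedBall (z.rep k) b :=
    hy.mono fun k hk => ball_subset_closedBall hk
  have hyb := bd_rep_closedBall z hy1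
  have hm := mem_rep_closedBall z hyb hy1
  have h1 := tend_u hlim hyb (hsub hm)
  have h2 := ((T.continuous.tendsto _).comp h1).dist (tendsto_const_nhds (x := T (U z)))
  have h3 : ∀ᶠ k in om, dist (y k) (x k) < r₀ := UL.ev_lt hyb hx (hsub0 hm)
  have h4 := h2.eventually_lt_const ((hin _ hm).trans_lt hcr)
  filter_upwards [h3, h4] with k hk3 hk4
  exact ⟨hk3, hk4.le⟩

end main

/-! ### integrals -/

section meas

variable {X : Type*} [MeasurableSpace X] {μ : Measure X} {S B : Set X} {f : X → ℝ}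

theorem int_le (hS : MeasurableSet S) (hB : MeasurableSet B) (hBf : μ B ≠ ⊤)
    (h0 : ∀ y, 0 ≤ f y) (h1 : ∀ y, f y ≤ 1) (h : ∀ y ∈ S, f y ≠ 0 → y ∈ B) :
    ∫ y in S, f y ∂μ ≤ μ.real B := by
  have hi : Integrable (B.indicator (fun _ => (1 : ℝ))) μ :=
    (integrableOn_const hBf).integrable_indicator hB
  calc ∫ y in S, f y ∂μ ≤ ∫ y in S, B.indicator (fun _ => (1 : ℝ)) y ∂μ := by
        refine integral_mono_of_nonneg (Eventually.of_forall h0) hi.restrict ?_
        filter_upwards [ae_restrict_mem hS] with y hy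
        by_cases hf : f y = 0
        · rw [hf]; exact indicator_nonneg (fun _ _ => zero_le_one) y
        · rw [indicator_of_mem (h y hy hf)]; exact h1 y
    _ ≤ ∫ y, B.indicator (fun _ => (1 : ℝ)) y ∂μ :=
        setIntegral_le_integral hi (Eventually.of_forall fun y =>
          indicator_nonneg (fun _ _ => zero_le_one) y)
    _ = μ.real B := by
        rw [integral_indicator hB]
        simp

theorem le_int (hSf : μ S ≠ ⊤) (hB : MeasurableSet B)
    (hf : AEStronglyMeasurable f (μ.restrict S))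
    (h0 : ∀ y, 0 ≤ f y) (h1 : ∀ y, f y ≤ 1) (h : ∀ y ∈ B, y ∈ S ∧ f y = 1) :
    μ.real B ≤ ∫ y in S, f y ∂μ := by
  have hfin : IsFiniteMeasure (μ.restrict S) := isFiniteMeasure_restrict.2 hSf
  have hfi : Integrable f (μ.restrict S) := by
    refine Integrable.of_bound hf 1 (Eventually.of_forall fun y => ?_)
    rw [Real.norm_eq_abs, abs_of_nonneg (h0 y)]; exact h1 y
  have hi : Integrable (B.indicator (fun _ => (1 : ℝ))) (μ.restrict S) :=
    (integrable_const _).indicator hB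
  calc μ.real B = ∫ y in S, B.indicator (fun _ => (1 : ℝ)) y ∂μ := by
        rw [integral_indicator hB, Measure.restrict_restrict hB,
          inter_eq_self_of_subset_left (fun y hy => (h y hy).1)]
        simp
    _ ≤ ∫ y in S, f y ∂μ := by
        refine integral_mono hi hfi fun y => ?_
        by_cases hy : y ∈ B
        · rw [indicator_of_mem hy, (h y hy).2]
        · rw [indicator_of_notMem hy]; exact h0 y

end meas

/-! ### the sandwich -/

section final

variable {M : ℕ → Type} [∀ k, MetricSpace (M k)] [∀ k, CompleteSpace (M k)]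
  [∀ k, ConnectedSpace (M k)] [∀ k, ChartedSpace (EuclideanSpace ℝ (Fin 4)) (M k)]
  [∀ k, IsManifold 𝓘(ℝ, EuclideanSpace ℝ (Fin 4)) ∞ (M k)]
  [∀ k, RiemannianBundle (fun x : M k => TangentSpace 𝓘(ℝ, EuclideanSpace ℝ (Fin 4)) x)]
  [∀ k, IsContMDiffRiemannianBundle 𝓘(ℝ, EuclideanSpace ℝ (Fin 4)) ∞ (EuclideanSpace ℝ (Fin 4))
    (fun x : M k => TangentSpace 𝓘(ℝ, EuclideanSpace ℝ (Fin 4)) x)]
  [∀ k, IsRiemannianManifold 𝓘(ℝ, EuclideanSpace ℝ (Fin 4)) (M k)]
  [∀ k, MeasurableSpace (M k)] [∀ k, BorelSpace (M k)] {q : ∀ k, M k}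

/-- bounds of the form `h` near the identity. -/
theorem form_bounds {A : Matrix (Fin 4) (Fin 4) ℝ} {ε₁ : ℝ} (hε : ε₁ ≤ 1 / 2)
    (hn : ∑ a, ∑ b, |A a b - if a = b then 1 else 0| ≤ ε₁) :
    (∀ v, (2 : ℝ)⁻¹ * ‖v‖ ^ 2 ≤ qf A v) ∧ (∀ v, qf A v ≤ 2 * ‖v‖ ^ 2) := by
  constructor
  · intro v
    have h1 := (abs_le.1 (qf_near hn v)).1
    have h2 : 0 ≤ ‖v‖ ^ 2 := by positivity
    nlinarith
  · intro v
    have h1 := (abs_le.1 (qf_near hn v)).2
    have h2 : 0 ≤ ‖v‖ ^ 2 := by positivity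
    nlinarith

theorem num_up {η κ : ℝ} (h0 : 0 < η) (h1 : η ≤ 1 / 60) (hk : 60 * η ≤ κ) :
    (1 + 3 * η) ^ 4 ≤ 1 + κ := by
  have h2 : η ^ 2 ≤ (1 / 60) ^ 2 := pow_le_pow_left₀ h0.le h1 2
  have h3 : η ^ 3 ≤ (1 / 60) ^ 3 := pow_le_pow_left₀ h0.le h1 3
  have h4 : (1 + 3 * η) ^ 4 = 1 + η * (12 + 54 * η + 108 * η ^ 2 + 81 * η ^ 3) := by ring
  have h5 : 12 + 54 * η + 108 * η ^ 2 + 81 * η ^ 3 ≤ 60 := by
    norm_num at h2 h3 ⊢
    linarith
  have h6 : η * (12 + 54 * η + 108 * η ^ 2 + 81 * η ^ 3) ≤ η * 60 :=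
    mul_le_mul_of_nonneg_left h5 h0.le
  rw [h4]
  linarith

theorem num_low {η κ : ℝ} (h0 : 0 < η) (h1 : η ≤ 1 / 60) (hk : 60 * η ≤ κ) :
    1 - κ ≤ (1 - η) * (1 - 3 * η) ^ 4 := by
  have h2 := one_add_mul_le_pow (a := -(3 * η)) (by linarith) 4
  have h3 : 1 - 12 * η ≤ (1 - 3 * η) ^ 4 := by
    have h4 : (1 + -(3 * η)) ^ 4 = (1 - 3 * η) ^ 4 := by ring
    rw [h4] at h2
    push_cast at h2
    linarith
  calc 1 - κ ≤ (1 - η) * (1 - 12 * η) := by nlinarith
    _ ≤ (1 - η) * (1 - 3 * η) ^ 4 := mul_le_mul_of_nonneg_left h3 (by linarith)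

theorem num_c {η r : ℝ} (h0 : 0 < η) (h1 : η ≤ 1 / 60) (hr : 0 < r) :
    (1 + η) * r ≤ (1 - η) * ((1 + 5 / 2 * η) * r) := by
  have : 0 ≤ η * r * (1 / 2 - 5 / 2 * η) := mul_nonneg (by positivity) (by linarith)
  nlinarith

set_option maxHeartbeats 1000000 in
/-- **the ellipsoid sandwich** -/
theorem sandwich {x : ∀ k, M k} {hx : Bd q x} {ρ α C C' ε ε₁ δ lam : ℝ} {lamk : ℕ → ℝ}
    {u : ∀ k, Fin 4 → M k → ℝ} {h : UL q → Matrix (Fin 4) (Fin 4) ℝ} {r₀ : ℝ}
    {U : UL q → EuclideanSpace ℝ (Fin 4)}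
    {e : OpenPartialHomeomorph (UL q) (EuclideanSpace ℝ (Fin 4))} (hδ : δ ≤ 1 / 2)
    (hε₁ : ε₁ ≤ 1 / 2) (hD : HData x ρ α C ε δ lam lamk u) (hA : AvOut x hx ρ α C' ε₁ u h)
    (hC : ChOut x hx ρ u h r₀ U e) {ν : Measure 𝔼} [IsFiniteMeasure ν]
    (hν : ∀ φ : 𝔼 → ℝ, Continuous φ → HasCompactSupport φ →
      Tendsto (fun k => ∫ y in ball (x k) r₀, φ (WithLp.toLp 2 fun a => u k a y)
        ∂(μHE[4] : Measure (M k))) om (𝓝 (∫ z, φ z ∂ν)))
    {w : 𝔼} (hw : w ∈ e.target) {κ : ℝ} (hκ : 0 < κ) :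
    ∀ᶠ r in 𝓝[>] (0 : ℝ),
      ENNReal.ofReal (1 - κ) * (ENNReal.ofReal (r ^ 4) * volume (ball (0 : 𝔼) 1)) ≤
          ν {y | qf (h (e.symm w))⁻¹ (y - w) ≤ r ^ 2} ∧
        ν {y | qf (h (e.symm w))⁻¹ (y - w) ≤ r ^ 2} ≤
          ENNReal.ofReal (1 + κ) * (ENNReal.ofReal (r ^ 4) * volume (ball (0 : 𝔼) 1)) := by
  set p : UL q := UL.mk x hx with hp
  have hρ := hD.ρ_pos
  have hr0 := hC.r_pos
  have hr4 := hC.r_le
  set z : UL q := e.symm w with hz
  have hzs : z ∈ e.source := e.map_target hw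
  have hzp : z ∈ ball p r₀ := by rw [← hC.source]; exact hzs
  have hUz : U z = w := by rw [← hC.eq, hz, e.right_inv hw]
  have hz4 : z ∈ ball p (4 * ρ) := ball_subset_ball (by linarith) hzp
  set A : Matrix (Fin 4) (Fin 4) ℝ := h z with hAdef
  have hAs : A.IsSymm := by
    ext a b
    exact hA.symm z b a
  obtain ⟨hAl, hAu⟩ := form_bounds hε₁ (hA.near z hz4)
  obtain ⟨hIl, hIu⟩ := qf_inv_bounds hAs (L := 2) (by norm_num) hAl hAu
  have hIs : (A⁻¹).IsSymm := by
    rw [Matrix.IsSymm, Matrix.transpose_nonsing_inv, hAs.eq]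
  obtain ⟨T, hT⟩ := exists_T (posDef_of_bounds hIs (c := 2⁻¹) (by norm_num) hIl)
  have hTd : ∀ a b : 𝔼, dist (T a) (T b) = √(qf A⁻¹ (a - b)) := fun a b => by
    rw [← hT, Real.sqrt_sq (norm_nonneg _), dist_eq_norm, map_sub]
  -- `T` is bi-Lipschitz with constant `2`
  have hTl : ∀ a b : 𝔼, dist a b ≤ 2 * dist (T a) (T b) := fun a b => by
    have h1 := hIl (a - b)
    rw [← hT, map_sub, ← dist_eq_norm, ← dist_eq_norm] at h1
    have h2 : dist a b ^ 2 ≤ (2 * dist (T a) (T b)) ^ 2 := by nlinarith [sq_nonneg (dist a b)]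
    exact (abs_le_of_sq_le_sq' h2 (by positivity)).2
  have hS : ∀ r : ℝ, 0 ≤ r → {y | qf A⁻¹ (y - w) ≤ r ^ 2} = {y | dist (T y) (T w) ≤ r} := by
    intro r hr
    ext y
    simp only [mem_ofPred_eq]
    rw [hTd, Real.sqrt_le_left hr]
  -- constants
  set η : ℝ := min κ 1 / 60 with hη
  have hη0 : 0 < η := by positivity
  have hη1 : η ≤ 1 / 60 := by
    have := min_le_right κ 1
    linarith
  have hηκ : 60 * η ≤ κ := by
    have := min_le_left κ 1
    linarith
  obtain ⟨t, ht0, ht1, hvm⟩ := Vm_274.vol_of_near.{0} 4 (e := η) (c := 1 / 2) hη0 (by norm_num)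
  obtain ⟨δv, hδv, -, hvm⟩ := hvm t ht0 le_rfl
  set η' : ℝ := min η (δv / 3) with hη'
  have hη'0 : 0 < η' := lt_min hη0 (by positivity)
  have hη'1 : η' ≤ η := min_le_left _ _
  have hη'2 : 3 * η' ≤ δv := by
    have := min_le_right η (δv / 3)
    linarith
  obtain ⟨rI, hrI, hI⟩ := hC.inf η' hη'0
  have hN : ∀ y' ∈ ball p (4 * r₀), ∀ y'' ∈ ball p (4 * r₀), dist y' z < rI → dist y'' z < rI →
      |dist (T (U y')) (T (U y'')) - dist y' y''| ≤ η' * dist y' y'' := by
    intro y' hy' y'' hy'' h1 h2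
    rw [hTd]
    exact hI z (ball_subset_ball (by linarith) hzp) y' hy' y'' hy''
      (by rwa [dist_comm]) (by rwa [dist_comm])
  -- distances to `z` from the image
  have hzz : z ∈ ball p (4 * r₀) := ball_subset_ball (by linarith) hzp
  have hni : ∀ y ∈ ball p (4 * r₀), dist y z ≤ 2 * dist (U y) (U z) := by
    intro y hy
    have h1 := (abs_le.1 (hC.ni y hy z hzz)).1
    have h2 : 0 ≤ dist y z := dist_nonneg
    linarith
  obtain ⟨rT, hrT, hTt⟩ := Metric.isOpen_iff.1 e.open_target w hw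
  -- the threshold
  set R₁ : ℝ := min (min (rI / 8) (rT / 8)) ((r₀ - dist z p) / 2) with hR₁
  have hzp' := mem_ball.1 hzp
  have hR₁0 : 0 < R₁ := by
    refine lt_min (lt_min (by positivity) (by positivity)) ?_
    linarith
  have hR₁a : 8 * R₁ ≤ rI := by
    have := (min_le_left (min (rI / 8) (rT / 8)) ((r₀ - dist z p) / 2)).trans (min_le_left _ _)
    linarith
  have hR₁b : 8 * R₁ ≤ rT := by
    have := (min_le_left (min (rI / 8) (rT / 8)) ((r₀ - dist z p) / 2)).trans (min_le_right _ _)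
    linarith
  have hR₁c : 2 * R₁ ≤ r₀ - dist z p := by
    have := min_le_right (min (rI / 8) (rT / 8)) ((r₀ - dist z p) / 2)
    linarith
  have hcb : ∀ b : ℝ, b ≤ R₁ → closedBall z b ⊆ ball p r₀ := by
    intro b hb y hy
    have h1 := mem_closedBall.1 hy
    have h2 := dist_triangle y z p
    rw [mem_ball]
    linarith
  have hpR : ball p r₀ ⊆ ball p (8 * ρ) := ball_subset_ball (by linarith)
  have hp4 : ball p r₀ ⊆ ball p (4 * r₀) := ball_subset_ball (by linarith)
  filter_upwards [Ioo_mem_nhdsGT (show (0 : ℝ) < t * R₁ / 2 by positivity)] with r hr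
  have hr1 : 0 < r := hr.1
  have hr2 : r < t * R₁ / 2 := hr.2
  have hrt : 2 * r < t * R₁ := by linarith
  have htR : t * R₁ ≤ R₁ := by nlinarith
  rw [hS r hr1.le]
  have hηr : 0 < η * r := by positivity
  have hηr1 : η * r ≤ r / 60 := by nlinarith
  have hra : r < (1 + η) * r := by linarith
  have hw4 := om4_pos
  have hν1 : ∀ c : ℝ, 0 ≤ c → ENNReal.ofReal c * (ENNReal.ofReal (r ^ 4) *
      volume (ball (0 : 𝔼) 1)) = ENNReal.ofReal (c * (om4 * r ^ 4)) := by
    intro c hc
    rw [vol_ball_eq 0 one_pos, one_pow, mul_one, ENNReal.ofReal_mul hc,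
      ENNReal.ofReal_mul hw4.le, mul_comm (ENNReal.ofReal (r ^ 4))]
  have hSm : MeasurableSet {y | dist (T y) (T w) ≤ r} :=
    (isClosed_le (by fun_prop) continuous_const).measurableSet
  have hSν : ν {y | dist (T y) (T w) ≤ r} =
      ENNReal.ofReal (ν.real {y | dist (T y) (T w) ≤ r}) := by
    rw [Measure.real, ENNReal.ofReal_toReal (measure_ne_top _ _)]
  constructor
  · -- lower bound
    rcases le_or_gt 1 κ with hκ1 | hκ1
    · rw [ENNReal.ofReal_of_nonpos (by linarith : 1 - κ ≤ 0), zero_mul]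
      exact zero_le
    rw [hν1 _ (by linarith), hSν]
    refine ENNReal.ofReal_le_ofReal ?_
    set b : ℝ := (1 - 3 * η) * r with hb
    have hb0 : 0 < b := mul_pos (by linarith) hr1
    have hbr : b ≤ r := by rw [hb]; linarith
    set s : ℝ := b / t with hs
    have hs0 : 0 < s := div_pos hb0 ht0
    have hts : t * s = b := by rw [hs]; field_simp
    have hsR : 2 * s < R₁ := by
      rw [hs, mul_div_assoc', div_lt_iff₀ ht0]
      linarith
    -- the cut-off function is at most the indicator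
    have h1 : ∫ y, bf T w ((1 - η) * r) r y ∂ν ≤ ν.real {y | dist (T y) (T w) ≤ r} := by
      have h2 := int_le (μ := ν) (S := univ) (B := {y | dist (T y) (T w) ≤ r})
        (f := bf T w ((1 - η) * r) r) MeasurableSet.univ hSm (measure_ne_top _ _)
        (bf_nonneg T w _ r) (bf_le_one T w _ r)
        (fun y _ hy => (lt_of_bf_ne (by linarith) hy).le)
      rwa [setIntegral_univ] at h2
    have h3 := ev_ball_sub (T := T) (z := z) (hx := hx) hC.lim (r₀ := r₀) (c := (1 - 2 * η) * r)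
      (b := b) (r := (1 - η) * r) ((hcb b (by linarith)).trans hpR) (hcb b (by linarith))
      (by linarith) (by
        intro y hy
        have hy4 : y ∈ ball p (4 * r₀) := hp4 (hcb b (by linarith) hy)
        have hyz := mem_closedBall.1 hy
        have h7 := (abs_le.1 (hN y hy4 z hzz (by linarith) (by simpa using hrI))).2
        have h9 : η' * dist y z ≤ η * dist y z :=
          mul_le_mul_of_nonneg_right hη'1 dist_nonneg
        have h10 : η * dist y z ≤ η * r := mul_le_mul_of_nonneg_left (by linarith) hη0.le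
        linarith)
    have hsub : closedBall z s ⊆ ball p r₀ := hcb s (by linarith)
    have h4 := ev_near (T := T) (z := z) (hx := hx) hC.lim hs0 hη'0 (hsub.trans hpR) (by
      intro y hy y' hy'
      have h5 := mem_closedBall.1 hy
      have h6 := mem_closedBall.1 hy'
      exact hN y (hp4 (hsub hy)) y' (hp4 (hsub hy')) (by linarith) (by linarith))
    have h5 := ev_full (T := T) (z := z) (hx := hx) hC.lim hs0 hδv (hpR hzp)
      (ball_subset_closedBall.trans (hsub.trans hpR)) (by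
      intro w' hw'
      have h6 := mem_closedBall.1 hw'
      have h7 := hTl (T.symm w') (U z)
      rw [T.apply_symm_apply] at h7
      have h8 : T.symm w' ∈ e.target := by
        refine hTt ?_
        rw [mem_ball, ← hUz]
        linarith
      have h9 : e.symm (T.symm w') ∈ ball p r₀ := by
        rw [← hC.source]
        exact e.map_target h8
      have h10 : U (e.symm (T.symm w')) = T.symm w' := by rw [← hC.eq, e.right_inv h8]
      have h11 := hni _ (hp4 h9)
      rw [h10] at h11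
      have h12 := (abs_le.1 (hN _ (hp4 h9) z hzz (by linarith) (by simpa using hrI))).1
      rw [h10, T.apply_symm_apply] at h12
      refine ⟨e.symm (T.symm w'), ?_, by rw [h10, T.apply_symm_apply]⟩
      have h13 : η' * dist (e.symm (T.symm w')) z ≤ 1 / 60 * dist (e.symm (T.symm w')) z :=
        mul_le_mul_of_nonneg_right (hη'1.trans hη1) dist_nonneg
      rw [mem_ball]
      linarith)
    have h6 : ∀ᶠ k in om, z.rep k ∈ ball (x k) (16 * ρ) := by
      refine UL.ev_lt z.bd_rep hx ?_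
      rw [UL.mk_rep]
      exact ball_subset_ball (by linarith) hzp
    have h2 : (1 - η) * (om4 * b ^ 4) ≤ ∫ y, bf T w ((1 - η) * r) r y ∂ν := by
      refine ge_of_tendsto (hν _ (bf_cont T w _ r) (bf_comp (by linarith))) ?_
      filter_upwards [h3, h4, h5, h6, hD.ric, hD.pinch, hD.smooth] with k h3 h4 h5 h6 hric hpin hsm
      have := Crest.Agent.R247.HR216.properSpace_of_riemannian 4 (M k)
      have := Crest.Agent.R247.GluM923.isLocallyFinite 4 (M k)
      rw [hUz] at h3
      have h7 := hvm (M k) (z.rep k) s 0 (fun y => T (WithLp.toLp 2 fun a => u k a y)) hs0 le_rfl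
        (by simpa using hδv.le) (by simpa using hric)
        (fun y hy y' hy' => (h4 y hy y' hy').trans
          (mul_le_mul_of_nonneg_right hη'2 hs0.le)) h5 (by
          have h8 : 0 ≤ dist z p := dist_nonneg
          refine le_trans ?_ (hpin _ h6 s hs0 (by linarith))
          gcongr
          linarith)
      rw [hts, vol_ball_eq 0 hb0, ← ENNReal.ofReal_mul (by linarith)] at h7
      have h8 : (1 - η) * (om4 * b ^ 4) ≤ (μHE[4] : Measure (M k)).real (ball (z.rep k) b) :=
        (ENNReal.ofReal_le_iff_le_toReal measure_ball_lt_top.ne).1 h7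
      refine h8.trans (le_int measure_ball_lt_top.ne measurableSet_ball ?_
        (fun y => bf_nonneg T w _ r _) (fun y => bf_le_one T w _ r _)
        (fun y hy => ⟨(h3 y hy).1, bf_eq_one (by linarith) (h3 y hy).2⟩))
      have hsub' : ball (x k) r₀ ⊆ ball (x k) (16 * ρ) := ball_subset_ball (by linarith)
      refine ContinuousOn.aestronglyMeasurable ?_ measurableSet_ball
      refine (bf_cont T w _ r).comp_continuousOn ?_
      refine (PiLp.continuous_toLp 2 _).comp_continuousOn ?_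
      exact continuousOn_pi.2 fun a => ((hsm a).continuousOn).mono hsub'
    refine le_trans ?_ (h2.trans h1)
    calc (1 - κ) * (om4 * r ^ 4) ≤ ((1 - η) * (1 - 3 * η) ^ 4) * (om4 * r ^ 4) :=
        mul_le_mul_of_nonneg_right (num_low hη0 hη1 hηκ) (by positivity)
      _ = (1 - η) * (om4 * b ^ 4) := by rw [hb]; ring
  · -- upper bound
    rw [hν1 _ (by linarith), hSν]
    refine ENNReal.ofReal_le_ofReal ?_
    set b : ℝ := (1 + 3 * η) * r with hb
    have hb0 : 0 < b := by positivity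
    -- measure at most the integral of the cut-off function
    have h1 : ν.real {y | dist (T y) (T w) ≤ r} ≤ ∫ y, bf T w r ((1 + η) * r) y ∂ν := by
      have h2 := le_int (μ := ν) (S := univ) (B := {y | dist (T y) (T w) ≤ r})
        (f := bf T w r ((1 + η) * r)) (measure_ne_top _ _) hSm
        (bf_cont T w r _).aestronglyMeasurable (bf_nonneg T w r _) (bf_le_one T w r _)
        (fun y hy => ⟨mem_univ _, bf_eq_one hra hy⟩)
      rwa [setIntegral_univ] at h2
    have h3 := ev_sub_ball (T := T) (z := z) hC.lim (r₀ := r₀) (c := (1 + 5 / 2 * η) * r)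
      (b := b) (r := (1 + η) * r) (by linarith) (by rw [hb]; linarith) (by
        intro y hy hyr
        have hy4 : y ∈ ball p (4 * r₀) := closedBall_subset_ball (by linarith) hy
        have h4 := hni y hy4
        have h5 := hTl (U y) (U z)
        have h6 : dist y z < rI := by linarith
        have h7 := (abs_le.1 (hN y hy4 z hzz h6 (by simpa using hrI))).1
        have h8 : (1 - η) * dist y z ≤ (1 + η) * r := by
          have h9 : η' * dist y z ≤ η * dist y z :=
            mul_le_mul_of_nonneg_right hη'1 dist_nonneg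
          linarith
        exact le_of_mul_le_mul_left (h8.trans (num_c hη0 hη1 hr1)) (by linarith))
    have h2 : ∫ y, bf T w r ((1 + η) * r) y ∂ν ≤ om4 * b ^ 4 := by
      refine le_of_tendsto (hν _ (bf_cont T w r _) (bf_comp hra)) ?_
      filter_upwards [h3, hD.ric] with k hk hric
      have := Crest.Agent.R247.HR216.properSpace_of_riemannian 4 (M k)
      have := Crest.Agent.R247.GluM923.isLocallyFinite 4 (M k)
      rw [hUz] at hk
      refine (int_le measurableSet_ball measurableSet_ball measure_ball_lt_top.ne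
        (fun y => bf_nonneg T w r _ _) (fun y => bf_le_one T w r _ _)
        (fun y hy hy0 => hk y hy (lt_of_bf_ne hra hy0).le)).trans ?_
      exact ENNReal.toReal_le_of_le_ofReal (by positivity) (vol_le hric _ hb0)
    refine (h1.trans h2).trans ?_
    calc om4 * b ^ 4 = (1 + 3 * η) ^ 4 * (om4 * r ^ 4) := by rw [hb]; ring
      _ ≤ (1 + κ) * (om4 * r ^ 4) :=
        mul_le_mul_of_nonneg_right (num_up hη0 hη1 hηκ) (by positivity)

/-- `h` is continuous in the chart -/
theorem continuousOn_h {x : ∀ k, M k} {hx : Bd q x} {ρ α C' ε₁ : ℝ}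
    {u : ∀ k, Fin 4 → M k → ℝ} {h : UL q → Matrix (Fin 4) (Fin 4) ℝ} {r₀ : ℝ}
    {U : UL q → EuclideanSpace ℝ (Fin 4)}
    {e : OpenPartialHomeomorph (UL q) (EuclideanSpace ℝ (Fin 4))} (hα : 0 < α)
    (hA : AvOut x hx ρ α C' ε₁ u h) (hC : ChOut x hx ρ u h r₀ U e) :
    ContinuousOn (fun w => h (e.symm w)) e.target := by
  have h1' : ContinuousOn (fun z => (fun a b => h z a b : Fin 4 → Fin 4 → ℝ))
      (ball (UL.mk x hx) (4 * ρ)) := by
    refine continuousOn_pi.2 fun a => continuousOn_pi.2 fun b z hz => ?_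
    have h2 : Tendsto (fun y => |C'| * dist y z ^ α) (𝓝[ball (UL.mk x hx) (4 * ρ)] z) (𝓝 0) := by
      have h3 : Tendsto (fun y => |C'| * dist y z ^ α) (𝓝 z) (𝓝 (|C'| * dist z z ^ α)) := by
        refine tendsto_const_nhds.mul ?_
        exact ((continuous_id.dist continuous_const).tendsto z).rpow_const (Or.inr hα.le)
      rw [dist_self, Real.zero_rpow hα.ne', mul_zero] at h3
      exact h3.mono_left nhdsWithin_le_nhds
    rw [ContinuousWithinAt, tendsto_iff_dist_tendsto_zero]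
    refine squeeze_zero' (Eventually.of_forall fun _ => dist_nonneg) ?_ h2
    filter_upwards [self_mem_nhdsWithin] with y hy
    rw [Real.dist_eq]
    refine (hA.hold y hy z hz a b).trans ?_
    exact mul_le_mul_of_nonneg_right (le_abs_self _) (by positivity)
  have h1 : ContinuousOn h (ball (UL.mk x hx) (4 * ρ)) := h1'
  refine h1.comp e.continuousOn_symm fun w hw => ?_
  have h2 := e.map_target hw
  rw [hC.source] at h2
  exact ball_subset_ball (by linarith [hC.r_le, hC.r_pos]) h2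

/-- **the limit measure** -/
theorem nu_eq {x : ∀ k, M k} {hx : Bd q x} {ρ α C C' ε ε₁ δ lam : ℝ} {lamk : ℕ → ℝ}
    {u : ∀ k, Fin 4 → M k → ℝ} {h : UL q → Matrix (Fin 4) (Fin 4) ℝ} {r₀ : ℝ}
    {U : UL q → EuclideanSpace ℝ (Fin 4)}
    {e : OpenPartialHomeomorph (UL q) (EuclideanSpace ℝ (Fin 4))} (hδ : δ ≤ 1 / 2)
    (hε₁ : ε₁ ≤ 1 / 2) (hD : HData x ρ α C ε δ lam lamk u) (hA : AvOut x hx ρ α C' ε₁ u h)
    (hC : ChOut x hx ρ u h r₀ U e) {ν : Measure 𝔼} [IsFiniteMeasure ν]
    (hν : ∀ φ : 𝔼 → ℝ, Continuous φ → HasCompactSupport φ →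
      Tendsto (fun k => ∫ y in ball (x k) r₀, φ (WithLp.toLp 2 fun a => u k a y)
        ∂(μHE[4] : Measure (M k))) om (𝓝 (∫ z, φ z ∂ν))) :
    ν.restrict e.target = (volume.restrict e.target).withDensity
      fun w => ENNReal.ofReal (√(h (e.symm w)).det)⁻¹ := by
  have hsrc : ∀ w ∈ e.target, e.symm w ∈ ball (UL.mk x hx) (4 * ρ) := by
    intro w hw
    have h2 := e.map_target hw
    rw [hC.source] at h2
    exact ball_subset_ball (by linarith [hC.r_le, hC.r_pos]) h2
  refine measure_eq_of_inv (h := fun w => h (e.symm w)) e.open_target (L := 2) (by norm_num)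
    (fun w _ => ?_) (fun w hw => (form_bounds hε₁ (hA.near _ (hsrc w hw))).1)
    (fun w hw => (form_bounds hε₁ (hA.near _ (hsrc w hw))).2)
    (fun w hw κ hκ => sandwich hδ hε₁ hD hA hC hν hw hκ)
  ext a b
  exact hA.symm _ b a

/-- **MS**: convergence of the measures, from the limit measure `ν` (MS1). -/
theorem msOut_of {x : ∀ k, M k} {hx : Bd q x} {ρ α C C' ε ε₁ δ lam : ℝ} {lamk : ℕ → ℝ}
    {u : ∀ k, Fin 4 → M k → ℝ} {h : UL q → Matrix (Fin 4) (Fin 4) ℝ} {r₀ : ℝ}
    {U : UL q → EuclideanSpace ℝ (Fin 4)}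
    {e : OpenPartialHomeomorph (UL q) (EuclideanSpace ℝ (Fin 4))} (hδ : δ ≤ 1 / 2)
    (hε₁ : ε₁ ≤ 1 / 2) (hD : HData x ρ α C ε δ lam lamk u) (hA : AvOut x hx ρ α C' ε₁ u h)
    (hC : ChOut x hx ρ u h r₀ U e) {ν : Measure 𝔼} [IsFiniteMeasure ν]
    (hν : ∀ φ : 𝔼 → ℝ, Continuous φ → HasCompactSupport φ →
      Tendsto (fun k => ∫ y in ball (x k) r₀, φ (WithLp.toLp 2 fun a => u k a y)
        ∂(μHE[4] : Measure (M k))) om (𝓝 (∫ z, φ z ∂ν))) :
    MsOut x u h r₀ e := by
  intro φ hφ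
  have hα : 0 < α := by linarith [hD.α_gt]
  have h0 := nu_eq hδ hε₁ hD hA hC hν
  have h1 := hν φ hφ.cont hφ.comp
  have hφ0 : ∀ w, w ∉ e.target → φ w = 0 := fun w hw => by
    by_contra hne
    exact hw (hφ.supp (subset_tsupport _ hne))
  have hm : AEMeasurable (fun w => ENNReal.ofReal (√(h (e.symm w)).det)⁻¹)
      (volume.restrict e.target) := by
    have h2 : ContinuousOn (fun w => √(h (e.symm w)).det) e.target :=
      (Real.continuous_sqrt.comp (Continuous.matrix_det continuous_id)).comp_continuousOn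
        (continuousOn_h hα hA hC)
    exact ENNReal.measurable_ofReal.comp_aemeasurable
      (h2.aemeasurable e.open_target.measurableSet).inv
  have h2 : ∫ z, φ z ∂ν = ∫ z, φ z * (√(h (e.symm z)).det)⁻¹ := by
    calc ∫ z, φ z ∂ν = ∫ z in e.target, φ z ∂ν :=
          (setIntegral_eq_integral_of_forall_compl_eq_zero fun w hw => hφ0 w hw).symm
      _ = ∫ z, φ z ∂((volume.restrict e.target).withDensity
            fun w => ENNReal.ofReal (√(h (e.symm w)).det)⁻¹) := by rw [← h0]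
      _ = ∫ z in e.target, (ENNReal.ofReal (√(h (e.symm z)).det)⁻¹).toReal • φ z :=
          integral_withDensity_eq_integral_toReal_smul₀ hm
            (Eventually.of_forall fun _ => ENNReal.ofReal_lt_top) _
      _ = ∫ z in e.target, φ z * (√(h (e.symm z)).det)⁻¹ := by
          refine integral_congr_ae (Eventually.of_forall fun z => ?_)
          show _ • _ = _
          rw [ENNReal.toReal_ofReal (inv_nonneg.2 (Real.sqrt_nonneg _)), smul_eq_mul, mul_comm]
      _ = ∫ z, φ z * (√(h (e.symm z)).det)⁻¹ :=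
          setIntegral_eq_integral_of_forall_compl_eq_zero fun w hw => by
            rw [hφ0 w hw, zero_mul]
  rw [h2] at h1
  exact h1

end final

end Crest.Agent.R249.Ms2_222
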