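import Crest.Agent.R249.NI1_923
import Crest.Agent.R247.Ray5_97

/-!
# R249, leaf L-NI (helper923), part 2: along one minimiser, and the choice of a good pair
-/

set_option autoImplicit false
set_option maxSynthPendingDepth 3
set_option linter.unusedSectionVars false

open Bundle Set Filter Topology Metric MeasureTheory
open scoped Manifold ContDiff NNReal ENNReal
open Crest.GeometryTopology.CoordMetric Crest.GeometryTopology.ChartCurvature
open Crest.GeometryTopology.MTW Crest.Agent.R244 Crest.Agent.R226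
open Crest.Agent.R226.CutSmooth77 (SC)
open Crest.Agent.R247.Bo84 (mGam mHess mgrad mGam_eq_inner mGam_self mHess_smul_left mHess_smul_right)
open Crest.Agent.R247.Sm879 Crest.Agent.R247.Mcp688
open Crest.Agent.R247.Ms322 Crest.Agent.R247.Hes124
open Crest.Agent.R247.Ib939 (vf Hf inner_Gr_mGam mgrad_eq_vf norm_vf inner_mv_Hf)
open Crest.Agent.R247.Ray97

noncomputable section
namespace Crest.Agent.R249.NI_923

section real

/-- FTC inequality on `[a,b]`. -/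
theorem ftc_ab {a b : ℝ} (hab : a ≤ b) {φ φ' : ℝ → ℝ} {K : ℝ → ℝ≥0∞}
    (hc : ContinuousOn φ (Icc a b)) (h1 : ∀ t ∈ Ioo a b, HasDerivAt φ (φ' t) t)
    (hK : ∀ t ∈ Ioo a b, ENNReal.ofReal |φ' t| ≤ K t) :
    ENNReal.ofReal |φ b - φ a| ≤ ∫⁻ t in Icc a b, K t := by
  set I := ∫⁻ t in Icc a b, K t with hI
  rcases eq_or_ne I ∞ with htop | hfin
  · rw [htop]; exact le_top
  have hmeas : AEStronglyMeasurable φ' (volume.restrict (Ioo a b)) := by
    have h2 : AEStronglyMeasurable (deriv φ) (volume.restrict (Ioo a b)) :=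
      (measurable_deriv φ).aestronglyMeasurable
    refine h2.congr ?_
    filter_upwards [ae_restrict_mem measurableSet_Ioo] with t ht using (h1 t ht).deriv
  have hle : ∫⁻ t in Ioo a b, ‖φ' t‖ₑ ≤ I := by
    calc ∫⁻ t in Ioo a b, ‖φ' t‖ₑ ≤ ∫⁻ t in Ioo a b, K t := by
          apply lintegral_mono_ae
          filter_upwards [ae_restrict_mem measurableSet_Ioo] with t ht
          rw [← Real.enorm_abs, Real.enorm_of_nonneg (abs_nonneg _)]
          exact hK t ht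
      _ ≤ I := lintegral_mono_set Ioo_subset_Icc_self
  have hint : IntegrableOn φ' (Ioo a b) volume :=
    ⟨hmeas, lt_of_le_of_lt hle (lt_top_iff_ne_top.2 hfin)⟩
  have hii : IntervalIntegrable φ' volume a b := by
    rw [intervalIntegrable_iff_integrableOn_Ioo_of_le hab]
    exact hint
  have hftc := intervalIntegral.integral_eq_sub_of_hasDerivAt_of_le hab hc h1 hii
  rw [← hftc, intervalIntegral.integral_of_le hab, integral_Ioc_eq_integral_Ioo,
    ← Real.enorm_of_nonneg (abs_nonneg _), Real.enorm_abs]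
  exact (enorm_integral_le_lintegral_enorm _).trans hle

/-- oscillation of a function with `|V'| ≤ K` -/
theorem osc_vel {V V' : ℝ → ℝ} {K : ℝ → ℝ≥0∞} (hV : ∀ t ∈ Ioo (0 : ℝ) 1, HasDerivAt V (V' t) t)
    (hK : ∀ t ∈ Ioo (0 : ℝ) 1, ENNReal.ofReal |V' t| ≤ K t) {s t : ℝ} (hs : s ∈ Ioo (0 : ℝ) 1)
    (ht : t ∈ Ioo (0 : ℝ) 1) :
    ENNReal.ofReal |V t - V s| ≤ ∫⁻ r in Icc (0 : ℝ) 1, K r := by
  wlog h : s ≤ t generalizing s t
  · rw [abs_sub_comm]; exact this ht hs (le_of_not_ge h)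
  have hsub : Icc s t ⊆ Ioo (0 : ℝ) 1 := fun r hr => ⟨hs.1.trans_le hr.1, hr.2.trans_lt ht.2⟩
  refine (ftc_ab h (K := K) (fun r hr => (hV r (hsub hr)).continuousAt.continuousWithinAt)
    (fun r hr => hV r (hsub (Ioo_subset_Icc_self hr)))
    (fun r hr => hK r (hsub (Ioo_subset_Icc_self hr)))).trans ?_
  exact lintegral_mono_set (hsub.trans Ioo_subset_Icc_self)

/-- mean value inequality at an interior time: `|φ 1 - φ 0 - V s| ≤ ∫ K`, `φ' = V`, `|V'| ≤ K`. -/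
theorem mean_vel {φ V V' : ℝ → ℝ} {K : ℝ → ℝ≥0∞} (hc : ContinuousOn φ (Icc 0 1))
    (hφ : ∀ t ∈ Ioo (0 : ℝ) 1, HasDerivAt φ (V t) t)
    (hV : ∀ t ∈ Ioo (0 : ℝ) 1, HasDerivAt V (V' t) t)
    (hK : ∀ t ∈ Ioo (0 : ℝ) 1, ENNReal.ofReal |V' t| ≤ K t) {s : ℝ} (hs : s ∈ Ioo (0 : ℝ) 1) :
    ENNReal.ofReal |φ 1 - φ 0 - V s| ≤ ∫⁻ r in Icc (0 : ℝ) 1, K r := by
  set I := ∫⁻ r in Icc (0 : ℝ) 1, K r with hI
  have h1 := ftc_ab (a := 0) (b := 1) zero_le_one (φ := fun t => φ t - V s * t)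
    (φ' := fun t => V t - V s) (K := fun _ => I)
    (hc.sub (by fun_prop))
    (fun t ht => by
      have := (hφ t ht).fun_sub ((hasDerivAt_id' t).const_mul (V s))
      simpa using this)
    (fun t ht => osc_vel hV hK hs ht)
  have h2 : (fun t => φ t - V s * t) 1 - (fun t => φ t - V s * t) 0 = φ 1 - φ 0 - V s := by
    simp only; ring
  rw [h2, setLIntegral_const, Real.volume_Icc] at h1
  simpa using h1

/-- a point where a function is at most its mean -/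
theorem exists_le_of_lintegral_lt {G : ℝ → ℝ≥0∞} {e : ℝ≥0∞} (h : ∫⁻ t in Icc (0 : ℝ) 1, G t < e) :
    ∃ t ∈ Ioo (0 : ℝ) 1, G t ≤ e := by
  by_contra hcon
  push Not at hcon
  have h1 : e ≤ ∫⁻ t in Icc (0 : ℝ) 1, G t := by
    calc e = ∫⁻ _ in Ioo (0 : ℝ) 1, e := by rw [setLIntegral_const, Real.volume_Ioo]; simp
      _ ≤ ∫⁻ t in Ioo (0 : ℝ) 1, G t := by
          apply setLIntegral_mono' measurableSet_Ioo
          exact fun t ht => (hcon t ht).le
      _ ≤ _ := lintegral_mono_set Ioo_subset_Icc_self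
  exact absurd h (not_lt.2 h1)

end real

section pair

variable {n : ℕ} {κ : ℝ} {X : Type*} [MetricSpace X] [MeasurableSpace X] [BorelSpace X]
  {μ : Measure X} (C : Rad n κ X μ)

include C in
/-- **choice of a good pair** -/
theorem good_pair [SFinite μ] (hκ : 0 ≤ κ) {A B W : Set X} (hA : MeasurableSet A)
    (hB : MeasurableSet B) (hW : MeasurableSet W) {D : ℝ}
    (hD : ∀ x ∈ A, ∀ z ∈ B, dist x z ≤ D)
    (hABW : ∀ x ∈ A, ∀ z ∈ B, (x, z) ∈ C.U → ∀ t ∈ Icc (0 : ℝ) 1, C.T x t z ∈ W)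
    {g : X → ℝ≥0∞} (hg : Measurable g) {c : ℝ≥0∞}
    (hc : ENNReal.ofReal (Real.exp (κ * D ^ 2 / 2) * 2 ^ n) * (μ A + μ B) * ∫⁻ y in W, g y ∂μ <
      c * μ B * μ A) :
    ∃ x ∈ A, ∃ z ∈ B, (x, z) ∈ C.U ∧ ∫⁻ t in Icc (0 : ℝ) 1, g (C.T x t z) < c := by
  by_contra hcon
  push Not at hcon
  have h1 := C.segment_le hκ hA hB hW hD hABW hg
  have h2 : c * μ B * μ A ≤
      ∫⁻ x in A, ∫⁻ z in B, ∫⁻ t in Icc (0 : ℝ) 1, g (C.T x t z) ∂volume ∂μ ∂μ := by
    calc c * μ B * μ A = ∫⁻ _ in A, (c * μ B) ∂μ := by rw [setLIntegral_const]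
      _ ≤ _ := by
          apply setLIntegral_mono' hA
          intro x hx
          calc c * μ B = ∫⁻ _ in B, c ∂μ := by rw [setLIntegral_const]
            _ ≤ _ := by
                apply setLIntegral_mono_ae' hB
                filter_upwards [C.ae_U x] with z hz hzB
                exact hcon x hx z hzB hz
  exact absurd (hc.trans_le (h2.trans h1)) (lt_irrefl _)

end pair

section curve

variable {n : ℕ} {M : Type*} [MetricSpace M] [ChartedSpace (EuclideanSpace ℝ (Fin n)) M]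
  [IsManifold (𝓡 n) ∞ M]
  [RiemannianBundle (fun p : M => TangentSpace (𝓡 n) p)]
  [IsContMDiffRiemannianBundle (𝓡 n) ∞ (EuclideanSpace ℝ (Fin n)) (fun p : M => TangentSpace (𝓡 n) p)]
  [SecondCountableTopology M] [Nonempty M]

local notation "𝔼" => EuclideanSpace ℝ (Fin n)

/-- `|Hess u (ξ,ξ)| ≤ ‖Hess u‖ ‖ξ‖²` -/
theorem abs_mHess_le (w : M → ℝ) (z : M) (ξ : TangentSpace (𝓡 n) z) :
    |mHess n w z ξ ξ| ≤ ‖Hf (n := n) w z‖ * ‖ξ‖ ^ 2 := by
  obtain ⟨v, rfl⟩ := exists_vf z ξ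
  rw [norm_vf, ← inner_mv_Hf]
  calc |inner ℝ (mv (Hf w z) v) v| ≤ ‖mv (Hf w z) v‖ * ‖v‖ := abs_real_inner_le_norm _ _
    _ ≤ (‖Hf (n := n) w z‖ * ‖v‖) * ‖v‖ := by gcongr; exact norm_mv_le _ _
    _ = _ := by ring

variable [IsRiemannianManifold (𝓡 n) M] [ProperSpace M]
  {x : M} {γ : ℝ → M} {ℓ : ℝ}

/-- increment of a function along a minimiser and its velocity at an interior time -/
theorem ray_vel (hm : ExM M) (h : IsRay x γ ℓ 1) {w : M → ℝ}
    (hw : ∀ t ∈ Icc (0 : ℝ) 1, ContMDiffAt (𝓡 n) 𝓘(ℝ, ℝ) 2 w (γ t)) {s : ℝ}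
    (hs : s ∈ Ioo (0 : ℝ) 1) :
    ENNReal.ofReal |w (γ 1) - w x - s⁻¹ * mGam n w (halfDistSq x) (γ s)| ≤
      ENNReal.ofReal (ℓ ^ 2) * ∫⁻ t in Icc (0 : ℝ) 1, ENNReal.ofReal ‖Hf (n := n) w (γ t)‖ := by
  have hwd : ∀ t ∈ Icc (0 : ℝ) 1, MDifferentiableAt (𝓡 n) 𝓘(ℝ, ℝ) w (γ t) := fun t ht =>
    (hw t ht).mdifferentiableAt (by norm_num)
  have hcont : ContinuousOn (fun t => w (γ t)) (Icc 0 1) := fun t ht =>
    ((hw t ht).continuousAt.comp_continuousWithinAt (h.continuousOn t ht))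
  have h1 := mean_vel (φ := fun t => w (γ t))
    (V := fun t => t⁻¹ * mGam n w (halfDistSq x) (γ t))
    (V' := fun t => t⁻¹ ^ 2 * mHess n w (γ t) (mgrad n (halfDistSq x) (γ t))
      (mgrad n (halfDistSq x) (γ t)))
    (K := fun t => ENNReal.ofReal (ℓ ^ 2) * ENNReal.ofReal ‖Hf (n := n) w (γ t)‖) hcont
    (fun t ht => h.hasDerivAt_comp hm ht (hwd t (Ioo_subset_Icc_self ht)))
    (fun t ht => h.hasDerivAt_mGam hm ht (hw t (Ioo_subset_Icc_self ht)))
    (fun t ht => by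
      have h2 := h.norm_vel (n := n) hm ht
      have h3 := abs_mHess_le w (γ t) (t⁻¹ • mgrad n (halfDistSq x) (γ t))
      rw [mHess_smul_left, mHess_smul_right, h2, ← mul_assoc, ← sq] at h3
      rw [← ENNReal.ofReal_mul (by positivity)]
      apply ENNReal.ofReal_le_ofReal
      rw [mul_comm (ℓ ^ 2)]
      exact h3) hs
  rw [h.zero, lintegral_const_mul' _ _ ENNReal.ofReal_ne_top] at h1
  exact h1

/-- **near isometry along one minimiser** -/
theorem ray_near (hm : ExM M) (h : IsRay x γ ℓ 1) {u : Fin n → M → ℝ}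
    (hu : ∀ a, ∀ t ∈ Icc (0 : ℝ) 1, ContMDiffAt (𝓡 n) 𝓘(ℝ, ℝ) 2 (u a) (γ t))
    {A : Matrix (Fin n) (Fin n) ℝ} (hA : Lo A) {e k : ℝ} (he : 0 ≤ e) (hk : 0 ≤ k)
    (hH : ∀ a, ∫⁻ t in Icc (0 : ℝ) 1, ENNReal.ofReal ‖Hf (n := n) (u a) (γ t)‖ ≤ ENNReal.ofReal k)
    (hE : ∫⁻ t in Icc (0 : ℝ) 1, ENNReal.ofReal (∑ a, ∑ b, |mGam n (u a) (u b) (γ t) - A a b|) <
      ENNReal.ofReal e) :
    |nrm A (fun a => u a (γ 1) - u a x) - ℓ| ≤ √2 * (n * (ℓ ^ 2 * k)) + 2 * e * ℓ := by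
  obtain ⟨s, hs, hs1⟩ := exists_le_of_lintegral_lt hE
  have hs2 : ∑ a, ∑ b, |mGam n (u a) (u b) (γ s) - A a b| ≤ e := (ENNReal.ofReal_le_ofReal_iff he).1 hs1
  set v : Fin n → ℝ := fun a => s⁻¹ * mGam n (u a) (halfDistSq x) (γ s) with hv
  set g : Fin n → 𝔼 := fun a => Gr (n := n) (u a) (γ s) with hg
  set w : 𝔼 := s⁻¹ • Gr (n := n) (halfDistSq x) (γ s) with hw
  have hvw : v = fun a => (inner ℝ (g a) w : ℝ) := by
    funext a
    rw [hv, hg, hw]
    simp only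
    rw [real_inner_smul_right, inner_Gr_mGam]
  have hwn : ‖w‖ = ℓ := by
    have h2 := h.norm_vel (n := n) hm hs
    have h3 : ‖Gr (n := n) (halfDistSq x) (γ s)‖ ^ 2 = ‖mgrad n (halfDistSq x) (γ s)‖ ^ 2 := by
      rw [← real_inner_self_eq_norm_sq, inner_Gr_mGam, mGam_self]
    have h4 := (pow_left_inj₀ (norm_nonneg _) (norm_nonneg _) (by norm_num)).1 h3
    rw [hw, norm_smul, h4, ← norm_smul, h2]
  have key := hA.nrm_near g w (κ := e) (by
    simpa only [hg, inner_Gr_mGam] using hs2)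
  rw [← hvw, hwn] at key
  -- difference of the increment and the velocity
  have hd : ∀ a, |(u a (γ 1) - u a x) - v a| ≤ ℓ ^ 2 * k := by
    intro a
    have h5 := ray_vel hm h (hu a) hs
    have h6 := h5.trans (mul_le_mul_right (hH a) _)
    rw [← ENNReal.ofReal_mul (by positivity)] at h6
    exact (ENNReal.ofReal_le_ofReal_iff (by positivity)).1 h6
  have h7 := hA.abs_nrm_sub_le (fun a => u a (γ 1) - u a x) v
  have h8 := hA.nrm_le_sum ((fun a => u a (γ 1) - u a x) - v)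
  have h9 : ∑ a, |((fun a => u a (γ 1) - u a x) - v) a| ≤ n * (ℓ ^ 2 * k) := by
    calc _ ≤ ∑ _a : Fin n, ℓ ^ 2 * k := Finset.sum_le_sum fun a _ => hd a
      _ = _ := by simp
  calc |nrm A (fun a => u a (γ 1) - u a x) - ℓ|
      = |(nrm A (fun a => u a (γ 1) - u a x) - nrm A v) + (nrm A v - ℓ)| := by ring_nf
    _ ≤ |nrm A (fun a => u a (γ 1) - u a x) - nrm A v| + |nrm A v - ℓ| := abs_add_le _ _
    _ ≤ √2 * (n * (ℓ ^ 2 * k)) + 2 * e * ℓ := by
        gcongr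
        exact h7.trans (h8.trans (by gcongr))

end curve

end Crest.Agent.R249.NI_923
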