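import Crest.Agent.R249.NI2_923
import Crest.Agent.R249.Dens_274
import Crest.Agent.R247.Bgr3_546
import Crest.Agent.R247.Bs2_84
import Crest.Agent.R247.Gs2_939

/-!
# R249, leaf L-NI (helper923), part 3: the near isometry lemma

`near_iso n : 1 ≤ n → 0 < ε → ∃ δ > 0, ...` : on a complete connected Riemannian `n`-manifold with
`Ric ≥ -κ`, `κ s² ≤ 1`, `μHE[n] (ball x s) ≥ 1/2 vol (ball 0 s)`, if `u : Fin n → M → ℝ` is `C²` on
`ball x (6 s)`, `|∇u_a|² ≤ 4` there, `A` symmetric `≥ 1/2`,
`∫_{ball x (6s)} ∑ |Hess u_a| ≤ δ s^(n-1)`, `∫_{ball x (6s)} ∑ |⟨∇u_a,∇u_b⟩ - A_ab| ≤ δ s^n`, then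
`| |u y - u y'|_{A⁻¹} - dist y y' | ≤ ε s` for all `y y' ∈ ball x s`.
-/

set_option autoImplicit false
set_option maxSynthPendingDepth 3
set_option linter.unusedSectionVars false

open Bundle Set Filter Topology Metric MeasureTheory
open scoped Manifold ContDiff NNReal ENNReal
open Crest.GeometryTopology.CoordMetric Crest.GeometryTopology.ChartCurvature
open Crest.GeometryTopology.PointedLimit
open Crest.GeometryTopology.MTW Crest.Agent.R244 Crest.Agent.R226
open Crest.Agent.R226.CutSmooth77 (SC)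
open Crest.Agent.R247
open Crest.Agent.R247.Bo84 (mGam mHess mgrad mGam_eq_inner mGam_self mHess_smul_left mHess_smul_right
  mHessSq)
open Crest.Agent.R247.Sm879 Crest.Agent.R247.Mcp688
open Crest.Agent.R247.Ms322 Crest.Agent.R247.Hes124
open Crest.Agent.R247.Ib939 (vf Hf inner_Gr_mGam mgrad_eq_vf norm_vf inner_mv_Hf norm_Hf_sq)
open Crest.Agent.R247.Ray97

noncomputable section
namespace Crest.Agent.R249.NI_923

section man

variable {n : ℕ} {M : Type*} [MetricSpace M] [ChartedSpace (EuclideanSpace ℝ (Fin n)) M]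
  [IsManifold (𝓡 n) ∞ M]
  [RiemannianBundle (fun p : M => TangentSpace (𝓡 n) p)]
  [IsContMDiffRiemannianBundle (𝓡 n) ∞ (EuclideanSpace ℝ (Fin n)) (fun p : M => TangentSpace (𝓡 n) p)]
  [IsRiemannianManifold (𝓡 n) M] [CompleteSpace M]

local notation "𝔼" => EuclideanSpace ℝ (Fin n)

/-- a function with gradient bounded by `L` on a ball is `L`-Lipschitz near the centre -/
theorem lip_of_grad {x : M} {r : ℝ} {w : M → ℝ} {L : ℝ} (hL : 0 ≤ L)
    (hw : ∀ z ∈ ball x r, MDifferentiableAt (𝓡 n) 𝓘(ℝ, ℝ) w z)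
    (hg : ∀ z ∈ ball x r, mGam n w w z ≤ L ^ 2) {y z : M}
    (hyz : dist x y + dist y z < r) : |w z - w y| ≤ L * dist y z := by
  have := HR216.properSpace_of_riemannian n M
  have hm : ExM M := Bgr546.exM_of_riemannian n M
  rcases eq_or_ne y z with rfl | hne
  · simp
  obtain ⟨γ, h0, h1, hd⟩ := (HR216.exactMid_of_riemannian n M).exists_geodesic y z
  have hray : IsRay y γ (dist y z) 1 := ⟨dist_pos.2 hne, one_pos, h0, fun s hs t ht => by
    rw [hd s hs t ht]; ring⟩
  have hin : ∀ t ∈ Icc (0 : ℝ) 1, γ t ∈ ball x r := by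
    intro t ht
    have h2 := hray.dist_x ht
    rw [mem_ball, dist_comm]
    calc dist x (γ t) ≤ dist x y + dist y (γ t) := dist_triangle _ _ _
      _ ≤ dist x y + dist y z := by
          rw [h2]
          have : dist y z * t ≤ dist y z * 1 := mul_le_mul_of_nonneg_left ht.2 dist_nonneg
          linarith
      _ < r := hyz
  have key := hray.ftc (n := n) hm (w := w) (fun t ht => hw _ (hin t ht))
  have hb : ∫⁻ t in Icc (0 : ℝ) 1, ENNReal.ofReal ‖mgrad n w (γ t)‖ ≤ ENNReal.ofReal L := by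
    calc ∫⁻ t in Icc (0 : ℝ) 1, ENNReal.ofReal ‖mgrad n w (γ t)‖
        ≤ ∫⁻ _ in Icc (0 : ℝ) 1, ENNReal.ofReal L := by
          apply setLIntegral_mono' measurableSet_Icc
          intro t ht
          apply ENNReal.ofReal_le_ofReal
          have h3 := hg _ (hin t ht)
          rw [mGam_self] at h3
          exact (le_abs_self _).trans (abs_le_of_sq_le_sq h3 hL)
      _ = ENNReal.ofReal L := by rw [setLIntegral_const, Real.volume_Icc]; simp
  rw [h1] at key
  have h4 := key.trans (mul_le_mul_right hb _)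
  rw [← ENNReal.ofReal_mul dist_nonneg] at h4
  have h5 := (ENNReal.ofReal_le_ofReal_iff (by positivity)).1 h4
  linarith

variable [ConnectedSpace M] [MeasurableSpace M] [BorelSpace M]

/-- lower bound of the volume of small balls -/
theorem vol_lower {κ : ℝ} (hκ : 0 ≤ κ) (C : Rad n κ M (μHE[n] : Measure M)) {x : M} {s : ℝ}
    (hs : 0 < s) (hκs : κ * s ^ 2 ≤ 1)
    (hvol : ENNReal.ofReal (1 / 2) * volume (ball (0 : 𝔼) s) ≤ (μHE[n] : Measure M) (ball x s))
    {η : ℝ} (hη : 0 < η) (hη1 : η ≤ 1) {y : M} (hy : y ∈ ball x s) :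
    ENNReal.ofReal ((η / 2) ^ n * Real.exp (-2) * (1 / 2) * s ^ n *
      (volume (ball (0 : 𝔼) 1)).toReal) ≤ (μHE[n] : Measure M) (ball y (η * s)) := by
  set μ : Measure M := (μHE[n] : Measure M) with hμ
  have hηs : 0 < η * s := by positivity
  have h1 := C.ball_le y (r := η * s) (R := 2 * s) hηs (by nlinarith)
  have h2 : wm μ κ y (ball y (η * s)) ≤ μ (ball y (η * s)) := wm_le μ y hκ _
  have h3 := le_wm μ y hκ (s := ball y (2 * s)) isOpen_ball.measurableSet (R := 2 * s)
    (fun z hz => by rw [dist_comm]; exact (mem_ball.1 hz).le)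
  have h4 : ball x s ⊆ ball y (2 * s) := by
    intro z hz
    rw [mem_ball] at *
    have := dist_triangle_right z y x
    linarith
  have h5 : Real.exp (-2) ≤ wt κ (2 * s) := by
    unfold wt
    apply Real.exp_le_exp.2
    nlinarith
  have h6 : ENNReal.ofReal (Real.exp (-2)) * (ENNReal.ofReal (1 / 2) * volume (ball (0 : 𝔼) s)) ≤
      ENNReal.ofReal ((2 / η) ^ n) * μ (ball y (η * s)) := by
    calc ENNReal.ofReal (Real.exp (-2)) * (ENNReal.ofReal (1 / 2) * volume (ball (0 : 𝔼) s))
        ≤ ENNReal.ofReal (wt κ (2 * s)) * μ (ball y (2 * s)) := by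
          gcongr
          exact hvol.trans (measure_mono h4)
      _ ≤ wm μ κ y (ball y (2 * s)) := h3
      _ ≤ ENNReal.ofReal ((2 * s / (η * s)) ^ n) * wm μ κ y (ball y (η * s)) := h1
      _ ≤ _ := by
          have : 2 * s / (η * s) = 2 / η := by field_simp
          rw [this]
          gcongr
  rw [Dens_274.vol_ball _ hs] at h6
  set om := (volume (ball (0 : 𝔼) 1)).toReal with hom
  have hom' : volume (ball (0 : 𝔼) 1) = ENNReal.ofReal om :=
    (ENNReal.ofReal_toReal Dens_274.vol_ball_one_ne_top).symm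
  rw [hom', ← ENNReal.ofReal_mul (by positivity), ← ENNReal.ofReal_mul (by norm_num),
    ← ENNReal.ofReal_mul (Real.exp_pos _).le] at h6
  have h7 : (η / 2) ^ n * Real.exp (-2) * (1 / 2) * s ^ n * om =
      (η / 2) ^ n * (Real.exp (-2) * (1 / 2 * (s ^ n * om))) := by ring
  rw [h7, ENNReal.ofReal_mul (by positivity)]
  calc ENNReal.ofReal ((η / 2) ^ n) * ENNReal.ofReal (Real.exp (-2) * (1 / 2 * (s ^ n * om)))
      ≤ ENNReal.ofReal ((η / 2) ^ n) * (ENNReal.ofReal ((2 / η) ^ n) * μ (ball y (η * s))) := by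
        gcongr
    _ = μ (ball y (η * s)) := by
        rw [← mul_assoc, ← ENNReal.ofReal_mul (by positivity), ← mul_pow]
        have : η / 2 * (2 / η) = 1 := by field_simp
        rw [this]; simp

end man

universe u

/-- **Near isometry lemma (L-NI).** -/
theorem near_iso (n : ℕ) (hn : 1 ≤ n) {ε : ℝ} (hε : 0 < ε) : ∃ δ : ℝ, 0 < δ ∧
    ∀ (M : Type u) [MetricSpace M] [CompleteSpace M] [ConnectedSpace M]
    [ChartedSpace (EuclideanSpace ℝ (Fin n)) M]
    [IsManifold 𝓘(ℝ, EuclideanSpace ℝ (Fin n)) ∞ M]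
    [RiemannianBundle (fun x : M => TangentSpace 𝓘(ℝ, EuclideanSpace ℝ (Fin n)) x)]
    [IsContMDiffRiemannianBundle 𝓘(ℝ, EuclideanSpace ℝ (Fin n)) ∞ (EuclideanSpace ℝ (Fin n))
      (fun x : M => TangentSpace 𝓘(ℝ, EuclideanSpace ℝ (Fin n)) x)]
    [IsRiemannianManifold 𝓘(ℝ, EuclideanSpace ℝ (Fin n)) M]
    [MeasurableSpace M] [BorelSpace M] (κ : ℝ), 0 ≤ κ → HasRicciLowerBound n M (-κ) →
    ∀ (x : M) (s : ℝ), 0 < s → κ * s ^ 2 ≤ 1 →
    ENNReal.ofReal (1 / 2) * volume (ball (0 : EuclideanSpace ℝ (Fin n)) s) ≤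
      (μHE[n] : Measure M) (ball x s) →
    ∀ u : Fin n → M → ℝ,
    (∀ a, ∀ z ∈ ball x (6 * s), ContMDiffAt (𝓡 n) 𝓘(ℝ, ℝ) 2 (u a) z) →
    (∀ a, ∀ z ∈ ball x (6 * s), mGam n (u a) (u a) z ≤ 2 ^ 2) →
    ∀ A : Matrix (Fin n) (Fin n) ℝ, Lo A →
    ∫⁻ z in ball x (6 * s), ENNReal.ofReal (∑ a, √(mHessSq n (u a) z)) ∂(μHE[n] : Measure M) ≤
      ENNReal.ofReal (δ * s ^ (n - 1)) →
    ∫⁻ z in ball x (6 * s), ENNReal.ofReal (∑ a, ∑ b, |mGam n (u a) (u b) z - A a b|)
      ∂(μHE[n] : Measure M) ≤ ENNReal.ofReal (δ * s ^ n) →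
    ∀ y ∈ ball x s, ∀ y' ∈ ball x s,
      |nrm A (fun a => u a y - u a y') - dist y y'| ≤ ε * s := by
  set om : ℝ := (volume (ball (0 : EuclideanSpace ℝ (Fin n)) 1)).toReal with hom
  have hom0 : 0 < om := ENNReal.toReal_pos Dens_274.vol_ball_one_ne_zero Dens_274.vol_ball_one_ne_top
  set η : ℝ := min 1 (ε / (2 * (6 * n + 2))) with hηd
  have hη0 : 0 < η := lt_min one_pos (by positivity)
  have hη1 : η ≤ 1 := min_le_left _ _
  have hη2 : (6 * n + 2) * η ≤ ε / 2 := by
    have h1 : η ≤ ε / (2 * (6 * n + 2)) := min_le_right _ _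
    rw [le_div_iff₀ (by positivity)] at h1
    linarith
  set ε' : ℝ := ε / (2 * (24 * n + 8)) with hε'd
  have hε'0 : 0 < ε' := by positivity
  have hε'2 : (24 * n + 8) * ε' = ε / 2 := by rw [hε'd]; field_simp
  set m₀ : ℝ := (η / 2) ^ n * Real.exp (-2) * (1 / 2) * om with hm₀
  have hm₀0 : 0 < m₀ := by positivity
  set K' : ℝ := Real.exp 8 * 2 ^ n with hK'
  have hK'0 : 0 < K' := by positivity
  refine ⟨ε' * m₀ / (8 * K'), by positivity, ?_⟩
  set δ : ℝ := ε' * m₀ / (8 * K') with hδ
  have hδ0 : 0 < δ := by positivity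
  have hδ1 : 4 * K' * δ < ε' * m₀ := by
    have : 8 * K' * δ = ε' * m₀ := by rw [hδ]; field_simp
    have : 0 < ε' * m₀ := by positivity
    linarith
  intro M _ _ _ _ _ _ _ _ _ _ κ hκ hric x s hs hκs hvol u hu hgr A hA hT hE y hy y' hy'
  have := HR216.properSpace_of_riemannian n M
  have := HR216.secondCountable_of_riemannian n M
  have : Nonempty M := ⟨x⟩
  have := Gs939.finOnCompacts (n := n) (M := M)
  have hm : ExM M := Bgr546.exM_of_riemannian n M
  obtain ⟨C⟩ := Bgr546.rad_all n κ hκ M hric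
  set μ : Measure M := (μHE[n] : Measure M) with hμ
  set Ω : Set M := ball x (6 * s) with hΩ
  have hΩo : IsOpen Ω := isOpen_ball
  have hΩm : MeasurableSet Ω := hΩo.measurableSet
  have hdiff : ∀ a, ∀ z ∈ Ω, MDifferentiableAt (𝓡 n) 𝓘(ℝ, ℝ) (u a) z := fun a z hz =>
    (hu a z hz).mdifferentiableAt (by norm_num)
  set T : M → ℝ := fun z => ∑ a, √(mHessSq n (u a) z) with hTd
  set E : M → ℝ := fun z => ∑ a, ∑ b, |mGam n (u a) (u b) z - A a b| with hEd
  have hT0 : ∀ z, 0 ≤ T z := fun z => Finset.sum_nonneg fun a _ => Real.sqrt_nonneg _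
  have hE0 : ∀ z, 0 ≤ E z := fun z => Finset.sum_nonneg fun a _ => Finset.sum_nonneg fun b _ =>
    abs_nonneg _
  have hTc : ContinuousOn T Ω := by
    refine continuousOn_finsetSum _ fun a _ => ?_
    intro z hz
    exact ((Bs84.continuousAt_mHessSq (hu a z hz)).sqrt).continuousWithinAt
  have hEc : ContinuousOn E Ω := by
    refine continuousOn_finsetSum _ fun a _ => continuousOn_finsetSum _ fun b _ => ?_
    intro z hz
    have h1 : ContMDiffAt (𝓡 n) 𝓘(ℝ, ℝ) 1 (mGam n (u a) (u b)) z :=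
      Bo84.contMDiffAt_mGam (hu a z hz) (hu b z hz) (by norm_num) Bo84.two_le_infty
    exact ((h1.continuousAt.sub continuousAt_const).abs).continuousWithinAt
  set h : M → ℝ≥0∞ := fun z => ENNReal.ofReal (T z) + ENNReal.ofReal (s⁻¹ * E z) with hh
  have hhc : ContinuousOn h Ω :=
    (ENNReal.continuous_ofReal.comp_continuousOn hTc).add
      (ENNReal.continuous_ofReal.comp_continuousOn (continuousOn_const.mul hEc))
  set g : M → ℝ≥0∞ := Ω.indicator h with hg
  have hgm : Measurable g := by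
    classical
    have h1 : g = Ω.piecewise h (fun _ => 0) := by
      ext z
      by_cases hz : z ∈ Ω
      · rw [hg, indicator_of_mem hz, piecewise_eq_of_mem _ _ _ hz]
      · rw [hg, indicator_of_notMem hz, piecewise_eq_of_notMem _ _ _ hz]
    rw [h1]
    exact hhc.measurable_piecewise continuousOn_const hΩm
  have hI : ∫⁻ z in Ω, g z ∂μ ≤ ENNReal.ofReal (2 * δ * s ^ (n - 1)) := by
    have h1 : ∫⁻ z in Ω, g z ∂μ = ∫⁻ z in Ω, h z ∂μ := by
      apply setLIntegral_congr_fun hΩm
      intro z hz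
      rw [hg, indicator_of_mem hz]
    have h2 : AEMeasurable (fun z => ENNReal.ofReal (T z)) (μ.restrict Ω) :=
      (ENNReal.continuous_ofReal.comp_continuousOn hTc).aemeasurable hΩm
    have h3 : ∫⁻ z in Ω, ENNReal.ofReal (s⁻¹ * E z) ∂μ =
        ENNReal.ofReal s⁻¹ * ∫⁻ z in Ω, ENNReal.ofReal (E z) ∂μ := by
      rw [← lintegral_const_mul' _ _ ENNReal.ofReal_ne_top]
      refine lintegral_congr fun z => ?_
      rw [ENNReal.ofReal_mul (by positivity)]
    rw [h1, hh, lintegral_add_left' h2, h3]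
    calc ∫⁻ z in Ω, ENNReal.ofReal (T z) ∂μ +
          ENNReal.ofReal s⁻¹ * ∫⁻ z in Ω, ENNReal.ofReal (E z) ∂μ
        ≤ ENNReal.ofReal (δ * s ^ (n - 1)) + ENNReal.ofReal s⁻¹ * ENNReal.ofReal (δ * s ^ n) := by
          gcongr
      _ = ENNReal.ofReal (2 * δ * s ^ (n - 1)) := by
          rw [← ENNReal.ofReal_mul (by positivity), ← ENNReal.ofReal_add (by positivity)
            (by positivity)]
          congr 1
          have : s ^ n = s * s ^ (n - 1) := by
            rw [← pow_succ', Nat.sub_add_cancel hn]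
          rw [this]
          field_simp
          ring
  -- the two small balls
  set B₁ : Set M := ball y (η * s) with hB₁
  set B₂ : Set M := ball y' (η * s) with hB₂
  have hηs : 0 < η * s := by positivity
  have hηs1 : η * s ≤ s := by nlinarith
  rw [mem_ball] at hy hy'
  have hD : ∀ p ∈ B₁, ∀ q ∈ B₂, dist p q ≤ 4 * s := by
    intro p hp q hq
    rw [hB₁, mem_ball] at hp
    rw [hB₂, mem_ball] at hq
    have h1 := dist_triangle4 p y y' q
    have h2 := dist_triangle_right y y' x
    rw [dist_comm y' q] at h1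
    linarith
  have hW : ∀ p ∈ B₁, ∀ q ∈ B₂, (p, q) ∈ C.U → ∀ t ∈ Icc (0 : ℝ) 1, C.T p t q ∈ Ω := by
    intro p hp q hq hU t ht
    have h1 := C.dist_left hU ht
    have h2 := hD p hp q hq
    rw [hB₁, mem_ball] at hp
    rw [hΩ, mem_ball, dist_comm]
    have h3 : dist x (C.T p t q) ≤ dist x y + dist y p + dist p (C.T p t q) := dist_triangle4 _ _ _ _
    have h4 : t * dist p q ≤ 1 * dist p q := mul_le_mul_of_nonneg_right ht.2 dist_nonneg
    rw [dist_comm y x] at hy
    rw [dist_comm p y] at hp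
    linarith
  -- volumes
  set m : ℝ := m₀ * s ^ n with hmd
  have hm0 : 0 < m := by positivity
  have hmeq : (η / 2) ^ n * Real.exp (-2) * (1 / 2) * s ^ n * om = m := by rw [hmd, hm₀]; ring
  have hv₁ : ENNReal.ofReal m ≤ μ B₁ := by
    have := vol_lower hκ C hs hκs hvol hη0 hη1 (y := y) (mem_ball.2 hy)
    rwa [hmeq] at this
  have hv₂ : ENNReal.ofReal m ≤ μ B₂ := by
    have := vol_lower hκ C hs hκs hvol hη0 hη1 (y := y') (mem_ball.2 hy')
    rwa [hmeq] at this
  have hf₁ : μ B₁ ≠ ⊤ :=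
    ((measure_mono ball_subset_closedBall).trans_lt (isCompact_closedBall y _).measure_lt_top).ne
  have hf₂ : μ B₂ ≠ ⊤ :=
    ((measure_mono ball_subset_closedBall).trans_lt (isCompact_closedBall y' _).measure_lt_top).ne
  set α := (μ B₁).toReal with hα
  set β := (μ B₂).toReal with hβ
  have hα' : μ B₁ = ENNReal.ofReal α := (ENNReal.ofReal_toReal hf₁).symm
  have hβ' : μ B₂ = ENNReal.ofReal β := (ENNReal.ofReal_toReal hf₂).symm
  have hmα : m ≤ α := by
    rw [hα'] at hv₁
    exact (ENNReal.ofReal_le_ofReal_iff ENNReal.toReal_nonneg).1 hv₁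
  have hmβ : m ≤ β := by
    rw [hβ'] at hv₂
    exact (ENNReal.ofReal_le_ofReal_iff ENNReal.toReal_nonneg).1 hv₂
  have hKK : Real.exp (κ * (4 * s) ^ 2 / 2) * 2 ^ n ≤ K' := by
    rw [hK']
    gcongr
    nlinarith
  have hc : ENNReal.ofReal (Real.exp (κ * (4 * s) ^ 2 / 2) * 2 ^ n) * (μ B₁ + μ B₂) *
      ∫⁻ z in Ω, g z ∂μ < ENNReal.ofReal (ε' / s) * μ B₂ * μ B₁ := by
    have hα0 : 0 < α := hm0.trans_le hmα
    have hβ0 : 0 < β := hm0.trans_le hmβ
    calc ENNReal.ofReal (Real.exp (κ * (4 * s) ^ 2 / 2) * 2 ^ n) * (μ B₁ + μ B₂) *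
          ∫⁻ z in Ω, g z ∂μ
        ≤ ENNReal.ofReal K' * (ENNReal.ofReal α + ENNReal.ofReal β) *
          ENNReal.ofReal (2 * δ * s ^ (n - 1)) := by
          rw [hα', hβ']; gcongr
      _ = ENNReal.ofReal (K' * (α + β) * (2 * δ * s ^ (n - 1))) := by
          rw [← ENNReal.ofReal_add hα0.le hβ0.le, ← ENNReal.ofReal_mul hK'0.le,
            ← ENNReal.ofReal_mul (by positivity)]
      _ < ENNReal.ofReal (ε' / s * β * α) := by
          apply (ENNReal.ofReal_lt_ofReal_iff (by positivity)).2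
          have hsn : s ^ n = s * s ^ (n - 1) := by rw [← pow_succ', Nat.sub_add_cancel hn]
          set σ := s ^ (n - 1) with hσ
          have hσ0 : 0 < σ := by positivity
          have hms : ε' / s * m = ε' * m₀ * σ := by
            rw [hmd, hsn]; field_simp
          have e1 : 2 * (K' * (α + β) * (2 * δ * σ)) < (α + β) * (ε' / s * m) := by
            rw [hms]
            calc 2 * (K' * (α + β) * (2 * δ * σ)) = ((α + β) * σ) * (4 * K' * δ) := by ring
              _ < ((α + β) * σ) * (ε' * m₀) := by gcongr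
              _ = _ := by ring
          have e2 : (α + β) * (ε' / s * m) ≤ 2 * (ε' / s * β * α) := by
            have e3 : 0 ≤ ε' / s := by positivity
            have e4 : α * m ≤ α * β := by gcongr
            have e5 : β * m ≤ β * α := by gcongr
            calc (α + β) * (ε' / s * m) = ε' / s * (α * m + β * m) := by ring
              _ ≤ ε' / s * (α * β + β * α) := by gcongr
              _ = _ := by ring
          linarith
      _ = _ := by
          rw [hα', hβ', ENNReal.ofReal_mul (by positivity), ENNReal.ofReal_mul (by positivity)]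
  obtain ⟨p, hp, q, hq, hU, hgood⟩ := good_pair C hκ isOpen_ball.measurableSet
    isOpen_ball.measurableSet hΩm hD hW hgm hc
  -- the estimate for the good pair
  have hpq4 := hD p hp q hq
  have hkey : |nrm A (fun a => u a q - u a p) - dist p q| ≤ (24 * n + 8) * ε' * s := by
    rcases eq_or_ne p q with rfl | hpq
    · have : (fun a => u a p - u a p) = (0 : Fin n → ℝ) := by ext a; simp
      rw [this, nrm_zero, dist_self, sub_zero, abs_zero]
      positivity
    have hray := isRay_of_U C hU hpq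
    have hT1 : C.T p 1 q = q := C.T_one p q hU
    have hin : ∀ t ∈ Icc (0 : ℝ) 1, C.T p t q ∈ Ω := hW p hp q hq hU
    have hge : ∀ t ∈ Icc (0 : ℝ) 1, g (C.T p t q) = h (C.T p t q) := fun t ht => by
      rw [hg, indicator_of_mem (hin t ht)]
    have key := ray_near (n := n) hm hray (u := u) (fun a t ht => hu a _ (hin t ht)) hA
      (e := ε') (k := ε' / s) hε'0.le (by positivity) (fun a => ?_) ?_
    · simp only [hT1] at key
      refine key.trans ?_
      have hℓ0 : 0 ≤ dist p q := dist_nonneg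
      have h2 : √2 ≤ 3 / 2 := by
        rw [Real.sqrt_le_left (by norm_num)]; norm_num
      have h3 : dist p q ^ 2 * (ε' / s) ≤ 16 * s * ε' := by
        calc dist p q ^ 2 * (ε' / s) ≤ (4 * s) ^ 2 * (ε' / s) := by gcongr
          _ = _ := by field_simp; ring
      calc √2 * (n * (dist p q ^ 2 * (ε' / s))) + 2 * ε' * dist p q
          ≤ 3 / 2 * (n * (16 * s * ε')) + 2 * ε' * (4 * s) := by gcongr
        _ = _ := by ring
    · refine le_trans ?_ hgood.le
      apply setLIntegral_mono' measurableSet_Icc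
      intro t ht
      rw [hge t ht, hh]
      refine le_trans ?_ (le_add_right (le_refl _))
      apply ENNReal.ofReal_le_ofReal
      have h1 : ‖Hf (n := n) (u a) (C.T p t q)‖ = √(mHessSq n (u a) (C.T p t q)) := by
        rw [← norm_Hf_sq (hu a _ (hin t ht)), Real.sqrt_sq (norm_nonneg _)]
      rw [h1]
      exact Finset.single_le_sum (f := fun a => √(mHessSq n (u a) (C.T p t q)))
        (fun i _ => Real.sqrt_nonneg _) (Finset.mem_univ a)
    · have h1 : ∫⁻ t in Icc (0 : ℝ) 1, ENNReal.ofReal (E (C.T p t q)) ≤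
          ENNReal.ofReal s * ∫⁻ t in Icc (0 : ℝ) 1, g (C.T p t q) := by
        rw [← lintegral_const_mul' _ _ ENNReal.ofReal_ne_top]
        apply setLIntegral_mono' measurableSet_Icc
        intro t ht
        rw [hge t ht, hh]
        calc ENNReal.ofReal (E (C.T p t q)) =
              ENNReal.ofReal s * ENNReal.ofReal (s⁻¹ * E (C.T p t q)) := by
              rw [← ENNReal.ofReal_mul hs.le]
              congr 1
              field_simp
          _ ≤ _ := by gcongr; exact le_add_left (le_refl _)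
      refine h1.trans_lt ?_
      calc ENNReal.ofReal s * ∫⁻ t in Icc (0 : ℝ) 1, g (C.T p t q)
          < ENNReal.ofReal s * ENNReal.ofReal (ε' / s) :=
            (ENNReal.mul_lt_mul_iff_right (ENNReal.ofReal_pos.2 hs).ne' ENNReal.ofReal_ne_top).2 hgood
        _ = ENNReal.ofReal ε' := by
            rw [← ENNReal.ofReal_mul hs.le]
            congr 1
            field_simp
  -- back to `y`, `y'`
  rw [mem_ball] at hp hq
  have hl₁ : ∀ a, |u a y - u a p| ≤ 2 * (η * s) := by
    intro a
    have h1 := lip_of_grad (n := n) (x := x) (r := 6 * s) (w := u a) (L := 2) (by norm_num)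
      (hdiff a) (hgr a) (y := p) (z := y) (by
        have := dist_triangle_right x p y
        rw [dist_comm p y] at this
        have h2 := dist_comm x y
        have h3 : dist x p ≤ dist x y + dist y p := dist_triangle _ _ _
        rw [dist_comm y p] at h3
        linarith)
    refine h1.trans ?_
    gcongr
  have hl₂ : ∀ a, |u a q - u a y'| ≤ 2 * (η * s) := by
    intro a
    have h1 := lip_of_grad (n := n) (x := x) (r := 6 * s) (w := u a) (L := 2) (by norm_num)
      (hdiff a) (hgr a) (y := y') (z := q) (by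
        have h2 := dist_comm x y'
        have h3 := dist_comm y' q
        linarith)
    refine h1.trans ?_
    rw [dist_comm y' q]
    gcongr
  have h1 := hA.abs_nrm_sub_le (fun a => u a y - u a y') (-(fun a => u a q - u a p))
  rw [nrm_neg] at h1
  have h2 := hA.nrm_le_sum ((fun a => u a y - u a y') - (-(fun a => u a q - u a p)))
  have h3 : ∑ a, |((fun a => u a y - u a y') - (-(fun a => u a q - u a p))) a| ≤
      n * (4 * (η * s)) := by
    calc _ ≤ ∑ _a : Fin n, 4 * (η * s) := by
          refine Finset.sum_le_sum fun a _ => ?_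
          have e1 : ((fun a => u a y - u a y') - (-(fun a => u a q - u a p))) a =
              (u a y - u a p) + (u a q - u a y') := by
            simp only [Pi.sub_apply, Pi.neg_apply]; ring
          rw [e1]
          have := abs_add_le (u a y - u a p) (u a q - u a y')
          have := hl₁ a
          have := hl₂ a
          linarith
      _ = _ := by simp
  have h4 : √2 ≤ 3 / 2 := by
    rw [Real.sqrt_le_left (by norm_num)]; norm_num
  have h5 : |nrm A (fun a => u a y - u a y') - nrm A (fun a => u a q - u a p)| ≤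
      6 * n * η * s := by
    calc _ ≤ _ := h1
      _ ≤ _ := h2
      _ ≤ 3 / 2 * (n * (4 * (η * s))) := by gcongr
      _ = _ := by ring
  have h6 : |dist p q - dist y y'| ≤ 2 * η * s := by
    have e1 := dist_triangle4 p y y' q
    have e2 := dist_triangle4 y p q y'
    rw [dist_comm y' q] at e1
    rw [dist_comm y p] at e2
    rw [abs_le]
    constructor <;> linarith
  calc |nrm A (fun a => u a y - u a y') - dist y y'|
      = |(nrm A (fun a => u a y - u a y') - nrm A (fun a => u a q - u a p)) +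
          ((nrm A (fun a => u a q - u a p) - dist p q) + (dist p q - dist y y'))| := by ring_nf
    _ ≤ |nrm A (fun a => u a y - u a y') - nrm A (fun a => u a q - u a p)| +
          (|nrm A (fun a => u a q - u a p) - dist p q| + |dist p q - dist y y'|) :=
        (abs_add_le _ _).trans (add_le_add_right (abs_add_le _ _) _)
    _ ≤ 6 * n * η * s + ((24 * n + 8) * ε' * s + 2 * η * s) := by gcongr
    _ = ((6 * n + 2) * η + (24 * n + 8) * ε') * s := by ring
    _ ≤ (ε / 2 + ε / 2) * s := by gcongr; exact hε'2.le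
    _ = ε * s := by ring

end Crest.Agent.R249.NI_923
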