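import Crest.Agent.R244.ManChart

/-!
# R249, leaf ORI (helper285), part A: restriction of a glued manifold to an open set

`G.sub C` : the gluing data of the open subset `C` of `G.M`; `subMap : (G.sub C).M → G.M` is an
open embedding with range `C`; metric data restrict.
-/

set_option autoImplicit false
open Bundle Set Filter Topology Bornology
open scoped ContDiff Manifold
open Crest.GeometryTopology.CoordMetric Crest.GeometryTopology.ChartCurvature
open Crest.Agent.R244.Man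

noncomputable section

namespace Crest.Agent.R249.OriA_285

variable {ι : Type} {n : ℕ}

local notation "E" => EuclideanSpace ℝ (Fin n)

/-- restriction of gluing data to an open subset of the glued manifold. -/
def sub (G : Glue ι n) (C : Set G.M) (hC : IsOpen C) (m₀ : G.M) (hm₀ : m₀ ∈ C) : Glue ι n where
  U i := {z | z ∈ G.U i ∧ G.F i z ∈ C}
  isOpen_U i := (G.continuousOn_F i).isOpen_inter_preimage (G.isOpen_U i) hC
  r :=
    { r := fun x y => G.r ⟨x.1, x.2.1, x.2.2.1⟩ ⟨y.1, y.2.1, y.2.2.1⟩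
      iseqv :=
        ⟨fun x => G.r.refl _, fun {x y} h => G.r.symm h, fun {x y z} h h' => G.r.trans h h'⟩ }
  etale := by
    rintro i j ⟨p, hp⟩ ⟨q, hq⟩ h
    obtain ⟨τ, h1, h2, h3⟩ := G.etale i j ⟨p, hp.1⟩ ⟨q, hq.1⟩ h
    refine ⟨τ, h1, h2, ?_⟩
    have hop : IsOpen {z | z ∈ G.U i ∧ G.F i z ∈ C} :=
      (G.continuousOn_F i).isOpen_inter_preimage (G.isOpen_U i) hC
    filter_upwards [h3, hop.mem_nhds hp] with z hz hz'
    obtain ⟨a, b, c⟩ := hz
    refine ⟨hz', ⟨b, ?_⟩, c⟩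
    rw [← (G.F_eq_F a b).2 c]
    exact hz'.2
  inj := by
    rintro i ⟨p, hp⟩
    obtain ⟨V, hV, h⟩ := G.inj i ⟨p, hp.1⟩
    exact ⟨V, hV, fun z w hz hw hzV hwV hr => h z w hz.1 hw.1 hzV hwV hr⟩
  base := ⟨G.idx m₀, G.pt m₀, G.pt_mem m₀, by rw [G.F_pt]; exact hm₀⟩

variable {G : Glue ι n} {C : Set G.M} {hC : IsOpen C} {m₀ : G.M} {hm₀ : m₀ ∈ C}

theorem sub_U (i : ι) : (sub G C hC m₀ hm₀).U i = {z | z ∈ G.U i ∧ G.F i z ∈ C} := rfl

theorem sub_r {i j : ι} {z w : E} (hz : z ∈ (sub G C hC m₀ hm₀).U i)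
    (hw : w ∈ (sub G C hC m₀ hm₀).U j) :
    (sub G C hC m₀ hm₀).r ⟨i, z, hz⟩ ⟨j, w, hw⟩ ↔ G.r ⟨i, z, hz.1⟩ ⟨j, w, hw.1⟩ := Iff.rfl

/-- the inclusion of the glued open subset. -/
def subMap (G : Glue ι n) (C : Set G.M) (hC : IsOpen C) (m₀ : G.M) (hm₀ : m₀ ∈ C) :
    (sub G C hC m₀ hm₀).M → G.M :=
  Quotient.lift (fun x => G.proj ⟨x.1, x.2.1, x.2.2.1⟩) (fun x y h => (G.proj_eq_proj).2 h)

theorem subMap_F {i : ι} {z : E} (hz : z ∈ (sub G C hC m₀ hm₀).U i) :
    subMap G C hC m₀ hm₀ ((sub G C hC m₀ hm₀).F i z) = G.F i z := by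
  rw [(sub G C hC m₀ hm₀).F_of_mem hz, G.F_of_mem hz.1]
  rfl

theorem subMap_mem (x : (sub G C hC m₀ hm₀).M) : subMap G C hC m₀ hm₀ x ∈ C := by
  obtain ⟨i, z, hz, rfl⟩ := (sub G C hC m₀ hm₀).exists_F x
  rw [subMap_F hz]
  exact hz.2

theorem subMap_injective : Function.Injective (subMap G C hC m₀ hm₀) := by
  intro x y h
  obtain ⟨i, z, hz, rfl⟩ := (sub G C hC m₀ hm₀).exists_F x
  obtain ⟨j, w, hw, rfl⟩ := (sub G C hC m₀ hm₀).exists_F y
  rw [subMap_F hz, subMap_F hw, G.F_eq_F hz.1 hw.1] at h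
  exact ((sub G C hC m₀ hm₀).F_eq_F hz hw).2 h

theorem range_subMap : range (subMap G C hC m₀ hm₀) = C := by
  ext m
  constructor
  · rintro ⟨x, rfl⟩
    exact subMap_mem x
  · intro hm
    obtain ⟨i, z, hz, rfl⟩ := G.exists_F m
    exact ⟨(sub G C hC m₀ hm₀).F i z, subMap_F ⟨hz, hm⟩⟩

theorem continuous_subMap : Continuous (subMap G C hC m₀ hm₀) := by
  rw [(sub G C hC m₀ hm₀).continuous_iff]
  intro i
  have h1 : ContinuousOn (G.F i) ((sub G C hC m₀ hm₀).U i) :=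
    (G.continuousOn_F i).mono fun z hz => hz.1
  refine h1.congr fun z hz => subMap_F hz

theorem isOpenMap_subMap : IsOpenMap (subMap G C hC m₀ hm₀) := by
  intro W hW
  rw [isOpen_iff_mem_nhds]
  rintro _ ⟨x, hx, rfl⟩
  obtain ⟨i, z, hz, rfl⟩ := (sub G C hC m₀ hm₀).exists_F x
  rw [subMap_F hz]
  have h1 : IsOpen ((sub G C hC m₀ hm₀).U i ∩ (sub G C hC m₀ hm₀).F i ⁻¹' W) :=
    ((sub G C hC m₀ hm₀).continuousOn_F i).isOpen_inter_preimage
      ((sub G C hC m₀ hm₀).isOpen_U i) hW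
  have h2 : IsOpen (G.F i '' ((sub G C hC m₀ hm₀).U i ∩ (sub G C hC m₀ hm₀).F i ⁻¹' W)) :=
    G.isOpen_image_F h1 fun w hw => hw.1.1
  refine mem_of_superset (h2.mem_nhds ⟨z, ⟨hz, hx⟩, rfl⟩) ?_
  rintro _ ⟨w, ⟨hw1, hw2⟩, rfl⟩
  exact ⟨_, hw2, subMap_F hw1⟩

theorem isOpenEmbedding_subMap : IsOpenEmbedding (subMap G C hC m₀ hm₀) :=
  .of_continuous_injective_isOpenMap continuous_subMap subMap_injective isOpenMap_subMap

theorem t2Space_sub [T2Space G.M] : T2Space (sub G C hC m₀ hm₀).M :=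
  T2Space.of_injective_continuous subMap_injective continuous_subMap

theorem compactSpace_sub (h : IsCompact C) : CompactSpace (sub G C hC m₀ hm₀).M := by
  rw [← isCompact_univ_iff]
  rw [isOpenEmbedding_subMap.isInducing.isCompact_iff (s := univ) (f := subMap G C hC m₀ hm₀),
    image_univ, range_subMap]
  exact h

theorem connectedSpace_sub (h : IsConnected C) : ConnectedSpace (sub G C hC m₀ hm₀).M := by
  rw [connectedSpace_iff_univ]
  refine ⟨⟨(sub G C hC m₀ hm₀).proj (sub G C hC m₀ hm₀).base, mem_univ _⟩, ?_⟩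
  rw [← isOpenEmbedding_subMap.isInducing.isPreconnected_image (f := subMap G C hC m₀ hm₀),
    image_univ, range_subMap]
  exact h.isPreconnected

/-- transitions of the restriction are transitions. -/
theorem trans_of_sub {i j : ι} {p q : E} {τ : E → E} (h : (sub G C hC m₀ hm₀).Trans i j p q τ) :
    G.Trans i j p q τ := by
  refine ⟨h.1, h.2.1, ?_⟩
  filter_upwards [h.2.2] with z hz
  obtain ⟨a, b, c⟩ := hz
  exact ⟨a.1, b.1, c⟩

/-- restriction of metric data. -/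
def subMetric (D : G.MetricData) : (sub G C hC m₀ hm₀).MetricData where
  g := D.g
  contDiffOn i := (D.contDiffOn i).mono fun z hz => hz.1
  symm i z hz u v := D.symm i z hz.1 u v
  pos i z hz v hv := D.pos i z hz.1 v hv
  inv := by
    intro i j p q h
    obtain ⟨τ, hτ⟩ := (sub G C hC m₀ hm₀).exists_trans h
    exact ⟨τ, hτ, fun u v => D.inv' (trans_of_sub hτ) u v⟩

end Crest.Agent.R249.OriA_285
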