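import Crest.Agent.R249.OriA_285
import Crest.Agent.R247.Bo5_84

/-!
# R249, leaf ORI (helper285), part B: the orientation double cover as a glued manifold
-/

set_option autoImplicit false
set_option maxSynthPendingDepth 3
set_option linter.unusedSectionVars false

open Bundle Set Filter Topology Bornology
open scoped ContDiff Manifold
open Crest.GeometryTopology.CoordMetric Crest.GeometryTopology.ChartCurvature
open Crest.Agent.R244.Man Crest.Agent.R247.Bo84 Crest.Agent.R202.Tens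

noncomputable section

namespace Crest.Agent.R249.OriB_285

section Refl

variable {n : ℕ} [NeZero n]

local notation "𝔼" => EuclideanSpace ℝ (Fin n)

/-- identity or reflection in the first coordinate. -/
def R (n : ℕ) [NeZero n] (s : Bool) : EuclideanSpace ℝ (Fin n) →L[ℝ] EuclideanSpace ℝ (Fin n) :=
  cond s (ContinuousLinearMap.id ℝ (EuclideanSpace ℝ (Fin n)) -
    (2:ℝ) • ((EuclideanSpace.proj (0 : Fin n) : EuclideanSpace ℝ (Fin n) →L[ℝ] ℝ).smulRight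
      (EuclideanSpace.single (0 : Fin n) (1:ℝ)))) (ContinuousLinearMap.id ℝ _)

/-- sign of the identity / reflection. -/
def sg (s : Bool) : ℝ := cond s (-1) 1

@[simp] lemma sg_false : sg false = 1 := rfl
@[simp] lemma sg_true : sg true = -1 := rfl

lemma sg_mul_self (s : Bool) : sg s * sg s = 1 := by cases s <;> simp

lemma sg_ne (s : Bool) : sg s ≠ 0 := by cases s <;> simp

lemma R_false (v : 𝔼) : R n false v = v := rfl

lemma R_true (v : 𝔼) (i : Fin n) : R n true v i = if i = 0 then - v i else v i := by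
  simp only [R, cond_true, sub_apply, smul_apply,
    ContinuousLinearMap.smulRight_apply, PiLp.sub_apply, PiLp.smul_apply, smul_eq_mul,
    prj_apply, PiLp.single_apply, ContinuousLinearMap.id_apply]
  by_cases h : i = 0
  · subst h; simp; ring
  · simp [h]

lemma R_apply (s : Bool) (v : 𝔼) (i : Fin n) : R n s v i = if i = 0 then sg s * v i else v i := by
  cases s
  · rw [R_false]; simp
  · rw [R_true]; simp

@[simp] lemma R_R (s : Bool) (v : 𝔼) : R n s (R n s v) = v := by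
  ext i
  rw [R_apply, R_apply]
  split_ifs
  · rw [← mul_assoc, sg_mul_self, one_mul]
  · rfl

lemma det_R (s : Bool) : LinearMap.det (R n s : 𝔼 →ₗ[ℝ] 𝔼) = sg s := by
  have h : LinearMap.toMatrix (EuclideanSpace.basisFun (Fin n) ℝ).toBasis
      (EuclideanSpace.basisFun (Fin n) ℝ).toBasis (R n s : 𝔼 →ₗ[ℝ] 𝔼) =
      Matrix.diagonal (fun i => if i = 0 then sg s else 1) := by
    ext i j
    rw [LinearMap.toMatrix_apply]
    simp only [OrthonormalBasis.coe_toBasis, EuclideanSpace.basisFun_apply,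
      ContinuousLinearMap.coe_coe, OrthonormalBasis.coe_toBasis_repr_apply,
      EuclideanSpace.basisFun_repr]
    rw [R_apply, Matrix.diagonal_apply]
    by_cases hij : i = j
    · subst hij; simp
    · simp [hij]
  rw [← LinearMap.det_toMatrix (EuclideanSpace.basisFun (Fin n) ℝ).toBasis, h,
    Matrix.det_diagonal, Finset.prod_ite_eq' Finset.univ (0 : Fin n) (fun _ => sg s)]
  simp

end Refl

section Jac

variable {n : ℕ} {M : Type*} [TopologicalSpace M] [ChartedSpace (EuclideanSpace ℝ (Fin n)) M]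
  [IsManifold 𝓘(ℝ, EuclideanSpace ℝ (Fin n)) ∞ M]

local notation "𝔼" => EuclideanSpace ℝ (Fin n)
local notation "𝓘E" => 𝓘(ℝ, EuclideanSpace ℝ (Fin n))

/-- determinant of the derivative of the chart at `x` at the point `m`. -/
def aJ (x m : M) : ℝ := LinearMap.det (dCh (n := n) x m : EuclideanSpace ℝ (Fin n) →ₗ[ℝ] _)

/-- Jacobian determinant of a transition map. -/
def dJ (x₀ x₁ : M) (y : EuclideanSpace ℝ (Fin n)) : ℝ :=
  LinearMap.det (fderiv ℝ (trans x₀ x₁) y : EuclideanSpace ℝ (Fin n) →ₗ[ℝ] _)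

lemma aJ_mul (x₀ : M) {m : M} (hm : m ∈ (chartAt 𝔼 x₀).source) :
    aJ (n := n) x₀ m * LinearMap.det (dSy x₀ (chartAt 𝔼 x₀ m) : 𝔼 →ₗ[ℝ] 𝔼) = 1 := by
  have h : (dSy x₀ (chartAt 𝔼 x₀ m) : 𝔼 →ₗ[ℝ] 𝔼) ∘ₗ (dCh (n := n) x₀ m : 𝔼 →ₗ[ℝ] 𝔼)
      = LinearMap.id := by
    ext1 v
    exact dSy_dCh x₀ hm v
  have h2 := congrArg LinearMap.det h
  rw [LinearMap.det_comp, LinearMap.det_id] at h2
  rw [aJ, mul_comm]
  exact h2

lemma aJ_ne_zero (x₀ : M) {m : M} (hm : m ∈ (chartAt 𝔼 x₀).source) : aJ (n := n) x₀ m ≠ 0 :=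
  left_ne_zero_of_mul_eq_one (aJ_mul x₀ hm)

lemma dJ_eq {x₀ x₁ : M} {y : 𝔼} (hy : y ∈ tdom x₀ x₁) :
    dJ x₀ x₁ y * aJ (n := n) x₀ ((chartAt 𝔼 x₀).symm y)
      = aJ (n := n) x₁ ((chartAt 𝔼 x₀).symm y) := by
  have h : (fderiv ℝ (trans x₀ x₁) y : 𝔼 →ₗ[ℝ] 𝔼) =
      (dCh (n := n) x₁ ((chartAt 𝔼 x₀).symm y) : 𝔼 →ₗ[ℝ] 𝔼) ∘ₗ (dSy x₀ y : 𝔼 →ₗ[ℝ] 𝔼) := by
    ext1 v
    exact fderiv_trans hy v
  have hm : (chartAt 𝔼 x₀).symm y ∈ (chartAt 𝔼 x₀).source := (chartAt 𝔼 x₀).map_target hy.1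
  have h1 := aJ_mul (n := n) x₀ hm
  rw [(chartAt 𝔼 x₀).right_inv hy.1] at h1
  rw [dJ, h, LinearMap.det_comp]
  change aJ (n := n) x₁ _ * _ * _ = _
  rw [mul_assoc, mul_comm (LinearMap.det _), h1, mul_one]

lemma continuousOn_dJ (x₀ x₁ : M) : ContinuousOn (dJ (n := n) x₀ x₁) (tdom x₀ x₁) := by
  have h1 : ContinuousOn (fderiv ℝ (trans (n := n) x₀ x₁)) (tdom x₀ x₁) :=
    (contDiffOn_trans x₀ x₁).continuousOn_fderiv_of_isOpen (isOpen_tdom x₀ x₁) (by simp)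
  have h2 : Continuous fun L : 𝔼 →L[ℝ] 𝔼 => LinearMap.det (L : 𝔼 →ₗ[ℝ] 𝔼) :=
    ContinuousLinearMap.continuous_det
  exact h2.comp_continuousOn h1

lemma dJ_ne_zero {x₀ x₁ : M} {y : 𝔼} (hy : y ∈ tdom x₀ x₁) : dJ x₀ x₁ y ≠ 0 := by
  intro h
  have h1 := dJ_eq hy
  rw [h, zero_mul] at h1
  exact aJ_ne_zero (n := n) x₁ hy.2 h1.symm

end Jac

lemma iff_pos_iff {x y : ℝ} (hx : x ≠ 0) (hy : y ≠ 0) : (0 < x ↔ 0 < y) ↔ 0 < x * y := by
  rcases lt_or_gt_of_ne hx with h1 | h1 <;> rcases lt_or_gt_of_ne hy with h2 | h2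
  · simp [h1.not_gt, h2.not_gt, mul_pos_of_neg_of_neg h1 h2]
  · simp [h1.not_gt, h2, (mul_neg_of_neg_of_pos h1 h2).not_gt]
  · simp [h1, h2.not_gt, (mul_neg_of_pos_of_neg h1 h2).not_gt]
  · simp [h1, h2, mul_pos h1 h2]

section Cover

variable {n : ℕ} [NeZero n] {M : Type*} [TopologicalSpace M]
  [ChartedSpace (EuclideanSpace ℝ (Fin n)) M]
  [IsManifold 𝓘(ℝ, EuclideanSpace ℝ (Fin n)) ∞ M]

local notation "𝔼" => EuclideanSpace ℝ (Fin n)
local notation "𝓘E" => 𝓘(ℝ, EuclideanSpace ℝ (Fin n))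

variable {ι : Type} (c : ι → M)

/-- piece of the double cover. -/
def Up (a : ι × Bool) : Set (EuclideanSpace ℝ (Fin n)) :=
  {z | R n a.2 z ∈ (chartAt (EuclideanSpace ℝ (Fin n)) (c a.1)).target}

/-- its projection to `M`. -/
def Pp (a : ι × Bool) (z : EuclideanSpace ℝ (Fin n)) : M :=
  (chartAt (EuclideanSpace ℝ (Fin n)) (c a.1)).symm (R n a.2 z)

/-- the orientation (compared with the preferred chart of the point). -/
def Op (a : ι × Bool) (z : EuclideanSpace ℝ (Fin n)) : Prop :=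
  0 < sg a.2 * aJ (n := n) (c a.1) (Pp c a z)

/-- transition map between pieces. -/
def Tp (a b : ι × Bool) (z : EuclideanSpace ℝ (Fin n)) : EuclideanSpace ℝ (Fin n) :=
  R n b.2 (trans (c a.1) (c b.1) (R n a.2 z))

omit [IsManifold 𝓘(ℝ, EuclideanSpace ℝ (Fin n)) ∞ M] in
lemma isOpen_Up (a : ι × Bool) : IsOpen (Up (n := n) c a) :=
  (chartAt 𝔼 (c a.1)).open_target.preimage (R n a.2).continuous

omit [IsManifold 𝓘(ℝ, EuclideanSpace ℝ (Fin n)) ∞ M] in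
lemma Pp_mem {a : ι × Bool} {z : 𝔼} (hz : z ∈ Up c a) :
    Pp c a z ∈ (chartAt 𝔼 (c a.1)).source := (chartAt 𝔼 (c a.1)).map_target hz

omit [IsManifold 𝓘(ℝ, EuclideanSpace ℝ (Fin n)) ∞ M] in
lemma mem_tdom {a b : ι × Bool} {z w : 𝔼} (hz : z ∈ Up c a) (hw : w ∈ Up c b)
    (h : Pp c a z = Pp c b w) : R n a.2 z ∈ tdom (c a.1) (c b.1) := by
  refine ⟨hz, ?_⟩
  have := Pp_mem c hw
  rw [← h] at this
  exact this

omit [IsManifold 𝓘(ℝ, EuclideanSpace ℝ (Fin n)) ∞ M] in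
lemma Tp_eq {a b : ι × Bool} {z w : 𝔼} (hw : w ∈ Up c b)
    (h : Pp c a z = Pp c b w) : Tp c a b z = w := by
  have h1 : trans (c a.1) (c b.1) (R n a.2 z) = R n b.2 w := by
    show chartAt 𝔼 (c b.1) (Pp c a z) = _
    rw [h]
    exact (chartAt 𝔼 (c b.1)).right_inv hw
  rw [Tp, h1, R_R]

omit [IsManifold 𝓘(ℝ, EuclideanSpace ℝ (Fin n)) ∞ M] in
lemma Tp_mem {a b : ι × Bool} {z : 𝔼} (hz : R n a.2 z ∈ tdom (c a.1) (c b.1)) :
    Tp c a b z ∈ Up c b := by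
  show R n b.2 (Tp c a b z) ∈ (chartAt 𝔼 (c b.1)).target
  rw [Tp, R_R]
  exact trans_mem hz

omit [IsManifold 𝓘(ℝ, EuclideanSpace ℝ (Fin n)) ∞ M] in
lemma Pp_Tp {a b : ι × Bool} {z : 𝔼} (hz : R n a.2 z ∈ tdom (c a.1) (c b.1)) :
    Pp c b (Tp c a b z) = Pp c a z := by
  show (chartAt 𝔼 (c b.1)).symm (R n b.2 (Tp c a b z)) = _
  rw [Tp, R_R]
  exact symm_trans hz

lemma O_iff {a b : ι × Bool} {z w : 𝔼} (hz : z ∈ Up c a) (hw : w ∈ Up c b)
    (h : Pp c a z = Pp c b w) :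
    (Op c a z ↔ Op c b w) ↔ 0 < sg a.2 * sg b.2 * dJ (c a.1) (c b.1) (R n a.2 z) := by
  have h1 := mem_tdom c hz hw h
  have h2 := dJ_eq h1
  have h3 := aJ_ne_zero (n := n) (c a.1) (Pp_mem c hz)
  have h4 := aJ_ne_zero (n := n) (c b.1) (Pp_mem c hw)
  rw [Op, Op, iff_pos_iff (mul_ne_zero (sg_ne _) h3) (mul_ne_zero (sg_ne _) h4), ← h]
  change dJ (c a.1) (c b.1) (R n a.2 z) * aJ (n := n) (c a.1) (Pp c a z) =
    aJ (n := n) (c b.1) (Pp c a z) at h2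
  rw [← h2]
  have h5 : sg a.2 * aJ (n := n) (c a.1) (Pp c a z) *
      (sg b.2 * (dJ (c a.1) (c b.1) (R n a.2 z) * aJ (n := n) (c a.1) (Pp c a z))) =
      sg a.2 * sg b.2 * dJ (c a.1) (c b.1) (R n a.2 z) * aJ (n := n) (c a.1) (Pp c a z) ^ 2 := by
    ring
  rw [h5]
  have h6 : 0 < aJ (n := n) (c a.1) (Pp c a z) ^ 2 := by positivity
  constructor
  · intro h7
    exact (pos_iff_pos_of_mul_pos h7).2 h6
  · intro h7
    exact mul_pos h7 h6

/-- the gluing relation of the double cover. -/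
def rel : Setoid (Σ a, Up (n := n) c a) :=
  Setoid.ker fun x => (Pp c x.1 (x.2 : EuclideanSpace ℝ (Fin n)),
    Op c x.1 (x.2 : EuclideanSpace ℝ (Fin n)))

lemma rel_iff {a b : ι × Bool} {z w : 𝔼} (hz : z ∈ Up c a) (hw : w ∈ Up c b) :
    rel c ⟨a, z, hz⟩ ⟨b, w, hw⟩ ↔ Pp c a z = Pp c b w ∧ (Op c a z ↔ Op c b w) := by
  rw [rel, Setoid.ker_def, Prod.mk.injEq, eq_iff_iff]

lemma contDiffAt_Tp {a b : ι × Bool} {z : 𝔼} (hz : R n a.2 z ∈ tdom (c a.1) (c b.1)) :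
    ContDiffAt ℝ ∞ (Tp c a b) z := by
  have h1 : ContDiffAt ℝ ∞ (trans (c a.1) (c b.1)) (R n a.2 z) :=
    (contDiffOn_trans _ _).contDiffAt ((isOpen_tdom _ _).mem_nhds hz)
  exact (R n b.2).contDiff.contDiffAt.comp z (h1.comp z (R n a.2).contDiff.contDiffAt)

lemma eventually_rel {a b : ι × Bool} {z w : 𝔼} (hz : z ∈ Up c a) (hw : w ∈ Up c b)
    (h : rel c ⟨a, z, hz⟩ ⟨b, w, hw⟩) :
    ∀ᶠ y in 𝓝 z, ∃ (hy : y ∈ Up c a) (hτ : Tp c a b y ∈ Up c b),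
      rel c ⟨a, y, hy⟩ ⟨b, Tp c a b y, hτ⟩ := by
  obtain ⟨h1, h2⟩ := (rel_iff c hz hw).1 h
  have h3 := mem_tdom c hz hw h1
  have h4 := (O_iff c hz hw h1).1 h2
  have h5 : ∀ᶠ y in 𝓝 z, R n a.2 y ∈ tdom (c a.1) (c b.1) :=
    (R n a.2).continuous.continuousAt.eventually ((isOpen_tdom _ _).mem_nhds h3)
  have h6 : ContinuousAt (fun y => sg a.2 * sg b.2 * dJ (c a.1) (c b.1) (R n a.2 y)) z := by
    refine continuousAt_const.mul ?_
    exact ContinuousAt.comp (g := dJ (c a.1) (c b.1)) (f := fun y => R n a.2 y)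
      ((continuousOn_dJ _ _).continuousAt ((isOpen_tdom _ _).mem_nhds h3))
      (R n a.2).continuous.continuousAt
  have h7 := h6.eventually (lt_mem_nhds h4)
  filter_upwards [h5, h7] with y hy1 hy2
  have hyU : y ∈ Up c a := hy1.1
  have hTU : Tp c a b y ∈ Up c b := Tp_mem c hy1
  refine ⟨hyU, hTU, (rel_iff c hyU hTU).2 ?_⟩
  have h8 : Pp c a y = Pp c b (Tp c a b y) := (Pp_Tp c hy1).symm
  exact ⟨h8, (O_iff c hyU hTU h8).2 hy2⟩

/-- the gluing data of the orientation double cover. -/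
def glue (a₀ : ι × Bool) (z₀ : Up (n := n) c a₀) : Glue (ι × Bool) n where
  U := Up c
  isOpen_U := isOpen_Up c
  r := rel c
  etale := by
    rintro a b ⟨z, hz⟩ ⟨w, hw⟩ h
    obtain ⟨h1, h2⟩ := (rel_iff c hz hw).1 h
    exact ⟨Tp c a b, contDiffAt_Tp c (mem_tdom c hz hw h1), Tp_eq c hw h1,
      eventually_rel c hz hw h⟩
  inj := by
    rintro a ⟨p, hp⟩
    refine ⟨univ, univ_mem, ?_⟩
    intro z w hz hw _ _ h
    obtain ⟨h1, h2⟩ := (rel_iff c hz hw).1 h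
    have h3 : R n a.2 z = R n a.2 w := (chartAt 𝔼 (c a.1)).symm.injOn hz hw h1
    rw [← R_R a.2 z, h3, R_R]
  base := ⟨a₀, z₀⟩

variable {c} {a₀ : ι × Bool} {z₀ : Up (n := n) c a₀}

theorem glue_U (a : ι × Bool) : (glue c a₀ z₀).U a = Up c a := rfl

theorem glue_r {a b : ι × Bool} {z w : 𝔼} (hz : z ∈ (glue c a₀ z₀).U a)
    (hw : w ∈ (glue c a₀ z₀).U b) :
    (glue c a₀ z₀).r ⟨a, z, hz⟩ ⟨b, w, hw⟩ ↔ Pp c a z = Pp c b w ∧ (Op c a z ↔ Op c b w) :=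
  rel_iff c hz hw

theorem trans_Tp {a b : ι × Bool} {z w : 𝔼} (hz : z ∈ (glue c a₀ z₀).U a)
    (hw : w ∈ (glue c a₀ z₀).U b) (h : (glue c a₀ z₀).r ⟨a, z, hz⟩ ⟨b, w, hw⟩) :
    (glue c a₀ z₀).Trans a b z w (Tp c a b) :=
  ⟨contDiffAt_Tp c (mem_tdom c hz hw ((rel_iff c hz hw).1 h).1),
    Tp_eq c hw ((rel_iff c hz hw).1 h).1, eventually_rel c hz hw h⟩

lemma fderiv_Tp {a b : ι × Bool} {z : 𝔼} (hz : R n a.2 z ∈ tdom (c a.1) (c b.1)) :
    fderiv ℝ (Tp c a b) z =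
      ((R n b.2).comp (fderiv ℝ (trans (c a.1) (c b.1)) (R n a.2 z))).comp (R n a.2) := by
  have h1 : ContDiffAt ℝ ∞ (trans (c a.1) (c b.1)) (R n a.2 z) :=
    (contDiffOn_trans _ _).contDiffAt ((isOpen_tdom _ _).mem_nhds hz)
  have h2 : HasFDerivAt (trans (c a.1) (c b.1))
      (fderiv ℝ (trans (c a.1) (c b.1)) (R n a.2 z)) (R n a.2 z) :=
    (h1.differentiableAt (by simp)).hasFDerivAt
  have h3 := (R n b.2).hasFDerivAt.comp z (h2.comp z (R n a.2).hasFDerivAt)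
  have h4 := h3.fderiv
  exact h4

lemma det_fderiv_Tp {a b : ι × Bool} {z : 𝔼} (hz : R n a.2 z ∈ tdom (c a.1) (c b.1)) :
    LinearMap.det (fderiv ℝ (Tp c a b) z : 𝔼 →ₗ[ℝ] 𝔼) =
      sg a.2 * sg b.2 * dJ (c a.1) (c b.1) (R n a.2 z) := by
  rw [fderiv_Tp hz]
  change LinearMap.det (((R n b.2 : 𝔼 →ₗ[ℝ] 𝔼) ∘ₗ
    (fderiv ℝ (trans (c a.1) (c b.1)) (R n a.2 z) : 𝔼 →ₗ[ℝ] 𝔼)) ∘ₗ (R n a.2 : 𝔼 →ₗ[ℝ] 𝔼)) = _
  rw [LinearMap.det_comp, LinearMap.det_comp, det_R, det_R, dJ]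
  ring

/-- all transitions are orientation preserving. -/
theorem det_pos_of_trans {a b : ι × Bool} {p q : 𝔼} {τ : 𝔼 → 𝔼}
    (h : (glue c a₀ z₀).Trans a b p q τ) : 0 < LinearMap.det (fderiv ℝ τ p : 𝔼 →ₗ[ℝ] 𝔼) := by
  obtain ⟨hp, hq, hr⟩ := h.rel
  have h1 := (glue_r hp hq).1 hr
  rw [(h.eventuallyEq _ (trans_Tp hp hq hr)).fderiv_eq, det_fderiv_Tp (mem_tdom c hp hq h1.1)]
  exact (O_iff c hp hq h1.1).1 h1.2

theorem t2Space_glue [T2Space M] : T2Space (glue c a₀ z₀).M := by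
  apply Glue.t2Space
  intro a b
  rw [← isOpen_compl_iff, isOpen_iff_mem_nhds]
  rintro ⟨⟨z, hz⟩, ⟨w, hw⟩⟩ h
  change ¬ ((glue c a₀ z₀).r ⟨a, z, hz⟩ ⟨b, w, hw⟩) at h
  rw [glue_r hz hw] at h
  have hPa : ContinuousAt (fun x : Up (n := n) c a × Up (n := n) c b => Pp c a (x.1 : 𝔼)) (⟨z, hz⟩, ⟨w, hw⟩) := by
    have h1 : ContinuousAt (Pp c a) z := by
      have h2 := ((chartAt 𝔼 (c a.1)).continuousOn_symm.continuousAt
        ((chartAt 𝔼 (c a.1)).open_target.mem_nhds hz))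
      exact ContinuousAt.comp (f := fun z => R n a.2 z) h2 (R n a.2).continuous.continuousAt
    exact ContinuousAt.comp (g := Pp c a) (f := fun x : Up (n := n) c a × Up (n := n) c b => (x.1 : 𝔼))
      (x := ((⟨z, hz⟩, ⟨w, hw⟩) : Up (n := n) c a × Up (n := n) c b)) h1 (by fun_prop)
  have hPb : ContinuousAt (fun x : Up (n := n) c a × Up (n := n) c b => Pp c b (x.2 : 𝔼)) (⟨z, hz⟩, ⟨w, hw⟩) := by
    have h1 : ContinuousAt (Pp c b) w := by
      have h2 := ((chartAt 𝔼 (c b.1)).continuousOn_symm.continuousAt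
        ((chartAt 𝔼 (c b.1)).open_target.mem_nhds hw))
      exact ContinuousAt.comp (f := fun z => R n b.2 z) h2 (R n b.2).continuous.continuousAt
    exact ContinuousAt.comp (g := Pp c b) (f := fun x : Up (n := n) c a × Up (n := n) c b => (x.2 : 𝔼))
      (x := ((⟨z, hz⟩, ⟨w, hw⟩) : Up (n := n) c a × Up (n := n) c b)) h1 (by fun_prop)
  by_cases hP : Pp c a z = Pp c b w
  · have h1 : ¬ (Op c a z ↔ Op c b w) := fun h' => h ⟨hP, h'⟩
    rw [O_iff c hz hw hP] at h1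
    have h2 := mem_tdom c hz hw hP
    have h3 : sg a.2 * sg b.2 * dJ (c a.1) (c b.1) (R n a.2 z) < 0 :=
      lt_of_le_of_ne (not_lt.1 h1) (mul_ne_zero (mul_ne_zero (sg_ne _) (sg_ne _)) (dJ_ne_zero h2))
    have h4 : ContinuousAt (fun x : Up (n := n) c a × Up (n := n) c b =>
        sg a.2 * sg b.2 * dJ (c a.1) (c b.1) (R n a.2 (x.1 : 𝔼))) (⟨z, hz⟩, ⟨w, hw⟩) := by
      refine continuousAt_const.mul ?_
      refine ContinuousAt.comp (g := dJ (c a.1) (c b.1))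
        (f := fun x : Up (n := n) c a × Up (n := n) c b => R n a.2 (x.1 : 𝔼))
        ((continuousOn_dJ _ _).continuousAt ((isOpen_tdom _ _).mem_nhds h2)) ?_
      fun_prop
    have h5 := h4.eventually (gt_mem_nhds h3)
    filter_upwards [h5] with x hx
    intro hr
    have hr' := (glue_r x.1.2 x.2.2).1 hr
    exact absurd ((O_iff c x.1.2 x.2.2 hr'.1).1 hr'.2) (not_lt.2 hx.le)
  · obtain ⟨u, v, hu, hv, hzu, hwv, huv⟩ := t2_separation hP
    have h1 := hPa.eventually (hu.mem_nhds hzu)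
    have h2 := hPb.eventually (hv.mem_nhds hwv)
    filter_upwards [h1, h2] with x hx1 hx2
    intro hr
    have hr' := ((glue_r x.1.2 x.2.2).1 hr).1
    exact disjoint_left.1 huv hx1 (by rw [hr']; exact hx2)

/-- the projection of the double cover. -/
def pr (c : ι → M) (a₀ : ι × Bool) (z₀ : Up (n := n) c a₀) : (glue c a₀ z₀).M → M :=
  Quotient.lift (fun x => Pp c x.1 (x.2 : EuclideanSpace ℝ (Fin n)))
    (fun x y h => ((rel_iff c x.2.2 y.2.2).1 h).1)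

theorem pr_F {a : ι × Bool} {z : 𝔼} (hz : z ∈ Up c a) :
    pr (n := n) c a₀ z₀ ((glue c a₀ z₀).F a z) = Pp c a z := by
  rw [(glue c a₀ z₀).F_of_mem hz]
  rfl

theorem continuous_pr : Continuous (pr (n := n) c a₀ z₀) := by
  rw [(glue c a₀ z₀).continuous_iff]
  intro a
  have h1 : ContinuousOn (fun z : 𝔼 => Pp c a z) (Up c a) := by
    have h2 := (chartAt 𝔼 (c a.1)).continuousOn_symm
    exact h2.comp (f := fun z => R n a.2 z) (R n a.2).continuous.continuousOn fun z hz => hz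
  exact h1.congr fun z hz => pr_F hz

theorem isOpenMap_pr : IsOpenMap (pr (n := n) c a₀ z₀) := by
  intro W hW
  rw [isOpen_iff_mem_nhds]
  rintro _ ⟨x, hx, rfl⟩
  obtain ⟨a, z, hz, rfl⟩ := (glue c a₀ z₀).exists_F x
  rw [pr_F hz]
  have h1 : IsOpen (Up c a ∩ (glue c a₀ z₀).F a ⁻¹' W) :=
    ((glue c a₀ z₀).continuousOn_F a).isOpen_inter_preimage ((glue c a₀ z₀).isOpen_U a) hW
  have h2 : IsOpen {y : 𝔼 | R n a.2 y ∈ Up c a ∩ (glue c a₀ z₀).F a ⁻¹' W} :=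
    h1.preimage (R n a.2).continuous
  have h3 : IsOpen ((chartAt 𝔼 (c a.1)).symm ''
      {y : 𝔼 | R n a.2 y ∈ Up c a ∩ (glue c a₀ z₀).F a ⁻¹' W}) := by
    apply (chartAt 𝔼 (c a.1)).symm.isOpen_image_of_subset_source h2
    intro y hy
    have := hy.1
    change R n a.2 (R n a.2 y) ∈ (chartAt 𝔼 (c a.1)).target at this
    rw [R_R] at this
    exact this
  refine mem_of_superset (h3.mem_nhds ⟨R n a.2 z, ?_, rfl⟩) ?_
  · change R n a.2 (R n a.2 z) ∈ Up c a ∩ (glue c a₀ z₀).F a ⁻¹' W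
    rw [R_R]
    exact ⟨hz, hx⟩
  · rintro _ ⟨y, ⟨hy1, hy2⟩, rfl⟩
    refine ⟨_, hy2, ?_⟩
    rw [pr_F hy1, Pp, R_R]

end Cover

end Crest.Agent.R249.OriB_285
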