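import Crest.Agent.R249.OriB_285
import Crest.Agent.R249.Mk_285

/-!
# R249, leaf ORI (helper285), part C: metric, compactness and the connected component
-/

set_option autoImplicit false
set_option maxSynthPendingDepth 3
set_option linter.unusedSectionVars false

open Bundle Set Filter Topology Bornology
open scoped ContDiff Manifold
open Crest.GeometryTopology.CoordMetric Crest.GeometryTopology.ChartCurvature
open Crest.Agent.R244.Man Crest.Agent.R247.Bo84 Crest.Agent.R202.Tens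
open Crest.Agent.R249.OriA_285 Crest.Agent.R249.OriB_285 Crest.Agent.R249.Mk_285

noncomputable section

namespace Crest.Agent.R249.OriC_285

variable {n : ℕ} {M : Type*} [TopologicalSpace M]
  [ChartedSpace (EuclideanSpace ℝ (Fin n)) M]

local notation "𝔼" => EuclideanSpace ℝ (Fin n)
local notation "𝓘E" => 𝓘(ℝ, EuclideanSpace ℝ (Fin n))

variable (n M) in
/-- a finite family of charts with compact cores which cover. -/
theorem exists_finite_cover [CompactSpace M] :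
    ∃ (k : ℕ) (c : Fin k → M) (K : Fin k → Set (EuclideanSpace ℝ (Fin n))),
      (∀ i, IsCompact (K i)) ∧
      (∀ i, K i ⊆ (chartAt (EuclideanSpace ℝ (Fin n)) (c i)).target) ∧
      ∀ m : M, ∃ i, ∃ y ∈ K i, (chartAt (EuclideanSpace ℝ (Fin n)) (c i)).symm y = m := by
  have h1 : ∀ x : M, ∃ K : Set 𝔼, IsCompact K ∧ K ∈ 𝓝 (chartAt 𝔼 x x) ∧
      K ⊆ (chartAt 𝔼 x).target := by
    intro x
    obtain ⟨K, hK, hK1, hK2⟩ := local_compact_nhds
      ((chartAt 𝔼 x).open_target.mem_nhds (mem_chart_target 𝔼 x))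
    exact ⟨K, hK2, hK, hK1⟩
  choose K hK hKn hKt using h1
  obtain ⟨t, ht⟩ := CompactSpace.elim_nhds_subcover
    (fun x : M => (chartAt 𝔼 x).source ∩ (chartAt 𝔼 x) ⁻¹' (K x)) (fun x => by
      refine inter_mem (chart_source_mem_nhds 𝔼 x) ?_
      exact ((chartAt 𝔼 x).continuousAt (mem_chart_source 𝔼 x)).preimage_mem_nhds (hKn x))
  refine ⟨t.card, fun i => (t.equivFin.symm i : M), fun i => K (t.equivFin.symm i : M),
    fun i => hK _, fun i => hKt _, ?_⟩
  intro m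
  have hm : m ∈ ⋃ x ∈ t, (chartAt 𝔼 x).source ∩ (chartAt 𝔼 x) ⁻¹' (K x) := by
    rw [ht]; exact mem_univ m
  simp only [mem_iUnion] at hm
  obtain ⟨x, hx, h2, h3⟩ := hm
  refine ⟨t.equivFin ⟨x, hx⟩, chartAt 𝔼 x m, ?_, ?_⟩
  · simp only [Equiv.symm_apply_apply]; exact h3
  · simp only [Equiv.symm_apply_apply]; exact (chartAt 𝔼 x).left_inv h2

section Cover

variable [NeZero n] [IsManifold 𝓘(ℝ, EuclideanSpace ℝ (Fin n)) ∞ M]
  {ι : Type} {c : ι → M} {a₀ : ι × Bool} {z₀ : Up (n := n) c a₀}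

/-- both orientations occur over every point of a chart. -/
theorem exists_lift (p : Prop) (j : ι) {y : 𝔼} (hy : y ∈ (chartAt 𝔼 (c j)).target) :
    ∃ t : Bool, R n t y ∈ Up c (j, t) ∧ Pp c (j, t) (R n t y) = (chartAt 𝔼 (c j)).symm y ∧
      (Op c (j, t) (R n t y) ↔ p) := by
  have h1 : ∀ t, R n t y ∈ Up c (j, t) := by
    intro t
    change R n t (R n t y) ∈ (chartAt 𝔼 (c j)).target
    rw [R_R]; exact hy
  have h2 : ∀ t, Pp c (j, t) (R n t y) = (chartAt 𝔼 (c j)).symm y := by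
    intro t
    rw [Pp, R_R]
  have h3 := aJ_ne_zero (n := n) (c j) ((chartAt 𝔼 (c j)).map_target hy)
  have h4 : ∀ t, Op c (j, t) (R n t y) ↔
      0 < sg t * aJ (n := n) (c j) ((chartAt 𝔼 (c j)).symm y) := by
    intro t
    rw [Op, h2 t]
  rcases lt_or_gt_of_ne h3 with h5 | h5
  · by_cases hp : p
    · refine ⟨true, h1 _, h2 _, ?_⟩
      rw [h4]
      simp [hp, h5]
    · refine ⟨false, h1 _, h2 _, ?_⟩
      rw [h4]
      simp [hp, h5.le]
  · by_cases hp : p
    · refine ⟨false, h1 _, h2 _, ?_⟩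
      rw [h4]
      simp [hp, h5]
    · refine ⟨true, h1 _, h2 _, ?_⟩
      rw [h4]
      simp [hp, h5.le]

theorem compactSpace_glue [Finite ι] (K : ι → Set 𝔼) (hK : ∀ i, IsCompact (K i))
    (hKt : ∀ i, K i ⊆ (chartAt 𝔼 (c i)).target)
    (hc : ∀ m : M, ∃ i, ∃ y ∈ K i, (chartAt 𝔼 (c i)).symm y = m) :
    CompactSpace (glue c a₀ z₀).M := by
  refine (glue c a₀ z₀).compactSpace (fun a => R n a.2 '' K a.1)
    (fun a => (hK a.1).image (R n a.2).continuous) ?_ ?_
  · rintro a _ ⟨y, hy, rfl⟩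
    change R n a.2 (R n a.2 y) ∈ (chartAt 𝔼 (c a.1)).target
    rw [R_R]
    exact hKt a.1 hy
  · intro a z hz
    obtain ⟨j, y, hy, hym⟩ := hc (Pp c a z)
    obtain ⟨t, h1, h2, h3⟩ := exists_lift (c := c) (Op c a z) j (hKt j hy)
    refine ⟨(j, t), R n t y, ⟨y, hy, rfl⟩, ?_⟩
    rw [Glue.F_eq_F _ h1 hz, glue_r h1 hz]
    exact ⟨h2.trans hym, h3⟩

end Cover

section Metric

variable [NeZero n] [IsManifold 𝓘(ℝ, EuclideanSpace ℝ (Fin n)) ∞ M]
  [RiemannianBundle (fun x : M => TangentSpace 𝓘(ℝ, EuclideanSpace ℝ (Fin n)) x)]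
  [IsContMDiffRiemannianBundle 𝓘(ℝ, EuclideanSpace ℝ (Fin n)) ∞ (EuclideanSpace ℝ (Fin n))
      (fun x : M => TangentSpace 𝓘(ℝ, EuclideanSpace ℝ (Fin n)) x)]
  {ι : Type} (c : ι → M) {a₀ : ι × Bool} {z₀ : Up (n := n) c a₀}

/-- the metric on a piece. -/
def gp (a : ι × Bool) (z : EuclideanSpace ℝ (Fin n)) :
    EuclideanSpace ℝ (Fin n) →L[ℝ] EuclideanSpace ℝ (Fin n) →L[ℝ] ℝ :=
  ∑ i, ∑ j, chartMetric n M (c a.1) (R n a.2 z) i j •
    (((EuclideanSpace.proj i : EuclideanSpace ℝ (Fin n) →L[ℝ] ℝ).comp (R n a.2)).smulRight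
      ((EuclideanSpace.proj j : EuclideanSpace ℝ (Fin n) →L[ℝ] ℝ).comp (R n a.2)))

lemma gp_apply (a : ι × Bool) (z u v : 𝔼) :
    gp c a z u v = bil (chartMetric n M (c a.1) (R n a.2 z)) (R n a.2 u) (R n a.2 v) := by
  rw [bil_apply]
  simp only [gp, sum_apply, smul_apply, ContinuousLinearMap.smulRight_apply, smul_eq_mul,
    ContinuousLinearMap.comp_apply, prj_apply]
  refine Finset.sum_congr rfl fun i _ => Finset.sum_congr rfl fun j _ => ?_
  ring

lemma contDiffOn_gp (a : ι × Bool) : ContDiffOn ℝ ∞ (gp (n := n) c a) (Up c a) := by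
  unfold gp
  refine ContDiffOn.sum fun i _ => ContDiffOn.sum fun j _ => ?_
  have h1 : ContDiffOn ℝ ∞ (fun z : 𝔼 => chartMetric n M (c a.1) (R n a.2 z) i j) (Up c a) :=
    (contDiffOn_chartMetric (c a.1) i j).comp (f := fun z => R n a.2 z)
      (R n a.2).contDiff.contDiffOn fun z hz => hz
  exact h1.smul contDiffOn_const

/-- the metric data of the double cover. -/
def mdat : (glue c a₀ z₀).MetricData where
  g := gp c
  contDiffOn := contDiffOn_gp c
  symm a z hz u v := by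
    rw [gp_apply, gp_apply]
    exact bil_symm (isRiemannianOn_chartMetric (c a.1)) hz _ _
  pos a z hz v hv := by
    rw [gp_apply]
    refine bil_pos (isRiemannianOn_chartMetric (c a.1)) hz ?_
    intro h
    apply hv
    rw [← R_R a.2 v, h, map_zero]
  inv := by
    rintro a b ⟨z, hz⟩ ⟨w, hw⟩ h
    refine ⟨Tp c a b, trans_Tp hz hw h, ?_⟩
    intro u v
    have h1 := (glue_r hz hw).1 h
    have h2 := mem_tdom c hz hw h1.1
    have h3 : R n b.2 w = trans (c a.1) (c b.1) (R n a.2 z) := by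
      rw [← Tp_eq c hw h1.1, Tp, R_R]
    rw [gp_apply, gp_apply]
    change bil (chartMetric n M (c a.1) (R n a.2 z)) (R n a.2 u) (R n a.2 v) =
      bil (chartMetric n M (c b.1) (R n b.2 w)) _ _
    rw [(pull_trans (c a.1) (c b.1)).bil_eq h2, h3, fderiv_Tp h2]
    simp only [ContinuousLinearMap.comp_apply, R_R]

end Metric

end Crest.Agent.R249.OriC_285
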