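import Crest.Agent.R249.OriD_285

/-!
# R249, leaf ORI-REV (helper285): the reversed orientation

`exists_reversed` : a compact connected oriented Riemannian manifold is covered, locally
isometrically and orientation reversingly, by a compact connected oriented Riemannian manifold of
the lowest universe (the component of the orientation double cover with the other orientation).
-/

set_option autoImplicit false
set_option maxSynthPendingDepth 3
set_option linter.unusedSectionVars false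
set_option linter.style.haveILetI false

open Bundle Set Filter Topology Bornology
open scoped ContDiff Manifold
open Crest.GeometryTopology.CoordMetric Crest.GeometryTopology.ChartCurvature
open Crest.Agent.R244.Man Crest.Agent.R247.Bo84 Crest.Agent.R202.Tens
open Crest.Agent.R249.OriA_285 Crest.Agent.R249.OriB_285 Crest.Agent.R249.OriC_285
open Crest.Agent.R249.Mk_285 Crest.Agent.R249.Loc1_285 Crest.Agent.R249.Loc2_285
open Crest.Agent.R249.OriD_285

noncomputable section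

namespace Crest.Agent.R249.OriR_285

variable {n : ℕ} {M : Type*} [TopologicalSpace M]
  [ChartedSpace (EuclideanSpace ℝ (Fin n)) M]

local notation "𝔼" => EuclideanSpace ℝ (Fin n)
local notation "𝓘E" => 𝓘(ℝ, EuclideanSpace ℝ (Fin n))

section

variable [NeZero n] [IsManifold 𝓘(ℝ, EuclideanSpace ℝ (Fin n)) ∞ M]
  {ι : Type} {c : ι → M} {a₀ : ι × Bool} {z₀ : Up (n := n) c a₀}

/-- on an oriented manifold the sign of a chart of the double cover is a function of the point. -/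
theorem sign_eq (hO : Oriented n M) {a b : ι × Bool} {z w : 𝔼} (hz : z ∈ Up c a)
    (hw : w ∈ Up c b) (h : (glue c a₀ z₀).F a z = (glue c a₀ z₀).F b w) : a.2 = b.2 := by
  rw [Glue.F_eq_F _ hz hw, glue_r hz hw] at h
  have h1 := (O_iff c hz hw h.1).1 h.2
  have h2 : 0 < dJ (c a.1) (c b.1) (R n a.2 z) := hO _ _ _ (mem_tdom c hz hw h.1)
  have h3 : 0 < sg a.2 * sg b.2 := (pos_iff_pos_of_mul_pos h1).2 h2
  rcases a with ⟨i, s⟩
  rcases b with ⟨j, t⟩
  cases s <;> cases t <;> simp_all <;> linarith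

theorem component_sign (hO : Oriented n M) {m : (glue c a₀ z₀).M}
    (hm : m ∈ connectedComponent ((glue c a₀ z₀).proj (glue c a₀ z₀).base))
    {b : ι × Bool} {w : 𝔼} (hw : w ∈ Up c b) (h : (glue c a₀ z₀).F b w = m) : b.2 = a₀.2 := by
  -- the points of sign `s`
  let B : Bool → Set (glue c a₀ z₀).M := fun s =>
    ⋃ i : ι, (glue c a₀ z₀).F (i, s) '' (Up c (i, s))
  have hBo : ∀ s, IsOpen (B s) := fun s =>
    isOpen_iUnion fun i => (glue c a₀ z₀).isOpen_image_F (isOpen_Up c (i, s)) Subset.rfl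
  have hmem : ∀ m : (glue c a₀ z₀).M, ∀ s, m ∈ B s ↔ ¬ m ∈ B (!s) := by
    intro m s
    obtain ⟨a, z, hz, rfl⟩ := (glue c a₀ z₀).exists_F m
    have h1 : ∀ t, (glue c a₀ z₀).F a z ∈ B t ↔ t = a.2 := by
      intro t
      constructor
      · intro ht
        obtain ⟨i, y, hy, h⟩ := mem_iUnion.1 ht
        exact sign_eq (c := c) (a₀ := a₀) (z₀ := z₀) hO (a := (i, t)) (b := a) hy hz h
      · rintro rfl
        exact mem_iUnion.2 ⟨a.1, z, hz, rfl⟩
    rw [h1, h1]
    cases s <;> cases a.2 <;> simp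
  have hBc : IsClopen (B a₀.2) := by
    refine ⟨?_, hBo _⟩
    rw [← isOpen_compl_iff]
    have : (B a₀.2)ᶜ = B (!a₀.2) := by
      ext m
      rw [mem_compl_iff, hmem m (!a₀.2), Bool.not_not]
    rw [this]
    exact hBo _
  have h0 : (glue c a₀ z₀).proj (glue c a₀ z₀).base ∈ B a₀.2 := by
    refine mem_iUnion.2 ⟨a₀.1, z₀, z₀.2, ?_⟩
    rw [(glue c a₀ z₀).F_of_mem z₀.2]
    rfl
  have h1 : m ∈ B a₀.2 := hBc.connectedComponent_subset h0 hm
  obtain ⟨i, y, hy, h2⟩ := mem_iUnion.1 h1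
  exact (sign_eq (c := c) (a₀ := a₀) (z₀ := z₀) hO (a := (i, a₀.2)) (b := b) hy hw
    (h2.trans h.symm)).symm

variable {hC : IsOpen (connectedComponent ((glue c a₀ z₀).proj (glue c a₀ z₀).base))}
  {hm₀ : (glue c a₀ z₀).proj (glue c a₀ z₀).base ∈
    connectedComponent ((glue c a₀ z₀).proj (glue c a₀ z₀).base)}

theorem idx_sign (hO : Oriented n M) (x : (sub (glue c a₀ z₀) _ hC _ hm₀).M) :
    ((sub (glue c a₀ z₀) _ hC _ hm₀).idx x).2 = a₀.2 := by
  have h1 := (sub (glue c a₀ z₀) _ hC _ hm₀).pt_mem x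
  exact component_sign hO h1.2 h1.1 rfl

/-- the derivative of the projection in charts. -/
theorem det_lmap (hO : Oriented n M) (x : (sub (glue c a₀ z₀) _ hC _ hm₀).M) :
    0 < sg a₀.2 * LinearMap.det (fderiv ℝ
      (lmap n (prS c a₀ z₀ _ hC _ hm₀) x (prS c a₀ z₀ _ hC _ hm₀ x)) (chartAt 𝔼 x x) :
        𝔼 →ₗ[ℝ] 𝔼) := by
  set ϖ := prS c a₀ z₀ _ hC _ hm₀ with hϖ
  have hs := idx_sign hO x
  set a := (sub (glue c a₀ z₀) _ hC _ hm₀).idx x with ha
  -- the expression of `ϖ` in the charts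
  have h1 : ∀ᶠ y in 𝓝 (chartAt 𝔼 x x), lmap n ϖ x (ϖ x) y =
      R247.Bo84.trans (c a.1) (ϖ x) (R n a.2 y) := by
    have h2 := prS_eventuallyEq (c := c) (a₀ := a₀) (z₀ := z₀) (hC := hC) (hm₀ := hm₀) x
    have h3 : Tendsto (chartAt 𝔼 x).symm (𝓝 (chartAt 𝔼 x x)) (𝓝 x) := by
      have := (chartAt 𝔼 x).symm.continuousAt (x := chartAt 𝔼 x x) (mem_chart_target 𝔼 x)
      rw [ContinuousAt, (chartAt 𝔼 x).left_inv (mem_chart_source 𝔼 x)] at this
      exact this
    filter_upwards [h3.eventually h2,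
      (chartAt 𝔼 x).open_target.mem_nhds (mem_chart_target 𝔼 x)] with y hy hyt
    rw [lmap, hϖ, hy, (chartAt 𝔼 x).right_inv hyt]
    rfl
  have hmem : R n a.2 (chartAt 𝔼 x x) ∈ tdom (n := n) (c a.1) (ϖ x) := by
    refine ⟨R_chart_mem x, ?_⟩
    have h4 : ϖ x = (chartAt 𝔼 (c a.1)).symm (R n a.2 (chartAt 𝔼 x x)) :=
      (prS_eventuallyEq (c := c) (a₀ := a₀) (z₀ := z₀) (hC := hC) (hm₀ := hm₀) x).self_of_nhds
    change (chartAt 𝔼 (c a.1)).symm (R n a.2 (chartAt 𝔼 x x)) ∈ (chartAt 𝔼 (ϖ x)).source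
    rw [← h4]
    exact mem_chart_source 𝔼 _
  have h5 : HasFDerivAt (R247.Bo84.trans (c a.1) (ϖ x))
      (fderiv ℝ (R247.Bo84.trans (c a.1) (ϖ x)) (R n a.2 (chartAt 𝔼 x x)))
      (R n a.2 (chartAt 𝔼 x x)) :=
    (((contDiffOn_trans _ _).contDiffAt ((isOpen_tdom _ _).mem_nhds hmem)).differentiableAt
      (by simp)).hasFDerivAt
  have h6 := h5.comp (chartAt 𝔼 x x) (R n a.2).hasFDerivAt
  have h7 : fderiv ℝ (lmap n ϖ x (ϖ x)) (chartAt 𝔼 x x) =
      (fderiv ℝ (R247.Bo84.trans (c a.1) (ϖ x)) (R n a.2 (chartAt 𝔼 x x))).comp (R n a.2) := by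
    have h8 : lmap n ϖ x (ϖ x) =ᶠ[𝓝 (chartAt 𝔼 x x)]
        (R247.Bo84.trans (c a.1) (ϖ x) ∘ R n a.2) := h1
    rw [h8.fderiv_eq, h6.fderiv]
  rw [h7]
  change 0 < sg a₀.2 * LinearMap.det
    ((fderiv ℝ (R247.Bo84.trans (c a.1) (ϖ x)) (R n a.2 (chartAt 𝔼 x x)) : 𝔼 →ₗ[ℝ] 𝔼) ∘ₗ
      (R n a.2 : 𝔼 →ₗ[ℝ] 𝔼))
  rw [LinearMap.det_comp, det_R, hs]
  have h9 := hO _ _ _ hmem
  rw [hs] at h9
  have h10 := sg_mul_self a₀.2
  have h11 : ∀ d : ℝ, sg a₀.2 * (d * sg a₀.2) = d * (sg a₀.2 * sg a₀.2) := fun d => by ring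
  rw [h11, h10, mul_one]
  exact h9

end

section Metric

variable [NeZero n] [IsManifold 𝓘(ℝ, EuclideanSpace ℝ (Fin n)) ∞ M]
  [RiemannianBundle (fun x : M => TangentSpace 𝓘(ℝ, EuclideanSpace ℝ (Fin n)) x)]
  [IsContMDiffRiemannianBundle 𝓘(ℝ, EuclideanSpace ℝ (Fin n)) ∞ (EuclideanSpace ℝ (Fin n))
      (fun x : M => TangentSpace 𝓘(ℝ, EuclideanSpace ℝ (Fin n)) x)]

/-- **the manifold with the reversed orientation.** -/
theorem exists_reversed [T2Space M] [CompactSpace M] [ConnectedSpace M] (hO : Oriented n M) :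
    ∃ (G : Geo n) (ϖ : G.S → M), CompactSpace G.S ∧ Oriented n G.S ∧
      Function.Surjective ϖ ∧ LocIso n ϖ ∧
      ∀ x : G.S, LinearMap.det (fderiv ℝ (lmap n ϖ x (ϖ x)) (chartCentre n G.S x) :
        EuclideanSpace ℝ (Fin n) →ₗ[ℝ] EuclideanSpace ℝ (Fin n)) < 0 := by
  obtain ⟨k, c, K, hK, hKt, hc⟩ := exists_finite_cover n M
  obtain ⟨p⟩ : Nonempty M := inferInstance
  obtain ⟨i₀, y₀, hy₀, -⟩ := hc p
  let z₀ : Up (n := n) c (i₀, true) := ⟨R n true y₀, by
    change R n true (R n true y₀) ∈ (chartAt 𝔼 (c i₀)).target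
    rw [R_R]; exact hKt i₀ hy₀⟩
  haveI : T2Space (glue c (i₀, true) z₀).M := t2Space_glue
  haveI : CompactSpace (glue c (i₀, true) z₀).M := compactSpace_glue K hK hKt hc
  haveI : LocallyConnectedSpace (glue c (i₀, true) z₀).M := ChartedSpace.locallyConnectedSpace 𝔼 _
  let m₀ : (glue c (i₀, true) z₀).M := (glue c (i₀, true) z₀).proj (glue c (i₀, true) z₀).base
  let C : Set (glue c (i₀, true) z₀).M := connectedComponent m₀
  have hC : IsOpen C := isOpen_connectedComponent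
  have hm₀ : m₀ ∈ C := mem_connectedComponent
  have hCc : IsCompact C := isClosed_connectedComponent.isCompact
  haveI : T2Space (sub (glue c (i₀, true) z₀) C hC m₀ hm₀).M := t2Space_sub
  haveI : CompactSpace (sub (glue c (i₀, true) z₀) C hC m₀ hm₀).M := compactSpace_sub hCc
  haveI : ConnectedSpace (sub (glue c (i₀, true) z₀) C hC m₀ hm₀).M :=
    connectedSpace_sub isConnected_connectedComponent
  let G : Geo n :=
    { X := (sub (glue c (i₀, true) z₀) C hC m₀ hm₀).M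
      top := inferInstance
      t3 := inferInstance
      conn := inferInstance
      chs := inferInstance
      mfd := inferInstance
      g := (subMetric (mdat c)).toMetric }
  refine ⟨G, prS c (i₀, true) z₀ C hC m₀ hm₀, ?_, ?_, ?_, ?_, ?_⟩
  · exact (inferInstance : CompactSpace (sub (glue c (i₀, true) z₀) C hC m₀ hm₀).M)
  · exact oriented_sub
  · have h1 : range (prS c (i₀, true) z₀ C hC m₀ hm₀) =
        pr c (i₀, true) z₀ '' C := by
      have h0 : prS c (i₀, true) z₀ C hC m₀ hm₀ =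
        pr c (i₀, true) z₀ ∘ subMap (glue c (i₀, true) z₀) C hC m₀ hm₀ := rfl
      rw [h0, range_comp, range_subMap]
    have h2 : IsOpen (pr c (i₀, true) z₀ '' C) := isOpenMap_pr C hC
    have h3 : IsClosed (pr c (i₀, true) z₀ '' C) := (hCc.image continuous_pr).isClosed
    have h4 : pr c (i₀, true) z₀ '' C = univ :=
      IsClopen.eq_univ ⟨h3, h2⟩ ⟨_, ⟨m₀, hm₀, rfl⟩⟩
    exact range_eq_univ.1 (h1.trans h4)
  · exact locIso_prS
  · intro x
    have h := det_lmap (c := c) (a₀ := (i₀, true)) (z₀ := z₀) (hC := hC) (hm₀ := hm₀) hO x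
    rw [sg_true, neg_one_mul, neg_pos] at h
    exact h

end Metric

end Crest.Agent.R249.OriR_285
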