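import Crest.Agent.R249.B2Jac_474
import Crest.Agent.R249.B2Iso_474

/-!
Row 249, B1-PAR (helper493), bridge "frame components of `∇R`" ⇒ 474's `nab`.

For a metric `(U, g, Γ)` (`IsLC`) and a smooth frame `e` near `x ∈ U`, orthonormal at `x`:
* `wf k i j y = g(∇_{e_k} e_i, e_j)`, `rf i j k l y = g(R(e_i,e_j)e_k, e_l)`;
* `nf p i j k l y = e_p (rf i j k l) - ∑ (wf p i m rf m j k l + ...)`;
* `nf_eq : nf p i j k l x = g x (nab Γ x e_p e_i e_j e_k) e_l`;
* `nab_eq_zero : (∀ p i j k l, nf p i j k l x = 0) → ∀ W X Y Z, nab Γ x W X Y Z = 0`.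
-/

set_option autoImplicit false
set_option maxSynthPendingDepth 3
set_option linter.unusedSectionVars false

open Set Filter Topology
open scoped ContDiff
open Crest.Agent.R244.CF (IsLC curv cov hasDerivAt_apply2 hasFDerivAt_apply2 fderiv_apply2_const)
open Crest.Agent.R249.B2Defs_474 Crest.Agent.R249.B2Jac_474 Crest.Agent.R249.B2Iso_474

noncomputable section

namespace Crest.Agent.R249.Par3_493

variable {E : Type*} [NormedAddCommGroup E] [NormedSpace ℝ E] [FiniteDimensional ℝ E]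
variable {U : Set E} {g : E → E →L[ℝ] E →L[ℝ] ℝ} {Γ : E → E →L[ℝ] E →L[ℝ] E}

theorem curv_smul1 (Γ : E → E →L[ℝ] E →L[ℝ] E) (x : E) (r : ℝ) (a b c : E) :
    curv Γ x (r • a) b c = r • curv Γ x a b c := by
  simp only [curv, map_smul, smul_apply, smul_sub, smul_add]

theorem curv_smul2 (Γ : E → E →L[ℝ] E →L[ℝ] E) (x : E) (r : ℝ) (a b c : E) :
    curv Γ x a (r • b) c = r • curv Γ x a b c := by
  simp only [curv, map_smul, smul_apply, smul_sub, smul_add]

theorem curv_smul3 (Γ : E → E →L[ℝ] E →L[ℝ] E) (x : E) (r : ℝ) (a b c : E) :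
    curv Γ x a b (r • c) = r • curv Γ x a b c := by
  simp only [curv, map_smul, smul_sub, smul_add]

/-- linearity of `curv` in finite sums -/
theorem curv_sum1 (Γ : E → E →L[ℝ] E →L[ℝ] E) (x : E) {ι : Type*} (s : Finset ι) (r : ι → ℝ)
    (a : ι → E) (b c : E) :
    curv Γ x (∑ m ∈ s, r m • a m) b c = ∑ m ∈ s, r m • curv Γ x (a m) b c := by
  classical
  induction s using Finset.induction_on with
  | empty => simp [curv]
  | insert m s hm ih => rw [Finset.sum_insert hm, Finset.sum_insert hm, curv_add1, curv_smul1, ih]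

theorem curv_sum2 (Γ : E → E →L[ℝ] E →L[ℝ] E) (x : E) {ι : Type*} (s : Finset ι) (r : ι → ℝ)
    (a : E) (b : ι → E) (c : E) :
    curv Γ x a (∑ m ∈ s, r m • b m) c = ∑ m ∈ s, r m • curv Γ x a (b m) c := by
  classical
  induction s using Finset.induction_on with
  | empty => simp [curv]
  | insert m s hm ih => rw [Finset.sum_insert hm, Finset.sum_insert hm, curv_add2, curv_smul2, ih]

theorem curv_sum3 (Γ : E → E →L[ℝ] E →L[ℝ] E) (x : E) {ι : Type*} (s : Finset ι) (r : ι → ℝ)
    (a b : E) (c : ι → E) :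
    curv Γ x a b (∑ m ∈ s, r m • c m) = ∑ m ∈ s, r m • curv Γ x a b (c m) := by
  classical
  induction s using Finset.induction_on with
  | empty => simp [curv]
  | insert m s hm ih => rw [Finset.sum_insert hm, Finset.sum_insert hm, curv_add3, curv_smul3, ih]

theorem contDiffAt_curv (h : IsLC U g Γ) {x : E} (hx : x ∈ U) {A B C : E → E}
    (hA : ContDiffAt ℝ ∞ A x) (hB : ContDiffAt ℝ ∞ B x) (hC : ContDiffAt ℝ ∞ C x) :
    ContDiffAt ℝ ∞ (fun y => curv Γ y (A y) (B y) (C y)) x := by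
  have hG := h.Γ_contDiffAt hx
  have hDG : ContDiffAt ℝ ∞ (fderiv ℝ Γ) x := hG.fderiv_right (m := ∞) (by simp)
  unfold curv
  exact (((((hDG.clm_apply hA).clm_apply hB).clm_apply hC).sub
    (((hDG.clm_apply hB).clm_apply hA).clm_apply hC)).add
    ((hG.clm_apply hA).clm_apply ((hG.clm_apply hB).clm_apply hC))).sub
    ((hG.clm_apply hB).clm_apply ((hG.clm_apply hA).clm_apply hC))

section frame

variable {ι : Type*} [Fintype ι]

/-- connection coefficients of the frame: `⟨∇_{e_k} e_i, e_j⟩` -/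
def wf (g : E → E →L[ℝ] E →L[ℝ] ℝ) (Γ : E → E →L[ℝ] E →L[ℝ] E) (e : ι → E → E) (k i j : ι)
    (y : E) : ℝ :=
  g y (fderiv ℝ (e i) y (e k y) + Γ y (e k y) (e i y)) (e j y)

/-- components of the curvature tensor `⟨R(e_i,e_j) e_k, e_l⟩` -/
def rf (g : E → E →L[ℝ] E →L[ℝ] ℝ) (Γ : E → E →L[ℝ] E →L[ℝ] E) (e : ι → E → E) (i j k l : ι)
    (y : E) : ℝ :=
  g y (curv Γ y (e i y) (e j y) (e k y)) (e l y)

/-- frame components of `∇R` -/
def nf (g : E → E →L[ℝ] E →L[ℝ] ℝ) (Γ : E → E →L[ℝ] E →L[ℝ] E) (e : ι → E → E) (p i j k l : ι)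
    (y : E) : ℝ :=
  fderiv ℝ (rf g Γ e i j k l) y (e p y) - ∑ m, wf g Γ e p i m y * rf g Γ e m j k l y
    - ∑ m, wf g Γ e p j m y * rf g Γ e i m k l y - ∑ m, wf g Γ e p k m y * rf g Γ e i j m l y
    - ∑ m, wf g Γ e p l m y * rf g Γ e i j k m y

theorem contDiffAt_rf (h : IsLC U g Γ) {x : E} (hx : x ∈ U) {e : ι → E → E}
    (he : ∀ i, ContDiffAt ℝ ∞ (e i) x) (i j k l : ι) : ContDiffAt ℝ ∞ (rf g Γ e i j k l) x :=
  ((h.g_contDiffAt hx).clm_apply (contDiffAt_curv h hx (he i) (he j) (he k))).clm_apply (he l)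

theorem nf_eq (h : IsLC U g Γ) {x : E} (hx : x ∈ U) {e : ι → E → E}
    (he : ∀ i, ContDiffAt ℝ ∞ (e i) x) (hexp : ∀ v, ∑ m, g x v (e m x) • e m x = v)
    (p i j k l : ι) :
    nf g Γ e p i j k l x = g x (nab Γ x (e p x) (e i x) (e j x) (e k x)) (e l x) := by
  -- derivative of the component along the line `x + s e_p`
  have hl : HasDerivAt (fun s : ℝ => x + s • e p x) (e p x) 0 := by
    simpa using ((hasDerivAt_id (0 : ℝ)).smul_const (e p x)).const_add x
  have h0 : x + (0 : ℝ) • e p x = x := by simp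
  have hce : ∀ i, HasDerivAt (fun s : ℝ => e i (x + s • e p x)) (fderiv ℝ (e i) x (e p x)) 0 := by
    intro i
    have hd : DifferentiableAt ℝ (e i) (x + (0 : ℝ) • e p x) := by
      rw [h0]; exact (he i).differentiableAt (by simp)
    have := hd.hasFDerivAt.comp_hasDerivAt (0 : ℝ) hl
    rwa [h0] at this
  have hR := hasDerivAt_curv (c := fun s : ℝ => x + s • e p x) (t := 0) h (by rw [h0]; exact hx)
    hl (hce i) (hce j) (hce k)
  have hg : HasDerivAt (fun s : ℝ => g (x + s • e p x)) (fderiv ℝ g x (e p x)) 0 := by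
    have hd : DifferentiableAt ℝ g (x + (0 : ℝ) • e p x) := by
      rw [h0]; exact h.g_differentiableAt hx
    have := hd.hasFDerivAt.comp_hasDerivAt (0 : ℝ) hl
    rwa [h0] at this
  have hT := hasDerivAt_apply2 hg hR (hce l)
  have hT' : HasDerivAt (fun s : ℝ => rf g Γ e i j k l (x + s • e p x))
      (fderiv ℝ (rf g Γ e i j k l) x (e p x)) 0 := by
    have hd : DifferentiableAt ℝ (rf g Γ e i j k l) (x + (0 : ℝ) • e p x) := by
      rw [h0]; exact (contDiffAt_rf h hx he i j k l).differentiableAt (by simp)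
    have := hd.hasFDerivAt.comp_hasDerivAt (0 : ℝ) hl
    rwa [h0] at this
  have hD := hT'.unique hT
  simp only [h0] at hD
  rw [h.compat x hx] at hD
  -- expansion of `∇_{e_p} e_a` in the frame
  have hex : ∀ a, ∑ m, wf g Γ e p a m x • e m x = fderiv ℝ (e a) x (e p x) + Γ x (e p x) (e a x) :=
    fun a => hexp _
  have s1 : ∑ m, wf g Γ e p i m x * rf g Γ e m j k l x
      = g x (curv Γ x (fderiv ℝ (e i) x (e p x) + Γ x (e p x) (e i x)) (e j x) (e k x)) (e l x) := by
    rw [← hex i, curv_sum1]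
    simp only [rf, map_sum, map_smul, sum_apply, smul_apply, smul_eq_mul]
  have s2 : ∑ m, wf g Γ e p j m x * rf g Γ e i m k l x
      = g x (curv Γ x (e i x) (fderiv ℝ (e j) x (e p x) + Γ x (e p x) (e j x)) (e k x)) (e l x) := by
    rw [← hex j, curv_sum2]
    simp only [rf, map_sum, map_smul, sum_apply, smul_apply, smul_eq_mul]
  have s3 : ∑ m, wf g Γ e p k m x * rf g Γ e i j m l x
      = g x (curv Γ x (e i x) (e j x) (fderiv ℝ (e k) x (e p x) + Γ x (e p x) (e k x))) (e l x) := by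
    rw [← hex k, curv_sum3]
    simp only [rf, map_sum, map_smul, sum_apply, smul_apply, smul_eq_mul]
  have s4 : ∑ m, wf g Γ e p l m x * rf g Γ e i j k m x
      = g x (curv Γ x (e i x) (e j x) (e k x)) (fderiv ℝ (e l) x (e p x) + Γ x (e p x) (e l x)) := by
    rw [← hex l]
    simp only [rf, map_sum, map_smul, smul_eq_mul]
  rw [nf, hD, s1, s2, s3, s4]
  simp only [nab, map_add, map_sub, curv_add1, curv_add2, curv_add3, add_apply, sub_apply]
  ring

end frame

/-! ### multilinearity of `nab` -/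

theorem fderiv_curv_add (h : IsLC U g Γ) {x : E} (hx : x ∈ U) {a b c a' b' c' a'' b'' c'' : E}
    (hc : ∀ y, curv Γ y a b c = curv Γ y a' b' c' + curv Γ y a'' b'' c'') (W : E) :
    fderiv ℝ (fun y => curv Γ y a b c) x W =
      fderiv ℝ (fun y => curv Γ y a' b' c') x W + fderiv ℝ (fun y => curv Γ y a'' b'' c'') x W := by
  have : (fun y => curv Γ y a b c) = (fun y => curv Γ y a' b' c' + curv Γ y a'' b'' c'') :=
    funext hc
  rw [this]
  have := ((differentiableAt_curv h hx a' b' c').hasFDerivAt.add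
    (differentiableAt_curv h hx a'' b'' c'').hasFDerivAt).fderiv
  exact DFunLike.congr_fun this W

theorem fderiv_curv_smul (h : IsLC U g Γ) {x : E} (hx : x ∈ U) {a b c a' b' c' : E} {r : ℝ}
    (hc : ∀ y, curv Γ y a b c = r • curv Γ y a' b' c') (W : E) :
    fderiv ℝ (fun y => curv Γ y a b c) x W =
      r • fderiv ℝ (fun y => curv Γ y a' b' c') x W := by
  have : (fun y => curv Γ y a b c) = (fun y => r • curv Γ y a' b' c') := funext hc
  rw [this]
  have := ((differentiableAt_curv h hx a' b' c').hasFDerivAt.const_smul r).fderiv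
  exact DFunLike.congr_fun this W

theorem nab_add0 (Γ : E → E →L[ℝ] E →L[ℝ] E) (x W W' X Y Z : E) :
    nab Γ x (W + W') X Y Z = nab Γ x W X Y Z + nab Γ x W' X Y Z := by
  simp only [nab, map_add, add_apply, curv_add1, curv_add2, curv_add3]; abel

theorem nab_smul0 (Γ : E → E →L[ℝ] E →L[ℝ] E) (x : E) (r : ℝ) (W X Y Z : E) :
    nab Γ x (r • W) X Y Z = r • nab Γ x W X Y Z := by
  simp only [nab, map_smul, smul_apply, curv_smul1, curv_smul2, curv_smul3, smul_sub, smul_add]

theorem nab_add1 (h : IsLC U g Γ) {x : E} (hx : x ∈ U) (W X X' Y Z : E) :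
    nab Γ x W (X + X') Y Z = nab Γ x W X Y Z + nab Γ x W X' Y Z := by
  simp only [nab]
  rw [fderiv_curv_add h hx (fun y => curv_add1 Γ y X X' Y Z)]
  simp only [map_add, curv_add1]; abel

theorem nab_smul1 (h : IsLC U g Γ) {x : E} (hx : x ∈ U) (r : ℝ) (W X Y Z : E) :
    nab Γ x W (r • X) Y Z = r • nab Γ x W X Y Z := by
  simp only [nab]
  rw [fderiv_curv_smul h hx (fun y => curv_smul1 Γ y r X Y Z)]
  simp only [map_smul, curv_smul1, smul_sub, smul_add]

theorem nab_add2 (h : IsLC U g Γ) {x : E} (hx : x ∈ U) (W X Y Y' Z : E) :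
    nab Γ x W X (Y + Y') Z = nab Γ x W X Y Z + nab Γ x W X Y' Z := by
  simp only [nab]
  rw [fderiv_curv_add h hx (fun y => curv_add2 Γ y X Y Y' Z)]
  simp only [map_add, curv_add2]; abel

theorem nab_smul2 (h : IsLC U g Γ) {x : E} (hx : x ∈ U) (r : ℝ) (W X Y Z : E) :
    nab Γ x W X (r • Y) Z = r • nab Γ x W X Y Z := by
  simp only [nab]
  rw [fderiv_curv_smul h hx (fun y => curv_smul2 Γ y r X Y Z)]
  simp only [map_smul, curv_smul2, smul_sub, smul_add]

theorem nab_add3 (h : IsLC U g Γ) {x : E} (hx : x ∈ U) (W X Y Z Z' : E) :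
    nab Γ x W X Y (Z + Z') = nab Γ x W X Y Z + nab Γ x W X Y Z' := by
  simp only [nab]
  rw [fderiv_curv_add h hx (fun y => curv_add3 Γ y X Y Z Z')]
  simp only [map_add, curv_add3]; abel

theorem nab_smul3 (h : IsLC U g Γ) {x : E} (hx : x ∈ U) (r : ℝ) (W X Y Z : E) :
    nab Γ x W X Y (r • Z) = r • nab Γ x W X Y Z := by
  simp only [nab]
  rw [fderiv_curv_smul h hx (fun y => curv_smul3 Γ y r X Y Z)]
  simp only [map_smul, curv_smul3, smul_sub, smul_add]

/-- a predicate closed under `+` and scalars that holds on a spanning family holds everywhere -/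
theorem all_of_span {ι : Type*} {b : ι → E} (hb : ⊤ ≤ Submodule.span ℝ (Set.range b))
    {P : E → E} (hadd : ∀ u v, P (u + v) = P u + P v) (hsmul : ∀ (r : ℝ) u, P (r • u) = r • P u)
    (h0 : ∀ i, P (b i) = 0) (v : E) : P v = 0 := by
  have hv : v ∈ Submodule.span ℝ (Set.range b) := hb trivial
  induction hv using Submodule.span_induction with
  | mem x hx => obtain ⟨i, rfl⟩ := hx; exact h0 i
  | zero => simpa using hsmul 0 0
  | add x y _ _ hx hy => rw [hadd, hx, hy, add_zero]
  | smul r x _ hx => rw [hsmul, hx, smul_zero]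

section main

variable {ι : Type*} [Fintype ι]

theorem span_of_exp {x : E} {e : ι → E → E} (hexp : ∀ v, ∑ m, g x v (e m x) • e m x = v) :
    ⊤ ≤ Submodule.span ℝ (Set.range fun m => e m x) := by
  intro v _
  rw [← hexp v]
  exact Submodule.sum_mem _ fun m _ => Submodule.smul_mem _ _ (Submodule.subset_span ⟨m, rfl⟩)

/-- **all frame components of `∇R` vanish at `x` ⇒ `nab = 0` at `x`.** -/
theorem nab_eq_zero (h : IsLC U g Γ) {x : E} (hx : x ∈ U) {e : ι → E → E}
    (he : ∀ i, ContDiffAt ℝ ∞ (e i) x) (hexp : ∀ v, ∑ m, g x v (e m x) • e m x = v)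
    (hn : ∀ p i j k l, nf g Γ e p i j k l x = 0) (W X Y Z : E) : nab Γ x W X Y Z = 0 := by
  have hb := span_of_exp (g := g) hexp
  have h0 : ∀ p i j k, nab Γ x (e p x) (e i x) (e j x) (e k x) = 0 := by
    intro p i j k
    rw [← hexp (nab Γ x (e p x) (e i x) (e j x) (e k x))]
    refine Finset.sum_eq_zero fun l _ => ?_
    rw [← nf_eq h hx he hexp, hn, zero_smul]
  have h1 : ∀ p i j Z, nab Γ x (e p x) (e i x) (e j x) Z = 0 := fun p i j =>
    all_of_span hb (fun u v => nab_add3 h hx _ _ _ u v) (fun r u => nab_smul3 h hx r _ _ _ u)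
      (h0 p i j)
  have h2 : ∀ p i Y Z, nab Γ x (e p x) (e i x) Y Z = 0 := fun p i Y Z =>
    all_of_span hb (P := fun Y => nab Γ x (e p x) (e i x) Y Z)
      (fun u v => nab_add2 h hx _ _ u v _) (fun r u => nab_smul2 h hx r _ _ u _)
      (fun j => h1 p i j Z) Y
  have h3 : ∀ p X Y Z, nab Γ x (e p x) X Y Z = 0 := fun p X Y Z =>
    all_of_span hb (P := fun X => nab Γ x (e p x) X Y Z)
      (fun u v => nab_add1 h hx _ u v _ _) (fun r u => nab_smul1 h hx r _ u _ _)
      (fun i => h2 p i Y Z) X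
  exact all_of_span hb (P := fun W => nab Γ x W X Y Z)
      (fun u v => nab_add0 Γ x u v _ _ _) (fun r u => nab_smul0 Γ x r u _ _ _)
      (fun p => h3 p X Y Z) W

/-- orthonormality at `x` + the right number of vectors ⇒ expansion. -/
theorem exp_of_orthonormal [DecidableEq ι] {x : E} {b : ι → E}
    (hcard : Fintype.card ι = Module.finrank ℝ E)
    (ho : ∀ i j, g x (b i) (b j) = if i = j then 1 else 0) (v : E) :
    ∑ m, g x v (b m) • b m = v := by
  have hli : LinearIndependent ℝ b := by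
    rw [Fintype.linearIndependent_iff]
    intro c hc i
    have h1 : g x (∑ m, c m • b m) (b i) = c i := by
      simp only [map_sum, map_smul, sum_apply, smul_apply, smul_eq_mul, ho, mul_ite, mul_one,
        mul_zero, Finset.sum_ite_eq', Finset.mem_univ, if_true]
    rw [← h1, hc]
    simp
  have hsp := hli.span_eq_top_of_card_eq_finrank' hcard
  have key : ∀ w, ∑ m, g x w (b m) • b m - w = 0 := by
    refine all_of_span (P := fun w => ∑ m, g x w (b m) • b m - w) hsp.ge ?_ ?_ ?_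
    · intro u w
      simp only [map_add, add_apply, add_smul, Finset.sum_add_distrib]
      abel
    · intro r u
      simp only [map_smul, smul_apply, smul_eq_mul, smul_sub, Finset.smul_sum, smul_smul]
    · intro i
      simp only [ho, ite_smul, one_smul, zero_smul, Finset.sum_ite_eq, Finset.mem_univ, if_true,
        sub_self]
  exact sub_eq_zero.1 (key v)

end main

end Crest.Agent.R249.Par3_493

end
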