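import Crest.Agent.R249.Par3_493

/-!
Row 249, B1-PAR (helper493): 474's `Frame n R0 p` from an orthonormal basis `e` of `T_p M` in which
the curvature has components `Rm i j k l`, and a linear isometry `O` carrying `R0` to the tensor
with components `Rm` (850's `Ptw`).
-/

set_option autoImplicit false
set_option maxSynthPendingDepth 3
set_option linter.unusedSectionVars false

open Set Filter Topology Bundle
open scoped ContDiff Manifold
open Crest.Agent.R244.CF (IsLC curv)
open Crest.Agent.R226.ChartMet842 (gm Gm isLC_gm)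
open Crest.Agent.R249.B2Defs_474 Crest.Agent.R249.B2Iso_474 Crest.Agent.R249.Par3_493

noncomputable section

namespace Crest.Agent.R249.Par4_493

variable {n : ℕ}

local notation "𝔼" => EuclideanSpace ℝ (Fin n)

/-- the linear map with `ε_i ↦ b i` -/
def frm (b : Fin n → 𝔼) : 𝔼 →L[ℝ] 𝔼 :=
  LinearMap.toContinuousLinearMap
    { toFun := fun x => ∑ i, x i • b i
      map_add' := fun x y => by
        simp only [PiLp.add_apply, add_smul, Finset.sum_add_distrib]
      map_smul' := fun c x => by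
        simp only [PiLp.smul_apply, smul_eq_mul, mul_smul, Finset.smul_sum, RingHom.id_apply] }

theorem frm_apply (b : Fin n → 𝔼) (x : 𝔼) : frm b x = ∑ i, x i • b i := rfl

theorem curv_frm (Γ : 𝔼 → 𝔼 →L[ℝ] 𝔼 →L[ℝ] 𝔼) (x : 𝔼) (b : Fin n → 𝔼) (u v w : 𝔼) :
    curv Γ x (frm b u) (frm b v) (frm b w) =
      ∑ i, ∑ j, ∑ k, (u i * v j * w k) • curv Γ x (b i) (b j) (b k) := by
  rw [frm_apply, frm_apply, frm_apply, curv_sum1]
  refine Finset.sum_congr rfl fun i _ => ?_
  rw [curv_sum2, Finset.smul_sum]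
  refine Finset.sum_congr rfl fun j _ => ?_
  rw [curv_sum3, Finset.smul_sum, Finset.smul_sum]
  refine Finset.sum_congr rfl fun k _ => ?_
  rw [smul_smul, smul_smul]

section M

variable {M : Type*} [MetricSpace M] [ChartedSpace (EuclideanSpace ℝ (Fin n)) M]
  [IsManifold (𝓡 n) ∞ M]
  [RiemannianBundle (fun p : M => TangentSpace (𝓡 n) p)]
  [IsContMDiffRiemannianBundle (𝓡 n) ∞ (EuclideanSpace ℝ (Fin n)) (fun p : M => TangentSpace (𝓡 n) p)]

theorem mkFrame {p : M} {e : Fin n → 𝔼}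
    (ho : ∀ i j, gm p (chartAt 𝔼 p p) (e i) (e j) = if i = j then 1 else 0)
    {Rm : Fin n → Fin n → Fin n → Fin n → ℝ}
    (hR : ∀ i j k l, gm p (chartAt 𝔼 p p) (curv (Gm p) (chartAt 𝔼 p p) (e i) (e j) (e k)) (e l)
      = Rm i j k l)
    {O : 𝔼 →L[ℝ] 𝔼} (hO : ∀ u v, inner ℝ (O u) (O v) = inner ℝ u v) {R0 : 𝔼 → 𝔼 → 𝔼 → 𝔼}
    (hR0 : ∀ u v w l, (O (R0 u v w)) l
      = ∑ i, ∑ j, ∑ k, Rm i j k l * ((O u) i * (O v) j * (O w) k)) :
    Nonempty (Frame n R0 p) := by
  have hexp := exp_of_orthonormal (g := gm p) (x := chartAt 𝔼 p p) (b := e) (by simp) ho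
  have hc : ∀ i j k, curv (Gm p) (chartAt 𝔼 p p) (e i) (e j) (e k) = ∑ l, Rm i j k l • e l := by
    intro i j k
    rw [← hexp (curv (Gm p) (chartAt 𝔼 p p) (e i) (e j) (e k))]
    exact Finset.sum_congr rfl fun l _ => by rw [hR]
  refine ⟨⟨(frm e).comp O, fun u v => ?_, fun u v w => ?_⟩⟩
  · rw [← hO u v]
    change gm p (chartAt 𝔼 p p) (frm e (O u)) (frm e (O v)) = _
    rw [frm_apply, frm_apply]
    simp only [map_sum, map_smul, sum_apply, smul_apply, smul_eq_mul, ho, mul_ite, mul_one,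
      mul_zero, Finset.sum_ite_eq, Finset.sum_ite_eq', Finset.mem_univ, if_true, PiLp.inner_apply,
      RCLike.inner_apply, conj_trivial]
  · change curv (Gm p) (chartAt 𝔼 p p) (frm e (O u)) (frm e (O v)) (frm e (O w))
      = frm e (O (R0 u v w))
    rw [curv_frm, frm_apply]
    simp only [hc, hR0, Finset.smul_sum, Finset.sum_smul, smul_smul]
    -- exchange of sums
    have : ∀ i, ∑ j, ∑ k, ∑ l, ((O u) i * (O v) j * (O w) k * Rm i j k l) • e l
        = ∑ l, ∑ j, ∑ k, ((O u) i * (O v) j * (O w) k * Rm i j k l) • e l := by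
      intro i
      have h1 : ∀ j, ∑ k, ∑ l, ((O u) i * (O v) j * (O w) k * Rm i j k l) • e l
          = ∑ l, ∑ k, ((O u) i * (O v) j * (O w) k * Rm i j k l) • e l :=
        fun j => Finset.sum_comm
      rw [Finset.sum_congr rfl fun j _ => h1 j]
      exact Finset.sum_comm
    rw [Finset.sum_congr rfl fun i _ => this i, Finset.sum_comm]
    refine Finset.sum_congr rfl fun l _ => Finset.sum_congr rfl fun i _ =>
      Finset.sum_congr rfl fun j _ => Finset.sum_congr rfl fun k _ => ?_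
    congr 1
    ring

/-- ParCurv from smooth frames, orthonormal at the point, in which all components of `∇R` vanish
at the point. -/
theorem parCurv_of (h : ∀ p : M, ∃ e : Fin n → 𝔼 → 𝔼,
    (∀ i, ContDiffAt ℝ ∞ (e i) (chartAt 𝔼 p p)) ∧
    (∀ i j, gm p (chartAt 𝔼 p p) (e i (chartAt 𝔼 p p)) (e j (chartAt 𝔼 p p)) =
      if i = j then 1 else 0) ∧
    ∀ q i j k l, nf (gm p) (Gm p) e q i j k l (chartAt 𝔼 p p) = 0) : ParCurv n M := by
  intro p W X Y Z
  obtain ⟨e, he, ho, hn⟩ := h p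
  exact nab_eq_zero (isLC_gm p) (mem_chart_target 𝔼 p) he
    (exp_of_orthonormal (g := gm p) (x := chartAt 𝔼 p p) (b := fun i => e i (chartAt 𝔼 p p))
      (by simp) ho) hn W X Y Z

end M

end Crest.Agent.R249.Par4_493

end
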