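import Crest.Agent.R249.SgD_129
import Crest.Agent.R249.Par4_493
import Crest.Agent.R249.Par2_493
import Crest.Agent.R249.Ptw_850
import Crest.Agent.R247.Ms2_322
import Crest.Agent.R247.Bo5_84

/-!
Row 249, B1-PAR (helper493): the dictionary between 129's germ frames `ONF.frameOf` and the
analytic objects of B2 (`gm`, `Gm`, `ParCurv`, `Frame`), and the resulting statements.

* `einstein_chart` : the Einstein condition at every point of every chart;
* `ev_nabRm` : `ev (F.nabRm p i j k l) = nf ...` ;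
* `parCurv_of_onf` ; `frame_of_onf` ;
* `caseIII`, `caseI` : the outputs for the assembly.
-/

set_option autoImplicit false
set_option maxSynthPendingDepth 3
set_option linter.unusedSectionVars false

open Set Filter Topology Bundle
open scoped ContDiff Manifold
open Crest.GeometryTopology.CoordMetric Crest.GeometryTopology.ChartCurvature
open Crest.Agent.R247.Bo84 (trans tdom pull_trans)
open Crest.Agent.R226.ChartMet842 (gm Gm isLC_gm)
open Crest.Agent.R249.Sg129 hiding gm
open Crest.Agent.R249.Fr129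
open Crest.Agent.R249.B2Defs_474 Crest.Agent.R249.B2Iso_474 Crest.Agent.R249.Par3_493
  Crest.Agent.R249.Par4_493

noncomputable section

namespace Crest.Agent.R249.Par5_493

variable {n : ℕ}

local notation "𝔼" => EuclideanSpace ℝ (Fin n)

/-! ### comparison of the coordinate formulas -/

theorem Gam_eq (g : MetricField n) : Crest.Agent.R202.Tens.Gam g = Crest.Agent.R244.CF.Gam g := by
  funext x
  ext u v k
  rw [Crest.Agent.R202.Tens.Gam_apply, Crest.Agent.R244.CF.Gam_apply]

theorem bil_eq (g : MetricField n) (x : 𝔼) :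
    Crest.Agent.R202.Tens.bil (g x) = Crest.Agent.R244.CF.gB g x := by
  ext u v
  rw [Crest.Agent.R202.Tens.bil_apply, Crest.Agent.R244.CF.gB_apply]

section onf

variable {g : MetricField n} {U : Set (EuclideanSpace ℝ (Fin n))} {x : EuclideanSpace ℝ (Fin n)}
  {e : Fin n → EuclideanSpace ℝ (Fin n) → EuclideanSpace ℝ (Fin n)}

/-- the frame components of `∇R`, as a value at the point. -/
theorem ev_nabRm (h : ONF g U x e) (p i j k l : Fin n) :
    ev (h.frameOf.nabRm p i j k l) =
      nf (fun y => Crest.Agent.R202.Tens.bil (g y)) (Crest.Agent.R202.Tens.Gam g) e p i j k l x := by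
  simp only [Frame.nabRm, h.Rm_germ, h.D_germ, h.w_germ, map_sub, map_sum, map_mul, ev_germ]
  rfl

end onf

section M

variable {M : Type*} [MetricSpace M] [ChartedSpace (EuclideanSpace ℝ (Fin n)) M]
  [IsManifold (𝓡 n) ∞ M]
  [RiemannianBundle (fun p : M => TangentSpace (𝓡 n) p)]
  [IsContMDiffRiemannianBundle (𝓡 n) ∞ (EuclideanSpace ℝ (Fin n)) (fun p : M => TangentSpace (𝓡 n) p)]

theorem gm_eq (p : M) : gm p = fun y => Crest.Agent.R202.Tens.bil (chartMetric n M p y) := by
  funext y
  rw [bil_eq, Crest.Agent.R247.Ms322.chartMetric_eq]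
  exact (Crest.Agent.R244.gB_eq_gC _ _ _).symm

theorem Gm_eq (p : M) : Gm p = Crest.Agent.R202.Tens.Gam (chartMetric n M p) := by
  rw [Gam_eq, Crest.Agent.R247.Ms322.chartMetric_eq]
  rfl

/-- **the Einstein condition at every point of every chart.** -/
theorem einstein_chart {c : ℝ} (hE : IsEinsteinWith n M c) (x₀ : M) {y : 𝔼}
    (hy : y ∈ (chartAt 𝔼 x₀).target) (i j : Fin n) :
    ricci (chartMetric n M x₀) y i j = c * chartMetric n M x₀ y i j := by
  set p := (chartAt 𝔼 x₀).symm y with hp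
  have hyd : y ∈ tdom x₀ p := ⟨hy, mem_chart_source 𝔼 p⟩
  have hP := pull_trans (n := n) x₀ p
  have h2 : trans x₀ p y = chartCentre n M p := rfl
  have key : ∀ X Y : 𝔼, ∑ i, ∑ j, ricci (chartMetric n M x₀) y i j * X i * Y j
      = c * Crest.Agent.R202.Tens.bil (chartMetric n M x₀ y) X Y := by
    intro X Y
    rw [hP.ricci_pull hyd, hP.bil_eq hyd, h2, Crest.Agent.R202.Tens.bil_apply, Finset.mul_sum]
    refine Finset.sum_congr rfl fun a _ => ?_
    rw [Finset.mul_sum]
    refine Finset.sum_congr rfl fun b _ => ?_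
    rw [hE p a b]; ring
  have h := key (EuclideanSpace.single i 1) (EuclideanSpace.single j 1)
  rw [Crest.Agent.R202.Tens.bil_apply] at h
  simpa using h

/-- **`ParCurv` from germ frames** in which `∇R = 0` at the point. -/
theorem parCurv_of_onf (h : ∀ p : M, ∃ e : Fin n → 𝔼 → 𝔼,
    ∃ h : ONF (chartMetric n M p) (chartAt 𝔼 p).target (chartAt 𝔼 p p) e,
      ∀ q i j k l, ev (h.frameOf.nabRm q i j k l) = 0) : ParCurv n M := by
  refine parCurv_of fun p => ?_
  obtain ⟨e, he, hn⟩ := h p
  refine ⟨e, he.smooth, fun i j => ?_, fun q i j k l => ?_⟩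
  · rw [gm_eq p]
    exact he.orth.self_of_nhds i j
  · rw [gm_eq p, Gm_eq p, ← ev_nabRm he, hn]

/-- 474's frame from a germ frame and an isometry `O`. -/
theorem frame_of_onf {p : M} {e : Fin n → 𝔼 → 𝔼}
    (h : ONF (chartMetric n M p) (chartAt 𝔼 p).target (chartAt 𝔼 p p) e)
    {O : 𝔼 →L[ℝ] 𝔼} (hO : ∀ u v, inner ℝ (O u) (O v) = inner ℝ u v) {R0 : 𝔼 → 𝔼 → 𝔼 → 𝔼}
    (hR0 : ∀ u v w l, (O (R0 u v w)) l
      = ∑ i, ∑ j, ∑ k, ev (h.frameOf.Rm i j k l) * ((O u) i * (O v) j * (O w) k)) :
    Nonempty (B2Defs_474.Frame n R0 p) := by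
  refine mkFrame (e := fun i => e i (chartAt 𝔼 p p)) (fun i j => ?_)
    (Rm := fun i j k l => ev (h.frameOf.Rm i j k l)) (fun i j k l => ?_) hO hR0
  · rw [gm_eq p]
    exact h.orth.self_of_nhds i j
  · rw [gm_eq p, Gm_eq p, h.ev_Rm]
    rfl

end M

end Crest.Agent.R249.Par5_493

end
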