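import Crest.Agent.R249.KerM2_638
import Crest.Agent.R249.Cd1_133

/-!
# Row 249, part A: the interior check, chart II of `cert_709` (lists of `Cd1_133`)

Generated subdivision tree; `.lf` = list of congruences, `.out 0` = the obstacle polynomial is
nonpositive.
-/

set_option autoImplicit false
set_option maxRecDepth 100000

namespace Crest.Agent.R249.Ps638

open Crest.Agent.R249 Crest.Agent.R249.Ker254 Crest.Agent.R249.KerT368 Crest.Agent.R249.KerM638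

def T_II : TreeM :=
(.nd 2 1 1
(.rb 88 (.nd 2 1 2
(.nd 0 1 1
(.rb 100 (.nd 1 1 1
(.nd 1 1 2
(.rb 110 (.lf (.cons 92 32 133 0 0 32 (.cons 128 51 124 29 91 32 (.cons 91 37 134 15 33 32 (.cons 375 227 424 30 81 32 (.cons 315 161 110 96 71 32 (.cons 43 18 74 9 31 32 (.cons 70 80 237 38 141 32 .nil)))))))))
(.lf (.cons 51 41 166 0 0 32 (.cons 49 46 127 24 74 32 (.cons 48 42 158 13 18 32 (.cons 110 115 330 15 28 32 (.cons 50 0 58 10 22 32 (.cons 42 84 291 39 140 32 .nil))))))))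
(.nd 2 1 2
(.rb 110 (.nd 1 2 1
(.lf (.cons 32 21 100 0 0 45 .nil))
(.rb 118 (.nd 1 2 1
(.lf (.cons 32 45 174 0 0 125 (.cons 32 54 143 13 23 44 (.cons 32 38 145 (-72) (-154) 108 (.cons 32 19 98 (-23) (-28) 121 .nil)))))
(.lf (.cons 32 40 132 0 0 113 (.cons 32 36 142 (-40) (-72) 185 (.cons 32 24 87 (-15) (-20) 229 (.cons 32 49 121 0 0 139 (.cons 32 49 203 (-60) (-118) 217 (.cons 32 20 78 (-61) (-99) 551 (.cons 32 50 154 (-33) (-46) 465 (.cons 32 0 47 0 0 697 .nil)))))))))))))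
(.rb 109 (.nd 1 2 1
(.lf (.cons 32 60 212 0 0 43 (.cons 36 43 180 (-10) (-19) 32 (.cons 32 72 200 13 26 46 (.cons 32 47 182 (-53) (-130) 60 .nil)))))
(.lf (.cons 32 57 234 0 0 86 (.cons 32 80 255 0 0 83 (.cons 32 34 174 (-52) (-172) 120 (.cons 32 41 195 (-60) (-181) 146 (.cons 32 42 202 (-28) (-87) 68 (.cons 32 40 227 (-32) (-111) 222 .nil))))))))))))
(.rb 100 (.nd 1 1 1
(.nd 2 1 2
(.rb 110 (.nd 0 2 1
(.nd 2 1 2
(.rb 125 (.nd 1 1 2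
(.lf (.cons 45 3 32 0 0 58 (.cons 32 4 39 42 9 74 (.cons 46 2 32 0 7 33 (.cons 32 1 33 24 (-8) 111 .nil)))))
(.lf (.cons 231 14 128 0 0 405 (.cons 128 10 133 102 (-54) 342 (.cons 128 8 193 58 (-59) 724 (.cons 128 23 147 95 (-9) 178 .nil)))))))
(.lf (.cons 41 8 32 21 8 33 (.cons 37 6 44 11 (-19) 32 (.cons 43 9 32 63 (-7) 36 (.cons 77 18 64 29 18 32 (.cons 37 4 32 65 (-19) 64 .nil)))))))
(.rb 120 (.nd 1 1 2
(.rb 127 (.nd 2 1 2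
(.nd 2 1 2
(.rb 137 (.lf (.cons 50 (-1) 32 30 (-14) 115 (.cons 43 (-3) 32 0 0 100 (.cons 66 (-4) 32 69 (-28) 98 (.cons 52 (-3) 32 38 (-16) 226 (.cons 38 (-5) 32 43 (-39) 103 .nil)))))))
(.rb 137 (.nd 1 1 2
(.lf (.cons 45 (-1) 32 50 (-17) 53 (.cons 67 (-9) 32 103 (-58) 84 .nil)))
(.lf (.cons 39 (-3) 32 50 (-32) 66 (.cons 52 (-6) 32 133 (-70) 92 (.cons 37 0 32 36 (-32) 61 (.cons 35 (-3) 32 50 (-43) 112 (.cons 39 (-8) 32 34 (-37) 46 (.cons 46 (-5) 32 146 (-85) 141 .nil))))))))))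
(.nd 1 1 2
(.rb 139 (.lf (.cons 182 (-7) 134 235 (-82) 128 (.cons 235 0 128 463 (-234) 162 (.cons 150 (-57) 128 304 (-198) 155 .nil)))))
(.lf (.cons 40 (-5) 33 43 (-29) 32 (.cons 66 (-14) 32 102 (-53) 35 (.cons 44 (-7) 32 93 (-70) 85 (.cons 41 (-7) 32 40 (-34) 35 (.cons 57 (-11) 32 173 (-99) 81 (.cons 54 (-4) 32 155 (-71) 86 (.cons 59 (-24) 50 29 (-57) 32 (.cons 77 2 32 54 (-22) 48 .nil))))))))))))
(.nd 2 1 2
(.rb 132 (.nd 0 2 1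
(.lf (.cons 160 (-4) 128 82 (-115) 406 (.cons 128 (-4) 133 0 0 276 (.cons 139 (-7) 128 292 (-223) 440 (.cons 128 (-12) 153 78 (-143) 228 (.cons 181 0 128 137 (-143) 772 (.cons 128 (-5) 168 126 (-169) 1244 (.cons 200 (-5) 128 468 (-379) 1183 (.cons 205 (-8) 128 591 (-473) 1373 .nil)))))))))
(.rb 142 (.lf (.cons 33 (-4) 32 7 (-31) 83 (.cons 32 (-5) 41 0 0 65 (.cons 32 (-8) 36 19 (-43) 51 (.cons 32 (-4) 33 50 (-60) 175 (.cons 37 (-5) 32 67 (-60) 95 (.cons 58 (-3) 32 0 (-65) 293 (.cons 36 (-4) 32 81 (-72) 150 .nil)))))))))))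
(.lf (.cons 35 (-5) 32 8 (-31) 34 (.cons 32 (-4) 38 26 (-33) 38 (.cons 47 (-20) 43 26 (-55) 32 (.cons 33 (-1) 32 27 (-26) 45 (.cons 33 (-17) 59 (-6) (-39) 32 .nil)))))))))))
(.rb 109 (.nd 1 1 2
(.rb 116 (.nd 0 2 1
(.lf (.cons 203 75 106 25 25 32 (.cons 194 89 165 30 0 32 (.cons 327 411 189 0 43 32 (.cons 131 102 135 0 0 32 .nil)))))
(.rb 126 (.nd 0 2 1
(.lf (.cons 201 0 60 26 (-28) 32 (.cons 303 0 128 (-9) 0 32 (.cons 134 8 61 45 (-28) 32 (.cons 483 284 149 (-141) (-32) 32 .nil)))))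
(.rb 136 (.lf (.cons 211 (-33) 57 27 (-59) 32 (.cons 196 (-39) 58 (-2) (-63) 32 (.cons 300 (-154) 116 (-226) (-48) 32 (.cons 139 (-29) 52 54 (-58) 32 (.cons 165 (-49) 88 0 0 32 (.cons 120 (-50) 55 124 (-73) 32 (.cons 241 (-163) 86 199 (-110) 32 (.cons 90 (-41) 32 216 (-95) 33 .nil))))))))))))))
(.lf (.cons 82 26 96 (-13) (-24) 32 (.cons 80 0 97 (-20) (-32) 32 (.cons 65 51 123 (-6) (-6) 32 (.cons 103 (-31) 76 (-39) (-50) 32 (.cons 32 (-15) 73 (-13) (-27) 38 .nil)))))))))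
(.nd 2 1 2
(.rb 110 (.nd 0 2 1
(.lf (.cons 32 8 48 0 0 83 (.cons 32 14 55 0 0 32 (.cons 32 1 47 26 (-30) 164 .nil))))
(.rb 121 (.nd 0 2 1
(.lf (.cons 32 0 85 0 0 120 (.cons 32 (-3) 55 (-3) (-23) 41 (.cons 32 (-1) 52 17 (-39) 162 .nil))))
(.rb 131 (.nd 0 2 1
(.lf (.cons 32 (-6) 72 0 0 82 (.cons 32 (-9) 62 (-7) (-28) 40 (.cons 32 (-5) 59 7 (-41) 142 .nil))))
(.rb 141 (.nd 1 2 1
(.lf (.cons 32 (-8) 62 0 0 55 (.cons 32 (-10) 60 0 0 57 .nil)))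
(.rb 149 (.nd 1 2 1
(.lf (.cons 32 (-10) 77 0 0 60 .nil))
(.rb 156 (.nd 0 2 1
(.lf (.cons 32 (-10) 60 0 0 69 .nil))
(.rb 166 (.nd 1 2 1
(.lf (.cons 128 (-54) 243 0 0 227 .nil))
(.rb 174 (.nd 2 1 2
(.nd 0 2 1
(.rb 189 (.lf (.cons 32 (-19) 52 0 0 100 .nil)))
(.rb 189 (.nd 1 2 1
(.lf (.cons 32 (-22) 46 0 0 59 .nil))
(.rb 196 (.nd 0 2 1
(.lf (.cons 32 (-30) 48 0 0 108 .nil))
(.rb 206 (.nd 1 2 1
(.nd 0 2 1
(.lf (.cons 32 (-37) 50 0 0 84 .nil))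
(.rb 223 (.nd 1 1 2
(.rb 230 (.nd 2 1 2
(.rb 235 (.lf (.cons 32 (-80) 90 0 0 98 .nil)))
(.lf (.cons 32 (-38) 47 (-37) 28 74 .nil))))
(.out 0))))
(.rb 213 (.nd 0 2 1
(.lf (.cons 32 (-50) 54 0 0 128 .nil))
(.out 0))))))))))
(.nd 0 2 1
(.lf (.cons 32 (-11) 44 0 0 56 .nil))
(.rb 189 (.nd 1 2 1
(.lf (.cons 32 (-15) 45 (-24) 16 55 .nil))
(.rb 196 (.nd 1 2 1
(.lf (.cons 32 (-17) 33 (-20) 11 48 .nil))
(.rb 203 (.nd 0 2 1
(.lf (.cons 34 (-20) 32 0 0 73 .nil))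
(.rb 213 (.nd 0 2 1
(.nd 2 2 1
(.lf (.cons 32 (-33) 34 0 0 67 .nil))
(.rb 228 (.lf (.cons 47 (-27) 32 0 0 63 .nil))))
(.out 0))))))))))))))))))))))))))
(.nd 0 2 1
(.rb 120 (.lf (.cons 129 103 354 0 0 128 .nil)))
(.rb 120 (.nd 1 2 1
(.lf (.cons 133 0 263 (-71) (-79) 128 .nil))
(.rb 128 (.nd 0 2 1
(.lf (.cons 33 8 62 0 0 32 .nil))
(.rb 138 (.nd 1 2 1
(.lf (.cons 32 (-5) 74 (-23) 3 42 .nil))
(.rb 146 (.nd 0 2 1
(.lf (.cons 32 4 49 0 0 36 .nil))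
(.rb 156 (.nd 1 2 1
(.lf (.cons 32 (-3) 61 (-26) 10 49 .nil))
(.rb 163 (.nd 0 2 1
(.lf (.cons 32 3 48 0 0 48 .nil))
(.rb 173 (.nd 2 2 1
(.nd 1 2 1
(.lf (.cons 32 (-5) 45 (-25) 10 51 .nil))
(.rb 185 (.nd 0 2 1
(.lf (.cons 32 (-2) 34 0 0 52 .nil))
(.rb 195 (.nd 1 2 1
(.lf (.cons 32 (-5) 32 (-26) 7 52 .nil))
(.rb 202 (.nd 0 2 1
(.lf (.cons 42 (-5) 32 0 0 69 .nil))
(.rb 212 (.nd 1 2 1
(.lf (.cons 55 (-9) 32 (-43) 8 81 .nil))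
(.out 0))))))))))
(.nd 1 2 1
(.rb 185 (.lf (.cons 32 2 47 (-30) 3 52 .nil)))
(.rb 185 (.nd 2 2 1
(.nd 0 2 1
(.lf (.cons 32 6 36 0 0 50 .nil))
(.rb 200 (.nd 1 2 1
(.lf (.cons 32 3 34 (-28) 1 53 .nil))
(.rb 207 (.nd 2 1 2
(.nd 0 2 1
(.rb 222 (.lf (.cons 40 7 32 0 0 64 .nil)))
(.rb 222 (.nd 1 2 1
(.lf (.cons 43 4 32 (-36) 0 70 .nil))
(.out 0))))
(.lf (.cons 73 11 32 0 0 74 .nil)))))))
(.lf (.cons 56 9 32 0 0 56 .nil))))))))))))))))))))))))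
(.nd 1 1 1
(.rb 97 (.nd 1 1 2
(.rb 104 (.nd 1 1 2
(.rb 111 (.nd 2 2 1
(.nd 1 1 2
(.rb 122 (.nd 0 1 1
(.lf (.cons 272 147 149 71 124 32 (.cons 605 430 156 134 133 32 (.cons 154 62 198 30 168 32 (.cons 1496 1477 192 (-101) 89 32 .nil)))))
(.nd 1 1 2
(.rb 136 (.nd 2 1 2
(.lf (.cons 1602 465 150 (-293) 0 32 (.cons 1521 0 188 (-439) (-18) 32 (.cons 2960 1018 273 0 63 32 (.cons 4802 4748 196 (-2106) 16 32 (.cons 4868 (-706) 186 (-1276) (-107) 32 (.cons 559 357 147 44 74 32 (.cons 2486 2705 203 (-1291) 5 32 .nil))))))))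
(.nd 0 2 1
(.lf (.cons 1649 1045 247 (-458) 24 32 (.cons 2132 2018 203 (-1430) 1 32 (.cons 4579 5587 221 (-3031) 2 32 (.cons 567 589 207 (-171) 58 32 .nil)))))
(.rb 151 (.lf (.cons 2289 239 112 (-1227) (-70) 32 (.cons 1382 0 177 (-1103) (-75) 32 (.cons 5065 738 182 (-3333) (-66) 32 .nil))))))))
(.lf (.cons 581 302 160 (-289) 0 32 (.cons 1020 0 218 (-545) (-76) 32 (.cons 515 (-44) 114 (-891) (-82) 32 (.cons 410 319 191 (-149) 9 32 (.cons 1508 576 195 (-977) (-82) 32 .nil)))))))))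
(.rb 122 (.nd 0 1 1
(.lf (.cons 141 128 175 68 137 32 (.cons 104 62 207 24 152 32 (.cons 247 295 197 27 89 32 .nil))))
(.lf (.cons 279 170 161 (-167) 0 32 (.cons 447 0 113 (-316) (-75) 32 (.cons 611 (-182) 124 (-652) (-60) 32 (.cons 307 0 238 (-234) (-70) 32 (.cons 157 115 139 (-152) (-40) 32 (.cons 391 0 134 (-393) (-62) 32 .nil))))))))))
(.rb 115 (.nd 1 1 2
(.rb 122 (.nd 0 1 1
(.lf (.cons 614 300 488 15 172 32 (.cons 368 373 204 6 127 32 (.cons 137 59 225 18 224 32 (.cons 1063 745 188 (-151) 109 32 .nil)))))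
(.nd 0 2 1
(.rb 138 (.lf (.cons 673 343 254 (-210) 37 32 (.cons 936 702 206 (-667) 1 32 (.cons 343 194 201 (-127) 52 32 (.cons 2079 1786 205 (-1597) (-12) 32 .nil))))))
(.rb 139 (.lf (.cons 866 92 118 (-564) (-74) 32 (.cons 1422 194 134 (-1974) (-95) 32 (.cons 330 63 188 (-397) (-90) 32 (.cons 797 4 150 (-877) (-78) 32 (.cons 2939 (-350) 133 (-4359) (-86) 32 (.cons 696 161 165 (-680) (-72) 32 (.cons 1899 73 115 (-1854) (-56) 32 .nil))))))))))))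
(.lf (.cons 287 146 382 (-5) 131 32 (.cons 126 84 109 (-273) (-114) 32 (.cons 317 103 118 (-563) (-104) 32 (.cons 147 218 204 (-127) (-9) 32 (.cons 244 47 167 (-347) (-93) 32 (.cons 85 54 238 18 212 32 (.cons 183 249 229 (-6) 114 32 (.cons 140 (-35) 98 (-301) (-58) 32 .nil)))))))))))))
(.nd 0 1 1
(.rb 116 (.lf (.cons 133 86 291 21 152 32 (.cons 162 147 323 13 86 32 (.cons 54 50 264 15 182 32 (.cons 144 204 210 28 82 32 .nil))))))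
(.rb 117 (.nd 0 2 1
(.lf (.cons 137 130 236 (-82) (-40) 32 (.cons 149 148 146 (-172) (-80) 32 (.cons 71 61 178 (-54) (-25) 32 (.cons 165 269 242 (-13) 53 32 .nil)))))
(.rb 127 (.nd 0 2 1
(.lf (.cons 148 23 65 (-150) (-82) 32 (.cons 99 21 73 (-136) (-81) 32 (.cons 169 66 92 (-307) (-94) 32 .nil))))
(.rb 137 (.lf (.cons 140 0 94 (-162) (-60) 32 (.cons 191 (-54) 91 (-287) (-53) 32 (.cons 135 0 94 (-141) (-63) 32 (.cons 68 1 58 (-241) (-78) 32 (.cons 97 (-11) 119 (-112) (-52) 32 (.cons 276 (-3) 100 (-264) (-70) 32 .nil)))))))))))))))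
(.nd 0 1 1
(.lf (.cons 72 62 305 16 122 32 (.cons 67 121 280 43 152 32 (.cons 32 43 321 17 171 35 (.cons 80 114 194 29 73 32 .nil)))))
(.rb 110 (.nd 0 2 1
(.lf (.cons 76 76 251 (-36) (-44) 32 (.cons 89 67 118 (-51) (-44) 32 (.cons 84 30 143 0 17 32 (.cons 82 21 98 (-44) (-68) 32 (.cons 34 43 251 (-1) 31 32 .nil))))))
(.rb 121 (.lf (.cons 52 10 95 (-69) (-59) 32 (.cons 61 (-4) 73 (-69) 0 32 (.cons 66 12 125 (-71) 0 32 (.cons 32 (-2) 65 (-104) (-40) 40 (.cons 68 (-25) 82 (-107) (-37) 32 (.cons 39 8 107 (-47) (-38) 32 (.cons 32 0 129 (-37) 0 32 (.cons 34 15 97 (-43) (-63) 32 .nil)))))))))))))))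
(.nd 0 1 1
(.rb 104 (.lf (.cons 32 40 240 0 0 33 (.cons 32 25 214 10 82 33 (.cons 41 82 270 41 137 32 (.cons 32 33 327 0 0 71 .nil))))))
(.rb 104 (.nd 0 2 1
(.lf (.cons 131 165 803 0 0 128 (.cons 133 90 510 (-52) (-149) 128 (.cons 128 201 1434 62 305 244 .nil))))
(.rb 114 (.nd 1 2 1
(.lf (.cons 32 11 97 (-43) (-46) 37 (.cons 32 0 65 (-41) (-8) 37 (.cons 32 29 167 (-29) (-72) 36 .nil))))
(.lf (.cons 128 65 332 (-164) (-237) 249 (.cons 128 95 378 0 0 144 (.cons 128 0 456 (-185) (-65) 209 (.cons 128 89 446 (-240) (-281) 314 (.cons 128 104 177 0 0 271 (.cons 128 48 199 (-173) (-49) 264 .nil)))))))))))))))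
(.rb 88 (.nd 1 1 1
(.nd 1 1 2
(.rb 99 (.nd 1 1 2
(.rb 105 (.nd 0 1 1
(.lf (.cons 130 57 308 4 319 32 (.cons 131 84 324 0 212 32 (.cons 63 31 232 (-7) 332 32 (.cons 322 192 255 (-13) 183 32 .nil)))))
(.nd 0 2 1
(.lf (.cons 146 76 237 (-35) 140 32 (.cons 435 300 223 (-330) 0 32 (.cons 54 31 154 (-4) 241 32 (.cons 243 199 276 (-109) 106 32 .nil)))))
(.rb 122 (.lf (.cons 218 66 192 (-77) 72 32 (.cons 368 94 180 (-482) (-94) 32 (.cons 56 28 77 0 186 32 (.cons 141 29 141 (-240) (-91) 32 (.cons 32 22 101 5 222 35 (.cons 1202 140 250 (-194) (-1) 32 (.cons 32 22 70 5 150 35 .nil))))))))))))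
(.nd 0 1 1
(.rb 111 (.lf (.cons 68 45 301 4 216 32 (.cons 32 28 294 6 440 46 (.cons 80 88 256 (-2) 129 32 .nil)))))
(.lf (.cons 68 46 231 (-25) 82 32 (.cons 32 23 90 6 210 37 (.cons 139 51 147 (-228) (-97) 32 (.cons 32 27 197 0 201 36 (.cons 93 38 192 (-121) (-63) 32 (.cons 32 29 137 18 278 69 .nil))))))))))
(.rb 99 (.nd 0 1 1
(.lf (.cons 33 26 250 9 175 32 (.cons 32 28 417 26 652 85 (.cons 44 57 270 6 105 32 .nil))))
(.nd 0 2 1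
(.rb 115 (.lf (.cons 34 25 192 0 93 32 (.cons 58 55 198 (-60) (-64) 32 (.cons 32 28 302 30 529 88 (.cons 60 58 288 (-30) 47 32 .nil))))))
(.rb 115 (.lf (.cons 43 30 187 (-25) 0 32 (.cons 32 34 240 42 431 117 (.cons 63 32 202 (-58) (-46) 32 (.cons 32 8 81 (-86) (-67) 35 (.cons 32 29 152 18 307 69 (.cons 74 22 160 (-54) (-65) 32 (.cons 56 6 97 (-127) (-62) 32 (.cons 32 36 264 0 111 35 .nil))))))))))))))
(.nd 1 2 1
(.nd 0 1 1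
(.rb 106 (.lf (.cons 32 22 329 17 227 44 (.cons 32 33 613 32 507 94 (.cons 32 45 331 16 115 41 .nil)))))
(.rb 106 (.lf (.cons 32 29 274 3 65 47 (.cons 32 18 120 (-64) (-98) 46 (.cons 32 36 373 61 597 144 (.cons 32 35 331 (-8) 0 94 (.cons 32 10 107 (-82) (-35) 76 (.cons 32 4 93 (-81) (-32) 47 (.cons 32 32 427 27 450 94 (.cons 32 32 171 (-101) (-193) 96 .nil)))))))))))
(.rb 100 (.nd 0 1 1
(.lf (.cons 32 26 398 21 219 69 (.cons 32 50 600 0 0 80 (.cons 32 38 774 41 540 122 (.cons 32 52 379 0 0 60 .nil)))))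
(.nd 0 2 1
(.lf (.cons 32 32 325 12 84 55 (.cons 32 43 379 0 0 68 (.cons 32 37 490 36 314 111 (.cons 32 42 225 0 0 47 .nil)))))
(.rb 117 (.nd 2 2 1
(.nd 0 2 1
(.lf (.cons 128 97 599 0 0 167 .nil))
(.rb 132 (.lf (.cons 32 24 126 (-39) (-88) 68 (.cons 32 27 137 0 0 63 (.cons 32 16 100 (-54) (-84) 77 (.cons 32 12 74 (-16) 0 45 (.cons 32 34 159 (-50) (-109) 113 (.cons 32 12 108 (-81) (-50) 77 .nil)))))))))
(.lf (.cons 32 36 295 0 0 66 (.cons 32 41 383 57 350 145 (.cons 32 31 173 0 0 67 .nil)))))))))))))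

def Kn_II : P3 :=
  [[[-250]],
   [[250]],
   [[], [175]],
   [],
   [[], [], [-32]]]

theorem ok_II : okTM 1 T_II = true := by decide +kernel

theorem chk_II : runM 256 10 7 5 41292796800 ⟨none, some (7, 10)⟩ ⟨none, some (1, 1)⟩ ⟨none, none⟩ 0 T_II
    [Cd133.PII00, Cd133.PII01, Cd133.PII02, Cd133.PII11, Cd133.PII12, Cd133.PII22] = true := by
  decide +kernel

theorem chkK_II : runM 129 4 2 0 250 ⟨none, some (7, 10)⟩ ⟨none, some (1, 1)⟩ ⟨none, none⟩ 1 T_II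
    [Kn_II, [], [], [], [], []] = true := by
  decide +kernel

theorem neg_II (m v T : ℝ) : ev3 m v T Kn_II = - ev3 m v T Cd133.KII := by
  simp only [Kn_II, Cd133.KII, ev3, ev2, ev1]
  push_cast
  ring

theorem psd_II (m v T : ℝ) (h1 : 0 ≤ m) (h2 : 10 * m ≤ 7) (h3 : 0 ≤ v) (h4 : v ≤ 1) (h5 : 0 ≤ T)
    (hk : 0 < ev3 m v T Cd133.KII) (x₁ x₂ x₃ : ℝ) :
    0 ≤ qf (ev3 m v T Cd133.PII00) (ev3 m v T Cd133.PII01) (ev3 m v T Cd133.PII02)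
      (ev3 m v T Cd133.PII11) (ev3 m v T Cd133.PII12) (ev3 m v T Cd133.PII22) x₁ x₂ x₃ := by
  refine psdM1 ok_II chk_II chkK_II
    (Lim.in_hi (by norm_num) (by norm_num) h1 (by push_cast; linarith))
    (Lim.in_hi (by norm_num) (by norm_num) h3 (by push_cast; linarith))
    (Lim.in_none h5)
    ?_ x₁ x₂ x₃
  rw [neg_II]
  linarith

end Crest.Agent.R249.Ps638
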