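import Crest.Agent.R249.KerM2_638
import Crest.Agent.R249.Cd1_133

/-!
# Row 249, part A: the interior check, chart I of `cert_709` (lists of `Cd1_133`)

Generated subdivision tree; `.lf` = list of congruences, `.out 0` = the obstacle polynomial is
nonpositive.
-/

set_option autoImplicit false
set_option maxRecDepth 100000

namespace Crest.Agent.R249.Ps638

open Crest.Agent.R249 Crest.Agent.R249.Ker254 Crest.Agent.R249.KerT368 Crest.Agent.R249.KerM638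

def T_I : TreeM :=
(.rb 159 (.nd 2 1 1
(.nd 2 1 2
(.rb 159 (.nd 2 1 2
(.rb 161 (.nd 1 1 1
(.nd 2 1 2
(.rb 170 (.nd 1 1 2
(.rb 177 (.nd 2 1 2
(.nd 1 1 2
(.rb 190 (.nd 0 1 1
(.lf (.cons 466 (-184) 407 46 (-270) 128 (.cons 128 (-44) 129 60 (-190) 143 (.cons 322 (-217) 295 0 (-540) 128 .nil))))
(.nd 0 2 1
(.rb 211 (.lf (.cons 119 (-56) 77 21 (-91) 32 (.cons 34 (-15) 32 43 (-79) 37 (.cons 205 (-250) 182 (-34) (-113) 32 (.cons 50 (-27) 70 21 (-43) 32 (.cons 110 (-130) 142 36 (-141) 32 .nil)))))))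
(.rb 211 (.lf (.cons 137 (-47) 59 0 (-69) 32 (.cons 38 (-17) 32 91 (-112) 55 (.cons 48 (-31) 40 75 (-93) 32 (.cons 238 (-87) 112 0 (-71) 32 (.cons 59 (-11) 32 41 (-48) 41 (.cons 227 (-206) 147 (-45) (-85) 32 (.cons 84 (-77) 83 72 (-122) 32 .nil))))))))))))
(.rb 190 (.nd 0 1 1
(.lf (.cons 54 (-35) 87 3 (-92) 32 (.cons 32 (-15) 58 18 (-88) 63 (.cons 45 (-32) 65 6 (-120) 32 (.cons 32 (-20) 58 17 (-83) 33 (.cons 100 (-150) 213 (-14) (-132) 32 .nil))))))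
(.nd 0 2 1
(.rb 211 (.nd 0 1 2
(.rb 224 (.lf (.cons 51 (-31) 65 9 (-99) 32 (.cons 32 (-15) 59 24 (-99) 66 (.cons 50 (-43) 82 12 (-112) 32 (.cons 32 (-20) 56 46 (-153) 63 (.cons 32 (-28) 61 42 (-141) 40 (.cons 87 (-114) 187 (-29) (-103) 32 .nil))))))))
(.nd 0 2 1
(.rb 237 (.nd 1 2 1
(.lf (.cons 57 (-36) 59 0 (-87) 32 (.cons 32 (-19) 46 56 (-140) 59 (.cons 32 (-13) 46 30 (-82) 57 (.cons 53 (-39) 52 16 (-119) 32 .nil)))))
(.rb 245 (.lf (.cons 166 (-112) 243 16 (-372) 128 (.cons 128 0 166 77 (-325) 165 (.cons 548 0 697 (-103) (-361) 128 (.cons 128 (-59) 178 133 (-348) 200 .nil))))))))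
(.rb 237 (.lf (.cons 60 (-37) 69 5 (-89) 32 (.cons 32 (-28) 60 38 (-121) 36 (.cons 66 (-31) 66 1 (-75) 32 (.cons 32 (-13) 47 32 (-86) 59 (.cons 32 (-19) 47 62 (-153) 63 (.cons 108 (-124) 160 0 (-107) 32 (.cons 32 (-24) 42 61 (-112) 42 .nil))))))))))))
(.rb 211 (.nd 0 2 1
(.lf (.cons 265 (-148) 274 (-1) (-318) 128 (.cons 128 (-80) 222 150 (-483) 207 (.cons 137 (-112) 180 212 (-420) 128 (.cons 409 (-298) 529 0 (-352) 128 (.cons 128 (-73) 157 311 (-586) 253 (.cons 432 0 657 0 (-373) 128 (.cons 323 (-117) 142 (-74) (-307) 128 (.cons 128 (-92) 166 242 (-326) 151 .nil)))))))))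
(.rb 224 (.lf (.cons 68 (-30) 58 (-11) (-65) 32 (.cons 53 (-15) 39 22 (-54) 32 (.cons 76 (-25) 54 0 (-64) 32 (.cons 35 (-11) 32 52 (-66) 53 (.cons 123 (-95) 118 (-107) (-40) 32 (.cons 32 (-16) 32 86 (-123) 57 (.cons 63 (-40) 105 (-52) (-43) 32 (.cons 37 (-23) 32 101 (-101) 44 .nil))))))))))))))))
(.nd 1 1 2
(.rb 190 (.nd 1 1 2
(.rb 198 (.nd 1 1 2
(.rb 206 (.nd 0 1 1
(.lf (.cons 986 (-460) 344 (-76) (-174) 32 (.cons 875 0 376 0 (-168) 32 (.cons 1162 (-1195) 257 (-809) (-126) 32 (.cons 512 (-328) 277 (-148) (-156) 32 (.cons 2691 (-1866) 225 (-1216) (-156) 32 .nil))))))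
(.lf (.cons 905 (-363) 140 (-465) (-101) 32 (.cons 1691 (-827) 171 (-1595) (-82) 32 (.cons 531 (-257) 125 (-368) (-97) 32 (.cons 785 (-507) 144 (-731) (-98) 32 (.cons 3886 (-2626) 167 (-3031) (-79) 32 (.cons 1531 (-1549) 150 (-3189) (-7) 32 (.cons 325 (-205) 139 0 (-138) 32 .nil))))))))))
(.lf (.cons 303 (-200) 193 (-154) (-119) 32 (.cons 284 (-250) 124 (-639) (-9) 32 (.cons 268 (-142) 177 (-168) (-98) 32 (.cons 174 (-120) 108 (-370) (-23) 32 (.cons 369 (-357) 294 (-221) (-92) 32 (.cons 440 (-548) 234 (-136) (-153) 32 (.cons 329 (-71) 146 (-144) (-106) 32 .nil))))))))))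
(.lf (.cons 175 (-174) 221 (-150) (-56) 32 (.cons 155 (-133) 230 (-174) 0 32 (.cons 161 (-171) 130 (-301) (-1) 32 (.cons 125 (-39) 90 (-248) (-48) 32 (.cons 239 (-461) 307 (-177) (-94) 32 (.cons 129 (-143) 346 (-134) (-41) 32 (.cons 158 (-303) 287 (-305) 27 32 (.cons 241 (-247) 138 (-389) (-11) 32 .nil)))))))))))
(.lf (.cons 97 (-88) 240 (-90) (-30) 32 (.cons 109 (-232) 290 (-86) (-71) 32 (.cons 49 (-92) 310 (-80) (-2) 32 (.cons 112 (-126) 247 (-137) (-19) 32 (.cons 81 (-46) 237 (-87) (-42) 32 (.cons 108 (-108) 131 (-183) (-12) 32 .nil))))))))))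
(.nd 2 1 2
(.rb 182 (.nd 0 1 1
(.lf (.cons 32 (-27) 112 0 (-92) 34 (.cons 32 0 79 4 (-118) 65 (.cons 54 (-91) 231 (-23) (-104) 32 (.cons 32 (-16) 86 4 (-75) 49 (.cons 32 (-19) 106 (-14) (-77) 57 (.cons 32 0 102 (-14) 0 60 (.cons 40 (-25) 124 (-33) 0 32 .nil))))))))
(.lf (.cons 32 (-20) 87 (-11) (-72) 33 (.cons 32 (-22) 140 (-1) (-139) 73 (.cons 44 (-34) 134 (-19) 0 32 (.cons 50 (-59) 162 (-42) (-53) 32 (.cons 32 (-32) 130 12 (-85) 50 (.cons 32 (-25) 124 (-27) 0 36 (.cons 32 (-24) 77 27 (-122) 57 (.cons 32 (-40) 112 17 (-136) 33 .nil)))))))))))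
(.lf (.cons 45 (-37) 217 (-42) (-30) 32 (.cons 47 (-56) 209 (-77) (-16) 32 (.cons 37 (-23) 210 (-37) 0 32 (.cons 51 (-64) 250 (-55) (-26) 32 (.cons 41 0 265 0 (-158) 32 (.cons 39 (-59) 207 (-100) 97 32 (.cons 32 (-7) 90 (-77) (-34) 38 .nil)))))))))))
(.rb 171 (.nd 1 1 2
(.rb 179 (.nd 1 1 2
(.rb 186 (.nd 1 1 2
(.rb 194 (.nd 0 1 1
(.lf (.cons 538 (-267) 721 (-151) (-182) 32 (.cons 551 (-516) 332 (-451) (-139) 32 (.cons 320 (-118) 958 (-110) (-83) 32 (.cons 644 0 438 (-146) (-161) 32 (.cons 1566 (-1109) 293 (-980) (-167) 32 (.cons 196 (-88) 1045 (-118) 183 32 (.cons 221 (-217) 246 (-290) (-59) 32 .nil))))))))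
(.lf (.cons 496 (-47) 188 (-229) (-99) 32 (.cons 614 (-129) 163 (-322) (-103) 32 (.cons 769 (-351) 159 (-1007) (-69) 32 (.cons 380 (-122) 172 (-316) (-81) 32 (.cons 1407 (-1032) 131 (-2884) (-28) 32 (.cons 1599 (-758) 182 (-1724) (-83) 32 (.cons 189 (-41) 294 (-141) (-90) 32 .nil))))))))))
(.lf (.cons 166 (-74) 355 (-137) (-70) 32 (.cons 137 (-127) 217 (-224) (-35) 32 (.cons 141 (-79) 1086 (-87) 49 32 (.cons 104 (-55) 298 (-130) (-62) 32 (.cons 202 (-263) 264 (-315) (-28) 32 (.cons 72 (-34) 827 (-97) 725 32 .nil)))))))))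
(.lf (.cons 418 (-203) 1729 (-323) (-192) 128 (.cons 291 (-261) 823 (-503) (-91) 128 (.cons 271 (-140) 2059 (-257) (-137) 128 (.cons 289 (-93) 2846 (-226) 523 128 (.cons 272 (-78) 839 (-330) (-181) 128 (.cons 274 (-196) 2685 (-224) (-289) 128 (.cons 380 (-425) 846 (-668) (-57) 128 (.cons 253 (-162) 3381 (-428) 3199 128 .nil)))))))))))
(.lf (.cons 40 (-14) 309 (-37) (-23) 32 (.cons 32 (-12) 129 (-64) (-19) 33 (.cons 32 (-5) 473 (-45) (-3) 39 (.cons 32 (-3) 144 (-84) (-25) 56 (.cons 38 (-20) 528 (-46) 126 32 (.cons 43 (-47) 329 (-75) 71 32 .nil))))))))))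
(.nd 2 1 2
(.rb 170 (.nd 0 1 1
(.rb 177 (.nd 2 1 2
(.nd 1 2 1
(.rb 190 (.lf (.cons 32 (-23) 179 (-12) (-116) 71 (.cons 32 (-19) 166 1 (-163) 151 (.cons 32 (-19) 149 (-16) (-58) 35 (.cons 32 (-18) 179 (-22) 0 46 .nil))))))
(.rb 190 (.nd 1 2 1
(.lf (.cons 32 (-20) 225 (-28) (-131) 130 (.cons 32 (-23) 206 (-21) (-208) 261 (.cons 32 (-23) 318 (-41) (-58) 108 (.cons 32 (-27) 187 (-4) (-130) 132 (.cons 32 (-23) 192 (-8) (-209) 381 .nil))))))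
(.rb 198 (.nd 0 1 2
(.rb 211 (.nd 1 2 1
(.nd 2 1 2
(.rb 224 (.nd 2 1 2
(.nd 0 1 2
(.rb 242 (.nd 1 1 2
(.rb 250 (.lf (.cons 32 (-17) 161 (-30) (-224) 350 .nil)))
(.nd 0 1 2
(.rb 263 (.nd 1 2 1
(.lf (.cons 32 (-13) 123 (-40) (-267) 477 .nil))
(.out 0)))
(.lf (.cons 32 (-18) 195 (-38) (-202) 346 .nil)))))
(.rb 242 (.lf (.cons 32 (-20) 247 (-29) (-160) 231 .nil))))
(.lf (.cons 128 (-42) 493 (-273) (-1116) 1433 (.cons 128 (-47) 431 (-154) (-664) 1056 (.cons 128 0 1024 (-117) (-386) 598 (.cons 167 (-14) 128 (-590) (-2200) 4011 (.cons 128 (-89) 810 (-1454) (-4939) 8801 (.cons 128 (-93) 798 (-1346) (-5743) 10441 (.cons 128 (-15) 135 (-417) (-1380) 2583 .nil))))))))))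
(.nd 1 1 2
(.rb 232 (.lf (.cons 32 (-13) 198 (-51) (-177) 179 .nil)))
(.rb 232 (.nd 0 1 2
(.rb 245 (.nd 1 2 1
(.lf (.cons 32 (-12) 189 (-66) (-202) 239 .nil))
(.rb 253 (.nd 0 1 2
(.out 0)
(.lf (.cons 32 (-15) 260 (-87) (-299) 325 .nil))))))
(.lf (.cons 32 (-17) 307 (-74) (-289) 273 .nil))))))
(.out 0)))
(.nd 2 1 2
(.rb 216 (.nd 1 2 1
(.lf (.cons 32 (-21) 300 (-38) (-139) 183 .nil))
(.rb 224 (.nd 1 2 1
(.lf (.cons 32 (-21) 318 (-51) (-129) 229 .nil))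
(.out 0)))))
(.rb 216 (.nd 1 2 1
(.lf (.cons 32 (-23) 392 (-52) (-131) 166 .nil))
(.rb 224 (.nd 1 2 1
(.lf (.cons 32 (-24) 450 (-87) (-164) 284 .nil))
(.out 0)))))))))))
(.nd 1 2 1
(.lf (.cons 32 (-20) 239 (-24) (-55) 40 (.cons 32 (-19) 391 (-38) (-120) 82 (.cons 32 (-40) 218 (-47) 13 40 .nil))))
(.rb 190 (.nd 1 2 1
(.lf (.cons 32 (-18) 432 (-42) (-116) 105 .nil))
(.rb 198 (.nd 0 1 2
(.rb 211 (.nd 1 2 1
(.lf (.cons 32 (-12) 452 (-172) (-656) 541 (.cons 32 (-2) 595 (-53) (-97) 176 (.cons 32 (-11) 280 (-196) (-522) 685 .nil))))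
(.out 0)))
(.lf (.cons 32 (-17) 492 (-109) (-86) 304 .nil)))))))))
(.rb 177 (.nd 0 2 1
(.nd 1 2 1
(.lf (.cons 32 (-16) 189 (-35) (-20) 52 (.cons 32 (-17) 153 (-2) (-137) 106 (.cons 32 (-33) 209 (-13) (-147) 58 .nil))))
(.rb 199 (.lf (.cons 32 (-16) 246 (-57) 56 125 (.cons 32 (-12) 282 (-70) 159 122 (.cons 32 (-18) 224 (-31) (-62) 103 (.cons 32 (-24) 418 (-139) 308 328 (.cons 32 (-15) 265 (-63) 91 78 .nil))))))))
(.rb 191 (.nd 1 2 1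
(.lf (.cons 512 (-136) 1735 (-561) 0 599 (.cons 512 (-273) 2720 (-321) (-629) 930 (.cons 637 (-86) 2009 (-628) 327 512 (.cons 512 (-404) 2455 (-208) (-1442) 801 .nil)))))
(.rb 199 (.nd 0 2 1
(.lf (.cons 32 (-9) 141 (-45) 96 62 (.cons 32 0 189 (-45) 106 52 (.cons 32 (-21) 290 (-95) 336 141 .nil))))
(.rb 212 (.lf (.cons 49 (-3) 99 (-40) 60 32 (.cons 32 (-7) 124 (-39) 70 36 (.cons 94 0 213 (-106) 57 32 (.cons 44 7 168 (-90) 14 32 (.cons 153 43 317 (-148) 0 32 .nil)))))))))))))))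
(.rb 171 (.nd 0 1 1
(.rb 178 (.nd 0 1 2
(.rb 191 (.nd 1 2 1
(.lf (.cons 32 (-10) 436 (-25) (-27) 43 (.cons 32 (-1) 673 (-34) 149 76 (.cons 32 (-25) 349 (-42) (-50) 47 .nil))))
(.rb 199 (.nd 1 2 1
(.lf (.cons 128 (-32) 2666 (-164) 0 422 (.cons 128 12 3631 (-164) 2024 484 .nil)))
(.rb 207 (.nd 1 2 1
(.lf (.cons 32 (-7) 898 (-60) (-41) 192 (.cons 32 4 913 (-73) 748 308 (.cons 32 (-16) 548 (-44) (-106) 119 .nil))))
(.out 0)))))))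
(.lf (.cons 32 (-6) 223 (-36) (-21) 67 (.cons 32 (-10) 488 (-40) (-90) 107 (.cons 32 (-20) 306 (-44) (-30) 48 .nil))))))
(.nd 0 2 1
(.rb 192 (.lf (.cons 32 (-4) 166 (-41) 0 60 (.cons 32 (-20) 226 (-52) (-6) 48 (.cons 32 (-10) 415 (-57) 178 124 .nil)))))
(.rb 192 (.nd 1 2 1
(.lf (.cons 128 (-5) 635 (-236) 18 203 .nil))
(.rb 200 (.nd 0 2 1
(.lf (.cons 32 1 227 (-64) 69 75 .nil))
(.rb 213 (.lf (.cons 34 5 127 (-43) 0 32 (.cons 32 23 204 (-96) (-181) 39 (.cons 32 3 206 (-52) 26 46 (.cons 64 36 259 (-123) (-197) 32 (.cons 161 90 658 0 87 32 (.cons 39 16 169 (-97) (-66) 32 .nil))))))))))))))))))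
(.nd 1 1 1
(.rb 168 (.nd 1 1 2
(.rb 176 (.lf (.cons 88 0 314 (-60) (-25) 32 (.cons 183 (-12) 272 (-142) (-58) 32 (.cons 60 0 429 (-26) 148 32 (.cons 363 (-56) 247 (-300) (-83) 32 (.cons 35 (-3) 394 (-50) 601 32 (.cons 55 0 220 (-63) (-22) 32 (.cons 93 (-21) 669 (-106) 962 32 .nil)))))))))
(.lf (.cons 162 0 1389 (-137) (-54) 128 (.cons 147 38 588 (-230) (-186) 128 (.cons 128 9 1293 (-71) 461 146 (.cons 128 10 634 (-281) (-173) 196 (.cons 128 1 1463 (-169) 1634 226 .nil))))))))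
(.rb 168 (.nd 0 1 1
(.nd 0 1 2
(.rb 189 (.nd 2 2 1
(.nd 0 1 2
(.rb 207 (.nd 1 2 1
(.lf (.cons 128 3 1586 (-131) 680 322 .nil))
(.rb 215 (.nd 1 2 1
(.lf (.cons 32 2 628 (-43) 244 150 .nil))
(.rb 223 (.nd 1 2 1
(.lf (.cons 32 3 754 (-73) 436 302 .nil))
(.out 0)))))))
(.lf (.cons 32 (-1) 150 (-34) 0 83 (.cons 32 (-1) 626 (-28) 1 94 (.cons 32 (-8) 367 (-36) (-4) 46 .nil)))))
(.lf (.cons 32 0 357 (-45) 147 134 (.cons 32 3 408 (-20) 83 71 (.cons 32 5 689 (-82) 634 478 (.cons 32 6 783 (-419) 4455 2518 .nil)))))))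
(.rb 189 (.lf (.cons 32 0 140 (-34) 0 67 (.cons 32 (-5) 355 (-39) (-29) 67 .nil)))))
(.nd 0 2 1
(.rb 189 (.lf (.cons 128 0 722 (-161) 21 242 .nil)))
(.rb 189 (.nd 1 2 1
(.lf (.cons 32 13 217 (-57) (-65) 54 .nil))
(.rb 197 (.nd 0 2 1
(.lf (.cons 32 14 274 (-61) (-55) 70 .nil))
(.rb 210 (.lf (.cons 32 18 223 (-50) (-90) 36 (.cons 32 11 216 (-78) (-65) 65 (.cons 54 34 262 (-86) (-243) 32 (.cons 44 36 273 (-98) (-245) 32 .nil))))))))))))))))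
(.rb 163 (.nd 1 1 1
(.lf (.cons 162 38 719 (-106) 78 128 (.cons 353 75 889 (-293) (-63) 128 (.cons 128 10 645 (-55) 213 176 (.cons 559 233 720 (-626) (-165) 128 (.cons 128 13 1135 (-89) 357 439 .nil))))))
(.nd 0 1 1
(.rb 175 (.lf (.cons 32 3 182 (-38) 65 105 (.cons 32 4 584 (-37) 150 210 (.cons 32 5 265 (-16) 28 49 (.cons 32 4 468 (-45) 76 335 .nil))))))
(.rb 175 (.lf (.cons 32 19 283 (-33) 0 47 (.cons 32 36 333 (-53) (-192) 40 (.cons 32 7 208 (-22) 14 49 (.cons 79 109 778 (-96) (-376) 32 .nil))))))))))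
(.lf (.cons 32 14 209 (-19) 40 48 (.cons 69 44 189 (-49) 17 32 (.cons 32 0 201 (-15) 0 100 (.cons 34 20 219 (-12) (-3) 32 (.cons 32 4 307 (-22) 51 189 (.cons 32 32 228 (-29) (-6) 36 .nil)))))))))

def Kn_I : P3 :=
  [[[-8], [35]],
   [[], [], [-40]]]

theorem ok_I : okTM 1 T_I = true := by decide +kernel

theorem chk_I : runM 296 13 8 5 550907180400000 ⟨none, some (3, 10)⟩ ⟨none, some (1, 4)⟩ ⟨some (1, 10), some (89, 1)⟩ 0 T_I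
    [Cd133.PI00, Cd133.PI01, Cd133.PI02, Cd133.PI11, Cd133.PI12, Cd133.PI22] = true := by
  decide +kernel

theorem chkK_I : runM 56 1 2 0 40 ⟨none, some (3, 10)⟩ ⟨none, some (1, 4)⟩ ⟨some (1, 10), some (89, 1)⟩ 1 T_I
    [Kn_I, [], [], [], [], []] = true := by
  decide +kernel

theorem neg_I (w v T : ℝ) : ev3 w v T Kn_I = - ev3 w v T Cd133.KI := by
  simp only [Kn_I, Cd133.KI, ev3, ev2, ev1]
  push_cast
  ring

theorem psd_I (w v T : ℝ) (h1 : 0 ≤ w) (h2 : 10 * w ≤ 3) (h3 : 0 ≤ v) (h4 : 4 * v ≤ 1) (h5 : 1 ≤ 10 * T) (h6 : T ≤ 9)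
    (hk : 0 < ev3 w v T Cd133.KI) (x₁ x₂ x₃ : ℝ) :
    0 ≤ qf (ev3 w v T Cd133.PI00) (ev3 w v T Cd133.PI01) (ev3 w v T Cd133.PI02)
      (ev3 w v T Cd133.PI11) (ev3 w v T Cd133.PI12) (ev3 w v T Cd133.PI22) x₁ x₂ x₃ := by
  refine psdM1 ok_I chk_I chkK_I
    (Lim.in_hi (by norm_num) (by norm_num) h1 (by push_cast; linarith))
    (Lim.in_hi (by norm_num) (by norm_num) h3 (by push_cast; linarith))
    (Lim.in_lohi (by norm_num) (by norm_num) (by norm_num) (by norm_num) (by push_cast; linarith) (by push_cast; linarith))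
    ?_ x₁ x₂ x₃
  rw [neg_I]
  linarith

end Crest.Agent.R249.Ps638
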