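import Crest.Agent.R249.KerM2_638
import Crest.Agent.R249.Cd1_133

/-!
# Row 249, part A: the interior check, chart Ib of `cert_709` (lists of `Cd1_133`)

Generated subdivision tree; `.lf` = list of congruences, `.out 0` = the obstacle polynomial is
nonpositive.
-/

set_option autoImplicit false
set_option maxRecDepth 100000

namespace Crest.Agent.R249.Ps638

open Crest.Agent.R249 Crest.Agent.R249.Ker254 Crest.Agent.R249.KerT368 Crest.Agent.R249.KerM638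

def T_Ib : TreeM :=
(.rb 145 (.nd 2 1 1
(.nd 2 1 2
(.rb 152 (.nd 2 1 2
(.nd 2 1 2
(.rb 162 (.nd 2 1 2
(.nd 2 1 2
(.rb 172 (.nd 2 1 2
(.nd 2 1 2
(.rb 182 (.nd 2 1 2
(.nd 0 1 1
(.rb 195 (.lf (.cons 32 (-11) 69 0 0 2466 (.cons 32 0 46 0 (-13) 743 (.cons 44 (-11) 32 8 (-24) 3524 .nil)))))
(.rb 195 (.lf (.cons 32 (-5) 53 0 0 237 .nil))))
(.lf (.cons 32 (-5) 35 5 (-26) 703 (.cons 32 (-13) 54 3 (-8) 303 .nil)))))
(.lf (.cons 32 (-5) 32 6 (-31) 413 (.cons 32 (-9) 70 2 (-10) 145 (.cons 32 (-12) 62 10 (-58) 1187 .nil)))))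
(.lf (.cons 35 (-5) 32 7 (-39) 262 (.cons 32 (-9) 79 2 (-16) 109 (.cons 32 (-9) 56 8 (-59) 585 .nil))))))
(.lf (.cons 36 (-5) 32 8 (-43) 143 (.cons 32 (-7) 59 0 (-16) 60 (.cons 32 (-7) 44 7 (-50) 234 .nil)))))
(.lf (.cons 37 (-5) 32 8 (-44) 73 (.cons 32 (-7) 97 3 (-38) 40 (.cons 86 (-11) 51 21 (-23) 32 (.cons 32 (-7) 48 6 (-49) 114 .nil)))))))
(.lf (.cons 37 (-5) 32 9 (-48) 40 (.cons 37 (-9) 111 5 (-61) 32 (.cons 83 (-11) 72 37 (-37) 32 (.cons 32 (-7) 48 7 (-52) 61 .nil))))))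
(.lf (.cons 49 (-7) 45 14 (-78) 32 (.cons 65 (-6) 46 13 (-81) 32 (.cons 32 (-13) 106 16 (-119) 51 (.cons 147 (-16) 108 87 (-81) 32 .nil)))))))
(.lf (.cons 92 (-14) 87 28 (-157) 32 (.cons 99 (-27) 197 66 (-248) 32 (.cons 281 (-32) 169 158 (-162) 32 (.cons 38 (-15) 111 14 (-124) 32 (.cons 118 (-17) 87 135 (-139) 32 (.cons 32 (-4) 32 240 (-229) 40 .nil))))))))
(.nd 1 1 1
(.lf (.cons 245 (-36) 153 98 (-309) 32 (.cons 640 (-29) 285 313 (-206) 32 (.cons 242 (-32) 158 92 (-332) 32 (.cons 175 (-30) 192 165 (-246) 32 (.cons 208 (-21) 169 403 (-325) 32 (.cons 95 (-13) 95 244 (-261) 32 (.cons 204 (-38) 195 72 (-294) 32 (.cons 97 (-17) 106 281 (-360) 32 .nil)))))))))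
(.lf (.cons 158 (-34) 205 46 (-339) 32 (.cons 102 (-33) 249 27 (-325) 32 (.cons 153 (-35) 202 226 (-437) 32 .nil)))))))

def Kn_Ib : P3 :=
  [[[-8], [35]],
   [[], [], [-40]]]

theorem ok_Ib : okTM 1 T_Ib = true := by decide +kernel

theorem chk_Ib : runM 224 13 9 5 550907180400000 ⟨none, some (3, 10)⟩ ⟨none, some (1, 10)⟩ ⟨none, some (1, 1)⟩ 0 T_Ib
    [Cd133.PIb00, Cd133.PIb01, Cd133.PIb02, Cd133.PIb11, Cd133.PIb12, Cd133.PIb22] = true := by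
  decide +kernel

theorem chkK_Ib : runM 24 1 2 0 40 ⟨none, some (3, 10)⟩ ⟨none, some (1, 10)⟩ ⟨none, some (1, 1)⟩ 1 T_Ib
    [Kn_Ib, [], [], [], [], []] = true := by
  decide +kernel

theorem neg_Ib (w v a : ℝ) : ev3 w v a Kn_Ib = - ev3 w v a Cd133.KIb := by
  simp only [Kn_Ib, Cd133.KIb, ev3, ev2, ev1]
  push_cast
  ring

theorem psd_Ib (w v a : ℝ) (h1 : 0 ≤ w) (h2 : 10 * w ≤ 3) (h3 : 0 ≤ v) (h4 : 10 * v ≤ 1) (h5 : 0 ≤ a) (h6 : a ≤ 1)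
    (hk : 0 < ev3 w v a Cd133.KIb) (x₁ x₂ x₃ : ℝ) :
    0 ≤ qf (ev3 w v a Cd133.PIb00) (ev3 w v a Cd133.PIb01) (ev3 w v a Cd133.PIb02)
      (ev3 w v a Cd133.PIb11) (ev3 w v a Cd133.PIb12) (ev3 w v a Cd133.PIb22) x₁ x₂ x₃ := by
  refine psdM1 ok_Ib chk_Ib chkK_Ib
    (Lim.in_hi (by norm_num) (by norm_num) h1 (by push_cast; linarith))
    (Lim.in_hi (by norm_num) (by norm_num) h3 (by push_cast; linarith))
    (Lim.in_hi (by norm_num) (by norm_num) h5 (by push_cast; linarith))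
    ?_ x₁ x₂ x₃
  rw [neg_Ib]
  linarith

end Crest.Agent.R249.Ps638
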