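import Crest.Agent.R249.KerM2_638
import Crest.Agent.R249.Cd1_133

/-!
# Row 249, part A: the interior check, chart Ip of `cert_709` (lists of `Cd1_133`)

Generated subdivision tree; `.lf` = list of congruences, `.out 0` = the obstacle polynomial is
nonpositive.
-/

set_option autoImplicit false
set_option maxRecDepth 100000

namespace Crest.Agent.R249.Ps638

open Crest.Agent.R249 Crest.Agent.R249.Ker254 Crest.Agent.R249.KerT368 Crest.Agent.R249.KerM638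

def T_Ip : TreeM :=
(.rb 165 (.nd 2 1 1
(.nd 2 1 2
(.rb 173 (.nd 2 1 2
(.nd 2 1 2
(.rb 183 (.nd 2 1 2
(.nd 2 1 2
(.rb 193 (.lf (.cons 128 (-19) 249 0 (-69) 9349 (.cons 128 (-19) 218 0 0 15986 (.cons 128 (-51) 264 (-8) 13 368 (.cons 128 (-124) 1317 0 0 95954 (.cons 128 (-81) 641 0 (-237) 35216 (.cons 128 (-62) 484 40 (-395) 109855 .nil))))))))
(.lf (.cons 128 (-22) 293 0 (-127) 5562 (.cons 128 (-54) 284 (-8) 0 246 (.cons 128 (-67) 587 34 (-479) 22008 .nil)))))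
(.lf (.cons 32 (-8) 101 3 (-29) 639 (.cons 32 (-19) 176 3 (-126) 3211 (.cons 32 (-11) 68 (-3) 0 40 (.cons 32 (-25) 84 (-12) 20 41 (.cons 32 (-15) 148 (-12) 16 205 .nil))))))))
(.rb 183 (.nd 0 1 1
(.rb 190 (.nd 1 1 1
(.lf (.cons 32 (-12) 130 10 (-180) 1647 .nil))
(.nd 0 1 2
(.rb 208 (.nd 1 2 1
(.lf (.cons 32 (-15) 180 (-1) (-187) 2325 .nil))
(.rb 216 (.nd 0 1 2
(.rb 229 (.nd 1 2 1
(.lf (.cons 32 (-17) 193 (-10) (-175) 3030 .nil))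
(.out 0)))
(.lf (.cons 32 (-15) 216 (-6) (-45) 773 .nil))))))
(.lf (.cons 32 (-12) 207 (-5) (-46) 546 .nil)))))
(.lf (.cons 32 (-4) 63 (-1) (-15) 136 (.cons 33 (-16) 76 (-5) 0 32 (.cons 42 (-61) 132 (-45) 69 32 (.cons 32 (-8) 102 2 (-30) 328 .nil))))))))
(.nd 0 1 1
(.rb 185 (.nd 0 1 2
(.rb 198 (.nd 1 1 1
(.lf (.cons 32 (-16) 150 13 (-204) 970 .nil))
(.nd 0 1 2
(.rb 216 (.nd 1 2 1
(.lf (.cons 32 (-18) 186 2 (-228) 1483 .nil))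
(.rb 224 (.nd 1 2 1
(.lf (.cons 32 (-16) 179 (-14) (-245) 2142 .nil))
(.out 0)))))
(.lf (.cons 32 (-15) 203 (-5) (-79) 546 .nil)))))
(.lf (.cons 32 (-11) 161 (-3) (-93) 448 .nil))))
(.rb 185 (.lf (.cons 32 (-5) 78 (-3) (-26) 119 (.cons 42 (-13) 81 (-8) 0 32 (.cons 32 (-10) 118 0 (-24) 151 (.cons 51 (-56) 151 (-53) 83 32 .nil)))))))))
(.nd 0 1 1
(.rb 180 (.nd 1 1 1
(.lf (.cons 32 (-13) 129 10 (-209) 458 .nil))
(.nd 0 1 2
(.rb 198 (.nd 1 2 1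
(.lf (.cons 32 (-15) 166 (-3) (-262) 822 (.cons 32 (-18) 193 (-4) (-105) 348 (.cons 32 (-20) 191 (-1) (-213) 1300 .nil))))
(.rb 206 (.nd 0 1 2
(.rb 219 (.nd 1 2 1
(.lf (.cons 32 (-18) 197 (-4) (-123) 709 (.cons 32 (-21) 194 (-24) (-414) 2054 .nil)))
(.out 0)))
(.lf (.cons 32 (-16) 221 (-13) (-89) 399 .nil))))))
(.lf (.cons 32 (-14) 214 (-10) (-89) 279 .nil)))))
(.rb 180 (.lf (.cons 128 (-30) 426 (-17) (-155) 375 (.cons 128 (-92) 488 (-183) 358 169 (.cons 128 (-42) 493 0 (-161) 430 (.cons 218 (-208) 585 (-447) 648 128 (.cons 128 (-40) 573 (-78) 77 426 (.cons 131 (-108) 419 (-255) 436 128 .nil))))))))))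
(.nd 0 1 1
(.rb 175 (.nd 1 1 1
(.lf (.cons 32 (-16) 137 8 (-212) 237 (.cons 32 (-21) 155 0 (-239) 237 .nil)))
(.nd 0 1 2
(.rb 193 (.nd 1 2 1
(.lf (.cons 32 (-15) 152 (-7) (-250) 409 (.cons 32 (-19) 194 (-5) (-135) 188 (.cons 32 (-21) 190 (-1) (-223) 694 .nil))))
(.rb 201 (.nd 0 1 2
(.rb 214 (.nd 1 2 1
(.nd 2 2 1
(.lf (.cons 128 (-75) 789 (-24) (-607) 1800 (.cons 128 (-66) 596 (-128) (-1926) 6816 .nil)))
(.rb 227 (.lf (.cons 32 (-20) 199 (-8) (-162) 332 (.cons 32 (-19) 169 (-42) (-534) 1396 .nil)))))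
(.out 0)))
(.lf (.cons 32 (-15) 194 (-29) (-172) 418 .nil))))))
(.lf (.cons 32 (-15) 215 (-18) (-136) 232 .nil)))))
(.rb 175 (.lf (.cons 32 (-13) 160 (-8) (-60) 82 (.cons 32 (-22) 127 (-53) 108 43 (.cons 32 (-12) 154 (-20) 0 102 (.cons 32 (-19) 107 (-87) 152 37 (.cons 54 (-49) 143 (-116) 166 32 (.cons 32 0 194 0 0 162 (.cons 32 (-18) 183 (-31) 74 47 (.cons 176 (-122) 373 (-199) 224 32 .nil)))))))))))))

def Kn_Ip : P3 :=
  [[[-8], [35]],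
   [[], [], [-40]]]

theorem ok_Ip : okTM 1 T_Ip = true := by decide +kernel

theorem chk_Ip : runM 264 13 8 5 550907180400000 ⟨none, some (3, 10)⟩ ⟨some (1, 10), some (3, 2)⟩ ⟨none, some (1, 10)⟩ 0 T_Ip
    [Cd133.PI00, Cd133.PI01, Cd133.PI02, Cd133.PI11, Cd133.PI12, Cd133.PI22] = true := by
  decide +kernel

theorem chkK_Ip : runM 48 1 2 0 40 ⟨none, some (3, 10)⟩ ⟨some (1, 10), some (3, 2)⟩ ⟨none, some (1, 10)⟩ 1 T_Ip
    [Kn_Ip, [], [], [], [], []] = true := by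
  decide +kernel

theorem neg_Ip (w v T : ℝ) : ev3 w v T Kn_Ip = - ev3 w v T Cd133.KI := by
  simp only [Kn_Ip, Cd133.KI, ev3, ev2, ev1]
  push_cast
  ring

theorem psd_Ip (w v T : ℝ) (h1 : 0 ≤ w) (h2 : 10 * w ≤ 3) (h3 : 1 ≤ 10 * v) (h4 : 4 * v ≤ 1) (h5 : 0 ≤ T) (h6 : 10 * T ≤ 1)
    (hk : 0 < ev3 w v T Cd133.KI) (x₁ x₂ x₃ : ℝ) :
    0 ≤ qf (ev3 w v T Cd133.PI00) (ev3 w v T Cd133.PI01) (ev3 w v T Cd133.PI02)
      (ev3 w v T Cd133.PI11) (ev3 w v T Cd133.PI12) (ev3 w v T Cd133.PI22) x₁ x₂ x₃ := by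
  refine psdM1 ok_Ip chk_Ip chkK_Ip
    (Lim.in_hi (by norm_num) (by norm_num) h1 (by push_cast; linarith))
    (Lim.in_lohi (by norm_num) (by norm_num) (by norm_num) (by norm_num) (by push_cast; linarith) (by push_cast; linarith))
    (Lim.in_hi (by norm_num) (by norm_num) h5 (by push_cast; linarith))
    ?_ x₁ x₂ x₃
  rw [neg_Ip]
  linarith

end Crest.Agent.R249.Ps638
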