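import Crest.Agent.R249.Pul1_47
import Crest.Agent.R202.GeoTens
import Crest.Agent.R244.ManMetric

/-!
# Row 249, leaf D6-PUL, part 2 (helper47): the Riemannian metric defined by compatible local data

`LocData n M`: an open set `W` of `M`, a smooth map `psi : M → ℝⁿ` with injective derivative on `W`
and a metric field `h` on an open `V ⊇ psi W`.  `LocAtlas n M`: one `LocData` around every point,
compatible on overlaps.  `LocAtlas.met` is the resulting metric `psi^* h` on `M`.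
-/

set_option autoImplicit false
set_option linter.style.haveILetI false
set_option maxSynthPendingDepth 3
set_option linter.unusedSectionVars false

noncomputable section

open Bundle Set Metric Filter ContinuousLinearMap
open scoped Manifold ContDiff Bundle ENNReal Topology
open Crest.GeometryTopology.CoordMetric Crest.GeometryTopology.ChartCurvature
open Crest.Agent.R202.Tens

namespace Crest.Agent.R249.Pul47

/-- local data -/
structure LocData (n : ℕ) (M : Type*) [TopologicalSpace M]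
    [ChartedSpace (EuclideanSpace ℝ (Fin n)) M] where
  /-- the domain in `M` -/
  W : Set M
  /-- the local diffeomorphism -/
  psi : M → EuclideanSpace ℝ (Fin n)
  /-- the metric -/
  h : MetricField n
  /-- the domain of the metric -/
  V : Set (EuclideanSpace ℝ (Fin n))
  isOpen : IsOpen W
  smooth : ContMDiffOn (𝓡 n) (𝓡 n) ∞ psi W
  inj : ∀ y ∈ W, Function.Injective (mfderiv (𝓡 n) (𝓡 n) psi y)
  riem : IsRiemannianOn h V
  maps : ∀ y ∈ W, psi y ∈ V

section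

variable {n : ℕ} {M : Type*} [TopologicalSpace M] [ChartedSpace (EuclideanSpace ℝ (Fin n)) M]

local notation "𝔼" => EuclideanSpace ℝ (Fin n)

/-- the quadratic form `psi^* h` at a point -/
def LocData.q (D : LocData n M) (y : M) (v : TangentSpace (𝓡 n) y) : ℝ :=
  quadForm D.h (D.psi y) (mfderiv (𝓡 n) (𝓡 n) D.psi y v)

/-- pull back of a bilinear form by a linear map -/
def pullB (β : 𝔼 →L[ℝ] 𝔼 →L[ℝ] ℝ) (A : 𝔼 →L[ℝ] 𝔼) : 𝔼 →L[ℝ] 𝔼 →L[ℝ] ℝ :=
  ((ContinuousLinearMap.compL ℝ 𝔼 𝔼 ℝ).flip A).comp (β.comp A)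

theorem pullB_apply (β : 𝔼 →L[ℝ] 𝔼 →L[ℝ] ℝ) (A : 𝔼 →L[ℝ] 𝔼) (u v : 𝔼) :
    pullB β A u v = β (A u) (A v) := rfl

/-- the bilinear form `psi^* h` at a point -/
def LocData.B (D : LocData n M) (y : M) :
    TangentSpace (𝓡 n) y →L[ℝ] TangentSpace (𝓡 n) y →L[ℝ] ℝ :=
  pullB (bil (D.h (D.psi y))) (mfderiv (𝓡 n) (𝓡 n) D.psi y)

theorem LocData.B_apply (D : LocData n M) (y : M) (u v : TangentSpace (𝓡 n) y) :
    D.B y u v = bil (D.h (D.psi y)) (mfderiv (𝓡 n) (𝓡 n) D.psi y u)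
      (mfderiv (𝓡 n) (𝓡 n) D.psi y v) := rfl

theorem LocData.q_eq (D : LocData n M) (y : M) (v : TangentSpace (𝓡 n) y) :
    D.q y v = D.B y v v := by
  rw [LocData.q, quadForm_eq]; rfl

theorem LocData.B_symm (D : LocData n M) {y : M} (hy : y ∈ D.W) (u v : TangentSpace (𝓡 n) y) :
    D.B y u v = D.B y v u := by
  rw [D.B_apply, D.B_apply]
  exact bil_symm D.riem (D.maps y hy) _ _

theorem LocData.B_pos (D : LocData n M) {y : M} (hy : y ∈ D.W) (v : TangentSpace (𝓡 n) y)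
    (hv : v ≠ 0) : 0 < D.B y v v := by
  rw [D.B_apply]
  refine bil_pos D.riem (D.maps y hy) ?_
  intro h0
  exact hv (D.inj y hy (h0.trans (map_zero _).symm))

/-- two local data with the same quadratic form have the same bilinear form -/
theorem LocData.B_congr {D D' : LocData n M} {y : M} (hy : y ∈ D.W) (hy' : y ∈ D'.W)
    (h : ∀ v : TangentSpace (𝓡 n) y, D.q y v = D'.q y v) : D.B y = D'.B y := by
  ext u v
  have h1 := h (u + v)
  have h2 := h u
  have h3 := h v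
  rw [D.q_eq, D'.q_eq] at h1 h2 h3
  simp only [map_add, add_apply] at h1
  have h4 := D.B_symm hy u v
  have h5 := D'.B_symm hy' u v
  linarith

/-- the local map in the chart at `x₀` -/
def LocData.tau (D : LocData n M) (x₀ : M) : 𝔼 → 𝔼 := D.psi ∘ (chartAt 𝔼 x₀).symm

/-- the domain of the local map in the chart at `x₀` -/
def LocData.dom (D : LocData n M) (x₀ : M) : Set 𝔼 :=
  (chartAt 𝔼 x₀).target ∩ (chartAt 𝔼 x₀).symm ⁻¹' D.W

theorem LocData.isOpen_dom (D : LocData n M) (x₀ : M) : IsOpen (D.dom x₀) :=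
  (chartAt 𝔼 x₀).isOpen_inter_preimage_symm D.isOpen

variable [IsManifold (𝓡 n) ∞ M]

theorem LocData.tau_contDiffOn (D : LocData n M) (x₀ : M) :
    ContDiffOn ℝ ∞ (D.tau x₀) (D.dom x₀) := by
  rw [← contMDiffOn_iff_contDiffOn]
  exact D.smooth.comp ((contMDiffOn_chart_symm (I := 𝓡 n) (x := x₀)).mono inter_subset_left)
    (fun y hy => hy.2)

theorem LocData.fderiv_tau (D : LocData n M) (x₀ : M) {y : 𝔼} (hy : y ∈ D.dom x₀) (u : 𝔼) :
    fderiv ℝ (D.tau x₀) y u =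
      mfderiv (𝓡 n) (𝓡 n) D.psi ((chartAt 𝔼 x₀).symm y)
        (mfderiv (𝓡 n) (𝓡 n) (chartAt 𝔼 x₀).symm y u) := by
  have h1 : MDifferentiableAt (𝓡 n) (𝓡 n) (chartAt 𝔼 x₀).symm y :=
    (mdifferentiable_chart (I := 𝓡 n) x₀).symm.mdifferentiableAt hy.1
  have h2 : MDifferentiableAt (𝓡 n) (𝓡 n) D.psi ((chartAt 𝔼 x₀).symm y) :=
    (D.smooth.contMDiffAt (D.isOpen.mem_nhds hy.2)).mdifferentiableAt (by simp)
  have h3 := mfderiv_comp y h2 h1
  have h4 : fderiv ℝ (D.tau x₀) y = mfderiv (𝓡 n) (𝓡 n) (D.psi ∘ (chartAt 𝔼 x₀).symm) y := by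
    rw [mfderiv_eq_fderiv]; rfl
  rw [h4, h3]
  rfl

/-- the bilinear form of the local data in the chart at `x₀` -/
def LocData.bC (D : LocData n M) (x₀ : M) (y : 𝔼) : 𝔼 →L[ℝ] 𝔼 →L[ℝ] ℝ :=
  pullB (bil (D.h (D.tau x₀ y))) (fderiv ℝ (D.tau x₀) y)

theorem contDiffOn_bil {h : MetricField n} {V : Set 𝔼} (hh : IsRiemannianOn h V) :
    ContDiffOn ℝ ∞ (fun x => bil (h x)) V := by
  unfold bil
  refine ContDiffOn.sum fun i _ => ContDiffOn.sum fun j _ => ?_
  exact (hh.contDiffOn i j).smul contDiffOn_const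

theorem LocData.contDiffOn_bC (D : LocData n M) (x₀ : M) :
    ContDiffOn ℝ ∞ (D.bC x₀) (D.dom x₀) := by
  have h1 := D.tau_contDiffOn x₀
  have h2 : ContDiffOn ℝ ∞ (fderiv ℝ (D.tau x₀)) (D.dom x₀) :=
    h1.fderiv_of_isOpen (D.isOpen_dom x₀) (by simp)
  have h3 : ContDiffOn ℝ ∞ (fun y => bil (D.h (D.tau x₀ y))) (D.dom x₀) :=
    (contDiffOn_bil D.riem).comp h1 (fun y hy => D.maps _ hy.2)
  have h4 : ContDiffOn ℝ ∞ (fun y => (ContinuousLinearMap.compL ℝ 𝔼 𝔼 ℝ).flip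
      (fderiv ℝ (D.tau x₀) y)) (D.dom x₀) :=
    (ContinuousLinearMap.contDiff _).comp_contDiffOn h2
  exact h4.clm_comp (h3.clm_comp h2)

theorem LocData.inCoordinates (D : LocData n M) (m₀ m : M)
    (hm : m ∈ (chartAt (EuclideanSpace ℝ (Fin n)) m₀).source) (hW : m ∈ D.W) :
    (trivializationAt (𝔼 →L[ℝ] 𝔼 →L[ℝ] ℝ)
        (fun x : M => TangentSpace (𝓡 n) x →L[ℝ] TangentSpace (𝓡 n) x →L[ℝ] ℝ) m₀
          ⟨m, D.B m⟩).2
        = D.bC m₀ (chartAt (EuclideanSpace ℝ (Fin n)) m₀ m) := by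
  rw [hom_trivializationAt_apply]
  ext u v
  have hb : m ∈ (trivializationAt 𝔼 (TangentSpace (𝓡 n)) m₀).baseSet := hm
  rw [inCoordinates_apply_eq₂ hb hb (Set.mem_univ _)]
  have hl : (chartAt 𝔼 m₀).symm (chartAt 𝔼 m₀ m) = m := (chartAt 𝔼 m₀).left_inv hm
  have hdom : chartAt 𝔼 m₀ m ∈ D.dom m₀ := by
    refine ⟨(chartAt 𝔼 m₀).map_source hm, ?_⟩
    show (chartAt 𝔼 m₀).symm (chartAt 𝔼 m₀ m) ∈ D.W
    rw [hl]; exact hW
  have h1 : ∀ w : 𝔼, (mfderiv (𝓡 n) (𝓡 n) D.psi m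
      ((trivializationAt 𝔼 (TangentSpace (𝓡 n)) m₀).symm m w) : 𝔼) =
      fderiv ℝ (D.tau m₀) (chartAt 𝔼 m₀ m) w := by
    intro w
    have h2 := TangentBundle.symmL_trivializationAt (I := 𝓡 n) (x₀ := m₀) (x := m) hm
    have h3 : (trivializationAt 𝔼 (TangentSpace (𝓡 n)) m₀).symm m w =
        mfderiv (𝓡 n) (𝓡 n) (chartAt 𝔼 m₀).symm (chartAt 𝔼 m₀ m) w := by
      rw [← Trivialization.symmL_apply (R := ℝ) _ hb w, h2]
      simp only [modelWithCornersSelf_coe, range_id, mfderivWithin_univ]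
      rfl
    rw [D.fderiv_tau m₀ hdom]
    have key : ∀ (p : M) (hp : p = m) (a : 𝔼),
        (mfderiv (𝓡 n) (𝓡 n) D.psi p (a : TangentSpace (𝓡 n) p) : 𝔼) =
          (mfderiv (𝓡 n) (𝓡 n) D.psi m (a : TangentSpace (𝓡 n) m) : 𝔼) := by
      intro p hp a; subst hp; rfl
    rw [h3]
    exact (key _ hl _).symm
  have h4 : ∀ y : ℝ, (Trivialization.linearMapAt ℝ (trivializationAt ℝ (fun _ : M => ℝ) m₀) m) y
      = y := by
    intro y
    rw [Trivialization.coe_linearMapAt_of_mem _ (mem_univ _)]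
    rfl
  refine (h4 _).trans ?_
  rw [D.B_apply, LocData.bC, pullB_apply, h1, h1]
  have h5 : D.tau m₀ (chartAt 𝔼 m₀ m) = D.psi m := by
    show D.psi ((chartAt 𝔼 m₀).symm (chartAt 𝔼 m₀ m)) = D.psi m
    rw [hl]
  rw [h5]

end

/-! ### a compatible family -/

/-- a compatible family of local data -/
structure LocAtlas (n : ℕ) (M : Type*) [TopologicalSpace M]
    [ChartedSpace (EuclideanSpace ℝ (Fin n)) M] where
  /-- the local data around a point -/
  D : M → LocData n M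
  mem : ∀ p, p ∈ (D p).W
  compat : ∀ p q y, y ∈ (D p).W → y ∈ (D q).W → ∀ v : TangentSpace (𝓡 n) y,
    (D p).q y v = (D q).q y v

section

variable {n : ℕ} {M : Type*} [TopologicalSpace M] [ChartedSpace (EuclideanSpace ℝ (Fin n)) M]
  [IsManifold (𝓡 n) ∞ M] (A : LocAtlas n M)

local notation "𝔼" => EuclideanSpace ℝ (Fin n)

/-- the metric tensor `psi^* h` -/
def LocAtlas.G (m : M) : TangentSpace (𝓡 n) m →L[ℝ] TangentSpace (𝓡 n) m →L[ℝ] ℝ := (A.D m).B m

theorem LocAtlas.G_eq (p : M) {m : M} (hm : m ∈ (A.D p).W) : A.G m = (A.D p).B m :=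
  LocData.B_congr (A.mem m) hm (A.compat m p m (A.mem m) hm)

/-- the Riemannian metric of a compatible family -/
def LocAtlas.met : Met n M where
  inner m := A.G m
  symm m u v := (A.D m).B_symm (A.mem m) u v
  pos m v hv := (A.D m).B_pos (A.mem m) v hv
  isVonNBounded m := R244.Man.Glue.isVonNBounded_of_pos fun v hv =>
    (A.D m).B_pos (A.mem m) v hv
  contMDiff := by
    intro m₀
    rw [contMDiffAt_section]
    have hev : ∀ᶠ m in 𝓝 m₀, (trivializationAt (𝔼 →L[ℝ] 𝔼 →L[ℝ] ℝ)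
        (fun x : M => TangentSpace (𝓡 n) x →L[ℝ] TangentSpace (𝓡 n) x →L[ℝ] ℝ) m₀
          ⟨m, A.G m⟩).2
        = (A.D m₀).bC m₀ (chartAt (EuclideanSpace ℝ (Fin n)) m₀ m) := by
      filter_upwards [(chartAt (EuclideanSpace ℝ (Fin n)) m₀).open_source.mem_nhds
        (mem_chart_source _ m₀), (A.D m₀).isOpen.mem_nhds (A.mem m₀)] with m hm hW
      rw [A.G_eq m₀ hW]
      exact (A.D m₀).inCoordinates m₀ m hm hW
    refine ContMDiffAt.congr_of_eventuallyEq ?_ hev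
    have hdom : chartAt 𝔼 m₀ m₀ ∈ (A.D m₀).dom m₀ := by
      refine ⟨(chartAt 𝔼 m₀).map_source (mem_chart_source _ _), ?_⟩
      show (chartAt 𝔼 m₀).symm (chartAt 𝔼 m₀ m₀) ∈ (A.D m₀).W
      rw [(chartAt 𝔼 m₀).left_inv (mem_chart_source _ _)]; exact A.mem m₀
    have h1 : ContMDiffAt 𝓘(ℝ, 𝔼) 𝓘(ℝ, 𝔼 →L[ℝ] 𝔼 →L[ℝ] ℝ) ∞ ((A.D m₀).bC m₀)
        (chartAt (EuclideanSpace ℝ (Fin n)) m₀ m₀) :=
      (((A.D m₀).contDiffOn_bC m₀).contDiffAt (((A.D m₀).isOpen_dom m₀).mem_nhds hdom)).contMDiffAt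
    exact h1.comp m₀ ((contMDiffOn_chart (I := 𝓡 n) (x := m₀)).contMDiffAt
      ((chartAt (EuclideanSpace ℝ (Fin n)) m₀).open_source.mem_nhds (mem_chart_source _ m₀)))

variable [T3Space M] [ConnectedSpace M]

/-- the coordinate metric of `MG A.met` is the pull back of `h` -/
theorem LocAtlas.pull_chart (x p : M) :
    Pull (chartMetric n (MG A.met) x) (A.D p).h ((A.D p).tau x) ((A.D p).dom x) (A.D p).V where
  isOpen := (A.D p).isOpen_dom x
  riem := (A.D p).riem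
  maps y hy := (A.D p).maps _ hy.2
  smooth := (A.D p).tau_contDiffOn x
  pull y hy i j := by
    rw [← bil_apply, (A.D p).fderiv_tau x hy, (A.D p).fderiv_tau x hy]
    have h1 : chartMetric n (MG A.met) x y i j =
      A.G ((chartAt 𝔼 x).symm y)
        (mfderiv (𝓡 n) (𝓡 n) (chartAt 𝔼 x).symm y (EuclideanSpace.single i 1))
        (mfderiv (𝓡 n) (𝓡 n) (chartAt 𝔼 x).symm y (EuclideanSpace.single j 1)) := rfl
    rw [h1, A.G_eq p hy.2, LocData.B_apply]
    rfl
  inj y hy := by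
    intro u v huv
    rw [(A.D p).fderiv_tau x hy, (A.D p).fderiv_tau x hy] at huv
    have h1 := (A.D p).inj _ hy.2 huv
    have h2 := (mdifferentiable_chart (I := 𝓡 n) x).comp_symm_deriv hy.1
    have h3 : ∀ w : 𝔼, mfderiv (𝓡 n) (𝓡 n) (chartAt 𝔼 x) ((chartAt 𝔼 x).symm y)
        (mfderiv (𝓡 n) (𝓡 n) (chartAt 𝔼 x).symm y w) = w := fun w =>
      congrArg (fun L : 𝔼 →L[ℝ] 𝔼 => L w) h2
    rw [← h3 u, ← h3 v, h1]

theorem LocAtlas.centre_mem (x : M) : chartCentre n (MG A.met) x ∈ (A.D x).dom x := by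
  refine ⟨(chartAt 𝔼 x).map_source (mem_chart_source _ _), ?_⟩
  show (chartAt 𝔼 x).symm (chartAt 𝔼 x x) ∈ (A.D x).W
  rw [(chartAt 𝔼 x).left_inv (mem_chart_source _ _)]; exact A.mem x

/-- the Einstein condition of the local metrics passes to `MG A.met` -/
theorem LocAtlas.isEinsteinWith {c : ℝ}
    (hE : ∀ p, ∀ x ∈ (A.D p).V, ∀ i j, ricci (A.D p).h x i j = c * (A.D p).h x i j) :
    IsEinsteinWith n (MG A.met) c := by
  intro x i j
  have hx := A.centre_mem x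
  have P := A.pull_chart x x
  set y := chartCentre n (MG A.met) x with hy
  have h1 := P.ricci_pull hx (EuclideanSpace.single i 1) (EuclideanSpace.single j 1)
  have h2 : ∑ a, ∑ b, ricci (A.D x).h ((A.D x).tau x y) a b *
      (fderiv ℝ ((A.D x).tau x) y (EuclideanSpace.single i 1)) a *
      (fderiv ℝ ((A.D x).tau x) y (EuclideanSpace.single j 1)) b =
      c * chartMetric n (MG A.met) x y i j := by
    rw [P.pull y hx i j, Finset.mul_sum]
    refine Finset.sum_congr rfl fun a _ => ?_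
    rw [Finset.mul_sum]
    refine Finset.sum_congr rfl fun b _ => ?_
    rw [hE x _ (P.maps y hx) a b]
    ring
  rw [h2] at h1
  rw [← h1]
  rw [Finset.sum_eq_single i, Finset.sum_eq_single j]
  · simp
  · intro b _ hb; simp [hb]
  · simp
  · intro b _ hb; simp [hb]
  · simp

/-- nonnegativity of the sectional curvatures of the local metrics passes to `MG A.met` -/
theorem LocAtlas.hasNonneg
    (hS : ∀ p, ∀ x ∈ (A.D p).V, ∀ u v, 0 ≤ secNumer (A.D p).h x u v) :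
    HasNonnegSectionalCurvature n (MG A.met) := by
  intro x u v
  have hx := A.centre_mem x
  rw [(A.pull_chart x x).secNumer_pull hx]
  exact hS x _ ((A.pull_chart x x).maps _ hx) _ _

end

end Crest.Agent.R249.Pul47
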