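import Crest.Agent.R249.Cd1_133
import Crest.Agent.R249.Ker12_254

/-!
# Row 249, part A (helper324): sub-boxes of the chart matrix `I2` (kernel check)
-/

set_option autoImplicit false
set_option linter.unusedVariables false

namespace Crest.Agent.R249.Px324

open Ker254 Cd133

def T_I200 : TreeX :=
(.nd 2 1 1
(.nd 2 1 2
(.nd 2 1 2
(.nd 0 1 1
(.nd 2 1 2
(.nd 2 1 2
(.nd 0 1 2
(.nd 2 1 2
(.nd 0 1 2
(.nd 2 1 2
(.nd 2 1 2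
(.nd 1 1 1
(.lf (.ofNat 8) (.ofNat 0) (.ofNat 9779) (.negSucc 7) (.negSucc 2405) (.ofNat 68)) (.lf (.ofNat 8) (.ofNat 0) (.ofNat 3796) (.negSucc 2) (.negSucc 502) (.ofNat 35))) (.lf (.ofNat 8) (.negSucc 0) (.ofNat 4686) (.negSucc 7) (.negSucc 1511) (.ofNat 76))) (.lf (.ofNat 8) (.negSucc 0) (.ofNat 2528) (.negSucc 6) (.negSucc 1156) (.ofNat 69))) (.lf (.ofNat 8) (.ofNat 0) (.ofNat 2414) (.negSucc 6) (.negSucc 648) (.ofNat 69))) (.lf (.ofNat 8) (.negSucc 1) (.ofNat 2081) (.negSucc 9) (.negSucc 985) (.ofNat 103))) (.lf (.ofNat 8) (.ofNat 0) (.ofNat 1419) (.negSucc 6) (.negSucc 381) (.ofNat 81))) (.nd 1 1 1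
(.lf (.ofNat 8) (.negSucc 0) (.ofNat 726) (.negSucc 6) (.negSucc 438) (.ofNat 69)) (.lf (.ofNat 8) (.negSucc 2) (.ofNat 1285) (.negSucc 8) (.negSucc 408) (.ofNat 109)))) (.lf (.ofNat 20) (.negSucc 4) (.ofNat 1024) (.negSucc 14) (.negSucc 659) (.ofNat 183))) (.nd 2 1 2
(.lf (.ofNat 8) (.ofNat 0) (.ofNat 539) (.negSucc 4) (.negSucc 153) (.ofNat 70)) (.lf (.ofNat 11) (.negSucc 0) (.ofNat 256) (.negSucc 4) (.negSucc 128) (.ofNat 72)))) (.nd 0 1 1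
(.lf (.ofNat 9) (.negSucc 1) (.ofNat 256) (.negSucc 5) (.negSucc 176) (.ofNat 77)) (.lf (.ofNat 19) (.negSucc 2) (.ofNat 256) (.negSucc 7) (.negSucc 174) (.ofNat 126)))) (.nd 2 2 1
(.nd 0 1 1
(.lf (.ofNat 95) (.negSucc 17) (.ofNat 1024) (.negSucc 50) (.negSucc 973) (.ofNat 634)) (.lf (.ofNat 38) (.negSucc 5) (.ofNat 256) (.negSucc 14) (.negSucc 251) (.ofNat 237))) (.lf (.ofNat 29) (.negSucc 7) (.ofNat 256) (.negSucc 14) (.negSucc 202) (.ofNat 206)))) (.nd 2 2 1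
(.lf (.ofNat 33) (.negSucc 12) (.ofNat 256) (.negSucc 17) (.negSucc 185) (.ofNat 255)) (.lf (.ofNat 35) (.negSucc 14) (.ofNat 174) (.negSucc 17) (.negSucc 136) (.ofNat 256))))

theorem ok_I200 : okT 2 T_I200 = true := by decide +kernel

theorem r0_I200 : runX 349 13 8 5 550907180400000 ⟨none, some (1, 10)⟩ ⟨some (1, 10), some (1, 1)⟩ ⟨none, some (1, 10)⟩ 0 T_I200
    [PI00, PI02, PI01, PI22, PI12, PI11] = true := by
  decide +kernel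

theorem r1_I200 : runX 29 1 2 1 1 ⟨none, some (1, 10)⟩ ⟨some (1, 10), some (1, 1)⟩ ⟨none, some (1, 10)⟩ 1 T_I200
    [[[[-1]]], [], [], [], [], []] = true := by
  decide +kernel

theorem r2_I200 : runX 29 1 2 1 1 ⟨none, some (1, 10)⟩ ⟨some (1, 10), some (1, 1)⟩ ⟨none, some (1, 10)⟩ 2 T_I200
    [[[[-1]]], [], [], [], [], []] = true := by
  decide +kernel

theorem q_I200 {w v T : ℝ} (l0 : Lim.In ⟨none, some (1, 10)⟩ w) (l1 : Lim.In ⟨some (1, 10), some (1, 1)⟩ v) (l2 : Lim.In ⟨none, some (1, 10)⟩ T)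
    (hK : 0 < ev3 w v T KI) (x1 x2 x3 : ℝ) :
    0 ≤ qf (ev3 w v T PI00) (ev3 w v T PI01) (ev3 w v T PI02) (ev3 w v T PI11)
      (ev3 w v T PI12) (ev3 w v T PI22) x1 x2 x3 := by
  have hg : ev3 w v T [[[-1]]] < 0 := by simp [ev3, ev2, ev1]
  have hg2 : ev3 w v T [[[-1]]] < 0 := by simp [ev3, ev2, ev1]
  have h := psdX ok_I200 r0_I200 r1_I200 r2_I200 l0 l1 l2 hg hg2 x1 x3 x2
  simp only [qf] at h ⊢
  linarith

def T_I201 : TreeX :=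
(.nd 2 1 1
(.nd 2 1 2
(.nd 0 1 1
(.nd 2 1 2
(.nd 0 1 2
(.nd 0 1 2
(.nd 2 1 2
(.nd 2 1 2
(.lf (.ofNat 24) (.ofNat 0) (.ofNat 4096) (.negSucc 10) (.negSucc 553) (.ofNat 124)) (.lf (.ofNat 8) (.negSucc 3) (.ofNat 907) (.negSucc 3) (.negSucc 197) (.ofNat 48))) (.nd 0 1 2
(.nd 1 1 1
(.lf (.ofNat 8) (.negSucc 2) (.ofNat 503) (.negSucc 2) (.negSucc 229) (.ofNat 45)) (.nd 1 2 1
(.lf (.ofNat 8) (.negSucc 4) (.ofNat 651) (.negSucc 1) (.negSucc 189) (.ofNat 40)) (.out 0))) (.lf (.ofNat 8) (.negSucc 2) (.ofNat 384) (.negSucc 1) (.negSucc 103) (.ofNat 34)))) (.lf (.ofNat 26) (.ofNat 0) (.ofNat 1024) (.negSucc 8) (.negSucc 224) (.ofNat 112))) (.lf (.ofNat 10) (.ofNat 0) (.ofNat 256) (.negSucc 2) (.negSucc 45) (.ofNat 39))) (.nd 0 1 2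
(.nd 0 1 2
(.nd 1 1 1
(.lf (.ofNat 8) (.negSucc 4) (.ofNat 364) (.negSucc 2) (.negSucc 173) (.ofNat 58)) (.nd 1 2 1
(.nd 1 1 2
(.lf (.ofNat 8) (.negSucc 7) (.ofNat 482) (.negSucc 2) (.negSucc 210) (.ofNat 68)) (.out 0)) (.out 0))) (.lf (.ofNat 10) (.negSucc 3) (.ofNat 256) (.negSucc 2) (.negSucc 83) (.ofNat 49))) (.lf (.ofNat 13) (.negSucc 4) (.ofNat 256) (.negSucc 3) (.negSucc 68) (.ofNat 66)))) (.lf (.ofNat 20) (.ofNat 0) (.ofNat 256) (.negSucc 4) (.negSucc 56) (.ofNat 91))) (.nd 0 1 1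
(.nd 0 1 2
(.nd 1 1 1
(.nd 2 2 1
(.lf (.ofNat 9) (.negSucc 5) (.ofNat 256) (.negSucc 2) (.negSucc 112) (.ofNat 63)) (.lf (.ofNat 13) (.negSucc 8) (.ofNat 256) (.negSucc 3) (.negSucc 122) (.ofNat 86))) (.nd 1 2 1
(.nd 1 1 2
(.nd 0 1 2
(.nd 2 2 1
(.lf (.ofNat 8) (.negSucc 10) (.ofNat 415) (.negSucc 2) (.negSucc 281) (.ofNat 109)) (.nd 0 1 2
(.lf (.ofNat 8) (.negSucc 13) (.ofNat 372) (.negSucc 0) (.negSucc 446) (.ofNat 168)) (.lf (.ofNat 15) (.negSucc 9) (.ofNat 256) (.negSucc 1) (.negSucc 164) (.ofNat 89)))) (.lf (.ofNat 14) (.negSucc 8) (.ofNat 256) (.negSucc 2) (.negSucc 103) (.ofNat 76))) (.out 0)) (.out 0))) (.lf (.ofNat 20) (.negSucc 9) (.ofNat 256) (.negSucc 4) (.negSucc 98) (.ofNat 111))) (.lf (.ofNat 27) (.negSucc 12) (.ofNat 256) (.negSucc 5) (.negSucc 83) (.ofNat 154)))) (.nd 0 1 1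
(.nd 0 1 2
(.nd 1 1 1
(.nd 2 2 1
(.lf (.ofNat 15) (.negSucc 13) (.ofNat 256) (.negSucc 4) (.negSucc 134) (.ofNat 125)) (.lf (.ofNat 24) (.negSucc 20) (.ofNat 256) (.negSucc 6) (.negSucc 131) (.ofNat 165))) (.nd 1 2 1
(.nd 1 1 2
(.nd 0 1 2
(.nd 2 2 1
(.nd 2 1 2
(.nd 0 1 2
(.lf (.ofNat 73) (.negSucc 153) (.ofNat 3130) (.ofNat 2) (.negSucc 4095) (.ofNat 1849)) (.lf (.ofNat 19) (.negSucc 12) (.ofNat 256) (.negSucc 1) (.negSucc 186) (.ofNat 116))) (.lf (.ofNat 8) (.negSucc 17) (.ofNat 277) (.negSucc 0) (.negSucc 273) (.ofNat 170))) (.lf (.ofNat 47) (.negSucc 84) (.ofNat 1024) (.ofNat 0) (.negSucc 945) (.ofNat 717))) (.lf (.ofNat 23) (.negSucc 19) (.ofNat 256) (.negSucc 2) (.negSucc 161) (.ofNat 161))) (.out 0)) (.out 0))) (.nd 1 1 1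
(.lf (.ofNat 32) (.negSucc 20) (.ofNat 256) (.negSucc 6) (.negSucc 136) (.ofNat 206)) (.nd 1 2 1
(.lf (.ofNat 27) (.negSucc 22) (.ofNat 256) (.negSucc 2) (.negSucc 116) (.ofNat 164)) (.out 0)))) (.lf (.ofNat 34) (.negSucc 26) (.ofNat 256) (.negSucc 4) (.negSucc 101) (.ofNat 221))))

theorem ok_I201 : okT 2 T_I201 = true := by decide +kernel

theorem r0_I201 : runX 354 13 8 5 550907180400000 ⟨none, some (1, 10)⟩ ⟨some (1, 5), some (1, 4)⟩ ⟨none, some (1, 10)⟩ 0 T_I201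
    [PI00, PI02, PI01, PI22, PI12, PI11] = true := by
  decide +kernel

/-- `-K` -/
def NKI_I201 : P3 := [[[-8], [35]], [[], [], [-40]]]

theorem r1_I201 : runX 57 1 2 1 40 ⟨none, some (1, 10)⟩ ⟨some (1, 5), some (1, 4)⟩ ⟨none, some (1, 10)⟩ 1 T_I201
    [NKI_I201, [], [], [], [], []] = true := by
  decide +kernel

theorem r2_I201 : runX 57 1 2 1 1 ⟨none, some (1, 10)⟩ ⟨some (1, 5), some (1, 4)⟩ ⟨none, some (1, 10)⟩ 2 T_I201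
    [[[[-1]]], [], [], [], [], []] = true := by
  decide +kernel

theorem q_I201 {w v T : ℝ} (l0 : Lim.In ⟨none, some (1, 10)⟩ w) (l1 : Lim.In ⟨some (1, 5), some (1, 4)⟩ v) (l2 : Lim.In ⟨none, some (1, 10)⟩ T)
    (hK : 0 < ev3 w v T KI) (x1 x2 x3 : ℝ) :
    0 ≤ qf (ev3 w v T PI00) (ev3 w v T PI01) (ev3 w v T PI02) (ev3 w v T PI11)
      (ev3 w v T PI12) (ev3 w v T PI22) x1 x2 x3 := by
  have hg : ev3 w v T NKI_I201 < 0 := by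
    have e : ev3 w v T NKI_I201 = -ev3 w v T KI := by
      simp [NKI_I201, KI, ev3, ev2, ev1]
      ring
    rw [e]; linarith
  have hg2 : ev3 w v T [[[-1]]] < 0 := by simp [ev3, ev2, ev1]
  have h := psdX ok_I201 r0_I201 r1_I201 r2_I201 l0 l1 l2 hg hg2 x1 x3 x2
  simp only [qf] at h ⊢
  linarith

def T_I21 : TreeX :=
(.nd 2 1 1
(.nd 0 1 1
(.nd 2 1 2
(.nd 1 1 1
(.nd 2 1 2
(.lf (.ofNat 16) (.ofNat 0) (.ofNat 256) (.negSucc 4) (.negSucc 103) (.ofNat 88)) (.lf (.ofNat 27) (.negSucc 2) (.ofNat 256) (.negSucc 8) (.negSucc 144) (.ofNat 155))) (.lf (.ofNat 34) (.ofNat 0) (.ofNat 256) (.negSucc 6) (.negSucc 61) (.ofNat 162))) (.nd 1 1 1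
(.lf (.ofNat 43) (.negSucc 7) (.ofNat 244) (.negSucc 14) (.negSucc 180) (.ofNat 256)) (.lf (.ofNat 42) (.negSucc 17) (.ofNat 256) (.negSucc 8) (.negSucc 84) (.ofNat 255)))) (.nd 1 1 1
(.nd 1 1 2
(.nd 0 2 1
(.lf (.ofNat 50) (.ofNat 0) (.ofNat 256) (.negSucc 14) (.negSucc 171) (.ofNat 232)) (.lf (.ofNat 74) (.ofNat 0) (.ofNat 234) (.negSucc 14) (.negSucc 145) (.ofNat 256))) (.nd 0 2 1
(.lf (.ofNat 69) (.ofNat 0) (.ofNat 248) (.negSucc 10) (.negSucc 111) (.ofNat 256)) (.lf (.ofNat 78) (.ofNat 0) (.ofNat 221) (.negSucc 12) (.negSucc 59) (.ofNat 256)))) (.nd 0 2 1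
(.nd 2 1 2
(.lf (.ofNat 76) (.ofNat 0) (.ofNat 256) (.negSucc 11) (.negSucc 26) (.ofNat 242)) (.lf (.ofNat 203) (.negSucc 86) (.ofNat 755) (.negSucc 55) (.negSucc 85) (.ofNat 1024))) (.nd 1 2 1
(.lf (.ofNat 105) (.ofNat 0) (.ofNat 205) (.negSucc 15) (.negSucc 9) (.ofNat 256)) (.nd 0 2 1
(.nd 2 1 2
(.lf (.ofNat 147) (.ofNat 0) (.ofNat 220) (.negSucc 22) (.ofNat 12) (.ofNat 256)) (.lf (.ofNat 124) (.negSucc 49) (.ofNat 213) (.negSucc 26) (.ofNat 15) (.ofNat 256))) (.nd 1 2 1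
(.lf (.ofNat 168) (.ofNat 0) (.ofNat 144) (.negSucc 28) (.ofNat 10) (.ofNat 256)) (.nd 0 2 1
(.lf (.ofNat 112) (.ofNat 0) (.ofNat 65) (.negSucc 45) (.ofNat 18) (.ofNat 256)) (.nd 1 2 1
(.lf (.ofNat 147) (.ofNat 0) (.ofNat 70) (.negSucc 51) (.ofNat 13) (.ofNat 256)) (.nd 0 2 1
(.lf (.ofNat 123) (.ofNat 0) (.ofNat 45) (.negSucc 74) (.ofNat 17) (.ofNat 256)) (.nd 2 1 2
(.lf (.ofNat 101) (.ofNat 0) (.ofNat 29) (.negSucc 91) (.ofNat 13) (.ofNat 256)) (.lf (.ofNat 106) (.negSucc 32) (.ofNat 30) (.negSucc 88) (.ofNat 13) (.ofNat 256)))))))))))) (.nd 1 1 1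
(.nd 0 1 1
(.lf (.ofNat 42) (.negSucc 11) (.ofNat 131) (.negSucc 14) (.negSucc 118) (.ofNat 256)) (.lf (.ofNat 207) (.negSucc 70) (.ofNat 486) (.negSucc 55) (.negSucc 311) (.ofNat 1024))) (.nd 0 1 1
(.nd 0 1 2
(.lf (.ofNat 38) (.negSucc 29) (.ofNat 233) (.negSucc 6) (.negSucc 86) (.ofNat 256)) (.lf (.ofNat 39) (.negSucc 29) (.ofNat 188) (.negSucc 8) (.negSucc 51) (.ofNat 256))) (.nd 0 2 1
(.nd 1 2 1
(.lf (.ofNat 56) (.negSucc 36) (.ofNat 194) (.negSucc 12) (.negSucc 32) (.ofNat 256)) (.lf (.ofNat 56) (.negSucc 41) (.ofNat 167) (.negSucc 21) (.ofNat 12) (.ofNat 256))) (.nd 1 2 1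
(.lf (.ofNat 101) (.negSucc 50) (.ofNat 182) (.negSucc 20) (.negSucc 0) (.ofNat 256)) (.nd 0 2 1
(.nd 2 2 1
(.lf (.ofNat 111) (.negSucc 52) (.ofNat 152) (.negSucc 30) (.ofNat 19) (.ofNat 256)) (.lf (.ofNat 98) (.negSucc 52) (.ofNat 119) (.negSucc 33) (.ofNat 22) (.ofNat 256))) (.nd 1 2 1
(.lf (.ofNat 131) (.negSucc 63) (.ofNat 118) (.negSucc 34) (.ofNat 14) (.ofNat 256)) (.nd 0 2 1
(.lf (.ofNat 99) (.negSucc 51) (.ofNat 68) (.negSucc 48) (.ofNat 20) (.ofNat 256)) (.nd 1 2 1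
(.lf (.ofNat 131) (.negSucc 63) (.ofNat 64) (.negSucc 52) (.ofNat 14) (.ofNat 256)) (.nd 0 2 1
(.lf (.ofNat 119) (.negSucc 61) (.ofNat 47) (.negSucc 69) (.ofNat 16) (.ofNat 256)) (.lf (.ofNat 510) (.negSucc 221) (.ofNat 119) (.negSucc 332) (.ofNat 51) (.ofNat 1024))))))))))))

theorem ok_I21 : okT 2 T_I21 = true := by decide +kernel

theorem r0_I21 : runX 392 13 8 5 550907180400000 ⟨some (1, 10), some (2, 1)⟩ ⟨some (1, 10), some (3, 2)⟩ ⟨none, some (1, 10)⟩ 0 T_I21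
    [PI00, PI02, PI01, PI22, PI12, PI11] = true := by
  decide +kernel

theorem r1_I21 : runX 33 1 2 1 1 ⟨some (1, 10), some (2, 1)⟩ ⟨some (1, 10), some (3, 2)⟩ ⟨none, some (1, 10)⟩ 1 T_I21
    [[[[-1]]], [], [], [], [], []] = true := by
  decide +kernel

theorem r2_I21 : runX 33 1 2 1 1 ⟨some (1, 10), some (2, 1)⟩ ⟨some (1, 10), some (3, 2)⟩ ⟨none, some (1, 10)⟩ 2 T_I21
    [[[[-1]]], [], [], [], [], []] = true := by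
  decide +kernel

theorem q_I21 {w v T : ℝ} (l0 : Lim.In ⟨some (1, 10), some (2, 1)⟩ w) (l1 : Lim.In ⟨some (1, 10), some (3, 2)⟩ v) (l2 : Lim.In ⟨none, some (1, 10)⟩ T)
    (hK : 0 < ev3 w v T KI) (x1 x2 x3 : ℝ) :
    0 ≤ qf (ev3 w v T PI00) (ev3 w v T PI01) (ev3 w v T PI02) (ev3 w v T PI11)
      (ev3 w v T PI12) (ev3 w v T PI22) x1 x2 x3 := by
  have hg : ev3 w v T [[[-1]]] < 0 := by simp [ev3, ev2, ev1]
  have hg2 : ev3 w v T [[[-1]]] < 0 := by simp [ev3, ev2, ev1]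
  have h := psdX ok_I21 r0_I21 r1_I21 r2_I21 l0 l1 l2 hg hg2 x1 x3 x2
  simp only [qf] at h ⊢
  linarith

end Crest.Agent.R249.Px324
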