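import Crest.Agent.R249.Cd1_133
import Crest.Agent.R249.Ker12_254

/-!
# Row 249, part A (helper324): the chart matrix `Ib` is positive semidefinite (kernel check)
-/

set_option autoImplicit false
set_option linter.unusedVariables false

namespace Crest.Agent.R249.Px324

open Ker254 Cd133

def T_Ib : TreeX :=
(.nd 2 1 1
(.nd 2 1 2
(.nd 1 1 1
(.nd 2 1 2
(.nd 0 1 1
(.nd 2 1 2
(.nd 2 1 2
(.nd 0 1 2
(.nd 2 1 2
(.nd 0 1 2
(.nd 2 1 2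
(.nd 2 1 2
(.nd 0 1 2
(.nd 2 1 2
(.nd 2 1 2
(.nd 2 1 2
(.nd 0 1 2
(.lf (.ofNat 8) (.ofNat 0) (.ofNat 1954) (.negSucc 6) (.negSucc 589) (.ofNat 21)) (.lf (.ofNat 21) (.ofNat 0) (.ofNat 1024) (.negSucc 7) (.negSucc 324) (.ofNat 26))) (.lf (.ofNat 8) (.ofNat 0) (.ofNat 693) (.negSucc 4) (.negSucc 267) (.ofNat 17))) (.lf (.ofNat 8) (.ofNat 0) (.ofNat 381) (.negSucc 4) (.negSucc 206) (.ofNat 16))) (.lf (.ofNat 817) (.ofNat 2) (.ofNat 16384) (.negSucc 434) (.negSucc 12905) (.ofNat 1387))) (.lf (.ofNat 8) (.ofNat 0) (.ofNat 268) (.negSucc 4) (.negSucc 81) (.ofNat 18))) (.lf (.ofNat 15) (.ofNat 0) (.ofNat 256) (.negSucc 10) (.negSucc 165) (.ofNat 36))) (.lf (.ofNat 47) (.ofNat 1) (.ofNat 256) (.negSucc 24) (.negSucc 239) (.ofNat 80))) (.lf (.ofNat 29) (.ofNat 0) (.ofNat 256) (.negSucc 16) (.negSucc 90) (.ofNat 61))) (.lf (.ofNat 59) (.ofNat 3)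 (.ofNat 256) (.negSucc 38) (.negSucc 180) (.ofNat 131))) (.lf (.ofNat 247) (.ofNat 0) (.ofNat 256) (.negSucc 53) (.negSucc 118) (.ofNat 226))) (.nd 0 1 2
(.lf (.ofNat 146) (.ofNat 6) (.ofNat 251) (.negSucc 76) (.negSucc 218) (.ofNat 256)) (.lf (.ofNat 232) (.ofNat 29) (.ofNat 241) (.negSucc 67) (.negSucc 104) (.ofNat 256)))) (.nd 0 1 2
(.lf (.ofNat 146) (.ofNat 5) (.ofNat 114) (.negSucc 77) (.negSucc 123) (.ofNat 256)) (.lf (.ofNat 222) (.ofNat 32) (.ofNat 137) (.negSucc 74) (.negSucc 78) (.ofNat 256)))) (.lf (.ofNat 256) (.ofNat 0) (.ofNat 103) (.negSucc 29) (.negSucc 24) (.ofNat 126))) (.nd 0 1 1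
(.nd 0 1 2
(.lf (.ofNat 138) (.ofNat 4) (.ofNat 51) (.negSucc 77) (.negSucc 65) (.ofNat 256)) (.lf (.ofNat 178) (.ofNat 28) (.ofNat 60) (.negSucc 80) (.negSucc 51) (.ofNat 256))) (.lf (.ofNat 228) (.ofNat 97) (.ofNat 75) (.negSucc 88) (.negSucc 37) (.ofNat 256)))) (.nd 2 1 2
(.nd 0 1 1
(.nd 2 1 2
(.nd 0 1 2
(.nd 2 1 2
(.nd 2 1 2
(.nd 0 1 2
(.nd 2 1 2
(.nd 2 1 2
(.nd 0 1 2
(.nd 2 1 2
(.lf (.ofNat 16) (.ofNat 0) (.ofNat 4096) (.negSucc 23) (.negSucc 963) (.ofNat 144)) (.lf (.ofNat 8) (.ofNat 0) (.ofNat 301) (.negSucc 4) (.negSucc 158) (.ofNat 30))) (.lf (.ofNat 26) (.ofNat 0) (.ofNat 256) (.negSucc 10) (.negSucc 171) (.ofNat 73))) (.lf (.ofNat 25) (.negSucc 0) (.ofNat 1024) (.negSucc 23) (.negSucc 419) (.ofNat 149))) (.lf (.ofNat 62) (.negSucc 0) (.ofNat 1024) (.negSucc 45) (.negSucc 636) (.ofNat 295))) (.lf (.ofNat 49) (.ofNat 0) (.ofNat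 256) (.negSucc 19) (.negSucc 135) (.ofNat 145))) (.nd 1 2 1
(.lf (.ofNat 20) (.ofNat 0) (.ofNat 256) (.negSucc 20) (.negSucc 134) (.ofNat 122)) (.lf (.ofNat 15) (.negSucc 0) (.ofNat 256) (.negSucc 15) (.negSucc 116) (.ofNat 123)))) (.lf (.ofNat 49) (.ofNat 0) (.ofNat 256) (.negSucc 37) (.negSucc 179) (.ofNat 253))) (.lf (.ofNat 112) (.ofNat 0) (.ofNat 194) (.negSucc 31) (.negSucc 87) (.ofNat 256))) (.nd 0 1 2
(.lf (.ofNat 58) (.negSucc 0) (.ofNat 120) (.negSucc 37) (.negSucc 111) (.ofNat 256)) (.lf (.ofNat 101) (.ofNat 5) (.ofNat 93) (.negSucc 33) (.negSucc 63) (.ofNat 256)))) (.lf (.ofNat 185) (.ofNat 0) (.ofNat 104) (.negSucc 27) (.negSucc 42) (.ofNat 256))) (.nd 0 1 1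
(.lf (.ofNat 231) (.ofNat 6) (.ofNat 262) (.negSucc 145) (.negSucc 213) (.ofNat 1024)) (.lf (.ofNat 135) (.ofNat 13) (.ofNat 50) (.negSucc 34) (.negSucc 31) (.ofNat 256))))) (.nd 1 1 1
(.nd 0 1 1
(.nd 1 1 2
(.lf (.ofNat 225) (.ofNat 24) (.ofNat 33) (.negSucc 103) (.negSucc 32) (.ofNat 256)) (.lf (.ofNat 133) (.ofNat 9) (.ofNat 32) (.negSucc 62) (.negSucc 31) (.ofNat 256))) (.nd 1 1 2
(.lf (.ofNat 256) (.ofNat 129) (.ofNat 41) (.negSucc 89) (.negSucc 18) (.ofNat 187)) (.lf (.ofNat 181) (.ofNat 52) (.ofNat 27) (.negSucc 90) (.negSucc 27) (.ofNat 256)))) (.nd 0 1 1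
(.lf (.ofNat 251) (.negSucc 1) (.ofNat 111) (.negSucc 146) (.negSucc 121) (.ofNat 1024)) (.lf (.ofNat 110) (.ofNat 10) (.ofNat 23) (.negSucc 39) (.negSucc 22) (.ofNat 256))))) (.nd 1 1 1
(.nd 0 1 1
(.nd 1 1 2
(.lf (.ofNat 211) (.ofNat 19) (.ofNat 15) (.negSucc 102) (.negSucc 16) (.ofNat 256)) (.lf (.ofNat 122) (.ofNat 5) (.ofNat 14) (.negSucc 62) (.negSucc 16) (.ofNat 256))) (.nd 1 1 2
(.lf (.ofNat 208) (.ofNat 107) (.ofNat 17) (.negSucc 143) (.negSucc 15) (.ofNat 256)) (.nd 2 2 1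
(.nd 0 2 1
(.lf (.ofNat 143) (.ofNat 29) (.ofNat 13) (.negSucc 87) (.negSucc 18) (.ofNat 256)) (.lf (.ofNat 150) (.ofNat 52) (.ofNat 13) (.negSucc 124) (.negSucc 21) (.ofNat 256))) (.nd 0 2 1
(.lf (.ofNat 147) (.ofNat 24) (.ofNat 8) (.negSucc 105) (.negSucc 16) (.ofNat 299)) (.lf (.ofNat 127) (.ofNat 48) (.ofNat 9) (.negSucc 134) (.negSucc 16) (.ofNat 256)))))) (.nd 0 1 1
(.lf (.ofNat 57) (.negSucc 2) (.ofNat 10) (.negSucc 36) (.negSucc 15) (.ofNat 256)) (.nd 1 2 1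
(.nd 2 2 1
(.lf (.ofNat 107) (.ofNat 16) (.ofNat 14) (.negSucc 57) (.negSucc 17) (.ofNat 256)) (.lf (.ofNat 95) (.ofNat 12) (.ofNat 9) (.negSucc 60) (.negSucc 12) (.ofNat 256))) (.lf (.ofNat 68) (.negSucc 1) (.ofNat 11) (.negSucc 31) (.negSucc 12) (.ofNat 256))))))

theorem ok_Ib : okT 2 T_Ib = true := by decide +kernel

theorem r0_Ib : runX 417 13 9 5 550907180400000 ⟨none, some (3, 10)⟩ ⟨none, some (1, 10)⟩ ⟨none, some (1, 1)⟩ 0 T_Ib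
    [PIb00, PIb02, PIb01, PIb22, PIb12, PIb11] = true := by
  decide +kernel

theorem r1_Ib : runX 26 1 2 1 1 ⟨none, some (3, 10)⟩ ⟨none, some (1, 10)⟩ ⟨none, some (1, 1)⟩ 1 T_Ib
    [[[[-1]]], [], [], [], [], []] = true := by
  decide +kernel

theorem r2_Ib : runX 26 1 2 1 1 ⟨none, some (3, 10)⟩ ⟨none, some (1, 10)⟩ ⟨none, some (1, 1)⟩ 2 T_Ib
    [[[[-1]]], [], [], [], [], []] = true := by
  decide +kernel

theorem pIb {w v a : ℝ} (h0 : 0 ≤ w) (h1 : 10 * w ≤ 3) (h2 : 0 ≤ v) (h3 : 10 * v ≤ 1) (h4 : 0 ≤ a) (h5 : a ≤ 1)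
    (hK : 0 < ev3 w v a KIb) (x1 x2 x3 : ℝ) :
    0 ≤ qf (ev3 w v a PIb00) (ev3 w v a PIb01) (ev3 w v a PIb02) (ev3 w v a PIb11)
      (ev3 w v a PIb12) (ev3 w v a PIb22) x1 x2 x3 := by
  have hg : ev3 w v a [[[-1]]] < 0 := by simp [ev3, ev2, ev1]
  have hg2 : ev3 w v a [[[-1]]] < 0 := by simp [ev3, ev2, ev1]
  have l0 : Lim.In ⟨none, some (3, 10)⟩ w := Lim.in_hi (α := 3) (β := 10) (by norm_num) (by norm_num) (by linarith) (by norm_num; linarith)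
  have l1 : Lim.In ⟨none, some (1, 10)⟩ v := Lim.in_hi (α := 1) (β := 10) (by norm_num) (by norm_num) (by linarith) (by norm_num; linarith)
  have l2 : Lim.In ⟨none, some (1, 1)⟩ a := Lim.in_hi (α := 1) (β := 1) (by norm_num) (by norm_num) (by linarith) (by norm_num; linarith)
  have h := psdX ok_Ib r0_Ib r1_Ib r2_Ib l0 l1 l2 hg hg2 x1 x3 x2
  simp only [qf] at h ⊢
  linarith

end Crest.Agent.R249.Px324
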