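import Crest.Agent.R249.Cd1_133
import Crest.Agent.R249.Ker12_254

/-!
# Row 249, part A (helper324): sub-boxes of the chart matrix `I` (kernel check)
-/

set_option autoImplicit false
set_option linter.unusedVariables false

namespace Crest.Agent.R249.Px324

open Ker254 Cd133

def T_I000 : TreeX :=
(.nd 2 1 1
(.nd 2 1 2
(.nd 1 1 1
(.nd 2 1 2
(.nd 1 1 2
(.nd 2 1 2
(.lf (.ofNat 210) (.ofNat 11) (.ofNat 81) (.negSucc 111) (.negSucc 120) (.ofNat 256)) (.lf (.ofNat 214) (.ofNat 2) (.ofNat 58) (.negSucc 111) (.negSucc 97) (.ofNat 256))) (.nd 0 1 1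
(.lf (.ofNat 106) (.negSucc 11) (.ofNat 67) (.negSucc 57) (.negSucc 98) (.ofNat 256)) (.nd 1 2 1
(.nd 0 2 1
(.lf (.ofNat 100) (.ofNat 4) (.ofNat 58) (.negSucc 99) (.negSucc 107) (.ofNat 256)) (.lf (.ofNat 113) (.ofNat 25) (.ofNat 69) (.negSucc 145) (.negSucc 118) (.ofNat 256))) (.lf (.ofNat 82) (.ofNat 1) (.ofNat 59) (.negSucc 83) (.negSucc 102) (.ofNat 256))))) (.nd 1 1 2
(.lf (.ofNat 203) (.negSucc 9) (.ofNat 45) (.negSucc 114) (.negSucc 74) (.ofNat 256)) (.nd 1 2 1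
(.lf (.ofNat 165) (.negSucc 14) (.ofNat 42) (.negSucc 86) (.negSucc 69) (.ofNat 256)) (.lf (.ofNat 112) (.negSucc 13) (.ofNat 35) (.negSucc 67) (.negSucc 66) (.ofNat 256))))) (.nd 2 1 2
(.nd 0 1 1
(.lf (.ofNat 47) (.negSucc 11) (.ofNat 72) (.negSucc 32) (.negSucc 93) (.ofNat 256)) (.lf (.ofNat 69) (.negSucc 16) (.ofNat 83) (.negSucc 32) (.negSucc 82) (.ofNat 256))) (.lf (.ofNat 63) (.negSucc 25) (.ofNat 67) (.negSucc 34) (.negSucc 60) (.ofNat 256)))) (.nd 1 1 1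
(.nd 1 1 2
(.lf (.ofNat 178) (.negSucc 41) (.ofNat 32) (.negSucc 126) (.negSucc 48) (.ofNat 256)) (.nd 0 1 1
(.lf (.ofNat 97) (.negSucc 43) (.ofNat 40) (.negSucc 69) (.negSucc 39) (.ofNat 256)) (.nd 0 2 1
(.lf (.ofNat 96) (.negSucc 45) (.ofNat 38) (.negSucc 97) (.negSucc 40) (.ofNat 256)) (.lf (.ofNat 591) (.negSucc 229) (.ofNat 177) (.negSucc 447) (.negSucc 163) (.ofNat 1024))))) (.nd 0 1 1
(.lf (.ofNat 60) (.negSucc 39) (.ofNat 54) (.negSucc 39) (.negSucc 35) (.ofNat 256)) (.lf (.ofNat 298) (.negSucc 206) (.ofNat 250) (.negSucc 144) (.negSucc 139) (.ofNat 1024))))) (.nd 1 1 1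
(.nd 1 1 2
(.nd 1 1 2
(.nd 2 2 1
(.lf (.ofNat 256) (.negSucc 137) (.ofNat 29) (.negSucc 139) (.negSucc 26) (.ofNat 211)) (.nd 0 1 1
(.nd 1 1 2
(.nd 0 1 2
(.lf (.ofNat 256) (.negSucc 91) (.ofNat 14) (.negSucc 49) (.negSucc 8) (.ofNat 107)) (.lf (.ofNat 1024) (.negSucc 437) (.ofNat 37) (.negSucc 247) (.negSucc 29) (.ofNat 308))) (.lf (.ofNat 4096) (.negSucc 2356) (.ofNat 326) (.negSucc 1535) (.negSucc 186) (.ofNat 2523))) (.nd 1 1 2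
(.nd 2 2 1
(.lf (.ofNat 256) (.negSucc 143) (.ofNat 10) (.negSucc 72) (.negSucc 6) (.ofNat 66)) (.lf (.ofNat 256) (.negSucc 194) (.ofNat 8) (.negSucc 58) (.negSucc 3) (.ofNat 44))) (.lf (.ofNat 1024) (.negSucc 919) (.ofNat 73) (.negSucc 647) (.negSucc 33) (.ofNat 529))))) (.nd 0 1 1
(.nd 2 2 1
(.lf (.ofNat 211) (.negSucc 108) (.ofNat 35) (.negSucc 107) (.negSucc 25) (.ofNat 256)) (.nd 1 2 1
(.lf (.ofNat 238) (.negSucc 178) (.ofNat 31) (.negSucc 150) (.negSucc 13) (.ofNat 256)) (.lf (.ofNat 150) (.negSucc 128) (.ofNat 27) (.negSucc 140) (.negSucc 9) (.ofNat 256)))) (.nd 0 2 1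
(.nd 2 2 1
(.lf (.ofNat 194) (.negSucc 129) (.ofNat 31) (.negSucc 180) (.negSucc 24) (.ofNat 256)) (.nd 0 1 2
(.lf (.ofNat 235) (.negSucc 227) (.ofNat 34) (.negSucc 223) (.negSucc 8) (.ofNat 256)) (.lf (.ofNat 237) (.negSucc 255) (.ofNat 36) (.negSucc 197) (.negSucc 6) (.ofNat 213)))) (.nd 1 2 1
(.lf (.ofNat 256) (.negSucc 213) (.ofNat 28) (.negSucc 112) (.negSucc 9) (.ofNat 133)) (.lf (.ofNat 256) (.negSucc 226) (.ofNat 39) (.negSucc 128) (.negSucc 12) (.ofNat 193)))))) (.nd 1 2 1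
(.nd 0 1 1
(.nd 0 1 2
(.lf (.ofNat 76) (.negSucc 81) (.ofNat 28) (.negSucc 102) (.negSucc 11) (.ofNat 256)) (.lf (.ofNat 88) (.negSucc 103) (.ofNat 31) (.negSucc 118) (.negSucc 12) (.ofNat 256))) (.nd 0 2 1
(.lf (.ofNat 134) (.negSucc 146) (.ofNat 39) (.negSucc 140) (.negSucc 11) (.ofNat 256)) (.lf (.ofNat 239) (.negSucc 255) (.ofNat 64) (.negSucc 106) (.negSucc 16) (.ofNat 250)))) (.nd 0 1 1
(.lf (.ofNat 65) (.negSucc 69) (.ofNat 29) (.negSucc 87) (.negSucc 9) (.ofNat 256)) (.lf (.ofNat 108) (.negSucc 105) (.ofNat 40) (.negSucc 84) (.negSucc 13) (.ofNat 256))))) (.nd 1 2 1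
(.nd 0 1 1
(.lf (.ofNat 52) (.negSucc 61) (.ofNat 37) (.negSucc 59) (.negSucc 9) (.ofNat 256)) (.lf (.ofNat 84) (.negSucc 80) (.ofNat 47) (.negSucc 47) (.negSucc 13) (.ofNat 256))) (.nd 0 1 1
(.lf (.ofNat 52) (.negSucc 50) (.ofNat 46) (.negSucc 33) (.negSucc 12) (.ofNat 256)) (.lf (.ofNat 65) (.negSucc 64) (.ofNat 56) (.negSucc 30) (.negSucc 10) (.ofNat 256))))))

theorem ok_I000 : okT 2 T_I000 = true := by decide +kernel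

theorem r0_I000 : runX 302 13 8 5 550907180400000 ⟨none, some (3, 10)⟩ ⟨none, some (1, 8)⟩ ⟨some (1, 10), some (4, 1)⟩ 0 T_I000
    [PI00, PI02, PI01, PI22, PI12, PI11] = true := by
  decide +kernel

theorem r1_I000 : runX 30 1 2 1 1 ⟨none, some (3, 10)⟩ ⟨none, some (1, 8)⟩ ⟨some (1, 10), some (4, 1)⟩ 1 T_I000
    [[[[-1]]], [], [], [], [], []] = true := by
  decide +kernel

theorem r2_I000 : runX 30 1 2 1 1 ⟨none, some (3, 10)⟩ ⟨none, some (1, 8)⟩ ⟨some (1, 10), some (4, 1)⟩ 2 T_I000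
    [[[[-1]]], [], [], [], [], []] = true := by
  decide +kernel

theorem q_I000 {w v T : ℝ} (l0 : Lim.In ⟨none, some (3, 10)⟩ w) (l1 : Lim.In ⟨none, some (1, 8)⟩ v) (l2 : Lim.In ⟨some (1, 10), some (4, 1)⟩ T)
    (hK : 0 < ev3 w v T KI) (x1 x2 x3 : ℝ) :
    0 ≤ qf (ev3 w v T PI00) (ev3 w v T PI01) (ev3 w v T PI02) (ev3 w v T PI11)
      (ev3 w v T PI12) (ev3 w v T PI22) x1 x2 x3 := by
  have hg : ev3 w v T [[[-1]]] < 0 := by simp [ev3, ev2, ev1]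
  have hg2 : ev3 w v T [[[-1]]] < 0 := by simp [ev3, ev2, ev1]
  have h := psdX ok_I000 r0_I000 r1_I000 r2_I000 l0 l1 l2 hg hg2 x1 x3 x2
  simp only [qf] at h ⊢
  linarith

def T_I0010 : TreeX :=
(.nd 1 1 1
(.nd 1 1 2
(.nd 1 1 2
(.nd 2 1 1
(.nd 1 1 2
(.nd 0 1 1
(.lf (.ofNat 256) (.negSucc 129) (.ofNat 11) (.negSucc 99) (.negSucc 9) (.ofNat 206)) (.nd 1 1 2
(.lf (.ofNat 328) (.negSucc 187) (.ofNat 8) (.negSucc 83) (.negSucc 5) (.ofNat 103)) (.lf (.ofNat 256) (.negSucc 193) (.ofNat 12) (.negSucc 124) (.negSucc 7) (.ofNat 160)))) (.nd 1 2 1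
(.nd 0 1 1
(.lf (.ofNat 180) (.negSucc 117) (.ofNat 13) (.negSucc 123) (.negSucc 8) (.ofNat 256)) (.lf (.ofNat 246) (.negSucc 206) (.ofNat 17) (.negSucc 189) (.negSucc 8) (.ofNat 256))) (.lf (.ofNat 732) (.negSucc 533) (.ofNat 60) (.negSucc 589) (.negSucc 28) (.ofNat 1024)))) (.nd 0 1 1
(.nd 2 2 1
(.nd 1 1 2
(.lf (.ofNat 244) (.negSucc 101) (.ofNat 11) (.negSucc 70) (.negSucc 6) (.ofNat 256)) (.lf (.ofNat 128) (.negSucc 64) (.ofNat 10) (.negSucc 64) (.negSucc 4) (.ofNat 256))) (.nd 1 1 2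
(.lf (.ofNat 135) (.negSucc 57) (.ofNat 8) (.negSucc 44) (.negSucc 4) (.ofNat 256)) (.lf (.ofNat 80) (.negSucc 41) (.ofNat 8) (.negSucc 41) (.negSucc 3) (.ofNat 265)))) (.nd 1 1 2
(.nd 2 2 1
(.lf (.ofNat 1024) (.negSucc 496) (.ofNat 35) (.negSucc 147) (.negSucc 17) (.ofNat 443)) (.lf (.ofNat 256) (.negSucc 124) (.ofNat 12) (.negSucc 26) (.negSucc 4) (.ofNat 150))) (.lf (.ofNat 252) (.negSucc 139) (.ofNat 18) (.negSucc 53) (.negSucc 7) (.ofNat 256))))) (.nd 2 1 1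
(.nd 1 2 1
(.nd 1 1 2
(.lf (.ofNat 573) (.negSucc 436) (.ofNat 58) (.negSucc 563) (.negSucc 20) (.ofNat 1024)) (.lf (.ofNat 118) (.negSucc 97) (.ofNat 15) (.negSucc 133) (.negSucc 2) (.ofNat 256))) (.nd 0 1 1
(.lf (.ofNat 87) (.negSucc 70) (.ofNat 14) (.negSucc 109) (.negSucc 0) (.ofNat 256)) (.lf (.ofNat 102) (.negSucc 113) (.ofNat 20) (.negSucc 132) (.negSucc 0) (.ofNat 256)))) (.nd 2 2 1
(.nd 1 2 1
(.lf (.ofNat 98) (.negSucc 61) (.ofNat 11) (.negSucc 60) (.negSucc 4) (.ofNat 256)) (.lf (.ofNat 70) (.negSucc 49) (.ofNat 11) (.negSucc 52) (.negSucc 3) (.ofNat 256))) (.nd 2 2 1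
(.lf (.ofNat 67) (.negSucc 46) (.ofNat 11) (.negSucc 38) (.negSucc 3) (.ofNat 256)) (.lf (.ofNat 219) (.negSucc 162) (.ofNat 41) (.negSucc 122) (.negSucc 14) (.ofNat 1024)))))) (.nd 2 1 1
(.nd 1 2 1
(.nd 2 1 2
(.lf (.ofNat 1403) (.negSucc 1174) (.ofNat 293) (.negSucc 1874) (.ofNat 25) (.ofNat 4096)) (.nd 0 1 1
(.lf (.ofNat 67) (.negSucc 52) (.ofNat 15) (.negSucc 72) (.ofNat 1) (.ofNat 256)) (.lf (.ofNat 82) (.negSucc 81) (.ofNat 21) (.negSucc 75) (.negSucc 0) (.ofNat 256)))) (.nd 2 1 2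
(.lf (.ofNat 61) (.negSucc 60) (.ofNat 21) (.negSucc 85) (.ofNat 3) (.ofNat 256)) (.lf (.ofNat 50) (.negSucc 41) (.ofNat 16) (.negSucc 53) (.ofNat 0) (.ofNat 256)))) (.nd 1 2 1
(.nd 2 2 1
(.lf (.ofNat 225) (.negSucc 169) (.ofNat 52) (.negSucc 170) (.negSucc 8) (.ofNat 1024)) (.lf (.ofNat 40) (.negSucc 29) (.ofNat 11) (.negSucc 26) (.negSucc 2) (.ofNat 256))) (.nd 2 2 1
(.lf (.ofNat 39) (.negSucc 30) (.ofNat 13) (.negSucc 31) (.negSucc 1) (.ofNat 256)) (.lf (.ofNat 29) (.negSucc 23) (.ofNat 11) (.negSucc 20) (.negSucc 1) (.ofNat 256)))))) (.nd 2 1 1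
(.nd 1 2 1
(.nd 2 1 2
(.lf (.ofNat 50) (.negSucc 56) (.ofNat 30) (.negSucc 51) (.ofNat 0) (.ofNat 256)) (.lf (.ofNat 165) (.negSucc 158) (.ofNat 89) (.negSucc 130) (.negSucc 4) (.ofNat 1024))) (.lf (.ofNat 2296) (.negSucc 1839) (.ofNat 1538) (.negSucc 1370) (.negSucc 257) (.ofNat 16384))) (.nd 1 2 1
(.nd 2 2 1
(.lf (.ofNat 32) (.negSucc 26) (.ofNat 17) (.negSucc 20) (.negSucc 1) (.ofNat 256)) (.lf (.ofNat 25) (.negSucc 20) (.ofNat 14) (.negSucc 14) (.negSucc 1) (.ofNat 256))) (.lf (.ofNat 22) (.negSucc 16) (.ofNat 17) (.negSucc 10) (.negSucc 1) (.ofNat 256)))))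

theorem ok_I0010 : okT 2 T_I0010 = true := by decide +kernel

theorem r0_I0010 : runX 267 13 8 5 550907180400000 ⟨none, some (1, 10)⟩ ⟨none, some (1, 8)⟩ ⟨some (1, 2), some (1, 1)⟩ 0 T_I0010
    [PI00, PI02, PI01, PI22, PI12, PI11] = true := by
  decide +kernel

theorem r1_I0010 : runX 27 1 2 1 1 ⟨none, some (1, 10)⟩ ⟨none, some (1, 8)⟩ ⟨some (1, 2), some (1, 1)⟩ 1 T_I0010
    [[[[-1]]], [], [], [], [], []] = true := by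
  decide +kernel

theorem r2_I0010 : runX 27 1 2 1 1 ⟨none, some (1, 10)⟩ ⟨none, some (1, 8)⟩ ⟨some (1, 2), some (1, 1)⟩ 2 T_I0010
    [[[[-1]]], [], [], [], [], []] = true := by
  decide +kernel

theorem q_I0010 {w v T : ℝ} (l0 : Lim.In ⟨none, some (1, 10)⟩ w) (l1 : Lim.In ⟨none, some (1, 8)⟩ v) (l2 : Lim.In ⟨some (1, 2), some (1, 1)⟩ T)
    (hK : 0 < ev3 w v T KI) (x1 x2 x3 : ℝ) :
    0 ≤ qf (ev3 w v T PI00) (ev3 w v T PI01) (ev3 w v T PI02) (ev3 w v T PI11)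
      (ev3 w v T PI12) (ev3 w v T PI22) x1 x2 x3 := by
  have hg : ev3 w v T [[[-1]]] < 0 := by simp [ev3, ev2, ev1]
  have hg2 : ev3 w v T [[[-1]]] < 0 := by simp [ev3, ev2, ev1]
  have h := psdX ok_I0010 r0_I0010 r1_I0010 r2_I0010 l0 l1 l2 hg hg2 x1 x3 x2
  simp only [qf] at h ⊢
  linarith

def T_I0011 : TreeX :=
(.nd 1 1 1
(.nd 1 1 2
(.nd 1 1 2
(.nd 1 1 2
(.nd 2 1 1
(.nd 1 1 2
(.nd 1 1 2
(.nd 2 1 2
(.lf (.ofNat 609) (.negSucc 549) (.ofNat 8) (.negSucc 140) (.negSucc 5) (.ofNat 72)) (.lf (.ofNat 4096) (.negSucc 2831) (.ofNat 50) (.negSucc 100) (.negSucc 16) (.ofNat 250))) (.nd 1 2 1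
(.lf (.ofNat 353) (.negSucc 396) (.ofNat 8) (.negSucc 67) (.negSucc 3) (.ofNat 58)) (.nd 0 1 1
(.lf (.ofNat 287) (.negSucc 284) (.ofNat 8) (.negSucc 142) (.negSucc 4) (.ofNat 94)) (.lf (.ofNat 263) (.negSucc 299) (.ofNat 8) (.ofNat 18) (.negSucc 2) (.ofNat 39))))) (.nd 0 1 1
(.nd 2 1 2
(.lf (.ofNat 239) (.negSucc 255) (.ofNat 11) (.negSucc 163) (.negSucc 4) (.ofNat 100)) (.lf (.ofNat 1024) (.negSucc 935) (.ofNat 42) (.negSucc 315) (.negSucc 17) (.ofNat 385))) (.nd 0 2 1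
(.lf (.ofNat 816) (.negSucc 1023) (.ofNat 38) (.negSucc 65) (.negSucc 11) (.ofNat 175)) (.lf (.ofNat 224) (.negSucc 255) (.ofNat 11) (.ofNat 44) (.negSucc 3) (.ofNat 37))))) (.nd 1 1 2
(.lf (.ofNat 340) (.negSucc 158) (.ofNat 8) (.ofNat 5) (.negSucc 2) (.ofNat 52)) (.lf (.ofNat 256) (.negSucc 186) (.ofNat 13) (.ofNat 9) (.negSucc 4) (.ofNat 99)))) (.nd 2 1 1
(.nd 1 2 1
(.nd 0 1 1
(.nd 2 1 2
(.lf (.ofNat 203) (.negSucc 255) (.ofNat 15) (.negSucc 219) (.negSucc 3) (.ofNat 151)) (.lf (.ofNat 232) (.negSucc 255) (.ofNat 17) (.negSucc 104) (.negSucc 5) (.ofNat 148))) (.lf (.ofNat 169) (.negSucc 255) (.ofNat 15) (.ofNat 23) (.negSucc 6) (.ofNat 71))) (.nd 0 1 1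
(.nd 0 1 2
(.lf (.ofNat 210) (.negSucc 255) (.ofNat 22) (.negSucc 219) (.negSucc 3) (.ofNat 235)) (.lf (.ofNat 160) (.negSucc 255) (.ofNat 20) (.negSucc 123) (.negSucc 2) (.ofNat 134))) (.lf (.ofNat 152) (.negSucc 255) (.ofNat 20) (.ofNat 23) (.negSucc 7) (.ofNat 90)))) (.nd 0 1 1
(.lf (.ofNat 256) (.negSucc 200) (.ofNat 22) (.negSucc 16) (.negSucc 5) (.ofNat 139)) (.lf (.ofNat 256) (.negSucc 236) (.ofNat 26) (.ofNat 40) (.negSucc 7) (.ofNat 105))))) (.nd 2 1 1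
(.nd 1 2 1
(.nd 0 1 1
(.nd 1 1 2
(.nd 0 1 2
(.lf (.ofNat 181) (.negSucc 226) (.ofNat 24) (.negSucc 208) (.negSucc 2) (.ofNat 256)) (.lf (.ofNat 156) (.negSucc 255) (.ofNat 25) (.negSucc 126) (.negSucc 2) (.ofNat 165))) (.lf (.ofNat 635) (.negSucc 984) (.ofNat 122) (.negSucc 728) (.negSucc 8) (.ofNat 1024))) (.nd 0 2 1
(.lf (.ofNat 155) (.negSucc 255) (.ofNat 28) (.negSucc 25) (.negSucc 6) (.ofNat 111)) (.lf (.ofNat 172) (.negSucc 255) (.ofNat 30) (.ofNat 58) (.negSucc 11) (.ofNat 92)))) (.nd 0 1 1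
(.nd 0 1 2
(.lf (.ofNat 520) (.negSucc 672) (.ofNat 109) (.negSucc 588) (.negSucc 3) (.ofNat 1024)) (.lf (.ofNat 167) (.negSucc 255) (.ofNat 40) (.negSucc 120) (.negSucc 3) (.ofNat 239))) (.lf (.ofNat 136) (.negSucc 255) (.ofNat 40) (.ofNat 16) (.negSucc 13) (.ofNat 159)))) (.nd 0 1 1
(.lf (.ofNat 256) (.negSucc 248) (.ofNat 45) (.negSucc 24) (.negSucc 8) (.ofNat 235)) (.lf (.ofNat 210) (.negSucc 255) (.ofNat 45) (.ofNat 52) (.negSucc 14) (.ofNat 177))))) (.nd 1 2 1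
(.nd 2 1 1
(.nd 0 1 1
(.nd 1 1 2
(.lf (.ofNat 108) (.negSucc 153) (.ofNat 32) (.negSucc 108) (.negSucc 1) (.ofNat 256)) (.lf (.ofNat 89) (.negSucc 113) (.ofNat 29) (.negSucc 84) (.negSucc 2) (.ofNat 256))) (.nd 0 2 1
(.lf (.ofNat 159) (.negSucc 255) (.ofNat 59) (.negSucc 27) (.negSucc 9) (.ofNat 199)) (.lf (.ofNat 155) (.negSucc 255) (.ofNat 60) (.ofNat 50) (.negSucc 22) (.ofNat 186)))) (.nd 0 1 1
(.lf (.ofNat 155) (.negSucc 167) (.ofNat 47) (.negSucc 22) (.negSucc 7) (.ofNat 256)) (.lf (.ofNat 159) (.negSucc 246) (.ofNat 67) (.ofNat 54) (.negSucc 22) (.ofNat 256)))) (.nd 2 1 1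
(.nd 0 1 1
(.lf (.ofNat 76) (.negSucc 91) (.ofNat 31) (.negSucc 61) (.negSucc 2) (.ofNat 256)) (.lf (.ofNat 110) (.negSucc 212) (.ofNat 71) (.negSucc 0) (.negSucc 18) (.ofNat 256))) (.lf (.ofNat 71) (.negSucc 140) (.ofNat 53) (.negSucc 2) (.negSucc 11) (.ofNat 256))))) (.nd 1 2 1
(.nd 2 1 1
(.lf (.ofNat 262) (.negSucc 385) (.ofNat 198) (.negSucc 124) (.negSucc 25) (.ofNat 1024)) (.lf (.ofNat 75) (.negSucc 108) (.ofNat 59) (.negSucc 6) (.negSucc 7) (.ofNat 256))) (.lf (.ofNat 51) (.negSucc 61) (.ofNat 47) (.negSucc 16) (.negSucc 2) (.ofNat 256))))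

theorem ok_I0011 : okT 2 T_I0011 = true := by decide +kernel

theorem r0_I0011 : runX 299 13 8 5 550907180400000 ⟨some (1, 10), some (2, 1)⟩ ⟨none, some (1, 8)⟩ ⟨some (1, 2), some (1, 1)⟩ 0 T_I0011
    [PI00, PI02, PI01, PI22, PI12, PI11] = true := by
  decide +kernel

theorem r1_I0011 : runX 28 1 2 1 1 ⟨some (1, 10), some (2, 1)⟩ ⟨none, some (1, 8)⟩ ⟨some (1, 2), some (1, 1)⟩ 1 T_I0011
    [[[[-1]]], [], [], [], [], []] = true := by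
  decide +kernel

theorem r2_I0011 : runX 28 1 2 1 1 ⟨some (1, 10), some (2, 1)⟩ ⟨none, some (1, 8)⟩ ⟨some (1, 2), some (1, 1)⟩ 2 T_I0011
    [[[[-1]]], [], [], [], [], []] = true := by
  decide +kernel

theorem q_I0011 {w v T : ℝ} (l0 : Lim.In ⟨some (1, 10), some (2, 1)⟩ w) (l1 : Lim.In ⟨none, some (1, 8)⟩ v) (l2 : Lim.In ⟨some (1, 2), some (1, 1)⟩ T)
    (hK : 0 < ev3 w v T KI) (x1 x2 x3 : ℝ) :
    0 ≤ qf (ev3 w v T PI00) (ev3 w v T PI01) (ev3 w v T PI02) (ev3 w v T PI11)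
      (ev3 w v T PI12) (ev3 w v T PI22) x1 x2 x3 := by
  have hg : ev3 w v T [[[-1]]] < 0 := by simp [ev3, ev2, ev1]
  have hg2 : ev3 w v T [[[-1]]] < 0 := by simp [ev3, ev2, ev1]
  have h := psdX ok_I0011 r0_I0011 r1_I0011 r2_I0011 l0 l1 l2 hg hg2 x1 x3 x2
  simp only [qf] at h ⊢
  linarith

def T_I01 : TreeX :=
(.nd 2 1 1
(.nd 2 1 2
(.nd 1 1 1
(.nd 0 1 1
(.nd 2 1 2
(.nd 1 1 2
(.nd 2 1 2
(.nd 0 1 2
(.nd 0 1 2
(.nd 1 1 2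
(.nd 2 1 2
(.nd 0 1 2
(.nd 1 1 2
(.lf (.ofNat 92) (.negSucc 32) (.ofNat 8) (.negSucc 40) (.ofNat 0) (.ofNat 384)) (.lf (.ofNat 63) (.negSucc 26) (.ofNat 8) (.negSucc 37) (.ofNat 2) (.ofNat 385))) (.lf (.ofNat 138) (.negSucc 57) (.ofNat 13) (.negSucc 24) (.negSucc 1) (.ofNat 256))) (.lf (.ofNat 43) (.negSucc 21) (.ofNat 8) (.negSucc 15) (.ofNat 2) (.ofNat 257))) (.nd 2 1 2
(.nd 2 1 2
(.lf (.ofNat 41) (.negSucc 23) (.ofNat 8) (.negSucc 27) (.ofNat 0) (.ofNat 294)) (.lf (.ofNat 32) (.negSucc 19) (.ofNat 8) (.negSucc 20) (.ofNat 2) (.ofNat 284))) (.lf (.ofNat 31) (.negSucc 18) (.ofNat 9) (.negSucc 13) (.ofNat 3) (.ofNat 256)))) (.nd 1 1 2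
(.lf (.ofNat 256) (.negSucc 99) (.ofNat 24) (.negSucc 14) (.negSucc 2) (.ofNat 234)) (.lf (.ofNat 142) (.negSucc 76) (.ofNat 27) (.negSucc 13) (.negSucc 1) (.ofNat 256)))) (.nd 1 1 2
(.lf (.ofNat 4096) (.negSucc 1866) (.ofNat 347) (.negSucc 53) (.negSucc 45) (.ofNat 1862)) (.lf (.ofNat 232) (.negSucc 158) (.ofNat 46) (.negSucc 6) (.negSucc 5) (.ofNat 256)))) (.nd 0 1 2
(.nd 0 1 2
(.lf (.ofNat 60) (.negSucc 29) (.ofNat 19) (.negSucc 9) (.ofNat 6) (.ofNat 256)) (.lf (.ofNat 231) (.negSucc 116) (.ofNat 57) (.negSucc 5) (.ofNat 1) (.ofNat 256))) (.lf (.ofNat 256) (.negSucc 148) (.ofNat 55) (.ofNat 1) (.negSucc 1) (.ofNat 164)))) (.nd 0 1 2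
(.nd 2 1 2
(.nd 0 1 2
(.nd 2 1 2
(.nd 1 2 1
(.lf (.ofNat 109) (.negSucc 65) (.ofNat 33) (.negSucc 68) (.ofNat 8) (.ofNat 1024)) (.lf (.ofNat 23) (.negSucc 14) (.ofNat 10) (.negSucc 13) (.ofNat 3) (.ofNat 256))) (.lf (.ofNat 28) (.negSucc 18) (.ofNat 14) (.negSucc 10) (.ofNat 5) (.ofNat 256))) (.lf (.ofNat 93) (.negSucc 61) (.ofNat 34) (.negSucc 10) (.negSucc 0) (.ofNat 256))) (.nd 0 1 2
(.lf (.ofNat 41) (.negSucc 26) (.ofNat 26) (.negSucc 6) (.ofNat 7) (.ofNat 256)) (.lf (.ofNat 123) (.negSucc 84) (.ofNat 64) (.negSucc 3) (.ofNat 2) (.ofNat 256)))) (.lf (.ofNat 118) (.negSucc 75) (.ofNat 40) (.negSucc 1) (.negSucc 2) (.ofNat 256)))) (.nd 0 1 2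
(.nd 1 1 2
(.lf (.ofNat 78) (.negSucc 42) (.ofNat 38) (.negSucc 2) (.ofNat 6) (.ofNat 256)) (.lf (.ofNat 213) (.negSucc 157) (.ofNat 191) (.negSucc 9) (.ofNat 26) (.ofNat 1024))) (.lf (.ofNat 213) (.negSucc 124) (.ofNat 84) (.ofNat 5) (.ofNat 1) (.ofNat 256)))) (.nd 1 1 2
(.nd 2 1 2
(.nd 1 1 2
(.nd 1 1 2
(.lf (.ofNat 256) (.negSucc 83) (.ofNat 14) (.ofNat 18) (.negSucc 2) (.ofNat 118)) (.lf (.ofNat 256) (.negSucc 125) (.ofNat 28) (.ofNat 31) (.negSucc 5) (.ofNat 211))) (.lf (.ofNat 207) (.negSucc 139) (.ofNat 40) (.ofNat 34) (.negSucc 8) (.ofNat 256))) (.lf (.ofNat 232) (.negSucc 112) (.ofNat 44) (.ofNat 32) (.negSucc 0) (.ofNat 256))) (.nd 2 1 2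
(.lf (.ofNat 106) (.negSucc 98) (.ofNat 43) (.ofNat 29) (.negSucc 10) (.ofNat 256)) (.lf (.ofNat 89) (.negSucc 69) (.ofNat 41) (.ofNat 29) (.negSucc 3) (.ofNat 256))))) (.nd 0 1 1
(.nd 2 1 2
(.nd 0 1 2
(.nd 2 1 2
(.nd 0 1 2
(.nd 1 2 1
(.nd 1 1 2
(.lf (.ofNat 93) (.negSucc 61) (.ofNat 55) (.negSucc 38) (.ofNat 18) (.ofNat 1024)) (.lf (.ofNat 21) (.negSucc 14) (.ofNat 17) (.negSucc 7) (.ofNat 5) (.ofNat 256))) (.lf (.ofNat 21) (.negSucc 16) (.ofNat 23) (.negSucc 5) (.ofNat 6) (.ofNat 256))) (.lf (.ofNat 55) (.negSucc 41) (.ofNat 42) (.negSucc 6) (.ofNat 0) (.ofNat 256))) (.nd 1 2 1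
(.lf (.ofNat 26) (.negSucc 23) (.ofNat 28) (.negSucc 4) (.ofNat 5) (.ofNat 256)) (.lf (.ofNat 91) (.negSucc 93) (.ofNat 147) (.negSucc 13) (.ofNat 22) (.ofNat 1024)))) (.lf (.ofNat 67) (.negSucc 49) (.ofNat 46) (.negSucc 2) (.negSucc 1) (.ofNat 256))) (.nd 0 1 2
(.lf (.ofNat 154) (.negSucc 137) (.ofNat 243) (.negSucc 6) (.ofNat 29) (.ofNat 1024)) (.lf (.ofNat 87) (.negSucc 73) (.ofNat 86) (.ofNat 4) (.ofNat 1) (.ofNat 256)))) (.nd 1 2 1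
(.lf (.ofNat 281) (.negSucc 320) (.ofNat 223) (.ofNat 102) (.negSucc 35) (.ofNat 1024)) (.lf (.ofNat 44) (.negSucc 56) (.ofNat 50) (.ofNat 23) (.negSucc 9) (.ofNat 256))))) (.nd 0 1 1
(.nd 0 1 2
(.nd 1 1 1
(.lf (.ofNat 98) (.negSucc 59) (.ofNat 101) (.ofNat 1) (.ofNat 9) (.ofNat 256)) (.lf (.ofNat 62) (.negSucc 52) (.ofNat 129) (.ofNat 1) (.ofNat 9) (.ofNat 256))) (.lf (.ofNat 434) (.negSucc 254) (.ofNat 307) (.ofNat 35) (.ofNat 15) (.ofNat 1024))) (.nd 1 1 1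
(.lf (.ofNat 155) (.negSucc 74) (.ofNat 50) (.ofNat 30) (.ofNat 3) (.ofNat 256)) (.lf (.ofNat 49) (.negSucc 40) (.ofNat 44) (.ofNat 28) (.negSucc 3) (.ofNat 256))))) (.nd 0 1 1
(.nd 0 1 2
(.nd 1 1 1
(.lf (.ofNat 157) (.negSucc 91) (.ofNat 250) (.ofNat 4) (.ofNat 12) (.ofNat 256)) (.lf (.ofNat 93) (.negSucc 74) (.ofNat 256) (.ofNat 3) (.ofNat 10) (.ofNat 229))) (.lf (.ofNat 95) (.negSucc 49) (.ofNat 81) (.ofNat 13) (.ofNat 8) (.ofNat 256))) (.nd 1 1 1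
(.lf (.ofNat 135) (.negSucc 55) (.ofNat 52) (.ofNat 30) (.ofNat 10) (.ofNat 256)) (.lf (.ofNat 56) (.negSucc 42) (.ofNat 61) (.ofNat 28) (.ofNat 2) (.ofNat 256)))))

theorem ok_I01 : okT 2 T_I01 = true := by decide +kernel

theorem r0_I01 : runX 381 13 8 5 550907180400000 ⟨none, some (3, 10)⟩ ⟨none, some (1, 8)⟩ ⟨some (1, 1), some (8, 1)⟩ 0 T_I01
    [PI00, PI02, PI01, PI22, PI12, PI11] = true := by
  decide +kernel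

theorem r1_I01 : runX 28 1 2 1 1 ⟨none, some (3, 10)⟩ ⟨none, some (1, 8)⟩ ⟨some (1, 1), some (8, 1)⟩ 1 T_I01
    [[[[-1]]], [], [], [], [], []] = true := by
  decide +kernel

theorem r2_I01 : runX 28 1 2 1 1 ⟨none, some (3, 10)⟩ ⟨none, some (1, 8)⟩ ⟨some (1, 1), some (8, 1)⟩ 2 T_I01
    [[[[-1]]], [], [], [], [], []] = true := by
  decide +kernel

theorem q_I01 {w v T : ℝ} (l0 : Lim.In ⟨none, some (3, 10)⟩ w) (l1 : Lim.In ⟨none, some (1, 8)⟩ v) (l2 : Lim.In ⟨some (1, 1), some (8, 1)⟩ T)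
    (hK : 0 < ev3 w v T KI) (x1 x2 x3 : ℝ) :
    0 ≤ qf (ev3 w v T PI00) (ev3 w v T PI01) (ev3 w v T PI02) (ev3 w v T PI11)
      (ev3 w v T PI12) (ev3 w v T PI22) x1 x2 x3 := by
  have hg : ev3 w v T [[[-1]]] < 0 := by simp [ev3, ev2, ev1]
  have hg2 : ev3 w v T [[[-1]]] < 0 := by simp [ev3, ev2, ev1]
  have h := psdX ok_I01 r0_I01 r1_I01 r2_I01 l0 l1 l2 hg hg2 x1 x3 x2
  simp only [qf] at h ⊢
  linarith

end Crest.Agent.R249.Px324
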