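import Crest.Agent.R249.Cd1_133
import Crest.Agent.R249.Ker12_254

/-!
# Row 249, part A (helper324): sub-boxes of the chart matrix `I` (kernel check)
-/

set_option autoImplicit false
set_option linter.unusedVariables false

namespace Crest.Agent.R249.Px324

open Ker254 Cd133

def T_I100 : TreeX :=
(.nd 1 1 1
(.nd 2 1 1
(.nd 2 1 2
(.nd 2 1 2
(.lf (.ofNat 38) (.negSucc 21) (.ofNat 117) (.negSucc 12) (.negSucc 84) (.ofNat 256)) (.lf (.ofNat 45) (.negSucc 25) (.ofNat 85) (.negSucc 13) (.negSucc 59) (.ofNat 256))) (.lf (.ofNat 50) (.negSucc 37) (.ofNat 82) (.negSucc 13) (.negSucc 38) (.ofNat 256))) (.nd 1 1 2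
(.lf (.ofNat 47) (.negSucc 38) (.ofNat 51) (.negSucc 17) (.negSucc 16) (.ofNat 256)) (.lf (.ofNat 39) (.negSucc 34) (.ofNat 61) (.negSucc 10) (.negSucc 19) (.ofNat 256)))) (.nd 2 1 1
(.nd 2 1 2
(.nd 0 1 1
(.nd 1 2 1
(.nd 2 1 2
(.lf (.ofNat 35) (.negSucc 30) (.ofNat 192) (.negSucc 7) (.negSucc 102) (.ofNat 256)) (.lf (.ofNat 40) (.negSucc 32) (.ofNat 139) (.negSucc 5) (.negSucc 75) (.ofNat 256))) (.nd 2 1 2
(.nd 0 1 2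
(.nd 1 2 1
(.nd 0 1 2
(.nd 1 1 2
(.lf (.ofNat 30) (.negSucc 33) (.ofNat 256) (.negSucc 3) (.negSucc 159) (.ofNat 237)) (.nd 1 2 1
(.lf (.ofNat 25) (.negSucc 34) (.ofNat 256) (.ofNat 1) (.negSucc 173) (.ofNat 212)) (.out 0))) (.lf (.ofNat 36) (.negSucc 39) (.ofNat 256) (.negSucc 0) (.negSucc 130) (.ofNat 244))) (.out 0)) (.nd 1 2 1
(.lf (.ofNat 38) (.negSucc 38) (.ofNat 216) (.negSucc 0) (.negSucc 100) (.ofNat 256)) (.nd 0 2 1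
(.out 0) (.lf (.ofNat 32) (.negSucc 49) (.ofNat 256) (.ofNat 2) (.negSucc 69) (.ofNat 170))))) (.nd 1 2 1
(.nd 0 1 2
(.nd 1 1 2
(.lf (.ofNat 37) (.negSucc 38) (.ofNat 182) (.ofNat 0) (.negSucc 112) (.ofNat 256)) (.nd 0 1 2
(.nd 1 2 1
(.lf (.ofNat 35) (.negSucc 45) (.ofNat 229) (.ofNat 6) (.negSucc 159) (.ofNat 256)) (.out 0)) (.lf (.ofNat 33) (.negSucc 45) (.ofNat 206) (.ofNat 8) (.negSucc 130) (.ofNat 256)))) (.lf (.ofNat 36) (.negSucc 49) (.ofNat 202) (.ofNat 3) (.negSucc 87) (.ofNat 256))) (.nd 0 1 2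
(.out 0) (.nd 1 2 1
(.lf (.ofNat 30) (.negSucc 54) (.ofNat 226) (.ofNat 11) (.negSucc 117) (.ofNat 256)) (.out 0)))))) (.nd 0 2 1
(.lf (.ofNat 35) (.negSucc 54) (.ofNat 221) (.negSucc 3) (.negSucc 59) (.ofNat 256)) (.lf (.ofNat 25) (.negSucc 40) (.ofNat 141) (.negSucc 11) (.negSucc 23) (.ofNat 256)))) (.nd 1 2 1
(.lf (.ofNat 37) (.negSucc 38) (.ofNat 109) (.negSucc 3) (.negSucc 44) (.ofNat 256)) (.nd 0 1 1
(.nd 2 2 1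
(.nd 0 1 2
(.nd 1 2 1
(.nd 1 1 2
(.lf (.ofNat 37) (.negSucc 38) (.ofNat 142) (.ofNat 4) (.negSucc 93) (.ofNat 256)) (.nd 0 1 2
(.nd 1 2 1
(.lf (.ofNat 36) (.negSucc 47) (.ofNat 184) (.ofNat 12) (.negSucc 134) (.ofNat 256)) (.out 0)) (.lf (.ofNat 29) (.negSucc 50) (.ofNat 185) (.ofNat 14) (.negSucc 119) (.ofNat 256)))) (.out 0)) (.nd 1 2 1
(.lf (.ofNat 30) (.negSucc 55) (.ofNat 191) (.ofNat 5) (.negSucc 77) (.ofNat 256)) (.nd 1 2 1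
(.lf (.ofNat 21) (.negSucc 62) (.ofNat 223) (.ofNat 17) (.negSucc 114) (.ofNat 256)) (.out 0)))) (.nd 0 1 2
(.nd 1 2 1
(.nd 1 1 2
(.lf (.ofNat 35) (.negSucc 38) (.ofNat 120) (.ofNat 7) (.negSucc 81) (.ofNat 256)) (.nd 0 1 2
(.nd 1 2 1
(.lf (.ofNat 33) (.negSucc 49) (.ofNat 161) (.ofNat 18) (.negSucc 121) (.ofNat 256)) (.out 0)) (.lf (.ofNat 25) (.negSucc 54) (.ofNat 177) (.ofNat 17) (.negSucc 108) (.ofNat 256)))) (.out 0)) (.nd 1 2 1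
(.lf (.ofNat 28) (.negSucc 62) (.ofNat 190) (.ofNat 6) (.negSucc 65) (.ofNat 256)) (.nd 1 2 1
(.lf (.ofNat 13) (.negSucc 62) (.ofNat 203) (.ofNat 17) (.negSucc 100) (.ofNat 256)) (.out 0))))) (.nd 0 2 1
(.lf (.ofNat 23) (.negSucc 83) (.ofNat 256) (.negSucc 3) (.negSucc 33) (.ofNat 246)) (.lf (.ofNat 23) (.negSucc 50) (.ofNat 137) (.negSucc 23) (.ofNat 21) (.ofNat 256)))))) (.nd 1 2 1
(.lf (.ofNat 28) (.negSucc 39) (.ofNat 89) (.negSucc 5) (.negSucc 21) (.ofNat 256)) (.nd 0 1 1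
(.nd 1 2 1
(.nd 0 1 2
(.nd 2 2 1
(.nd 1 1 2
(.lf (.ofNat 29) (.negSucc 36) (.ofNat 104) (.ofNat 9) (.negSucc 65) (.ofNat 256)) (.nd 0 1 2
(.nd 1 2 1
(.lf (.ofNat 27) (.negSucc 46) (.ofNat 137) (.ofNat 20) (.negSucc 99) (.ofNat 256)) (.out 0)) (.lf (.ofNat 20) (.negSucc 49) (.ofNat 148) (.ofNat 16) (.negSucc 83) (.ofNat 256)))) (.lf (.ofNat 58) (.negSucc 264) (.ofNat 744) (.ofNat 38) (.negSucc 206) (.ofNat 1024))) (.lf (.ofNat 20) (.negSucc 47) (.ofNat 131) (.ofNat 2) (.negSucc 38) (.ofNat 256))) (.nd 0 1 2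
(.out 0) (.nd 1 2 1
(.lf (.ofNat 164) (.negSucc 921) (.ofNat 2738) (.ofNat 105) (.negSucc 826) (.ofNat 4096)) (.out 0)))) (.nd 0 2 1
(.lf (.ofNat 19) (.negSucc 69) (.ofNat 189) (.negSucc 8) (.negSucc 7) (.ofNat 256)) (.lf (.ofNat 28) (.negSucc 58) (.ofNat 138) (.negSucc 25) (.ofNat 30) (.ofNat 256)))))))

theorem ok_I100 : okT 2 T_I100 = true := by decide +kernel

theorem r0_I100 : runX 328 13 8 5 550907180400000 ⟨none, some (1, 5)⟩ ⟨some (1, 8), some (1, 1)⟩ ⟨some (1, 10), some (4, 1)⟩ 0 T_I100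
    [PI00, PI02, PI01, PI22, PI12, PI11] = true := by
  decide +kernel

/-- `-K` -/
def NKI_I100 : P3 := [[[-8], [35]], [[], [], [-40]]]

theorem r1_I100 : runX 63 1 2 1 40 ⟨none, some (1, 5)⟩ ⟨some (1, 8), some (1, 1)⟩ ⟨some (1, 10), some (4, 1)⟩ 1 T_I100
    [NKI_I100, [], [], [], [], []] = true := by
  decide +kernel

theorem r2_I100 : runX 63 1 2 1 1 ⟨none, some (1, 5)⟩ ⟨some (1, 8), some (1, 1)⟩ ⟨some (1, 10), some (4, 1)⟩ 2 T_I100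
    [[[[-1]]], [], [], [], [], []] = true := by
  decide +kernel

theorem q_I100 {w v T : ℝ} (l0 : Lim.In ⟨none, some (1, 5)⟩ w) (l1 : Lim.In ⟨some (1, 8), some (1, 1)⟩ v) (l2 : Lim.In ⟨some (1, 10), some (4, 1)⟩ T)
    (hK : 0 < ev3 w v T KI) (x1 x2 x3 : ℝ) :
    0 ≤ qf (ev3 w v T PI00) (ev3 w v T PI01) (ev3 w v T PI02) (ev3 w v T PI11)
      (ev3 w v T PI12) (ev3 w v T PI22) x1 x2 x3 := by
  have hg : ev3 w v T NKI_I100 < 0 := by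
    have e : ev3 w v T NKI_I100 = -ev3 w v T KI := by
      simp [NKI_I100, KI, ev3, ev2, ev1]
      ring
    rw [e]; linarith
  have hg2 : ev3 w v T [[[-1]]] < 0 := by simp [ev3, ev2, ev1]
  have h := psdX ok_I100 r0_I100 r1_I100 r2_I100 l0 l1 l2 hg hg2 x1 x3 x2
  simp only [qf] at h ⊢
  linarith

def T_I101 : TreeX :=
(.nd 2 1 1
(.nd 2 1 2
(.nd 1 1 1
(.nd 2 1 2
(.nd 2 1 2
(.nd 1 1 2
(.nd 1 1 2
(.lf (.ofNat 23) (.negSucc 18) (.ofNat 22) (.negSucc 10) (.negSucc 4) (.ofNat 256)) (.lf (.ofNat 20) (.negSucc 17) (.ofNat 24) (.negSucc 9) (.negSucc 3) (.ofNat 256))) (.nd 1 2 1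
(.lf (.ofNat 18) (.negSucc 17) (.ofNat 27) (.negSucc 7) (.negSucc 3) (.ofNat 256)) (.lf (.ofNat 17) (.negSucc 17) (.ofNat 32) (.negSucc 6) (.negSucc 3) (.ofNat 256)))) (.nd 1 1 2
(.lf (.ofNat 16) (.negSucc 17) (.ofNat 26) (.negSucc 3) (.ofNat 0) (.ofNat 256)) (.lf (.ofNat 16) (.negSucc 18) (.ofNat 33) (.negSucc 3) (.ofNat 2) (.ofNat 256)))) (.nd 0 1 1
(.nd 0 1 2
(.lf (.ofNat 106) (.negSucc 109) (.ofNat 296) (.negSucc 9) (.ofNat 42) (.ofNat 1024)) (.lf (.ofNat 54) (.negSucc 45) (.ofNat 92) (.negSucc 0) (.ofNat 4) (.ofNat 256))) (.lf (.ofNat 42) (.negSucc 46) (.ofNat 67) (.ofNat 3) (.ofNat 1) (.ofNat 256)))) (.nd 2 1 2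
(.nd 1 2 1
(.nd 2 1 2
(.nd 0 1 1
(.lf (.ofNat 55) (.negSucc 67) (.ofNat 162) (.negSucc 9) (.negSucc 28) (.ofNat 1024)) (.lf (.ofNat 26) (.negSucc 35) (.ofNat 69) (.negSucc 11) (.ofNat 7) (.ofNat 256))) (.nd 0 1 1
(.lf (.ofNat 47) (.negSucc 69) (.ofNat 192) (.negSucc 9) (.ofNat 15) (.ofNat 1024)) (.lf (.ofNat 41) (.negSucc 46) (.ofNat 88) (.negSucc 5) (.ofNat 7) (.ofNat 256)))) (.nd 0 1 1
(.nd 2 1 2
(.nd 2 1 2
(.nd 1 2 1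
(.lf (.ofNat 62) (.negSucc 149) (.ofNat 426) (.ofNat 1) (.negSucc 68) (.ofNat 1024)) (.nd 0 1 2
(.out 0) (.lf (.ofNat 22) (.negSucc 51) (.ofNat 160) (.negSucc 1) (.negSucc 12) (.ofNat 256)))) (.nd 0 1 2
(.nd 1 2 1
(.lf (.ofNat 9) (.negSucc 17) (.ofNat 60) (.negSucc 0) (.ofNat 0) (.ofNat 256)) (.out 0)) (.lf (.ofNat 26) (.negSucc 36) (.ofNat 112) (.negSucc 2) (.negSucc 0) (.ofNat 256)))) (.nd 0 1 2
(.nd 1 2 1
(.lf (.ofNat 119) (.negSucc 257) (.ofNat 950) (.negSucc 39) (.ofNat 166) (.ofNat 4096)) (.out 0)) (.lf (.ofNat 27) (.negSucc 29) (.ofNat 93) (.negSucc 2) (.ofNat 5) (.ofNat 256)))) (.lf (.ofNat 27) (.negSucc 39) (.ofNat 94) (.negSucc 8) (.ofNat 14) (.ofNat 256)))) (.nd 0 1 1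
(.nd 0 1 2
(.nd 0 1 2
(.nd 1 2 1
(.lf (.ofNat 18) (.negSucc 21) (.ofNat 87) (.negSucc 2) (.ofNat 19) (.ofNat 256)) (.nd 1 2 1
(.lf (.ofNat 13) (.negSucc 18) (.ofNat 89) (.negSucc 2) (.ofNat 22) (.ofNat 256)) (.out 0))) (.lf (.ofNat 28) (.negSucc 25) (.ofNat 97) (.negSucc 0) (.ofNat 10) (.ofNat 256))) (.lf (.ofNat 41) (.negSucc 39) (.ofNat 120) (.negSucc 0) (.ofNat 7) (.ofNat 256))) (.lf (.ofNat 41) (.negSucc 49) (.ofNat 101) (.ofNat 1) (.ofNat 6) (.ofNat 256))))) (.nd 0 1 1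
(.nd 0 1 2
(.nd 1 1 1
(.lf (.ofNat 44) (.negSucc 43) (.ofNat 156) (.ofNat 0) (.ofNat 12) (.ofNat 256)) (.lf (.ofNat 32) (.negSucc 46) (.ofNat 223) (.ofNat 0) (.ofNat 12) (.ofNat 256))) (.lf (.ofNat 61) (.negSucc 50) (.ofNat 141) (.ofNat 3) (.ofNat 6) (.ofNat 256))) (.lf (.ofNat 29) (.negSucc 34) (.ofNat 63) (.ofNat 11) (.ofNat 0) (.ofNat 256)))) (.nd 0 1 1
(.nd 0 1 2
(.lf (.ofNat 193) (.negSucc 189) (.ofNat 1024) (.ofNat 6) (.ofNat 25) (.ofNat 601)) (.lf (.ofNat 44) (.negSucc 30) (.ofNat 98) (.ofNat 7) (.ofNat 8) (.ofNat 256))) (.lf (.ofNat 32) (.negSucc 27) (.ofNat 60) (.ofNat 18) (.ofNat 0) (.ofNat 256))))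

theorem ok_I101 : okT 2 T_I101 = true := by decide +kernel

theorem r0_I101 : runX 303 13 8 5 550907180400000 ⟨none, some (1, 5)⟩ ⟨some (1, 8), some (1, 1)⟩ ⟨some (1, 2), some (17, 1)⟩ 0 T_I101
    [PI00, PI02, PI01, PI22, PI12, PI11] = true := by
  decide +kernel

/-- `-K` -/
def NKI_I101 : P3 := [[[-8], [35]], [[], [], [-40]]]

theorem r1_I101 : runX 58 1 2 1 40 ⟨none, some (1, 5)⟩ ⟨some (1, 8), some (1, 1)⟩ ⟨some (1, 2), some (17, 1)⟩ 1 T_I101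
    [NKI_I101, [], [], [], [], []] = true := by
  decide +kernel

theorem r2_I101 : runX 58 1 2 1 1 ⟨none, some (1, 5)⟩ ⟨some (1, 8), some (1, 1)⟩ ⟨some (1, 2), some (17, 1)⟩ 2 T_I101
    [[[[-1]]], [], [], [], [], []] = true := by
  decide +kernel

theorem q_I101 {w v T : ℝ} (l0 : Lim.In ⟨none, some (1, 5)⟩ w) (l1 : Lim.In ⟨some (1, 8), some (1, 1)⟩ v) (l2 : Lim.In ⟨some (1, 2), some (17, 1)⟩ T)
    (hK : 0 < ev3 w v T KI) (x1 x2 x3 : ℝ) :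
    0 ≤ qf (ev3 w v T PI00) (ev3 w v T PI01) (ev3 w v T PI02) (ev3 w v T PI11)
      (ev3 w v T PI12) (ev3 w v T PI22) x1 x2 x3 := by
  have hg : ev3 w v T NKI_I101 < 0 := by
    have e : ev3 w v T NKI_I101 = -ev3 w v T KI := by
      simp [NKI_I101, KI, ev3, ev2, ev1]
      ring
    rw [e]; linarith
  have hg2 : ev3 w v T [[[-1]]] < 0 := by simp [ev3, ev2, ev1]
  have h := psdX ok_I101 r0_I101 r1_I101 r2_I101 l0 l1 l2 hg hg2 x1 x3 x2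
  simp only [qf] at h ⊢
  linarith

def T_I110 : TreeX :=
(.nd 0 1 1
(.nd 2 1 1
(.nd 1 1 1
(.nd 2 1 2
(.lf (.ofNat 42) (.negSucc 43) (.ofNat 89) (.negSucc 17) (.negSucc 24) (.ofNat 256)) (.lf (.ofNat 48) (.negSucc 67) (.ofNat 83) (.negSucc 27) (.ofNat 5) (.ofNat 256))) (.nd 2 1 2
(.nd 2 1 2
(.lf (.ofNat 34) (.negSucc 38) (.ofNat 100) (.negSucc 25) (.ofNat 15) (.ofNat 256)) (.lf (.ofNat 28) (.negSucc 40) (.ofNat 80) (.negSucc 34) (.ofNat 31) (.ofNat 256))) (.lf (.ofNat 32) (.negSucc 45) (.ofNat 75) (.negSucc 36) (.ofNat 38) (.ofNat 256)))) (.nd 1 1 1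
(.lf (.ofNat 51) (.negSucc 78) (.ofNat 83) (.negSucc 19) (.ofNat 10) (.ofNat 256)) (.lf (.ofNat 35) (.negSucc 53) (.ofNat 77) (.negSucc 26) (.ofNat 31) (.ofNat 256)))) (.nd 2 1 1
(.nd 1 1 1
(.nd 0 2 1
(.lf (.ofNat 58) (.negSucc 72) (.ofNat 89) (.negSucc 30) (.ofNat 5) (.ofNat 256)) (.lf (.ofNat 78) (.negSucc 91) (.ofNat 97) (.negSucc 33) (.ofNat 9) (.ofNat 256))) (.nd 0 2 1
(.nd 1 2 1
(.lf (.ofNat 277) (.negSucc 352) (.ofNat 448) (.negSucc 165) (.ofNat 115) (.ofNat 1024)) (.nd 0 1 2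
(.lf (.ofNat 65) (.negSucc 82) (.ofNat 105) (.negSucc 44) (.ofNat 38) (.ofNat 256)) (.lf (.ofNat 59) (.negSucc 72) (.ofNat 73) (.negSucc 46) (.ofNat 31) (.ofNat 256)))) (.nd 1 2 1
(.nd 0 2 1
(.lf (.ofNat 87) (.negSucc 103) (.ofNat 102) (.negSucc 42) (.ofNat 25) (.ofNat 256)) (.lf (.ofNat 113) (.negSucc 129) (.ofNat 102) (.negSucc 40) (.ofNat 20) (.ofNat 256))) (.nd 0 2 1
(.nd 1 2 1
(.lf (.ofNat 97) (.negSucc 112) (.ofNat 90) (.negSucc 44) (.ofNat 25) (.ofNat 256)) (.lf (.ofNat 80) (.negSucc 82) (.ofNat 53) (.negSucc 46) (.ofNat 22) (.ofNat 256))) (.nd 1 2 1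
(.lf (.ofNat 110) (.negSucc 117) (.ofNat 65) (.negSucc 40) (.ofNat 17) (.ofNat 256)) (.nd 0 2 1
(.lf (.ofNat 101) (.negSucc 103) (.ofNat 45) (.negSucc 40) (.ofNat 14) (.ofNat 256)) (.nd 0 2 1
(.lf (.ofNat 110) (.negSucc 116) (.ofNat 39) (.negSucc 32) (.ofNat 10) (.ofNat 256)) (.nd 2 1 2
(.lf (.ofNat 660) (.negSucc 488) (.ofNat 154) (.negSucc 208) (.ofNat 40) (.ofNat 1024)) (.lf (.ofNat 116) (.negSucc 137) (.ofNat 37) (.ofNat 9) (.ofNat 1) (.ofNat 256)))))))))) (.nd 0 2 1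
(.lf (.ofNat 69) (.negSucc 98) (.ofNat 94) (.negSucc 27) (.ofNat 23) (.ofNat 256)) (.nd 1 1 1
(.lf (.ofNat 66) (.negSucc 125) (.ofNat 94) (.negSucc 5) (.ofNat 3) (.ofNat 256)) (.nd 1 2 1
(.lf (.ofNat 65) (.negSucc 111) (.ofNat 76) (.negSucc 5) (.ofNat 8) (.ofNat 256)) (.nd 0 2 1
(.nd 1 2 1
(.lf (.ofNat 58) (.negSucc 111) (.ofNat 73) (.negSucc 4) (.ofNat 9) (.ofNat 256)) (.lf (.ofNat 58) (.negSucc 105) (.ofNat 60) (.ofNat 9) (.ofNat 2) (.ofNat 256))) (.nd 1 2 1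
(.nd 2 2 1
(.lf (.ofNat 84) (.negSucc 139) (.ofNat 67) (.ofNat 10) (.ofNat 1) (.ofNat 256)) (.lf (.ofNat 295) (.negSucc 503) (.ofNat 253) (.ofNat 199) (.negSucc 60) (.ofNat 1024))) (.nd 0 2 1
(.lf (.ofNat 76) (.negSucc 118) (.ofNat 50) (.ofNat 43) (.negSucc 9) (.ofNat 256)) (.nd 1 2 1
(.lf (.ofNat 88) (.negSucc 121) (.ofNat 45) (.ofNat 59) (.negSucc 11) (.ofNat 256)) (.nd 2 2 1
(.lf (.ofNat 335) (.negSucc 393) (.ofNat 112) (.ofNat 238) (.negSucc 34) (.ofNat 1024)) (.lf (.ofNat 51) (.negSucc 45) (.ofNat 15) (.ofNat 71) (.negSucc 11) (.ofNat 256))))))))))))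

theorem ok_I110 : okT 2 T_I110 = true := by decide +kernel

theorem r0_I110 : runX 376 13 8 5 550907180400000 ⟨some (1, 5), some (1, 2)⟩ ⟨some (1, 8), some (1, 1)⟩ ⟨some (1, 10), some (9, 1)⟩ 0 T_I110
    [PI00, PI02, PI01, PI22, PI12, PI11] = true := by
  decide +kernel

theorem r1_I110 : runX 32 1 2 1 1 ⟨some (1, 5), some (1, 2)⟩ ⟨some (1, 8), some (1, 1)⟩ ⟨some (1, 10), some (9, 1)⟩ 1 T_I110
    [[[[-1]]], [], [], [], [], []] = true := by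
  decide +kernel

theorem r2_I110 : runX 32 1 2 1 1 ⟨some (1, 5), some (1, 2)⟩ ⟨some (1, 8), some (1, 1)⟩ ⟨some (1, 10), some (9, 1)⟩ 2 T_I110
    [[[[-1]]], [], [], [], [], []] = true := by
  decide +kernel

theorem q_I110 {w v T : ℝ} (l0 : Lim.In ⟨some (1, 5), some (1, 2)⟩ w) (l1 : Lim.In ⟨some (1, 8), some (1, 1)⟩ v) (l2 : Lim.In ⟨some (1, 10), some (9, 1)⟩ T)
    (hK : 0 < ev3 w v T KI) (x1 x2 x3 : ℝ) :
    0 ≤ qf (ev3 w v T PI00) (ev3 w v T PI01) (ev3 w v T PI02) (ev3 w v T PI11)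
      (ev3 w v T PI12) (ev3 w v T PI22) x1 x2 x3 := by
  have hg : ev3 w v T [[[-1]]] < 0 := by simp [ev3, ev2, ev1]
  have hg2 : ev3 w v T [[[-1]]] < 0 := by simp [ev3, ev2, ev1]
  have h := psdX ok_I110 r0_I110 r1_I110 r2_I110 l0 l1 l2 hg hg2 x1 x3 x2
  simp only [qf] at h ⊢
  linarith

def T_I111 : TreeX :=
(.nd 2 1 1
(.nd 2 1 2
(.nd 0 1 1
(.nd 1 1 1
(.lf (.ofNat 38) (.negSucc 57) (.ofNat 64) (.ofNat 19) (.negSucc 8) (.ofNat 256)) (.nd 0 1 2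
(.lf (.ofNat 25) (.negSucc 48) (.ofNat 71) (.ofNat 11) (.negSucc 1) (.ofNat 256)) (.lf (.ofNat 29) (.negSucc 61) (.ofNat 78) (.ofNat 24) (.negSucc 12) (.ofNat 256)))) (.nd 0 2 1
(.nd 0 1 2
(.lf (.ofNat 43) (.negSucc 56) (.ofNat 62) (.ofNat 34) (.negSucc 18) (.ofNat 256)) (.lf (.ofNat 46) (.negSucc 53) (.ofNat 56) (.ofNat 40) (.negSucc 21) (.ofNat 256))) (.nd 1 1 1
(.lf (.ofNat 241) (.negSucc 303) (.ofNat 289) (.ofNat 178) (.negSucc 88) (.ofNat 1024)) (.nd 2 1 2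
(.nd 1 2 1
(.nd 0 2 1
(.lf (.ofNat 57) (.negSucc 83) (.ofNat 71) (.ofNat 49) (.negSucc 25) (.ofNat 256)) (.lf (.ofNat 46) (.negSucc 44) (.ofNat 33) (.ofNat 57) (.negSucc 24) (.ofNat 256))) (.nd 0 2 1
(.nd 1 2 1
(.lf (.ofNat 50) (.negSucc 61) (.ofNat 48) (.ofNat 55) (.negSucc 25) (.ofNat 256)) (.nd 0 1 2
(.lf (.ofNat 49) (.negSucc 62) (.ofNat 46) (.ofNat 58) (.negSucc 25) (.ofNat 256)) (.lf (.ofNat 45) (.negSucc 44) (.ofNat 30) (.ofNat 60) (.negSucc 22) (.ofNat 256)))) (.nd 1 2 1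
(.nd 0 2 1
(.lf (.ofNat 48) (.negSucc 49) (.ofNat 34) (.ofNat 60) (.negSucc 22) (.ofNat 256)) (.lf (.ofNat 45) (.negSucc 38) (.ofNat 24) (.ofNat 60) (.negSucc 18) (.ofNat 256))) (.nd 2 1 2
(.nd 0 2 1
(.lf (.ofNat 42) (.negSucc 38) (.ofNat 21) (.ofNat 66) (.negSucc 19) (.ofNat 256)) (.nd 1 2 1
(.lf (.ofNat 44) (.negSucc 36) (.ofNat 18) (.ofNat 66) (.negSucc 15) (.ofNat 256)) (.lf (.ofNat 41) (.negSucc 27) (.ofNat 12) (.ofNat 64) (.negSucc 11) (.ofNat 256)))) (.lf (.ofNat 119) (.negSucc 75) (.ofNat 49) (.ofNat 213) (.negSucc 54) (.ofNat 1024)))))) (.nd 1 2 1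
(.lf (.ofNat 32) (.negSucc 19) (.ofNat 22) (.ofNat 40) (.negSucc 16) (.ofNat 256)) (.nd 0 2 1
(.lf (.ofNat 29) (.negSucc 17) (.ofNat 19) (.ofNat 41) (.negSucc 15) (.ofNat 256)) (.lf (.ofNat 372) (.negSucc 212) (.ofNat 207) (.ofNat 649) (.negSucc 172) (.ofNat 4096)))))))) (.nd 0 1 1
(.lf (.ofNat 43) (.negSucc 40) (.ofNat 64) (.ofNat 27) (.negSucc 11) (.ofNat 256)) (.nd 0 2 1
(.lf (.ofNat 41) (.negSucc 26) (.ofNat 43) (.ofNat 31) (.negSucc 11) (.ofNat 256)) (.lf (.ofNat 18) (.negSucc 8) (.ofNat 14) (.ofNat 31) (.negSucc 8) (.ofNat 256))))) (.lf (.ofNat 15) (.negSucc 6) (.ofNat 17) (.ofNat 25) (.negSucc 3) (.ofNat 256)))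

theorem ok_I111 : okT 2 T_I111 = true := by decide +kernel

theorem r0_I111 : runX 372 13 8 5 550907180400000 ⟨some (1, 5), some (1, 2)⟩ ⟨some (1, 8), some (1, 1)⟩ ⟨some (1, 1), some (8, 1)⟩ 0 T_I111
    [PI00, PI02, PI01, PI22, PI12, PI11] = true := by
  decide +kernel

theorem r1_I111 : runX 30 1 2 1 1 ⟨some (1, 5), some (1, 2)⟩ ⟨some (1, 8), some (1, 1)⟩ ⟨some (1, 1), some (8, 1)⟩ 1 T_I111
    [[[[-1]]], [], [], [], [], []] = true := by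
  decide +kernel

theorem r2_I111 : runX 30 1 2 1 1 ⟨some (1, 5), some (1, 2)⟩ ⟨some (1, 8), some (1, 1)⟩ ⟨some (1, 1), some (8, 1)⟩ 2 T_I111
    [[[[-1]]], [], [], [], [], []] = true := by
  decide +kernel

theorem q_I111 {w v T : ℝ} (l0 : Lim.In ⟨some (1, 5), some (1, 2)⟩ w) (l1 : Lim.In ⟨some (1, 8), some (1, 1)⟩ v) (l2 : Lim.In ⟨some (1, 1), some (8, 1)⟩ T)
    (hK : 0 < ev3 w v T KI) (x1 x2 x3 : ℝ) :
    0 ≤ qf (ev3 w v T PI00) (ev3 w v T PI01) (ev3 w v T PI02) (ev3 w v T PI11)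
      (ev3 w v T PI12) (ev3 w v T PI22) x1 x2 x3 := by
  have hg : ev3 w v T [[[-1]]] < 0 := by simp [ev3, ev2, ev1]
  have hg2 : ev3 w v T [[[-1]]] < 0 := by simp [ev3, ev2, ev1]
  have h := psdX ok_I111 r0_I111 r1_I111 r2_I111 l0 l1 l2 hg hg2 x1 x3 x2
  simp only [qf] at h ⊢
  linarith

end Crest.Agent.R249.Px324
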