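import Crest.Agent.R249.Cd1_133
import Crest.Agent.R249.Ker12_254

/-!
# Row 249, part A (helper324): sub-boxes of the chart matrix `II` (kernel check)
-/

set_option autoImplicit false
set_option linter.unusedVariables false

namespace Crest.Agent.R249.Px324

open Ker254 Cd133

def T_II0000 : TreeX :=
(.nd 2 1 1
(.nd 2 1 2
(.nd 0 1 1
(.nd 1 1 1
(.lf (.ofNat 3055) (.ofNat 0) (.ofNat 605) (.ofNat 1040) (.ofNat 426) (.ofNat 4096)) (.lf (.ofNat 92) (.ofNat 0) (.ofNat 39) (.ofNat 70) (.ofNat 16) (.ofNat 256))) (.nd 2 1 2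
(.nd 2 1 2
(.nd 0 2 1
(.lf (.ofNat 199) (.ofNat 0) (.ofNat 256) (.ofNat 28) (.ofNat 29) (.ofNat 235)) (.nd 2 1 2
(.nd 2 1 2
(.lf (.ofNat 64) (.ofNat 0) (.ofNat 256) (.ofNat 3) (.ofNat 0) (.ofNat 48)) (.lf (.ofNat 5221) (.ofNat 3456) (.ofNat 16384) (.ofNat 494) (.ofNat 69) (.ofNat 5466))) (.nd 1 1 1
(.lf (.ofNat 237) (.ofNat 111) (.ofNat 256) (.ofNat 15) (.ofNat 12) (.ofNat 90)) (.lf (.ofNat 138) (.ofNat 90) (.ofNat 256) (.ofNat 14) (.negSucc 9) (.ofNat 117))))) (.nd 1 1 1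
(.lf (.ofNat 256) (.ofNat 92) (.ofNat 175) (.ofNat 59) (.ofNat 31) (.ofNat 183)) (.lf (.ofNat 255) (.ofNat 107) (.ofNat 256) (.ofNat 81) (.ofNat 24) (.ofNat 251)))) (.nd 1 1 1
(.nd 0 2 1
(.lf (.ofNat 256) (.ofNat 8) (.ofNat 43) (.ofNat 150) (.ofNat 35) (.ofNat 255)) (.lf (.ofNat 256) (.ofNat 67) (.ofNat 66) (.ofNat 134) (.ofNat 18) (.ofNat 182))) (.nd 0 2 1
(.lf (.ofNat 87) (.ofNat 6) (.ofNat 28) (.ofNat 117) (.ofNat 22) (.ofNat 256)) (.lf (.ofNat 189) (.ofNat 39) (.ofNat 99) (.ofNat 112) (.negSucc 1) (.ofNat 256)))))) (.nd 0 1 1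
(.nd 1 1 1
(.nd 1 1 2
(.nd 0 1 2
(.lf (.ofNat 121) (.negSucc 5) (.ofNat 10) (.ofNat 84) (.ofNat 21) (.ofNat 256)) (.nd 1 1 2
(.nd 0 2 1
(.lf (.ofNat 251) (.negSucc 25) (.ofNat 18) (.ofNat 161) (.ofNat 25) (.ofNat 256)) (.lf (.ofNat 256) (.negSucc 38) (.ofNat 16) (.ofNat 159) (.ofNat 17) (.ofNat 165))) (.lf (.ofNat 155) (.negSucc 18) (.ofNat 15) (.ofNat 157) (.ofNat 22) (.ofNat 256)))) (.nd 0 1 2
(.lf (.ofNat 65) (.negSucc 2) (.ofNat 8) (.ofNat 76) (.ofNat 17) (.ofNat 257)) (.lf (.ofNat 88) (.negSucc 6) (.ofNat 11) (.ofNat 120) (.ofNat 17) (.ofNat 256)))) (.nd 0 1 2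
(.lf (.ofNat 43) (.negSucc 1) (.ofNat 9) (.ofNat 64) (.ofNat 11) (.ofNat 256)) (.lf (.ofNat 54) (.negSucc 1) (.ofNat 9) (.ofNat 84) (.ofNat 13) (.ofNat 256)))) (.nd 1 1 1
(.nd 1 1 2
(.nd 1 1 2
(.nd 2 2 1
(.nd 1 1 2
(.nd 0 2 1
(.lf (.ofNat 311) (.negSucc 20) (.ofNat 8) (.ofNat 119) (.ofNat 9) (.ofNat 76)) (.lf (.ofNat 310) (.negSucc 14) (.ofNat 8) (.ofNat 111) (.ofNat 4) (.ofNat 53))) (.lf (.ofNat 256) (.negSucc 38) (.ofNat 20) (.ofNat 216) (.ofNat 12) (.ofNat 137))) (.nd 1 1 2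
(.nd 0 2 1
(.nd 1 1 2
(.nd 1 1 2
(.lf (.ofNat 745) (.negSucc 108) (.ofNat 8) (.ofNat 228) (.ofNat 8) (.ofNat 69)) (.lf (.ofNat 375) (.negSucc 83) (.ofNat 8) (.ofNat 195) (.ofNat 7) (.ofNat 71))) (.lf (.ofNat 256) (.negSucc 69) (.ofNat 9) (.ofNat 187) (.ofNat 7) (.ofNat 85))) (.nd 1 1 2
(.nd 1 1 2
(.nd 0 2 1
(.lf (.ofNat 4096) (.negSucc 1194) (.ofNat 41) (.ofNat 1846) (.ofNat 16) (.ofNat 231)) (.lf (.ofNat 960) (.negSucc 236) (.ofNat 8) (.ofNat 319) (.ofNat 1) (.ofNat 38))) (.lf (.ofNat 321) (.negSucc 164) (.ofNat 8) (.ofNat 280) (.ofNat 1) (.ofNat 44))) (.lf (.ofNat 237) (.negSucc 135) (.ofNat 10) (.ofNat 256) (.ofNat 0) (.ofNat 57)))) (.nd 0 2 1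
(.lf (.ofNat 4096) (.negSucc 1195) (.ofNat 242) (.ofNat 4010) (.ofNat 177) (.ofNat 2543)) (.nd 0 2 1
(.lf (.ofNat 243) (.negSucc 105) (.ofNat 15) (.ofNat 256) (.ofNat 1) (.ofNat 101)) (.lf (.ofNat 256) (.negSucc 124) (.ofNat 14) (.ofNat 245) (.negSucc 2) (.ofNat 80)))))) (.nd 0 2 1
(.nd 0 1 2
(.lf (.ofNat 192) (.negSucc 51) (.ofNat 27) (.ofNat 237) (.ofNat 20) (.ofNat 256)) (.lf (.ofNat 228) (.negSucc 81) (.ofNat 36) (.ofNat 256) (.ofNat 12) (.ofNat 219))) (.nd 2 2 1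
(.lf (.ofNat 256) (.negSucc 34) (.ofNat 29) (.ofNat 210) (.ofNat 5) (.ofNat 155)) (.nd 0 2 1
(.lf (.ofNat 216) (.negSucc 82) (.ofNat 23) (.ofNat 256) (.negSucc 0) (.ofNat 177)) (.lf (.ofNat 227) (.negSucc 103) (.ofNat 22) (.ofNat 256) (.negSucc 7) (.ofNat 145)))))) (.nd 0 2 1
(.nd 0 1 2
(.lf (.ofNat 105) (.negSucc 16) (.ofNat 20) (.ofNat 156) (.ofNat 16) (.ofNat 256)) (.lf (.ofNat 139) (.negSucc 32) (.ofNat 33) (.ofNat 181) (.ofNat 10) (.ofNat 256))) (.nd 1 2 1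
(.lf (.ofNat 201) (.negSucc 94) (.ofNat 54) (.ofNat 256) (.negSucc 5) (.ofNat 248)) (.lf (.ofNat 135) (.negSucc 59) (.ofNat 51) (.ofNat 194) (.negSucc 9) (.ofNat 256))))) (.nd 0 2 1
(.nd 1 2 1
(.lf (.ofNat 69) (.negSucc 6) (.ofNat 21) (.ofNat 115) (.ofNat 10) (.ofNat 256)) (.lf (.ofNat 51) (.negSucc 1) (.ofNat 19) (.ofNat 89) (.ofNat 8) (.ofNat 256))) (.nd 1 2 1
(.lf (.ofNat 97) (.negSucc 31) (.ofNat 46) (.ofNat 137) (.negSucc 13) (.ofNat 256)) (.lf (.ofNat 72) (.negSucc 15) (.ofNat 43) (.ofNat 98) (.negSucc 16) (.ofNat 256))))))) (.nd 0 1 1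
(.nd 1 1 1
(.nd 1 1 2
(.nd 0 1 2
(.lf (.ofNat 104) (.negSucc 10) (.ofNat 8) (.ofNat 59) (.ofNat 18) (.ofNat 256)) (.nd 1 1 2
(.nd 1 1 2
(.lf (.ofNat 1024) (.negSucc 98) (.ofNat 23) (.ofNat 340) (.ofNat 57) (.ofNat 645)) (.lf (.ofNat 896) (.negSucc 99) (.ofNat 33) (.ofNat 460) (.ofNat 81) (.ofNat 1024))) (.nd 2 2 1
(.lf (.ofNat 142) (.negSucc 16) (.ofNat 9) (.ofNat 114) (.ofNat 18) (.ofNat 256)) (.lf (.ofNat 110) (.negSucc 18) (.ofNat 9) (.ofNat 80) (.ofNat 17) (.ofNat 256))))) (.nd 0 1 2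
(.lf (.ofNat 82) (.negSucc 5) (.ofNat 8) (.ofNat 70) (.ofNat 21) (.ofNat 363)) (.nd 2 2 1
(.lf (.ofNat 322) (.negSucc 34) (.ofNat 36) (.ofNat 336) (.ofNat 59) (.ofNat 1024)) (.lf (.ofNat 63) (.negSucc 10) (.ofNat 11) (.ofNat 61) (.ofNat 15) (.ofNat 256))))) (.nd 1 2 1
(.nd 0 1 2
(.lf (.ofNat 66) (.negSucc 2) (.ofNat 8) (.ofNat 69) (.ofNat 21) (.ofNat 421)) (.lf (.ofNat 194) (.negSucc 12) (.ofNat 30) (.ofNat 218) (.ofNat 50) (.ofNat 1024))) (.lf (.ofNat 142) (.negSucc 3) (.ofNat 23) (.ofNat 165) (.ofNat 46) (.ofNat 1024)))) (.nd 1 1 1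
(.nd 1 1 2
(.nd 1 1 2
(.nd 1 1 2
(.nd 2 2 1
(.nd 0 2 1
(.nd 1 1 2
(.nd 1 1 2
(.nd 0 1 2
(.lf (.ofNat 845) (.negSucc 96) (.ofNat 8) (.ofNat 227) (.ofNat 14) (.ofNat 141)) (.lf (.ofNat 938) (.negSucc 173) (.ofNat 8) (.ofNat 257) (.ofNat 8) (.ofNat 87))) (.nd 0 1 2
(.lf (.ofNat 550) (.negSucc 77) (.ofNat 8) (.ofNat 221) (.ofNat 14) (.ofNat 155)) (.lf (.ofNat 476) (.negSucc 125) (.ofNat 8) (.ofNat 215) (.ofNat 7) (.ofNat 90)))) (.nd 0 1 2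
(.lf (.ofNat 323) (.negSucc 59) (.ofNat 8) (.ofNat 177) (.ofNat 12) (.ofNat 146)) (.lf (.ofNat 268) (.negSucc 87) (.ofNat 8) (.ofNat 163) (.ofNat 5) (.ofNat 86)))) (.nd 1 1 2
(.nd 1 1 2
(.nd 1 1 2
(.nd 0 2 1
(.lf (.ofNat 1415) (.negSucc 309) (.ofNat 8) (.ofNat 349) (.ofNat 4) (.ofNat 66)) (.lf (.ofNat 1460) (.negSucc 385) (.ofNat 8) (.ofNat 375) (.ofNat 2) (.ofNat 55))) (.lf (.ofNat 596) (.negSucc 272) (.ofNat 8) (.ofNat 316) (.ofNat 2) (.ofNat 59))) (.nd 0 2 1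
(.lf (.ofNat 1024) (.negSucc 424) (.ofNat 19) (.ofNat 576) (.ofNat 6) (.ofNat 153)) (.lf (.ofNat 429) (.negSucc 220) (.ofNat 8) (.ofNat 267) (.ofNat 0) (.ofNat 55)))) (.nd 1 2 1
(.lf (.ofNat 4096) (.negSucc 2840) (.ofNat 154) (.ofNat 3821) (.ofNat 2) (.ofNat 1076)) (.lf (.ofNat 972) (.negSucc 714) (.ofNat 49) (.ofNat 1024) (.negSucc 2) (.ofNat 344))))) (.nd 1 1 2
(.lf (.ofNat 16384) (.negSucc 6388) (.ofNat 501) (.ofNat 6494) (.ofNat 383) (.ofNat 5436)) (.lf (.ofNat 4096) (.negSucc 2399) (.ofNat 268) (.ofNat 2745) (.ofNat 150) (.ofNat 2701)))) (.nd 2 2 1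
(.nd 0 2 1
(.nd 1 2 1
(.lf (.ofNat 256) (.negSucc 77) (.ofNat 12) (.ofNat 191) (.ofNat 10) (.ofNat 156)) (.lf (.ofNat 256) (.negSucc 78) (.ofNat 15) (.ofNat 224) (.ofNat 12) (.ofNat 218))) (.nd 1 2 1
(.nd 0 2 1
(.lf (.ofNat 256) (.negSucc 130) (.ofNat 13) (.ofNat 229) (.ofNat 0) (.ofNat 110)) (.lf (.ofNat 252) (.negSucc 166) (.ofNat 14) (.ofNat 256) (.negSucc 3) (.ofNat 95))) (.lf (.ofNat 215) (.negSucc 156) (.ofNat 19) (.ofNat 256) (.negSucc 3) (.ofNat 135)))) (.nd 0 2 1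
(.lf (.ofNat 256) (.negSucc 86) (.ofNat 18) (.ofNat 149) (.ofNat 15) (.ofNat 237)) (.lf (.ofNat 256) (.negSucc 155) (.ofNat 21) (.ofNat 169) (.ofNat 1) (.ofNat 157))))) (.nd 0 2 1
(.nd 2 2 1
(.nd 1 2 1
(.lf (.ofNat 221) (.negSucc 69) (.ofNat 19) (.ofNat 213) (.ofNat 12) (.ofNat 256)) (.lf (.ofNat 155) (.negSucc 43) (.ofNat 17) (.ofNat 171) (.ofNat 10) (.ofNat 256))) (.lf (.ofNat 154) (.negSucc 57) (.ofNat 20) (.ofNat 122) (.ofNat 13) (.ofNat 256))) (.nd 1 2 1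
(.nd 2 2 1
(.nd 0 2 1
(.lf (.ofNat 245) (.negSucc 121) (.ofNat 23) (.ofNat 256) (.negSucc 2) (.ofNat 202)) (.lf (.ofNat 222) (.negSucc 144) (.ofNat 22) (.ofNat 256) (.negSucc 9) (.ofNat 156))) (.lf (.ofNat 256) (.negSucc 170) (.ofNat 34) (.ofNat 216) (.negSucc 2) (.ofNat 250))) (.nd 2 2 1
(.lf (.ofNat 198) (.negSucc 133) (.ofNat 33) (.ofNat 256) (.negSucc 10) (.ofNat 233)) (.lf (.ofNat 190) (.negSucc 128) (.ofNat 35) (.ofNat 182) (.negSucc 4) (.ofNat 256)))))) (.nd 1 2 1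
(.nd 0 2 1
(.nd 2 2 1
(.lf (.ofNat 114) (.negSucc 29) (.ofNat 17) (.ofNat 133) (.ofNat 9) (.ofNat 256)) (.lf (.ofNat 91) (.negSucc 30) (.ofNat 18) (.ofNat 93) (.ofNat 10) (.ofNat 256))) (.nd 1 1 2
(.nd 2 2 1
(.lf (.ofNat 168) (.negSucc 108) (.ofNat 35) (.ofNat 226) (.negSucc 12) (.ofNat 256)) (.lf (.ofNat 149) (.negSucc 99) (.ofNat 35) (.ofNat 155) (.negSucc 6) (.ofNat 256))) (.lf (.ofNat 130) (.negSucc 81) (.ofNat 34) (.ofNat 158) (.negSucc 11) (.ofNat 256)))) (.nd 0 2 1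
(.lf (.ofNat 80) (.negSucc 17) (.ofNat 16) (.ofNat 87) (.ofNat 8) (.ofNat 256)) (.nd 2 2 1
(.lf (.ofNat 111) (.negSucc 63) (.ofNat 36) (.ofNat 150) (.negSucc 14) (.ofNat 256)) (.lf (.ofNat 98) (.negSucc 59) (.ofNat 34) (.ofNat 111) (.negSucc 9) (.ofNat 256)))))) (.nd 1 2 1
(.nd 0 2 1
(.nd 2 2 1
(.lf (.ofNat 59) (.negSucc 8) (.ofNat 16) (.ofNat 79) (.ofNat 6) (.ofNat 256)) (.lf (.ofNat 49) (.negSucc 10) (.ofNat 18) (.ofNat 60) (.ofNat 7) (.ofNat 256))) (.nd 2 2 1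
(.lf (.ofNat 327) (.negSucc 154) (.ofNat 146) (.ofNat 423) (.negSucc 60) (.ofNat 1024)) (.lf (.ofNat 71) (.negSucc 35) (.ofNat 34) (.ofNat 82) (.negSucc 9) (.ofNat 256)))) (.nd 0 2 1
(.lf (.ofNat 43) (.negSucc 3) (.ofNat 15) (.ofNat 54) (.ofNat 6) (.ofNat 256)) (.lf (.ofNat 51) (.negSucc 18) (.ofNat 33) (.ofNat 68) (.negSucc 11) (.ofNat 256)))))))

theorem ok_II0000 : okT 2 T_II0000 = true := by decide +kernel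

theorem r0_II0000 : runX 262 10 7 5 41292796800 ⟨none, some (1, 2)⟩ ⟨none, some (1, 2)⟩ ⟨none, some (1, 1)⟩ 0 T_II0000
    [PII00, PII02, PII01, PII22, PII12, PII11] = true := by
  decide +kernel

theorem r1_II0000 : runX 28 4 2 1 1 ⟨none, some (1, 2)⟩ ⟨none, some (1, 2)⟩ ⟨none, some (1, 1)⟩ 1 T_II0000
    [[[[-1]]], [], [], [], [], []] = true := by
  decide +kernel

theorem r2_II0000 : runX 28 4 2 1 1 ⟨none, some (1, 2)⟩ ⟨none, some (1, 2)⟩ ⟨none, some (1, 1)⟩ 2 T_II0000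
    [[[[-1]]], [], [], [], [], []] = true := by
  decide +kernel

theorem q_II0000 {m v T : ℝ} (l0 : Lim.In ⟨none, some (1, 2)⟩ m) (l1 : Lim.In ⟨none, some (1, 2)⟩ v) (l2 : Lim.In ⟨none, some (1, 1)⟩ T)
    (hK : 0 < ev3 m v T KII) (x1 x2 x3 : ℝ) :
    0 ≤ qf (ev3 m v T PII00) (ev3 m v T PII01) (ev3 m v T PII02) (ev3 m v T PII11)
      (ev3 m v T PII12) (ev3 m v T PII22) x1 x2 x3 := by
  have hg : ev3 m v T [[[-1]]] < 0 := by simp [ev3, ev2, ev1]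
  have hg2 : ev3 m v T [[[-1]]] < 0 := by simp [ev3, ev2, ev1]
  have h := psdX ok_II0000 r0_II0000 r1_II0000 r2_II0000 l0 l1 l2 hg hg2 x1 x3 x2
  simp only [qf] at h ⊢
  linarith

def T_II0001 : TreeX :=
(.nd 2 1 1
(.nd 1 1 1
(.nd 2 1 2
(.nd 2 1 2
(.nd 2 1 2
(.nd 2 1 2
(.nd 2 1 2
(.nd 2 1 2
(.nd 0 1 1
(.lf (.ofNat 236) (.ofNat 0) (.ofNat 1024) (.negSucc 1) (.negSucc 45) (.ofNat 103)) (.lf (.ofNat 1210) (.ofNat 0) (.ofNat 4096) (.negSucc 114) (.negSucc 891) (.ofNat 449))) (.nd 0 1 1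
(.lf (.ofNat 63) (.ofNat 50) (.ofNat 256) (.negSucc 2) (.negSucc 21) (.ofNat 50)) (.lf (.ofNat 86) (.ofNat 62) (.ofNat 256) (.negSucc 37) (.negSucc 126) (.ofNat 70)))) (.nd 2 2 1
(.lf (.ofNat 477) (.ofNat 399) (.ofNat 1024) (.negSucc 176) (.negSucc 421) (.ofNat 393)) (.nd 2 2 1
(.lf (.ofNat 147) (.ofNat 130) (.ofNat 256) (.negSucc 70) (.negSucc 130) (.ofNat 127)) (.nd 2 2 1
(.lf (.ofNat 162) (.ofNat 146) (.ofNat 256) (.negSucc 85) (.negSucc 142) (.ofNat 141)) (.nd 2 2 1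
(.lf (.ofNat 169) (.ofNat 153) (.ofNat 256) (.negSucc 94) (.negSucc 149) (.ofNat 149)) (.nd 2 2 1
(.lf (.ofNat 172) (.ofNat 157) (.ofNat 256) (.negSucc 98) (.negSucc 152) (.ofNat 153)) (.lf (.ofNat 2766) (.ofNat 2555) (.ofNat 4096) (.negSucc 1639) (.negSucc 2496) (.ofNat 2501)))))))) (.nd 0 1 1
(.nd 1 1 2
(.lf (.ofNat 256) (.ofNat 181) (.ofNat 232) (.negSucc 7) (.negSucc 18) (.ofNat 128)) (.nd 2 2 1
(.lf (.ofNat 157) (.ofNat 164) (.ofNat 256) (.negSucc 73) (.negSucc 122) (.ofNat 155)) (.lf (.ofNat 208) (.ofNat 231) (.ofNat 256) (.negSucc 126) (.negSucc 150) (.ofNat 210)))) (.nd 1 1 2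
(.lf (.ofNat 252) (.ofNat 256) (.ofNat 235) (.negSucc 198) (.negSucc 160) (.ofNat 216)) (.nd 1 2 1
(.nd 2 2 1
(.lf (.ofNat 179) (.ofNat 122) (.ofNat 172) (.negSucc 212) (.negSucc 255) (.ofNat 185)) (.lf (.ofNat 170) (.ofNat 118) (.ofNat 120) (.negSucc 255) (.negSucc 219) (.ofNat 197))) (.nd 2 2 1
(.lf (.ofNat 151) (.ofNat 87) (.ofNat 186) (.negSucc 153) (.negSucc 255) (.ofNat 199)) (.lf (.ofNat 182) (.ofNat 102) (.ofNat 165) (.negSucc 212) (.negSucc 255) (.ofNat 253))))))) (.nd 0 1 1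
(.nd 2 2 1
(.nd 0 1 2
(.lf (.ofNat 174) (.ofNat 256) (.ofNat 213) (.negSucc 3) (.negSucc 16) (.ofNat 129)) (.lf (.ofNat 164) (.ofNat 256) (.ofNat 171) (.negSucc 112) (.negSucc 78) (.ofNat 169))) (.lf (.ofNat 208) (.ofNat 256) (.ofNat 136) (.negSucc 42) (.negSucc 35) (.ofNat 176))) (.nd 1 1 2
(.nd 0 2 1
(.lf (.ofNat 191) (.ofNat 256) (.ofNat 126) (.negSucc 135) (.negSucc 60) (.ofNat 169)) (.lf (.ofNat 221) (.ofNat 235) (.ofNat 110) (.negSucc 255) (.negSucc 94) (.ofNat 197))) (.nd 2 2 1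
(.nd 1 2 1
(.nd 0 2 1
(.lf (.ofNat 194) (.ofNat 153) (.ofNat 103) (.negSucc 255) (.negSucc 151) (.ofNat 181)) (.lf (.ofNat 190) (.ofNat 88) (.ofNat 76) (.negSucc 255) (.negSucc 156) (.ofNat 210))) (.nd 0 2 1
(.lf (.ofNat 222) (.ofNat 124) (.ofNat 124) (.negSucc 255) (.negSucc 204) (.ofNat 253)) (.lf (.ofNat 212) (.ofNat 66) (.ofNat 116) (.negSucc 179) (.negSucc 166) (.ofNat 256)))) (.nd 1 2 1
(.lf (.ofNat 174) (.ofNat 100) (.ofNat 57) (.negSucc 255) (.negSucc 105) (.ofNat 195)) (.lf (.ofNat 194) (.ofNat 74) (.ofNat 85) (.negSucc 203) (.negSucc 124) (.ofNat 256))))))) (.nd 1 1 2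
(.nd 0 1 1
(.lf (.ofNat 256) (.ofNat 146) (.ofNat 56) (.ofNat 26) (.negSucc 4) (.ofNat 105)) (.nd 0 2 1
(.lf (.ofNat 256) (.ofNat 156) (.ofNat 47) (.negSucc 67) (.negSucc 16) (.ofNat 102)) (.lf (.ofNat 256) (.ofNat 111) (.ofNat 38) (.negSucc 152) (.negSucc 25) (.ofNat 121)))) (.nd 2 2 1
(.nd 0 1 1
(.lf (.ofNat 256) (.ofNat 189) (.ofNat 94) (.negSucc 21) (.negSucc 29) (.ofNat 167)) (.nd 0 2 1
(.lf (.ofNat 256) (.ofNat 93) (.ofNat 60) (.negSucc 179) (.negSucc 65) (.ofNat 210)) (.lf (.ofNat 3847) (.ofNat 523) (.ofNat 1016) (.negSucc 3363) (.negSucc 1217) (.ofNat 4096)))) (.nd 0 1 1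
(.lf (.ofNat 256) (.ofNat 47) (.ofNat 44) (.ofNat 46) (.negSucc 14) (.ofNat 146)) (.lf (.ofNat 256) (.negSucc 26) (.ofNat 44) (.negSucc 113) (.negSucc 33) (.ofNat 192)))))) (.nd 1 1 2
(.nd 2 2 1
(.nd 0 1 1
(.nd 0 1 2
(.lf (.ofNat 1024) (.negSucc 54) (.ofNat 55) (.ofNat 314) (.negSucc 4) (.ofNat 210)) (.lf (.ofNat 256) (.negSucc 20) (.ofNat 16) (.ofNat 51) (.negSucc 2) (.ofNat 49))) (.lf (.ofNat 256) (.negSucc 52) (.ofNat 14) (.negSucc 23) (.negSucc 6) (.ofNat 67))) (.nd 1 1 2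
(.nd 1 1 2
(.nd 1 1 2
(.nd 0 1 1
(.lf (.ofNat 784) (.negSucc 183) (.ofNat 8) (.ofNat 160) (.negSucc 0) (.ofNat 31)) (.lf (.ofNat 774) (.negSucc 241) (.ofNat 8) (.ofNat 66) (.negSucc 2) (.ofNat 38))) (.nd 0 1 1
(.lf (.ofNat 285) (.negSucc 139) (.ofNat 8) (.ofNat 125) (.negSucc 1) (.ofNat 29)) (.lf (.ofNat 428) (.negSucc 223) (.ofNat 8) (.ofNat 76) (.negSucc 2) (.ofNat 41)))) (.nd 0 1 1
(.lf (.ofNat 256) (.negSucc 145) (.ofNat 12) (.ofNat 169) (.negSucc 3) (.ofNat 52)) (.lf (.ofNat 256) (.negSucc 203) (.ofNat 9) (.ofNat 87) (.negSucc 4) (.ofNat 49)))) (.nd 1 2 1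
(.lf (.ofNat 1024) (.negSucc 776) (.ofNat 64) (.ofNat 544) (.negSucc 29) (.ofNat 237)) (.lf (.ofNat 256) (.negSucc 219) (.ofNat 24) (.ofNat 157) (.negSucc 12) (.ofNat 87))))) (.nd 2 2 1
(.nd 1 2 1
(.lf (.ofNat 256) (.negSucc 98) (.ofNat 29) (.ofNat 60) (.negSucc 13) (.ofNat 119)) (.lf (.ofNat 256) (.negSucc 119) (.ofNat 42) (.ofNat 78) (.negSucc 28) (.ofNat 206))) (.nd 1 2 1
(.nd 0 1 1
(.lf (.ofNat 235) (.negSucc 164) (.ofNat 36) (.ofNat 256) (.negSucc 26) (.ofNat 193)) (.lf (.ofNat 206) (.negSucc 255) (.ofNat 33) (.ofNat 116) (.negSucc 20) (.ofNat 143))) (.lf (.ofNat 256) (.negSucc 245) (.ofNat 58) (.ofNat 209) (.negSucc 41) (.ofNat 234)))))) (.nd 2 1 2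
(.nd 2 1 2
(.nd 2 1 2
(.nd 2 1 2
(.nd 2 1 2
(.nd 2 1 2
(.lf (.ofNat 44) (.ofNat 0) (.ofNat 256) (.negSucc 4) (.negSucc 109) (.ofNat 51)) (.nd 0 1 1
(.lf (.ofNat 58) (.ofNat 25) (.ofNat 256) (.negSucc 10) (.negSucc 106) (.ofNat 60)) (.lf (.ofNat 89) (.ofNat 8) (.ofNat 256) (.negSucc 12) (.negSucc 134) (.ofNat 98)))) (.nd 1 2 1
(.nd 0 1 1
(.lf (.ofNat 93) (.ofNat 67) (.ofNat 256) (.negSucc 31) (.negSucc 122) (.ofNat 77)) (.lf (.ofNat 132) (.ofNat 30) (.ofNat 256) (.negSucc 44) (.negSucc 212) (.ofNat 160))) (.lf (.ofNat 94) (.ofNat 18) (.ofNat 256) (.negSucc 21) (.negSucc 173) (.ofNat 153)))) (.nd 1 2 1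
(.nd 0 1 1
(.nd 2 2 1
(.lf (.ofNat 135) (.ofNat 110) (.ofNat 256) (.negSucc 99) (.negSucc 232) (.ofNat 175)) (.lf (.ofNat 177) (.ofNat 140) (.ofNat 243) (.negSucc 146) (.negSucc 255) (.ofNat 242))) (.nd 1 1 2
(.nd 0 2 1
(.lf (.ofNat 196) (.ofNat 82) (.ofNat 208) (.negSucc 133) (.negSucc 255) (.ofNat 233)) (.lf (.ofNat 212) (.ofNat 39) (.ofNat 213) (.negSucc 93) (.negSucc 220) (.ofNat 256))) (.lf (.ofNat 163) (.ofNat 31) (.ofNat 256) (.negSucc 63) (.negSucc 206) (.ofNat 249)))) (.nd 0 1 1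
(.lf (.ofNat 140) (.ofNat 57) (.ofNat 256) (.negSucc 38) (.negSucc 159) (.ofNat 187)) (.lf (.ofNat 133) (.negSucc 1) (.ofNat 256) (.negSucc 25) (.negSucc 130) (.ofNat 205))))) (.nd 1 2 1
(.nd 0 1 1
(.lf (.ofNat 202) (.ofNat 146) (.ofNat 177) (.negSucc 110) (.negSucc 140) (.ofNat 256)) (.nd 2 2 1
(.nd 0 2 1
(.lf (.ofNat 207) (.ofNat 54) (.ofNat 152) (.negSucc 107) (.negSucc 163) (.ofNat 256)) (.lf (.ofNat 198) (.ofNat 8) (.ofNat 128) (.negSucc 73) (.negSucc 138) (.ofNat 256))) (.lf (.ofNat 199) (.ofNat 9) (.ofNat 103) (.negSucc 83) (.negSucc 106) (.ofNat 256)))) (.lf (.ofNat 132) (.ofNat 8) (.ofNat 168) (.negSucc 36) (.negSucc 112) (.ofNat 256)))) (.nd 1 2 1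
(.lf (.ofNat 256) (.negSucc 24) (.ofNat 108) (.negSucc 34) (.negSucc 55) (.ofNat 250)) (.lf (.ofNat 234) (.negSucc 68) (.ofNat 141) (.negSucc 7) (.negSucc 55) (.ofNat 256)))) (.nd 1 2 1
(.nd 0 1 1
(.lf (.ofNat 229) (.negSucc 136) (.ofNat 74) (.ofNat 144) (.negSucc 41) (.ofNat 256)) (.nd 0 2 1
(.lf (.ofNat 230) (.negSucc 218) (.ofNat 81) (.ofNat 80) (.negSucc 41) (.ofNat 256)) (.lf (.ofNat 252) (.negSucc 255) (.ofNat 93) (.ofNat 1) (.negSucc 27) (.ofNat 242)))) (.nd 0 1 1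
(.lf (.ofNat 165) (.negSucc 95) (.ofNat 79) (.ofNat 94) (.negSucc 43) (.ofNat 256)) (.lf (.ofNat 150) (.negSucc 191) (.ofNat 110) (.ofNat 18) (.negSucc 31) (.ofNat 256)))))) (.nd 1 1 1
(.nd 1 1 2
(.nd 1 1 2
(.nd 1 1 2
(.nd 2 2 1
(.nd 1 1 2
(.nd 1 1 2
(.nd 0 1 1
(.lf (.ofNat 986) (.negSucc 394) (.ofNat 8) (.ofNat 282) (.negSucc 0) (.ofNat 46)) (.lf (.ofNat 1211) (.negSucc 632) (.ofNat 8) (.ofNat 149) (.negSucc 1) (.ofNat 30))) (.nd 0 1 1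
(.lf (.ofNat 427) (.negSucc 278) (.ofNat 8) (.ofNat 245) (.negSucc 1) (.ofNat 47)) (.lf (.ofNat 580) (.negSucc 450) (.ofNat 8) (.ofNat 160) (.negSucc 1) (.ofNat 35)))) (.nd 0 1 1
(.nd 0 1 2
(.lf (.ofNat 259) (.negSucc 174) (.ofNat 8) (.ofNat 213) (.negSucc 2) (.ofNat 53)) (.lf (.ofNat 273) (.negSucc 213) (.ofNat 8) (.ofNat 214) (.negSucc 3) (.ofNat 51))) (.nd 0 2 1
(.lf (.ofNat 295) (.negSucc 273) (.ofNat 8) (.ofNat 197) (.negSucc 3) (.ofNat 48)) (.lf (.ofNat 334) (.negSucc 352) (.ofNat 8) (.ofNat 156) (.negSucc 3) (.ofNat 42))))) (.nd 1 1 2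
(.nd 0 1 1
(.lf (.ofNat 396) (.negSucc 169) (.ofNat 8) (.ofNat 74) (.ofNat 0) (.ofNat 38)) (.lf (.ofNat 575) (.negSucc 250) (.ofNat 8) (.ofNat 56) (.negSucc 0) (.ofNat 31))) (.lf (.ofNat 1024) (.negSucc 609) (.ofNat 33) (.ofNat 246) (.negSucc 5) (.ofNat 140)))) (.nd 2 2 1
(.nd 1 2 1
(.nd 0 1 1
(.lf (.ofNat 241) (.negSucc 215) (.ofNat 13) (.ofNat 256) (.negSucc 6) (.ofNat 78)) (.lf (.ofNat 221) (.negSucc 255) (.ofNat 9) (.ofNat 173) (.negSucc 5) (.ofNat 51))) (.nd 0 1 1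
(.lf (.ofNat 214) (.negSucc 200) (.ofNat 16) (.ofNat 256) (.negSucc 9) (.ofNat 95)) (.lf (.ofNat 206) (.negSucc 255) (.ofNat 12) (.ofNat 190) (.negSucc 8) (.ofNat 65)))) (.nd 0 1 1
(.lf (.ofNat 256) (.negSucc 182) (.ofNat 17) (.ofNat 142) (.negSucc 4) (.ofNat 97)) (.lf (.ofNat 256) (.negSucc 215) (.ofNat 14) (.ofNat 92) (.negSucc 3) (.ofNat 62))))) (.nd 2 2 1
(.nd 1 2 1
(.nd 0 1 1
(.nd 0 1 2
(.lf (.ofNat 208) (.negSucc 159) (.ofNat 19) (.ofNat 256) (.negSucc 12) (.ofNat 130)) (.lf (.ofNat 200) (.negSucc 187) (.ofNat 18) (.ofNat 256) (.negSucc 14) (.ofNat 114))) (.lf (.ofNat 3052) (.negSucc 4095) (.ofNat 275) (.ofNat 3789) (.negSucc 245) (.ofNat 1604))) (.nd 0 1 1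
(.lf (.ofNat 697) (.negSucc 698) (.ofNat 102) (.ofNat 1024) (.negSucc 82) (.ofNat 623)) (.lf (.ofNat 174) (.negSucc 255) (.ofNat 24) (.ofNat 232) (.negSucc 20) (.ofNat 124)))) (.nd 1 2 1
(.nd 0 1 1
(.lf (.ofNat 256) (.negSucc 210) (.ofNat 28) (.ofNat 199) (.negSucc 10) (.ofNat 163)) (.lf (.ofNat 239) (.negSucc 255) (.ofNat 23) (.ofNat 131) (.negSucc 9) (.ofNat 100))) (.lf (.ofNat 208) (.negSucc 255) (.ofNat 36) (.ofNat 250) (.negSucc 22) (.ofNat 216))))) (.nd 1 2 1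
(.nd 2 2 1
(.nd 1 1 2
(.nd 0 1 1
(.lf (.ofNat 162) (.negSucc 168) (.ofNat 32) (.ofNat 256) (.negSucc 27) (.ofNat 192)) (.lf (.ofNat 170) (.negSucc 255) (.ofNat 31) (.ofNat 210) (.negSucc 25) (.ofNat 138))) (.nd 0 1 1
(.lf (.ofNat 153) (.negSucc 165) (.ofNat 39) (.ofNat 256) (.negSucc 34) (.ofNat 229)) (.lf (.ofNat 165) (.negSucc 255) (.ofNat 39) (.ofNat 184) (.negSucc 27) (.ofNat 144)))) (.nd 0 1 1
(.lf (.ofNat 184) (.negSucc 168) (.ofNat 41) (.ofNat 216) (.negSucc 26) (.ofNat 256)) (.lf (.ofNat 198) (.negSucc 255) (.ofNat 42) (.ofNat 218) (.negSucc 30) (.ofNat 217)))) (.nd 0 1 1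
(.nd 0 1 2
(.lf (.ofNat 129) (.negSucc 106) (.ofNat 39) (.ofNat 179) (.negSucc 30) (.ofNat 256)) (.lf (.ofNat 133) (.negSucc 149) (.ofNat 42) (.ofNat 217) (.negSucc 40) (.ofNat 256))) (.lf (.ofNat 143) (.negSucc 222) (.ofNat 48) (.ofNat 247) (.negSucc 49) (.ofNat 256))))) (.nd 1 2 1
(.nd 1 1 2
(.nd 0 1 1
(.lf (.ofNat 88) (.negSucc 101) (.ofNat 43) (.ofNat 157) (.negSucc 36) (.ofNat 256)) (.lf (.ofNat 512) (.negSucc 850) (.ofNat 242) (.ofNat 808) (.negSucc 214) (.ofNat 1024))) (.nd 0 1 1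
(.lf (.ofNat 74) (.negSucc 81) (.ofNat 44) (.ofNat 128) (.negSucc 36) (.ofNat 256)) (.lf (.ofNat 117) (.negSucc 221) (.ofNat 80) (.ofNat 167) (.negSucc 55) (.ofNat 256)))) (.nd 0 1 1
(.lf (.ofNat 60) (.negSucc 60) (.ofNat 45) (.ofNat 98) (.negSucc 35) (.ofNat 256)) (.nd 1 2 1
(.lf (.ofNat 115) (.negSucc 232) (.ofNat 102) (.ofNat 140) (.negSucc 55) (.ofNat 256)) (.lf (.ofNat 119) (.negSucc 248) (.ofNat 129) (.ofNat 119) (.negSucc 54) (.ofNat 256)))))))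

theorem ok_II0001 : okT 2 T_II0001 = true := by decide +kernel

theorem r0_II0001 : runX 248 10 7 5 41292796800 ⟨some (1, 2), some (2, 5)⟩ ⟨none, some (1, 2)⟩ ⟨none, some (1, 1)⟩ 0 T_II0001
    [PII00, PII02, PII01, PII22, PII12, PII11] = true := by
  decide +kernel

theorem r1_II0001 : runX 39 4 2 1 1 ⟨some (1, 2), some (2, 5)⟩ ⟨none, some (1, 2)⟩ ⟨none, some (1, 1)⟩ 1 T_II0001
    [[[[-1]]], [], [], [], [], []] = true := by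
  decide +kernel

theorem r2_II0001 : runX 39 4 2 1 1 ⟨some (1, 2), some (2, 5)⟩ ⟨none, some (1, 2)⟩ ⟨none, some (1, 1)⟩ 2 T_II0001
    [[[[-1]]], [], [], [], [], []] = true := by
  decide +kernel

theorem q_II0001 {m v T : ℝ} (l0 : Lim.In ⟨some (1, 2), some (2, 5)⟩ m) (l1 : Lim.In ⟨none, some (1, 2)⟩ v) (l2 : Lim.In ⟨none, some (1, 1)⟩ T)
    (hK : 0 < ev3 m v T KII) (x1 x2 x3 : ℝ) :
    0 ≤ qf (ev3 m v T PII00) (ev3 m v T PII01) (ev3 m v T PII02) (ev3 m v T PII11)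
      (ev3 m v T PII12) (ev3 m v T PII22) x1 x2 x3 := by
  have hg : ev3 m v T [[[-1]]] < 0 := by simp [ev3, ev2, ev1]
  have hg2 : ev3 m v T [[[-1]]] < 0 := by simp [ev3, ev2, ev1]
  have h := psdX ok_II0001 r0_II0001 r1_II0001 r2_II0001 l0 l1 l2 hg hg2 x1 x3 x2
  simp only [qf] at h ⊢
  linarith

def T_II001 : TreeX :=
(.nd 0 1 1
(.nd 1 1 1
(.nd 1 1 2
(.nd 2 1 1
(.nd 0 1 2
(.nd 1 1 2
(.lf (.ofNat 144) (.negSucc 18) (.ofNat 8) (.ofNat 40) (.ofNat 21) (.ofNat 318)) (.lf (.ofNat 90) (.negSucc 11) (.ofNat 8) (.ofNat 41) (.ofNat 22) (.ofNat 352))) (.nd 1 1 2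
(.nd 1 1 2
(.lf (.ofNat 260) (.negSucc 34) (.ofNat 8) (.ofNat 49) (.ofNat 17) (.ofNat 226)) (.lf (.ofNat 162) (.negSucc 27) (.ofNat 9) (.ofNat 51) (.ofNat 18) (.ofNat 256))) (.lf (.ofNat 1554) (.negSucc 351) (.ofNat 166) (.ofNat 744) (.ofNat 266) (.ofNat 4096)))) (.nd 0 1 2
(.lf (.ofNat 64) (.negSucc 20) (.ofNat 11) (.ofNat 19) (.ofNat 16) (.ofNat 256)) (.lf (.ofNat 94) (.negSucc 37) (.ofNat 16) (.ofNat 29) (.ofNat 17) (.ofNat 256)))) (.nd 2 1 1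
(.nd 0 1 2
(.lf (.ofNat 669) (.negSucc 107) (.ofNat 126) (.ofNat 434) (.ofNat 242) (.ofNat 4096)) (.nd 1 2 1
(.lf (.ofNat 250) (.negSucc 55) (.ofNat 41) (.ofNat 165) (.ofNat 60) (.ofNat 1024)) (.lf (.ofNat 47) (.negSucc 9) (.ofNat 11) (.ofNat 37) (.ofNat 14) (.ofNat 256)))) (.lf (.ofNat 29) (.negSucc 7) (.ofNat 9) (.ofNat 21) (.ofNat 16) (.ofNat 256)))) (.nd 2 1 1
(.nd 2 1 2
(.nd 1 2 1
(.lf (.ofNat 511) (.negSucc 76) (.ofNat 175) (.ofNat 533) (.ofNat 219) (.ofNat 4096)) (.lf (.ofNat 24) (.negSucc 1) (.ofNat 11) (.ofNat 29) (.ofNat 13) (.ofNat 256))) (.lf (.ofNat 369) (.negSucc 59) (.ofNat 216) (.ofNat 386) (.ofNat 232) (.ofNat 4096))) (.lf (.ofNat 78) (.negSucc 14) (.ofNat 55) (.ofNat 79) (.ofNat 63) (.ofNat 1024)))) (.nd 1 1 1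
(.nd 1 1 2
(.nd 2 1 1
(.nd 1 1 2
(.nd 0 2 1
(.nd 1 1 2
(.lf (.ofNat 1024) (.negSucc 294) (.ofNat 46) (.ofNat 201) (.ofNat 26) (.ofNat 497)) (.lf (.ofNat 256) (.negSucc 116) (.ofNat 26) (.ofNat 94) (.ofNat 11) (.ofNat 256))) (.nd 1 1 2
(.lf (.ofNat 4096) (.negSucc 1226) (.ofNat 130) (.ofNat 415) (.ofNat 6) (.ofNat 740)) (.lf (.ofNat 1024) (.negSucc 473) (.ofNat 67) (.ofNat 185) (.negSucc 1) (.ofNat 351)))) (.nd 0 2 1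
(.nd 0 1 2
(.lf (.ofNat 158) (.negSucc 60) (.ofNat 22) (.ofNat 70) (.ofNat 11) (.ofNat 256)) (.lf (.ofNat 205) (.negSucc 101) (.ofNat 30) (.ofNat 94) (.ofNat 4) (.ofNat 256))) (.nd 0 2 1
(.lf (.ofNat 256) (.negSucc 153) (.ofNat 35) (.ofNat 106) (.negSucc 2) (.ofNat 234)) (.lf (.ofNat 256) (.negSucc 169) (.ofNat 30) (.ofNat 67) (.negSucc 3) (.ofNat 138))))) (.nd 0 2 1
(.lf (.ofNat 133) (.negSucc 70) (.ofNat 24) (.ofNat 50) (.ofNat 14) (.ofNat 256)) (.lf (.ofNat 244) (.negSucc 161) (.ofNat 39) (.ofNat 80) (.ofNat 6) (.ofNat 256)))) (.nd 2 1 1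
(.nd 0 2 1
(.nd 1 2 1
(.nd 2 1 2
(.lf (.ofNat 97) (.negSucc 61) (.ofNat 28) (.ofNat 87) (.ofNat 1) (.ofNat 256)) (.lf (.ofNat 80) (.negSucc 48) (.ofNat 26) (.ofNat 58) (.ofNat 7) (.ofNat 256))) (.nd 2 1 2
(.lf (.ofNat 72) (.negSucc 42) (.ofNat 29) (.ofNat 72) (.negSucc 0) (.ofNat 256)) (.lf (.ofNat 61) (.negSucc 33) (.ofNat 26) (.ofNat 51) (.ofNat 5) (.ofNat 256)))) (.nd 2 1 2
(.nd 1 2 1
(.lf (.ofNat 150) (.negSucc 158) (.ofNat 39) (.ofNat 140) (.negSucc 15) (.ofNat 256)) (.lf (.ofNat 98) (.negSucc 116) (.ofNat 38) (.ofNat 123) (.negSucc 20) (.ofNat 256))) (.lf (.ofNat 109) (.negSucc 98) (.ofNat 36) (.ofNat 87) (.negSucc 6) (.ofNat 256)))) (.nd 0 2 1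
(.lf (.ofNat 59) (.negSucc 32) (.ofNat 24) (.ofNat 41) (.ofNat 10) (.ofNat 256)) (.lf (.ofNat 95) (.negSucc 74) (.ofNat 35) (.ofNat 66) (.ofNat 0) (.ofNat 256))))) (.nd 0 2 1
(.nd 2 1 1
(.nd 1 2 1
(.nd 0 1 2
(.lf (.ofNat 52) (.negSucc 17) (.ofNat 24) (.ofNat 43) (.ofNat 5) (.ofNat 256)) (.lf (.ofNat 63) (.negSucc 31) (.ofNat 31) (.ofNat 55) (.negSucc 2) (.ofNat 256))) (.nd 2 1 2
(.lf (.ofNat 40) (.negSucc 14) (.ofNat 29) (.ofNat 45) (.negSucc 2) (.ofNat 256)) (.lf (.ofNat 35) (.negSucc 11) (.ofNat 28) (.ofNat 36) (.ofNat 3) (.ofNat 256)))) (.nd 1 2 1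
(.lf (.ofNat 39) (.negSucc 16) (.ofNat 25) (.ofNat 34) (.ofNat 8) (.ofNat 256)) (.lf (.ofNat 31) (.negSucc 8) (.ofNat 26) (.ofNat 30) (.ofNat 8) (.ofNat 256)))) (.nd 2 1 1
(.nd 1 2 1
(.nd 2 1 2
(.nd 0 2 1
(.lf (.ofNat 80) (.negSucc 66) (.ofNat 38) (.ofNat 88) (.negSucc 18) (.ofNat 256)) (.lf (.ofNat 93) (.negSucc 114) (.ofNat 47) (.ofNat 113) (.negSucc 28) (.ofNat 256))) (.lf (.ofNat 63) (.negSucc 59) (.ofNat 36) (.ofNat 71) (.negSucc 11) (.ofNat 256))) (.nd 0 2 1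
(.lf (.ofNat 54) (.negSucc 38) (.ofNat 40) (.ofNat 58) (.negSucc 13) (.ofNat 256)) (.nd 2 1 2
(.lf (.ofNat 66) (.negSucc 84) (.ofNat 50) (.ofNat 95) (.negSucc 34) (.ofNat 256)) (.lf (.ofNat 66) (.negSucc 64) (.ofNat 50) (.ofNat 69) (.negSucc 19) (.ofNat 256))))) (.nd 1 2 1
(.lf (.ofNat 60) (.negSucc 44) (.ofNat 36) (.ofNat 55) (.negSucc 3) (.ofNat 256)) (.lf (.ofNat 45) (.negSucc 28) (.ofNat 37) (.ofNat 47) (.negSucc 5) (.ofNat 256)))))))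

theorem ok_II001 : okT 2 T_II001 = true := by decide +kernel

theorem r0_II001 : runX 227 10 7 5 41292796800 ⟨none, some (7, 10)⟩ ⟨none, some (1, 2)⟩ ⟨some (1, 1), some (3, 1)⟩ 0 T_II001
    [PII00, PII02, PII01, PII22, PII12, PII11] = true := by
  decide +kernel

theorem r1_II001 : runX 40 4 2 1 1 ⟨none, some (7, 10)⟩ ⟨none, some (1, 2)⟩ ⟨some (1, 1), some (3, 1)⟩ 1 T_II001
    [[[[-1]]], [], [], [], [], []] = true := by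
  decide +kernel

theorem r2_II001 : runX 40 4 2 1 1 ⟨none, some (7, 10)⟩ ⟨none, some (1, 2)⟩ ⟨some (1, 1), some (3, 1)⟩ 2 T_II001
    [[[[-1]]], [], [], [], [], []] = true := by
  decide +kernel

theorem q_II001 {m v T : ℝ} (l0 : Lim.In ⟨none, some (7, 10)⟩ m) (l1 : Lim.In ⟨none, some (1, 2)⟩ v) (l2 : Lim.In ⟨some (1, 1), some (3, 1)⟩ T)
    (hK : 0 < ev3 m v T KII) (x1 x2 x3 : ℝ) :
    0 ≤ qf (ev3 m v T PII00) (ev3 m v T PII01) (ev3 m v T PII02) (ev3 m v T PII11)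
      (ev3 m v T PII12) (ev3 m v T PII22) x1 x2 x3 := by
  have hg : ev3 m v T [[[-1]]] < 0 := by simp [ev3, ev2, ev1]
  have hg2 : ev3 m v T [[[-1]]] < 0 := by simp [ev3, ev2, ev1]
  have h := psdX ok_II001 r0_II001 r1_II001 r2_II001 l0 l1 l2 hg hg2 x1 x3 x2
  simp only [qf] at h ⊢
  linarith

end Crest.Agent.R249.Px324
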