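import Crest.Agent.R249.Cd1_133
import Crest.Agent.R249.Ker12_254

/-!
# Row 249, part A (helper324): sub-boxes of the chart matrix `II` (kernel check)
-/

set_option autoImplicit false
set_option linter.unusedVariables false

namespace Crest.Agent.R249.Px324

open Ker254 Cd133

def T_II01 : TreeX :=
(.nd 1 1 1
(.nd 0 1 1
(.nd 1 1 2
(.nd 2 1 1
(.lf (.ofNat 52) (.negSucc 16) (.ofNat 9) (.ofNat 15) (.ofNat 17) (.ofNat 256)) (.lf (.ofNat 137) (.negSucc 73) (.ofNat 38) (.ofNat 44) (.ofNat 66) (.ofNat 1024))) (.nd 2 1 1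
(.lf (.ofNat 25) (.negSucc 6) (.ofNat 8) (.ofNat 16) (.ofNat 17) (.ofNat 260)) (.lf (.ofNat 64) (.negSucc 36) (.ofNat 42) (.ofNat 49) (.ofNat 71) (.ofNat 1024)))) (.nd 1 1 2
(.nd 2 1 1
(.lf (.ofNat 71) (.negSucc 45) (.ofNat 17) (.ofNat 45) (.ofNat 15) (.ofNat 256)) (.nd 2 1 1
(.lf (.ofNat 71) (.negSucc 34) (.ofNat 15) (.ofNat 34) (.ofNat 18) (.ofNat 256)) (.nd 0 2 1
(.lf (.ofNat 41) (.negSucc 31) (.ofNat 15) (.ofNat 20) (.ofNat 20) (.ofNat 256)) (.nd 2 1 1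
(.lf (.ofNat 126) (.negSucc 66) (.ofNat 28) (.ofNat 41) (.ofNat 20) (.ofNat 256)) (.nd 1 1 2
(.lf (.ofNat 53) (.negSucc 63) (.ofNat 23) (.ofNat 36) (.ofNat 24) (.ofNat 256)) (.nd 0 2 1
(.lf (.ofNat 37) (.negSucc 38) (.ofNat 22) (.ofNat 29) (.ofNat 23) (.ofNat 256)) (.lf (.ofNat 42) (.negSucc 54) (.ofNat 30) (.ofNat 41) (.ofNat 23) (.ofNat 256)))))))) (.nd 2 1 1
(.nd 0 2 1
(.lf (.ofNat 48) (.negSucc 24) (.ofNat 22) (.ofNat 29) (.ofNat 15) (.ofNat 256)) (.lf (.ofNat 77) (.negSucc 50) (.ofNat 33) (.ofNat 49) (.ofNat 8) (.ofNat 256))) (.nd 2 1 1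
(.lf (.ofNat 40) (.negSucc 18) (.ofNat 17) (.ofNat 31) (.ofNat 17) (.ofNat 256)) (.nd 0 2 1
(.lf (.ofNat 19) (.negSucc 16) (.ofNat 18) (.ofNat 20) (.ofNat 21) (.ofNat 256)) (.nd 2 1 1
(.lf (.ofNat 64) (.negSucc 33) (.ofNat 29) (.ofNat 36) (.ofNat 18) (.ofNat 256)) (.nd 2 1 1
(.lf (.ofNat 61) (.negSucc 30) (.ofNat 28) (.ofNat 34) (.ofNat 21) (.ofNat 256)) (.nd 0 2 1
(.lf (.ofNat 27) (.negSucc 26) (.ofNat 27) (.ofNat 26) (.ofNat 24) (.ofNat 256)) (.lf (.ofNat 29) (.negSucc 36) (.ofNat 34) (.ofNat 36) (.ofNat 24) (.ofNat 256)))))))))) (.nd 0 1 1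
(.nd 2 1 1
(.lf (.ofNat 17) (.negSucc 3) (.ofNat 14) (.ofNat 16) (.ofNat 18) (.ofNat 256)) (.nd 0 1 2
(.lf (.ofNat 11) (.negSucc 2) (.ofNat 13) (.ofNat 12) (.ofNat 18) (.ofNat 256)) (.lf (.ofNat 52) (.negSucc 18) (.ofNat 72) (.ofNat 63) (.ofNat 80) (.ofNat 1024)))) (.nd 2 1 1
(.nd 0 2 1
(.lf (.ofNat 31) (.negSucc 10) (.ofNat 28) (.ofNat 25) (.ofNat 14) (.ofNat 256)) (.nd 1 2 1
(.lf (.ofNat 53) (.negSucc 30) (.ofNat 35) (.ofNat 42) (.ofNat 6) (.ofNat 256)) (.lf (.ofNat 42) (.negSucc 18) (.ofNat 37) (.ofNat 37) (.ofNat 4) (.ofNat 256)))) (.nd 0 2 1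
(.nd 2 1 1
(.lf (.ofNat 31) (.negSucc 10) (.ofNat 32) (.ofNat 22) (.ofNat 18) (.ofNat 256)) (.nd 1 2 1
(.lf (.ofNat 13) (.negSucc 9) (.ofNat 21) (.ofNat 20) (.ofNat 21) (.ofNat 256)) (.lf (.ofNat 11) (.negSucc 3) (.ofNat 24) (.ofNat 21) (.ofNat 22) (.ofNat 256)))) (.nd 2 1 1
(.lf (.ofNat 174) (.negSucc 76) (.ofNat 150) (.ofNat 137) (.ofNat 49) (.ofNat 1024)) (.nd 2 1 1
(.lf (.ofNat 42) (.negSucc 16) (.ofNat 39) (.ofNat 32) (.ofNat 17) (.ofNat 256)) (.nd 2 1 1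
(.lf (.ofNat 42) (.negSucc 15) (.ofNat 40) (.ofNat 31) (.ofNat 21) (.ofNat 256)) (.nd 2 1 1
(.lf (.ofNat 41) (.negSucc 14) (.ofNat 40) (.ofNat 30) (.ofNat 24) (.ofNat 256)) (.nd 2 1 1
(.lf (.ofNat 41) (.negSucc 14) (.ofNat 41) (.ofNat 29) (.ofNat 26) (.ofNat 256)) (.nd 0 2 1
(.lf (.ofNat 22) (.negSucc 11) (.ofNat 37) (.ofNat 25) (.ofNat 28) (.ofNat 256)) (.lf (.ofNat 408) (.negSucc 254) (.ofNat 714) (.ofNat 516) (.ofNat 460) (.ofNat 4096))))))))))))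

theorem ok_II01 : okT 2 T_II01 = true := by decide +kernel

theorem r0_II01 : runX 234 10 7 5 41292796800 ⟨none, some (7, 10)⟩ ⟨none, some (1, 2)⟩ ⟨some (4, 1), none⟩ 0 T_II01
    [PII00, PII02, PII01, PII22, PII12, PII11] = true := by
  decide +kernel

theorem r1_II01 : runX 39 4 2 1 1 ⟨none, some (7, 10)⟩ ⟨none, some (1, 2)⟩ ⟨some (4, 1), none⟩ 1 T_II01
    [[[[-1]]], [], [], [], [], []] = true := by
  decide +kernel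

theorem r2_II01 : runX 39 4 2 1 1 ⟨none, some (7, 10)⟩ ⟨none, some (1, 2)⟩ ⟨some (4, 1), none⟩ 2 T_II01
    [[[[-1]]], [], [], [], [], []] = true := by
  decide +kernel

theorem q_II01 {m v T : ℝ} (l0 : Lim.In ⟨none, some (7, 10)⟩ m) (l1 : Lim.In ⟨none, some (1, 2)⟩ v) (l2 : Lim.In ⟨some (4, 1), none⟩ T)
    (hK : 0 < ev3 m v T KII) (x1 x2 x3 : ℝ) :
    0 ≤ qf (ev3 m v T PII00) (ev3 m v T PII01) (ev3 m v T PII02) (ev3 m v T PII11)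
      (ev3 m v T PII12) (ev3 m v T PII22) x1 x2 x3 := by
  have hg : ev3 m v T [[[-1]]] < 0 := by simp [ev3, ev2, ev1]
  have hg2 : ev3 m v T [[[-1]]] < 0 := by simp [ev3, ev2, ev1]
  have h := psdX ok_II01 r0_II01 r1_II01 r2_II01 l0 l1 l2 hg hg2 x1 x3 x2
  simp only [qf] at h ⊢
  linarith

def T_II10 : TreeX :=
(.nd 2 1 1
(.nd 2 1 1
(.nd 0 1 1
(.nd 2 1 2
(.nd 2 1 2
(.nd 1 1 1
(.lf (.ofNat 84) (.ofNat 0) (.ofNat 141) (.ofNat 56) (.ofNat 6) (.ofNat 256)) (.nd 0 1 2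
(.nd 1 2 1
(.nd 2 1 2
(.lf (.ofNat 77) (.ofNat 0) (.ofNat 256) (.ofNat 28) (.negSucc 9) (.ofNat 138)) (.lf (.ofNat 36) (.negSucc 24) (.ofNat 151) (.ofNat 76) (.negSucc 22) (.ofNat 256))) (.nd 0 1 2
(.nd 1 2 1
(.nd 2 1 2
(.nd 2 1 2
(.lf (.ofNat 152) (.ofNat 0) (.ofNat 1024) (.ofNat 41) (.negSucc 49) (.ofNat 196)) (.lf (.ofNat 41) (.negSucc 27) (.ofNat 256) (.ofNat 33) (.negSucc 35) (.ofNat 119))) (.lf (.ofNat 30) (.negSucc 32) (.ofNat 233) (.ofNat 77) (.negSucc 68) (.ofNat 256))) (.nd 0 1 2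
(.nd 2 1 2
(.nd 1 2 1
(.nd 2 1 2
(.lf (.ofNat 93) (.ofNat 0) (.ofNat 1024) (.ofNat 36) (.negSucc 94) (.ofNat 149)) (.lf (.ofNat 22) (.negSucc 18) (.ofNat 256) (.ofNat 23) (.negSucc 50) (.ofNat 79))) (.nd 0 1 2
(.nd 2 1 2
(.nd 1 2 1
(.lf (.ofNat 15) (.ofNat 0) (.ofNat 256) (.ofNat 6) (.negSucc 26) (.ofNat 23)) (.lf (.ofNat 32) (.ofNat 0) (.ofNat 1024) (.ofNat 14) (.negSucc 79) (.ofNat 52))) (.nd 1 2 1
(.lf (.ofNat 14) (.negSucc 9) (.ofNat 256) (.ofNat 12) (.negSucc 43) (.ofNat 42)) (.lf (.ofNat 52) (.ofNat 0) (.ofNat 1024) (.ofNat 25) (.negSucc 110) (.ofNat 95)))) (.lf (.ofNat 26) (.ofNat 0) (.ofNat 256) (.ofNat 12) (.negSucc 29) (.ofNat 43)))) (.nd 1 2 1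
(.lf (.ofNat 27) (.negSucc 21) (.ofNat 256) (.ofNat 45) (.negSucc 76) (.ofNat 159)) (.lf (.ofNat 20) (.ofNat 0) (.ofNat 256) (.ofNat 22) (.negSucc 47) (.ofNat 88)))) (.lf (.ofNat 44) (.ofNat 0) (.ofNat 256) (.ofNat 46) (.negSucc 49) (.ofNat 155)))) (.lf (.ofNat 82) (.ofNat 0) (.ofNat 256) (.ofNat 83) (.negSucc 33) (.ofNat 248)))) (.lf (.ofNat 92) (.ofNat 0) (.ofNat 99) (.ofNat 91) (.ofNat 1) (.ofNat 256)))) (.nd 0 1 2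
(.nd 1 1 1
(.lf (.ofNat 29) (.negSucc 9) (.ofNat 59) (.ofNat 76) (.ofNat 0) (.ofNat 256)) (.nd 0 1 2
(.nd 1 2 1
(.nd 1 1 2
(.lf (.ofNat 31) (.negSucc 14) (.ofNat 70) (.ofNat 70) (.negSucc 19) (.ofNat 256)) (.lf (.ofNat 23) (.negSucc 15) (.ofNat 94) (.ofNat 67) (.negSucc 27) (.ofNat 256))) (.nd 1 2 1
(.lf (.ofNat 26) (.negSucc 13) (.ofNat 131) (.ofNat 62) (.negSucc 34) (.ofNat 256)) (.nd 1 2 1
(.lf (.ofNat 41) (.negSucc 12) (.ofNat 220) (.ofNat 56) (.negSucc 40) (.ofNat 256)) (.lf (.ofNat 30) (.ofNat 0) (.ofNat 256) (.ofNat 27) (.negSucc 22) (.ofNat 134))))) (.lf (.ofNat 40) (.ofNat 0) (.ofNat 83) (.ofNat 70) (.negSucc 7) (.ofNat 256)))) (.lf (.ofNat 43) (.ofNat 0) (.ofNat 32) (.ofNat 86) (.ofNat 10) (.ofNat 256)))) (.nd 0 1 2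
(.nd 1 1 1
(.lf (.ofNat 35) (.negSucc 2) (.ofNat 37) (.ofNat 54) (.ofNat 5) (.ofNat 256)) (.nd 1 2 1
(.lf (.ofNat 32) (.negSucc 1) (.ofNat 65) (.ofNat 46) (.ofNat 2) (.ofNat 256)) (.lf (.ofNat 34) (.ofNat 0) (.ofNat 134) (.ofNat 42) (.ofNat 0) (.ofNat 256)))) (.lf (.ofNat 169) (.ofNat 0) (.ofNat 87) (.ofNat 238) (.ofNat 41) (.ofNat 1024)))) (.nd 0 2 1
(.nd 2 1 2
(.nd 1 1 1
(.lf (.ofNat 134) (.ofNat 0) (.ofNat 201) (.ofNat 83) (.ofNat 6) (.ofNat 256)) (.lf (.ofNat 87) (.ofNat 0) (.ofNat 83) (.ofNat 85) (.ofNat 3) (.ofNat 256))) (.lf (.ofNat 45) (.ofNat 0) (.ofNat 31) (.ofNat 67) (.ofNat 0) (.ofNat 256))) (.nd 2 1 2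
(.nd 2 1 2
(.nd 2 1 2
(.nd 0 2 1
(.lf (.ofNat 88) (.ofNat 0) (.ofNat 256) (.ofNat 2) (.negSucc 16) (.ofNat 73)) (.lf (.ofNat 60) (.ofNat 0) (.ofNat 256) (.negSucc 2) (.negSucc 24) (.ofNat 109))) (.lf (.ofNat 174) (.ofNat 0) (.ofNat 216) (.ofNat 10) (.negSucc 41) (.ofNat 256))) (.lf (.ofNat 121) (.ofNat 0) (.ofNat 92) (.ofNat 33) (.negSucc 30) (.ofNat 256))) (.nd 1 1 1
(.lf (.ofNat 132) (.negSucc 52) (.ofNat 88) (.ofNat 67) (.negSucc 33) (.ofNat 256)) (.lf (.ofNat 145) (.ofNat 0) (.ofNat 125) (.ofNat 70) (.negSucc 28) (.ofNat 256)))))) (.nd 0 1 1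
(.nd 0 1 2
(.lf (.ofNat 29) (.ofNat 0) (.ofNat 25) (.ofNat 30) (.ofNat 10) (.ofNat 256)) (.lf (.ofNat 122) (.ofNat 0) (.ofNat 105) (.ofNat 149) (.ofNat 46) (.ofNat 1024))) (.nd 0 2 1
(.nd 1 1 1
(.lf (.ofNat 36) (.negSucc 1) (.ofNat 26) (.ofNat 47) (.ofNat 0) (.ofNat 256)) (.lf (.ofNat 32) (.ofNat 0) (.ofNat 30) (.ofNat 45) (.ofNat 4) (.ofNat 256))) (.nd 1 1 1
(.nd 1 1 2
(.lf (.ofNat 187) (.negSucc 133) (.ofNat 173) (.ofNat 279) (.negSucc 106) (.ofNat 1024)) (.lf (.ofNat 44) (.negSucc 23) (.ofNat 45) (.ofNat 61) (.negSucc 23) (.ofNat 256))) (.nd 1 2 1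
(.lf (.ofNat 40) (.negSucc 16) (.ofNat 51) (.ofNat 59) (.negSucc 22) (.ofNat 256)) (.lf (.ofNat 44) (.ofNat 0) (.ofNat 56) (.ofNat 62) (.negSucc 22) (.ofNat 256))))))) (.nd 2 1 1
(.nd 0 1 1
(.lf (.ofNat 79) (.ofNat 0) (.ofNat 105) (.ofNat 94) (.ofNat 57) (.ofNat 1024)) (.nd 0 2 1
(.lf (.ofNat 31) (.ofNat 0) (.ofNat 33) (.ofNat 31) (.ofNat 7) (.ofNat 256)) (.nd 1 1 1
(.nd 1 1 2
(.lf (.ofNat 39) (.negSucc 18) (.ofNat 36) (.ofNat 46) (.negSucc 10) (.ofNat 256)) (.lf (.ofNat 36) (.negSucc 11) (.ofNat 39) (.ofNat 42) (.negSucc 9) (.ofNat 256))) (.lf (.ofNat 42) (.ofNat 0) (.ofNat 47) (.ofNat 41) (.negSucc 8) (.ofNat 256))))) (.nd 0 1 1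
(.nd 2 1 1
(.lf (.ofNat 15) (.ofNat 0) (.ofNat 27) (.ofNat 20) (.ofNat 16) (.ofNat 256)) (.lf (.ofNat 126) (.ofNat 0) (.ofNat 290) (.ofNat 285) (.ofNat 280) (.ofNat 4096))) (.nd 2 1 1
(.nd 0 2 1
(.lf (.ofNat 27) (.ofNat 0) (.ofNat 39) (.ofNat 25) (.ofNat 11) (.ofNat 256)) (.lf (.ofNat 46) (.ofNat 0) (.ofNat 38) (.ofNat 32) (.negSucc 0) (.ofNat 256))) (.nd 2 1 1
(.nd 1 1 1
(.lf (.ofNat 24) (.negSucc 1) (.ofNat 28) (.ofNat 26) (.ofNat 8) (.ofNat 256)) (.lf (.ofNat 21) (.ofNat 0) (.ofNat 33) (.ofNat 27) (.ofNat 12) (.ofNat 256))) (.nd 2 1 1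
(.nd 1 1 1
(.lf (.ofNat 22) (.negSucc 0) (.ofNat 26) (.ofNat 25) (.ofNat 11) (.ofNat 256)) (.lf (.ofNat 19) (.ofNat 0) (.ofNat 33) (.ofNat 26) (.ofNat 15) (.ofNat 256))) (.nd 0 2 1
(.lf (.ofNat 9) (.ofNat 0) (.ofNat 27) (.ofNat 22) (.ofNat 18) (.ofNat 256)) (.nd 2 1 1
(.lf (.ofNat 37) (.ofNat 0) (.ofNat 52) (.ofNat 27) (.ofNat 11) (.ofNat 256)) (.nd 2 1 1
(.lf (.ofNat 35) (.ofNat 0) (.ofNat 54) (.ofNat 26) (.ofNat 14) (.ofNat 256)) (.nd 0 2 1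
(.lf (.ofNat 12) (.ofNat 0) (.ofNat 37) (.ofNat 25) (.ofNat 18) (.ofNat 256)) (.nd 0 2 1
(.lf (.ofNat 15) (.ofNat 0) (.ofNat 46) (.ofNat 27) (.ofNat 16) (.ofNat 256)) (.lf (.ofNat 18) (.ofNat 0) (.ofNat 51) (.ofNat 29) (.ofNat 14) (.ofNat 256)))))))))))))

theorem ok_II10 : okT 2 T_II10 = true := by decide +kernel

theorem r0_II10 : runX 324 10 7 5 41292796800 ⟨none, some (3, 5)⟩ ⟨some (1, 2), some (1, 1)⟩ ⟨none, none⟩ 0 T_II10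
    [PII00, PII02, PII01, PII22, PII12, PII11] = true := by
  decide +kernel

theorem r1_II10 : runX 34 4 2 1 1 ⟨none, some (3, 5)⟩ ⟨some (1, 2), some (1, 1)⟩ ⟨none, none⟩ 1 T_II10
    [[[[-1]]], [], [], [], [], []] = true := by
  decide +kernel

theorem r2_II10 : runX 34 4 2 1 1 ⟨none, some (3, 5)⟩ ⟨some (1, 2), some (1, 1)⟩ ⟨none, none⟩ 2 T_II10
    [[[[-1]]], [], [], [], [], []] = true := by
  decide +kernel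

theorem q_II10 {m v T : ℝ} (l0 : Lim.In ⟨none, some (3, 5)⟩ m) (l1 : Lim.In ⟨some (1, 2), some (1, 1)⟩ v) (l2 : Lim.In ⟨none, none⟩ T)
    (hK : 0 < ev3 m v T KII) (x1 x2 x3 : ℝ) :
    0 ≤ qf (ev3 m v T PII00) (ev3 m v T PII01) (ev3 m v T PII02) (ev3 m v T PII11)
      (ev3 m v T PII12) (ev3 m v T PII22) x1 x2 x3 := by
  have hg : ev3 m v T [[[-1]]] < 0 := by simp [ev3, ev2, ev1]
  have hg2 : ev3 m v T [[[-1]]] < 0 := by simp [ev3, ev2, ev1]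
  have h := psdX ok_II10 r0_II10 r1_II10 r2_II10 l0 l1 l2 hg hg2 x1 x3 x2
  simp only [qf] at h ⊢
  linarith

def T_II11 : TreeX :=
(.nd 2 1 1
(.nd 0 1 1
(.nd 2 1 1
(.nd 2 1 2
(.nd 2 1 2
(.nd 1 1 1
(.lf (.ofNat 86) (.ofNat 0) (.ofNat 256) (.negSucc 12) (.negSucc 48) (.ofNat 182)) (.lf (.ofNat 179) (.ofNat 0) (.ofNat 256) (.negSucc 13) (.negSucc 4) (.ofNat 204))) (.lf (.ofNat 198) (.ofNat 0) (.ofNat 178) (.negSucc 12) (.negSucc 13) (.ofNat 256))) (.nd 1 1 1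
(.lf (.ofNat 147) (.negSucc 152) (.ofNat 140) (.ofNat 21) (.negSucc 25) (.ofNat 256)) (.lf (.ofNat 173) (.ofNat 0) (.ofNat 158) (.ofNat 47) (.negSucc 29) (.ofNat 256)))) (.nd 1 1 1
(.lf (.ofNat 86) (.negSucc 108) (.ofNat 87) (.ofNat 90) (.negSucc 50) (.ofNat 256)) (.nd 1 2 1
(.lf (.ofNat 72) (.negSucc 72) (.ofNat 91) (.ofNat 86) (.negSucc 55) (.ofNat 256)) (.lf (.ofNat 410) (.ofNat 0) (.ofNat 497) (.ofNat 350) (.negSucc 249) (.ofNat 1024))))) (.nd 2 1 1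
(.nd 1 1 1
(.nd 2 1 2
(.nd 2 1 2
(.lf (.ofNat 185) (.ofNat 0) (.ofNat 256) (.negSucc 17) (.negSucc 33) (.ofNat 186)) (.lf (.ofNat 204) (.negSucc 124) (.ofNat 220) (.negSucc 33) (.negSucc 11) (.ofNat 256))) (.lf (.ofNat 167) (.negSucc 196) (.ofNat 180) (.negSucc 33) (.ofNat 7) (.ofNat 256))) (.nd 2 1 2
(.nd 1 2 1
(.lf (.ofNat 229) (.ofNat 0) (.ofNat 256) (.negSucc 24) (.ofNat 12) (.ofNat 166)) (.nd 2 1 2
(.nd 0 2 1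
(.lf (.ofNat 173) (.ofNat 0) (.ofNat 256) (.negSucc 35) (.ofNat 23) (.ofNat 222)) (.nd 1 2 1
(.lf (.ofNat 218) (.ofNat 0) (.ofNat 245) (.negSucc 65) (.ofNat 50) (.ofNat 256)) (.nd 0 2 1
(.lf (.ofNat 190) (.ofNat 0) (.ofNat 256) (.negSucc 78) (.ofNat 60) (.ofNat 232)) (.nd 0 2 1
(.lf (.ofNat 214) (.ofNat 0) (.ofNat 225) (.negSucc 131) (.ofNat 101) (.ofNat 256)) (.nd 1 2 1
(.lf (.ofNat 150) (.ofNat 0) (.ofNat 140) (.negSucc 152) (.ofNat 118) (.ofNat 256)) (.nd 2 1 2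
(.nd 0 2 1
(.lf (.ofNat 178) (.ofNat 0) (.ofNat 166) (.negSucc 215) (.ofNat 154) (.ofNat 256)) (.nd 1 2 1
(.nd 0 2 1
(.lf (.ofNat 166) (.ofNat 0) (.ofNat 196) (.negSucc 233) (.ofNat 167) (.ofNat 256)) (.out 0)) (.out 0))) (.nd 1 2 1
(.nd 2 2 1
(.lf (.ofNat 144) (.negSucc 33) (.ofNat 131) (.negSucc 220) (.ofNat 168) (.ofNat 256)) (.lf (.ofNat 200) (.negSucc 65) (.ofNat 181) (.negSucc 206) (.ofNat 165) (.ofNat 256))) (.nd 0 2 1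
(.lf (.ofNat 256) (.ofNat 0) (.ofNat 238) (.negSucc 240) (.ofNat 183) (.ofNat 232)) (.out 0))))))))) (.nd 0 2 1
(.lf (.ofNat 223) (.ofNat 0) (.ofNat 256) (.negSucc 10) (.ofNat 12) (.ofNat 180)) (.nd 1 2 1
(.lf (.ofNat 165) (.negSucc 126) (.ofNat 256) (.negSucc 53) (.ofNat 51) (.ofNat 251)) (.nd 0 2 1
(.lf (.ofNat 214) (.ofNat 0) (.ofNat 256) (.negSucc 13) (.ofNat 18) (.ofNat 124)) (.nd 1 2 1
(.lf (.ofNat 205) (.negSucc 132) (.ofNat 256) (.negSucc 71) (.ofNat 72) (.ofNat 247)) (.nd 0 2 1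
(.lf (.ofNat 217) (.ofNat 0) (.ofNat 256) (.negSucc 20) (.ofNat 24) (.ofNat 104)) (.nd 2 2 1
(.nd 1 2 1
(.lf (.ofNat 256) (.negSucc 113) (.ofNat 230) (.negSucc 149) (.ofNat 131) (.ofNat 245)) (.nd 0 2 1
(.lf (.ofNat 225) (.ofNat 0) (.ofNat 256) (.negSucc 82) (.ofNat 71) (.ofNat 112)) (.out 0))) (.nd 2 2 1
(.nd 0 2 1
(.lf (.ofNat 220) (.ofNat 0) (.ofNat 256) (.negSucc 8) (.ofNat 11) (.ofNat 40)) (.nd 1 2 1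
(.lf (.ofNat 256) (.negSucc 151) (.ofNat 252) (.negSucc 63) (.ofNat 65) (.ofNat 164)) (.out 0))) (.nd 2 2 1
(.nd 1 2 1
(.lf (.ofNat 181) (.negSucc 147) (.ofNat 256) (.negSucc 14) (.ofNat 21) (.ofNat 96)) (.nd 0 2 1
(.lf (.ofNat 213) (.ofNat 0) (.ofNat 256) (.ofNat 3) (.ofNat 1) (.ofNat 31)) (.out 0))) (.lf (.ofNat 256) (.ofNat 0) (.ofNat 246) (.ofNat 3) (.ofNat 3) (.ofNat 49)))))))))))) (.nd 1 2 1
(.lf (.ofNat 105) (.negSucc 119) (.ofNat 146) (.negSucc 22) (.ofNat 21) (.ofNat 256)) (.nd 2 2 1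
(.nd 0 2 1
(.lf (.ofNat 240) (.ofNat 0) (.ofNat 256) (.ofNat 28) (.negSucc 12) (.ofNat 225)) (.nd 2 1 2
(.nd 1 2 1
(.lf (.ofNat 165) (.negSucc 132) (.ofNat 209) (.negSucc 32) (.ofNat 40) (.ofNat 256)) (.nd 1 2 1
(.lf (.ofNat 186) (.negSucc 143) (.ofNat 256) (.ofNat 3) (.ofNat 12) (.ofNat 207)) (.lf (.ofNat 256) (.ofNat 0) (.ofNat 255) (.ofNat 26) (.negSucc 13) (.ofNat 94)))) (.lf (.ofNat 255) (.ofNat 0) (.ofNat 256) (.ofNat 13) (.ofNat 1) (.ofNat 183)))) (.lf (.ofNat 231) (.ofNat 0) (.ofNat 256) (.ofNat 57) (.negSucc 37) (.ofNat 207)))))) (.nd 1 1 1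
(.lf (.ofNat 108) (.negSucc 244) (.ofNat 181) (.ofNat 64) (.negSucc 38) (.ofNat 256)) (.nd 1 2 1
(.lf (.ofNat 111) (.negSucc 198) (.ofNat 219) (.ofNat 88) (.negSucc 63) (.ofNat 256)) (.nd 1 2 1
(.lf (.ofNat 77) (.negSucc 91) (.ofNat 144) (.ofNat 108) (.negSucc 88) (.ofNat 256)) (.nd 2 2 1
(.lf (.ofNat 182) (.ofNat 0) (.ofNat 256) (.ofNat 102) (.negSucc 85) (.ofNat 230)) (.lf (.ofNat 134) (.ofNat 0) (.ofNat 219) (.ofNat 101) (.negSucc 92) (.ofNat 256)))))))) (.nd 1 1 1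
(.nd 2 1 1
(.nd 2 1 1
(.nd 0 1 1
(.lf (.ofNat 62) (.negSucc 57) (.ofNat 59) (.ofNat 74) (.negSucc 35) (.ofNat 256)) (.lf (.ofNat 72) (.negSucc 98) (.ofNat 85) (.ofNat 92) (.negSucc 51) (.ofNat 256))) (.lf (.ofNat 48) (.negSucc 44) (.ofNat 52) (.ofNat 66) (.negSucc 29) (.ofNat 256))) (.nd 2 1 1
(.lf (.ofNat 48) (.negSucc 32) (.ofNat 52) (.ofNat 52) (.negSucc 18) (.ofNat 256)) (.nd 2 1 1
(.lf (.ofNat 51) (.negSucc 25) (.ofNat 57) (.ofNat 44) (.negSucc 9) (.ofNat 256)) (.nd 2 1 1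
(.lf (.ofNat 52) (.negSucc 21) (.ofNat 61) (.ofNat 40) (.negSucc 3) (.ofNat 256)) (.nd 2 1 1
(.lf (.ofNat 52) (.negSucc 17) (.ofNat 64) (.ofNat 37) (.ofNat 0) (.ofNat 256)) (.nd 2 1 1
(.lf (.ofNat 52) (.negSucc 15) (.ofNat 67) (.ofNat 36) (.ofNat 3) (.ofNat 256)) (.nd 2 1 1
(.lf (.ofNat 51) (.negSucc 12) (.ofNat 68) (.ofNat 35) (.ofNat 6) (.ofNat 256)) (.nd 2 1 1
(.lf (.ofNat 51) (.negSucc 11) (.ofNat 70) (.ofNat 34) (.ofNat 8) (.ofNat 256)) (.nd 0 1 1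
(.lf (.ofNat 18) (.negSucc 5) (.ofNat 56) (.ofNat 31) (.ofNat 13) (.ofNat 256)) (.nd 1 1 2
(.nd 0 2 1
(.lf (.ofNat 22) (.negSucc 13) (.ofNat 63) (.ofNat 35) (.ofNat 10) (.ofNat 256)) (.nd 2 1 1
(.lf (.ofNat 86) (.negSucc 31) (.ofNat 113) (.ofNat 39) (.ofNat 7) (.ofNat 256)) (.lf (.ofNat 100) (.negSucc 65) (.ofNat 272) (.ofNat 151) (.ofNat 40) (.ofNat 1024)))) (.lf (.ofNat 81) (.negSucc 26) (.ofNat 266) (.ofNat 142) (.ofNat 43) (.ofNat 1024)))))))))))) (.nd 2 1 1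
(.nd 1 2 1
(.nd 0 1 1
(.lf (.ofNat 48) (.negSucc 30) (.ofNat 67) (.ofNat 60) (.negSucc 32) (.ofNat 256)) (.lf (.ofNat 45) (.negSucc 46) (.ofNat 77) (.ofNat 82) (.negSucc 59) (.ofNat 256))) (.nd 1 2 1
(.nd 0 1 1
(.lf (.ofNat 49) (.negSucc 21) (.ofNat 81) (.ofNat 60) (.negSucc 35) (.ofNat 256)) (.lf (.ofNat 45) (.negSucc 35) (.ofNat 96) (.ofNat 80) (.negSucc 67) (.ofNat 256))) (.nd 1 2 1
(.nd 0 1 1
(.lf (.ofNat 48) (.negSucc 13) (.ofNat 94) (.ofNat 60) (.negSucc 37) (.ofNat 256)) (.lf (.ofNat 52) (.negSucc 25) (.ofNat 122) (.ofNat 76) (.negSucc 69) (.ofNat 256))) (.lf (.ofNat 60) (.ofNat 0) (.ofNat 124) (.ofNat 66) (.negSucc 52) (.ofNat 256))))) (.nd 2 1 1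
(.nd 1 2 1
(.lf (.ofNat 43) (.negSucc 21) (.ofNat 70) (.ofNat 49) (.negSucc 21) (.ofNat 256)) (.nd 0 1 1
(.lf (.ofNat 56) (.ofNat 0) (.ofNat 101) (.ofNat 47) (.negSucc 17) (.ofNat 256)) (.lf (.ofNat 77) (.ofNat 0) (.ofNat 158) (.ofNat 57) (.negSucc 38) (.ofNat 256)))) (.nd 2 1 1
(.lf (.ofNat 62) (.ofNat 0) (.ofNat 110) (.ofNat 43) (.negSucc 10) (.ofNat 256)) (.nd 2 1 1
(.lf (.ofNat 53) (.ofNat 0) (.ofNat 89) (.ofNat 39) (.negSucc 2) (.ofNat 256)) (.nd 2 1 1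
(.lf (.ofNat 41) (.ofNat 0) (.ofNat 67) (.ofNat 38) (.ofNat 3) (.ofNat 256)) (.nd 2 1 1
(.lf (.ofNat 33) (.ofNat 0) (.ofNat 57) (.ofNat 37) (.ofNat 8) (.ofNat 256)) (.nd 0 1 1
(.lf (.ofNat 16) (.ofNat 0) (.ofNat 57) (.ofNat 34) (.ofNat 15) (.ofNat 256)) (.lf (.ofNat 18) (.ofNat 0) (.ofNat 68) (.ofNat 38) (.ofNat 11) (.ofNat 256)))))))))))

theorem ok_II11 : okT 2 T_II11 = true := by decide +kernel

theorem r0_II11 : runX 352 10 7 5 41292796800 ⟨some (3, 5), some (1, 6)⟩ ⟨some (1, 2), some (1, 1)⟩ ⟨none, none⟩ 0 T_II11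
    [PII00, PII02, PII01, PII22, PII12, PII11] = true := by
  decide +kernel

/-- `-K` -/
def NKII_II11 : P3 := [[[-250]], [[250]], [[], [175]], [], [[], [], [-32]]]

theorem r1_II11 : runX 125 4 2 1 250 ⟨some (3, 5), some (1, 6)⟩ ⟨some (1, 2), some (1, 1)⟩ ⟨none, none⟩ 1 T_II11
    [NKII_II11, [], [], [], [], []] = true := by
  decide +kernel

theorem r2_II11 : runX 125 4 2 1 1 ⟨some (3, 5), some (1, 6)⟩ ⟨some (1, 2), some (1, 1)⟩ ⟨none, none⟩ 2 T_II11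
    [[[[-1]]], [], [], [], [], []] = true := by
  decide +kernel

theorem q_II11 {m v T : ℝ} (l0 : Lim.In ⟨some (3, 5), some (1, 6)⟩ m) (l1 : Lim.In ⟨some (1, 2), some (1, 1)⟩ v) (l2 : Lim.In ⟨none, none⟩ T)
    (hK : 0 < ev3 m v T KII) (x1 x2 x3 : ℝ) :
    0 ≤ qf (ev3 m v T PII00) (ev3 m v T PII01) (ev3 m v T PII02) (ev3 m v T PII11)
      (ev3 m v T PII12) (ev3 m v T PII22) x1 x2 x3 := by
  have hg : ev3 m v T NKII_II11 < 0 := by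
    have e : ev3 m v T NKII_II11 = -ev3 m v T KII := by
      simp [NKII_II11, KII, ev3, ev2, ev1]
      ring
    rw [e]; linarith
  have hg2 : ev3 m v T [[[-1]]] < 0 := by simp [ev3, ev2, ev1]
  have h := psdX ok_II11 r0_II11 r1_II11 r2_II11 l0 l1 l2 hg hg2 x1 x3 x2
  simp only [qf] at h ⊢
  linarith

end Crest.Agent.R249.Px324
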