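import Crest.Agent.R249.Cd1_133
import Crest.Agent.R249.Ker12_254

/-!
# Row 249, part A (helper324): the chart matrix `VII` is positive semidefinite (kernel check)
-/

set_option autoImplicit false
set_option linter.unusedVariables false

namespace Crest.Agent.R249.Px324

open Ker254 Cd133

def T_VII : TreeX :=
(.nd 0 1 1
(.nd 2 1 1
(.nd 1 1 1
(.lf (.ofNat 140) (.negSucc 59) (.ofNat 11) (.ofNat 10) (.ofNat 1) (.ofNat 256)) (.lf (.ofNat 184) (.negSucc 212) (.ofNat 56) (.ofNat 39) (.ofNat 3) (.ofNat 1024))) (.nd 0 1 2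
(.lf (.ofNat 650) (.negSucc 717) (.ofNat 212) (.ofNat 190) (.ofNat 26) (.ofNat 4096)) (.nd 1 1 1
(.lf (.ofNat 50) (.negSucc 57) (.ofNat 14) (.ofNat 17) (.ofNat 2) (.ofNat 256)) (.nd 2 1 1
(.lf (.ofNat 61) (.negSucc 65) (.ofNat 21) (.ofNat 15) (.ofNat 1) (.ofNat 256)) (.lf (.ofNat 2123) (.negSucc 2543) (.ofNat 946) (.ofNat 1110) (.ofNat 95) (.ofNat 16384)))))) (.nd 1 1 1
(.nd 1 1 2
(.nd 2 1 1
(.nd 1 1 2
(.lf (.ofNat 1024) (.negSucc 513) (.ofNat 57) (.ofNat 120) (.ofNat 3) (.ofNat 994)) (.lf (.ofNat 127) (.negSucc 132) (.ofNat 21) (.ofNat 30) (.ofNat 0) (.ofNat 256))) (.nd 2 1 1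
(.lf (.ofNat 695) (.negSucc 465) (.ofNat 85) (.ofNat 121) (.ofNat 7) (.ofNat 1024)) (.nd 2 1 1
(.lf (.ofNat 152) (.negSucc 97) (.ofNat 21) (.ofNat 30) (.ofNat 3) (.ofNat 256)) (.nd 0 2 1
(.lf (.ofNat 42) (.negSucc 55) (.ofNat 14) (.ofNat 25) (.ofNat 4) (.ofNat 256)) (.nd 1 1 2
(.nd 0 2 1
(.lf (.ofNat 206) (.negSucc 280) (.ofNat 60) (.ofNat 130) (.ofNat 19) (.ofNat 1024)) (.lf (.ofNat 855) (.negSucc 1180) (.ofNat 252) (.ofNat 605) (.ofNat 82) (.ofNat 4096))) (.lf (.ofNat 37) (.negSucc 53) (.ofNat 17) (.ofNat 32) (.ofNat 3) (.ofNat 256))))))) (.nd 2 1 1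
(.lf (.ofNat 65) (.negSucc 73) (.ofNat 16) (.ofNat 28) (.negSucc 0) (.ofNat 256)) (.nd 2 1 1
(.lf (.ofNat 75) (.negSucc 82) (.ofNat 23) (.ofNat 28) (.ofNat 0) (.ofNat 256)) (.nd 0 2 1
(.lf (.ofNat 612) (.negSucc 791) (.ofNat 259) (.ofNat 380) (.ofNat 27) (.ofNat 4096)) (.nd 2 1 1
(.lf (.ofNat 75) (.negSucc 59) (.ofNat 23) (.ofNat 31) (.ofNat 0) (.ofNat 256)) (.nd 2 1 1
(.lf (.ofNat 72) (.negSucc 53) (.ofNat 24) (.ofNat 29) (.ofNat 1) (.ofNat 256)) (.nd 2 1 1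
(.lf (.ofNat 70) (.negSucc 49) (.ofNat 24) (.ofNat 28) (.ofNat 2) (.ofNat 256)) (.nd 0 2 1
(.lf (.ofNat 6322) (.negSucc 8151) (.ofNat 4108) (.ofNat 6491) (.ofNat 798) (.ofNat 65536)) (.nd 1 2 1
(.lf (.ofNat 27) (.negSucc 33) (.ofNat 18) (.ofNat 28) (.ofNat 3) (.ofNat 256)) (.nd 1 2 1
(.lf (.ofNat 24) (.negSucc 27) (.ofNat 18) (.ofNat 26) (.ofNat 3) (.ofNat 256)) (.lf (.ofNat 86) (.negSucc 92) (.ofNat 69) (.ofNat 100) (.ofNat 9) (.ofNat 1024)))))))))))) (.nd 2 1 1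
(.nd 2 1 1
(.nd 0 2 1
(.lf (.ofNat 43) (.negSucc 52) (.ofNat 15) (.ofNat 17) (.negSucc 0) (.ofNat 256)) (.nd 0 2 1
(.lf (.ofNat 35) (.negSucc 38) (.ofNat 12) (.ofNat 31) (.negSucc 3) (.ofNat 256)) (.nd 1 2 1
(.lf (.ofNat 47) (.negSucc 51) (.ofNat 15) (.ofNat 41) (.negSucc 5) (.ofNat 256)) (.nd 0 2 1
(.lf (.ofNat 41) (.negSucc 26) (.ofNat 8) (.ofNat 54) (.negSucc 7) (.ofNat 329)) (.nd 1 2 1
(.lf (.ofNat 44) (.negSucc 27) (.ofNat 8) (.ofNat 54) (.negSucc 6) (.ofNat 309)) (.nd 1 2 1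
(.lf (.ofNat 51) (.negSucc 30) (.ofNat 8) (.ofNat 74) (.negSucc 7) (.ofNat 412)) (.lf (.ofNat 62) (.negSucc 33) (.ofNat 8) (.ofNat 101) (.negSucc 7) (.ofNat 563)))))))) (.lf (.ofNat 47) (.negSucc 22) (.ofNat 8) (.ofNat 52) (.negSucc 4) (.ofNat 492))) (.nd 2 1 1
(.lf (.ofNat 37) (.negSucc 18) (.ofNat 8) (.ofNat 49) (.negSucc 3) (.ofNat 484)) (.nd 2 1 1
(.lf (.ofNat 33) (.negSucc 15) (.ofNat 8) (.ofNat 35) (.negSucc 0) (.ofNat 370)) (.nd 2 1 1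
(.lf (.ofNat 34) (.negSucc 13) (.ofNat 8) (.ofNat 23) (.ofNat 0) (.ofNat 256)) (.nd 2 1 1
(.lf (.ofNat 35) (.negSucc 10) (.ofNat 8) (.ofNat 34) (.ofNat 1) (.ofNat 408)) (.nd 2 1 1
(.lf (.ofNat 39) (.negSucc 9) (.ofNat 8) (.ofNat 44) (.ofNat 3) (.ofNat 544)) (.nd 2 1 1
(.lf (.ofNat 41) (.negSucc 8) (.ofNat 8) (.ofNat 49) (.ofNat 5) (.ofNat 621)) (.nd 2 1 1
(.lf (.ofNat 41) (.negSucc 8) (.ofNat 8) (.ofNat 49) (.ofNat 6) (.ofNat 629)) (.nd 2 1 1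
(.lf (.ofNat 66) (.negSucc 12) (.ofNat 13) (.ofNat 78) (.ofNat 11) (.ofNat 1024)) (.nd 2 1 1
(.nd 0 2 1
(.lf (.ofNat 61) (.negSucc 35) (.ofNat 28) (.ofNat 19) (.ofNat 3) (.ofNat 256)) (.lf (.ofNat 35) (.negSucc 3) (.ofNat 8) (.ofNat 46) (.ofNat 7) (.ofNat 574))) (.nd 0 2 1
(.lf (.ofNat 308) (.negSucc 271) (.ofNat 227) (.ofNat 293) (.ofNat 63) (.ofNat 4096)) (.nd 2 1 1
(.lf (.ofNat 258) (.negSucc 29) (.ofNat 59) (.ofNat 325) (.ofNat 55) (.ofNat 4096)) (.nd 1 2 1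
(.lf (.ofNat 88) (.negSucc 39) (.ofNat 56) (.ofNat 83) (.ofNat 18) (.ofNat 1024)) (.nd 0 2 1
(.lf (.ofNat 18) (.negSucc 4) (.ofNat 12) (.ofNat 19) (.ofNat 4) (.ofNat 256)) (.nd 1 2 1
(.lf (.ofNat 22) (.negSucc 0) (.ofNat 11) (.ofNat 21) (.ofNat 3) (.ofNat 256)) (.nd 0 2 1
(.lf (.ofNat 21) (.ofNat 1) (.ofNat 10) (.ofNat 21) (.ofNat 3) (.ofNat 256)) (.nd 1 2 1
(.lf (.ofNat 24) (.ofNat 3) (.ofNat 8) (.ofNat 23) (.ofNat 2) (.ofNat 256)) (.lf (.ofNat 195) (.ofNat 45) (.ofNat 67) (.ofNat 383) (.ofNat 30) (.ofNat 4096)))))))))))))))))))))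

theorem ok_VII : okT 2 T_VII = true := by decide +kernel

theorem r0_VII : runX 440 18 8 5 550907180400000 ⟨none, some (3, 10)⟩ ⟨none, some (1, 4)⟩ ⟨some (1, 2), none⟩ 0 T_VII
    [PVII00, PVII02, PVII01, PVII22, PVII12, PVII11] = true := by
  decide +kernel

theorem r1_VII : runX 24 1 2 1 1 ⟨none, some (3, 10)⟩ ⟨none, some (1, 4)⟩ ⟨some (1, 2), none⟩ 1 T_VII
    [[[[-1]]], [], [], [], [], []] = true := by
  decide +kernel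

theorem r2_VII : runX 24 1 2 1 1 ⟨none, some (3, 10)⟩ ⟨none, some (1, 4)⟩ ⟨some (1, 2), none⟩ 2 T_VII
    [[[[-1]]], [], [], [], [], []] = true := by
  decide +kernel

theorem pVII {w v p : ℝ} (h0 : 0 ≤ w) (h1 : 10 * w ≤ 3) (h2 : 0 ≤ v) (h3 : 4 * v ≤ 1) (h4 : 1 ≤ 2 * p)
    (hK : 0 < ev3 w v p KVII) (x1 x2 x3 : ℝ) :
    0 ≤ qf (ev3 w v p PVII00) (ev3 w v p PVII01) (ev3 w v p PVII02) (ev3 w v p PVII11)
      (ev3 w v p PVII12) (ev3 w v p PVII22) x1 x2 x3 := by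
  have hg : ev3 w v p [[[-1]]] < 0 := by simp [ev3, ev2, ev1]
  have hg2 : ev3 w v p [[[-1]]] < 0 := by simp [ev3, ev2, ev1]
  have l0 : Lim.In ⟨none, some (3, 10)⟩ w := Lim.in_hi (α := 3) (β := 10) (by norm_num) (by norm_num) (by linarith) (by norm_num; linarith)
  have l1 : Lim.In ⟨none, some (1, 4)⟩ v := Lim.in_hi (α := 1) (β := 4) (by norm_num) (by norm_num) (by linarith) (by norm_num; linarith)
  have l2 : Lim.In ⟨some (1, 2), none⟩ p := Lim.in_lo (α := 1) (β := 2) (by norm_num) (by norm_num) (by norm_num; linarith)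
  have h := psdX ok_VII r0_VII r1_VII r2_VII l0 l1 l2 hg hg2 x1 x3 x2
  simp only [qf] at h ⊢
  linarith

end Crest.Agent.R249.Px324
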