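import Crest.Agent.R249.Trx_285
import Crest.Agent.R249.SgE_129

/-!
`QF` for the invariants `|W⁺|²`, `|W⁻|²` of the curvature components. (row 249, helper129)
-/

set_option autoImplicit false
set_option linter.unusedSectionVars false

open scoped ContDiff Topology
open Filter Set Finset Matrix
open Crest.GeometryTopology.CoordMetric Crest.GeometryTopology.ChartCurvature
open Crest.Agent.R202.Tens Crest.Agent.R247.Bo84
open Crest.Agent.R249.Fr129 Crest.Agent.R249.Ga129 Crest.Agent.R249.Sg129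
open Crest.Agent.R249.FrmB_285 Crest.Agent.R249.FrmC_285 Crest.Agent.R249.Trw_285
open Crest.Agent.R249.Trx_285

noncomputable section

namespace Crest.Agent.R249.Qr129

lemma Rc_eq_Rf {n : ℕ} (g : MetricField n) (y : EuclideanSpace ℝ (Fin n))
    (ξ : Fin n → EuclideanSpace ℝ (Fin n)) : Rc g y ξ = Rf g y ξ := rfl

/-- `|W⁺|²` of an algebraic curvature tensor (Einstein constant `c`). -/
def QQ (c : ℝ) (R : T4) : ℝ := qqa c R

lemma act_eq_cj (O : Matrix (Fin 4) (Fin 4) ℝ) (R : T4) : act O R = cj Oᵀ R := by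
  funext i j k l
  simp only [act, cj, Matrix.transpose_apply]
  exact sum_congr rfl fun a _ => sum_congr rfl fun b _ => sum_congr rfl fun c _ =>
    sum_congr rfl fun d _ => by ring

lemma act_D4_eq (R : T4) : act D4 R = flp R := by
  funext i j k l
  rw [act_D4, flp]
  have h : ∀ i : Fin 4, (![1, 1, 1, -1] : Fin 4 → ℝ) i = ((Fr129.Frame.e3 i : ℤ) : ℝ) := by
    intro i; fin_cases i <;> simp [Fr129.Frame.e3]
  rw [h, h, h, h]

lemma anti_of {R : T4} (h : AlgCurv R) : Anti R := ⟨h.anti12, h.anti34⟩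

lemma Qm_eq (c : ℝ) (R : T4) : Qm QQ c R = qqa c (flp R) := by
  rw [Qm, act_D4_eq]; rfl

lemma inv_QQ (c : ℝ) : Inv (QQ c) := by
  intro R hR O hO hd
  rw [act_eq_cj]
  exact qqa_cj c (anti_of hR) (by rw [Matrix.transpose_transpose]; exact hO)
    (by rw [Matrix.det_transpose, hd])

lemma inv_Qm (c : ℝ) : Inv (Qm QQ c) := by
  intro R hR O hO hd
  rw [Qm_eq, Qm_eq, act_eq_cj]
  exact qqa_flp_cj c (anti_of hR) (by rw [Matrix.transpose_transpose]; exact hO)
    (by rw [Matrix.det_transpose, hd])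

lemma cd_comp (i j k l : Fin 4) : ContDiff ℝ ∞ (fun R : T4 => R i j k l) := by
  fun_prop

lemma cd_qqa_of {E : Type*} [NormedAddCommGroup E] [NormedSpace ℝ E] (lam : ℝ)
    {R : E → Fin 4 → Fin 4 → Fin 4 → Fin 4 → ℝ}
    (hR : ∀ i j k l, ContDiff ℝ ∞ (fun y => R y i j k l)) :
    ContDiff ℝ ∞ (fun y => qqa lam (R y)) := by
  simp only [qqa]
  have h1 : ∀ k l c, ContDiff ℝ ∞ (fun y => PPa (R y) k l c) := by
    intro k l c
    fin_cases c
    · exact (hR k l 0 1).add (hR k l 2 3)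
    · exact (hR k l 0 2).sub (hR k l 1 3)
    · exact (hR k l 0 3).add (hR k l 1 2)
  have h2 : ∀ c d, ContDiff ℝ ∞ (fun y => AAa (R y) c d) := by
    intro c d
    unfold AAa
    refine contDiff_const.mul ?_
    fin_cases d
    · exact (h1 0 1 c).add (h1 2 3 c)
    · exact (h1 0 2 c).sub (h1 1 3 c)
    · exact (h1 0 3 c).add (h1 1 2 c)
  have h3 : ∀ c d, ContDiff ℝ ∞ (fun y => WWa lam (R y) c d) := fun c d =>
    (h2 c d).sub contDiff_const
  exact ContDiff.sum fun c _ => ContDiff.sum fun d _ => (h3 c d).mul (h3 c d)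

lemma smooth_QQ (c : ℝ) : ContDiff ℝ ∞ (QQ c) := cd_qqa_of c cd_comp

lemma smooth_Qm (c : ℝ) : ContDiff ℝ ∞ (Qm QQ c) := by
  have : Qm QQ c = fun R => qqa c (flp R) := by funext R; exact Qm_eq c R
  rw [this]
  exact cd_qqa_of c fun i j k l => contDiff_const.mul (cd_comp i j k l)

/-- **`|W⁺|²`** -/
theorem qfp (c : ℝ) : QF c false (QQ c) where
  inv := inv_QQ c
  smooth := smooth_QQ c
  eq := by
    intro g U x e h hs
    rw [cond_false, h.qq_germ]
    refine germ_eq (Eventually.of_forall fun y => ?_)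
    simp only [QQ, Rc_eq_Rf]

/-- **`|W⁻|²`** -/
theorem qfm (c : ℝ) : QF c true (Qm QQ c) where
  inv := inv_Qm c
  smooth := smooth_Qm c
  eq := by
    intro g U x e h hs
    rw [cond_true, h.flip_qq_germ]
    refine germ_eq (Eventually.of_forall fun y => ?_)
    simp only [Qm_eq, Rc_eq_Rf]

/-- assembly -/
theorem bc {RS RC RP : ℝ → EuclideanSpace ℝ (Fin 4) → EuclideanSpace ℝ (Fin 4) →
      EuclideanSpace ℝ (Fin 4) → EuclideanSpace ℝ (Fin 4)}
    (h3 : TIII QQ RP) (h1 : TI QQ RS RC) : Asm49.BC RS RC RP := bc_of qfp qfm h3 h1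

end Crest.Agent.R249.Qr129
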