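import Crest.Agent.R249.RegEin_717
import Crest.Agent.R249.Fin1_832

/-!
Row 249, leaf D3-REG (helper717), file 15: `Fin832.RegStmt`.
-/

set_option autoImplicit false
open scoped ContDiff ENNReal Topology
open MeasureTheory Set Filter
open Crest.GeometryTopology.CoordMetric

namespace Crest.Agent.R249.RegStm_717

open Crest.Agent.R202.Ell
open Crest.Agent.R249.Ric2_672 Crest.Agent.R249.Ric3_672
open Crest.Agent.R249.RegKer_717 (WDOn test_zero LH)
open Crest.Agent.R249.RegEin_717
open Crest.Agent.R247.Frd657 (L2On)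
open Crest.Agent.R249.LPt_191 (N1 sS kos abs_le_N1)

noncomputable section

variable {n : ℕ}

theorem sS_eq_Sk (F : Matrix (Fin n) (Fin n) ℝ) (P : Fin n → Fin n → Fin n → ℝ) (a b : Fin n) :
    sS F P a b = Sk F⁻¹ P a b := by
  unfold sS Sk
  refine Finset.sum_congr rfl fun c _ => ?_
  rw [Finset.sum_comm]
  rfl

/-- the output of the limit lemma is a weak Einstein system -/
theorem einW_of {Ω : Set (EE n)} {h : EE n → Matrix (Fin n) (Fin n) ℝ}
    {H : Fin n → Fin n → Fin n → EE n → ℝ} {lam C α : ℝ} (hΩ : IsOpen Ω) (hα : 1 / 2 < α)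
    (hα1 : α < 1) (hs : ∀ y ∈ Ω, ∀ a b, h y a b = h y b a) (hn : ∀ y ∈ Ω, N1 (h y - 1) ≤ 1 / 8)
    (hh : ∀ x ∈ Ω, ∀ y ∈ Ω, ∀ a b, |h x a b - h y a b| ≤ C * dist x y ^ α)
    (L : Lim41.LOut Ω h H lam C α) :
    EinW Ω α lam h (fun a b c y => ∑ d, h y c d * H a b d y) := by
  have hα0 : 0 < α := by linarith
  have hpd : ∀ y ∈ Ω, (h y).PosDef := fun y hy => Fin832.posDef_of_near (hs y hy) (hn y hy)
  have hhol : ∀ a b, LH α Ω (fun x => h x a b) := fun a b =>
    LH_of_dist hΩ fun x hx y hy => hh x hx y hy a b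
  have hc : ∀ a b, ContinuousOn (fun x => h x a b) Ω := fun a b =>
    RegKer_717.LH.continuousOn hα0 (hhol a b)
  have hinv : ∀ x ∈ Ω, ∀ a b e, ∑ c, (h x)⁻¹ e c * ∑ d, h x c d * H a b d x = H a b e x := by
    intro x hx a b e
    have h1 : (h x)⁻¹ * h x = 1 := Matrix.nonsing_inv_mul _ (hpd x hx).det_pos.ne'.isUnit
    have h2 : ∀ d, ∑ c, (h x)⁻¹ e c * h x c d = if e = d then 1 else 0 := by
      intro d
      have := congrFun (congrFun h1 e) d
      rw [Matrix.mul_apply, Matrix.one_apply] at this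
      exact this
    simp only [Finset.mul_sum]
    rw [Finset.sum_comm]
    have h3 : ∀ d, ∑ c, (h x)⁻¹ e c * (h x c d * H a b d x)
        = (if e = d then 1 else 0) * H a b d x := by
      intro d
      rw [← h2 d, Finset.sum_mul]
      exact Finset.sum_congr rfl fun c _ => by ring
    simp only [h3]
    simp
  have hb2 : ∀ y ∈ Ω, ∀ c d, |h y c d| ≤ 2 := by
    intro y hy c d
    have h1 := (abs_le_N1 (h y - 1) c d).trans (hn y hy)
    rw [Matrix.sub_apply, Matrix.one_apply] at h1
    split_ifs at h1 <;> rw [abs_le] at h1 ⊢ <;> constructor <;> linarith [h1.1, h1.2]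
  have hl2 : ∀ a b c, L2On Ω (fun y => ∑ d, h y c d * H a b d y) := fun a b c =>
    l2_sum _ fun d _ => l2_mul (fun K _ _ => (L.mem a b d).restrict K) (hc c d)
  refine ⟨hα, hα1, hΩ, hhol, hpd, hl2, ?_, ?_, ?_, ?_⟩
  · -- Morrey
    intro x hx
    obtain ⟨r, hr, hrs⟩ := Metric.nhds_basis_closedBall.mem_iff.1 (hΩ.mem_nhds hx)
    have hpow : (0 : ℝ) ≤ 2 ^ ((n : ℝ) - 2 + 2 * α) := Real.rpow_nonneg (by norm_num) _
    refine ⟨r / 4, by positivity, n * (2 ^ 2 * (n * (|C| * 2 ^ ((n : ℝ) - 2 + 2 * α)))),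
      by positivity, fun y hy ρ hρ hρr a b c => ?_⟩
    have hsub : Metric.closedBall y (2 * ρ) ⊆ Ω := by
      intro t ht
      apply hrs
      rw [Metric.mem_closedBall] at ht hy ⊢
      have := dist_triangle t y x
      linarith
    have hsub1 : Metric.closedBall y ρ ⊆ Metric.closedBall y (2 * ρ) :=
      Metric.closedBall_subset_closedBall (by linarith)
    have hcb : IsCompact (Metric.closedBall y ρ) := isCompact_closedBall _ _
    have hH2 : ∀ d, IntegrableOn (fun t => H a b d t ^ 2) (Metric.closedBall y ρ) := fun d =>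
      (L.mem a b d).integrable_sq.integrableOn
    have h1 : ∫ t in Metric.closedBall y ρ, (∑ d, h t c d * H a b d t) ^ 2
        ≤ ∫ t in Metric.closedBall y ρ, n * (2 ^ 2 * ∑ d, H a b d t ^ 2) := by
      refine setIntegral_mono_on (hl2 a b c _ (hsub1.trans hsub) hcb).integrable_sq
        (((integrable_finsetSum _ fun d _ => hH2 d).const_mul _).const_mul _)
        Metric.isClosed_closedBall.measurableSet fun t ht => ?_
      have h2 := sq_sum_le_card_mul_sum_sq (s := (Finset.univ : Finset (Fin n)))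
        (f := fun d => h t c d * H a b d t)
      rw [Finset.card_univ, Fintype.card_fin] at h2
      refine h2.trans (mul_le_mul_of_nonneg_left ?_ (by positivity))
      rw [Finset.mul_sum]
      refine Finset.sum_le_sum fun d _ => ?_
      rw [mul_pow]
      refine mul_le_mul_of_nonneg_right ?_ (sq_nonneg _)
      rw [← sq_abs]
      exact pow_le_pow_left₀ (abs_nonneg _) (hb2 t (hsub (hsub1 ht)) c d) 2
    refine h1.trans ?_
    rw [integral_const_mul, integral_const_mul, integral_finsetSum _ fun d _ => hH2 d]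
    have h3 : ∀ d, ∫ t in Metric.closedBall y ρ, H a b d t ^ 2
        ≤ |C| * (2 ^ ((n : ℝ) - 2 + 2 * α) * ρ ^ ((n : ℝ) - 2 + 2 * α)) := by
      intro d
      have h4 := L.morrey y (2 * ρ) (by positivity) hsub a b d
      rw [Real.mul_rpow (by norm_num) hρ.le] at h4
      have h5 : ∫ t in Metric.closedBall y ρ, H a b d t ^ 2
          ≤ ∫ t in Metric.ball y (2 * ρ), H a b d t ^ 2 := by
        refine setIntegral_mono_set (L.mem a b d).integrable_sq.integrableOn
          (Eventually.of_forall fun t => sq_nonneg _) (LE.le.eventuallyLE ?_)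
        exact Metric.closedBall_subset_ball (by linarith)
      refine h5.trans (h4.trans (mul_le_mul_of_nonneg_right (le_abs_self C) ?_))
      have := Real.rpow_nonneg hρ.le ((n : ℝ) - 2 + 2 * α)
      positivity
    have h6 : ∑ d, ∫ t in Metric.closedBall y ρ, H a b d t ^ 2
        ≤ n * (|C| * (2 ^ ((n : ℝ) - 2 + 2 * α) * ρ ^ ((n : ℝ) - 2 + 2 * α))) :=
      (Finset.sum_le_sum fun d _ => h3 d).trans (by simp)
    calc _ ≤ (n : ℝ) * (2 ^ 2 * (n * (|C| * (2 ^ ((n : ℝ) - 2 + 2 * α) *
          ρ ^ ((n : ℝ) - 2 + 2 * α))))) := by gcongr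
      _ = _ := by ring
  · -- weak derivative
    intro a b e
    have h1 : WDOn Ω e (fun x => h x a b) (H a b e) := by
      intro φ hφ hsφ
      rw [L.wd a b e φ ⟨hφ.smooth, hφ.cpt, hsφ⟩]
      congr 1
      exact integral_congr_ae (Eventually.of_forall fun x => mul_comm _ _)
    exact h1.congr (fun x _ => rfl) fun x hx => (hinv x hx a b e).symm
  · -- divergence
    intro b φ hφ hsφ
    rw [← L.div b φ ⟨hφ.smooth, hφ.cpt, hsφ⟩]
    refine integral_congr_ae (Eventually.of_forall fun x => ?_)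
    exact Finset.sum_congr rfl fun d _ => mul_comm _ _
  · -- system
    intro a b φ hφ hsφ
    have h1 := L.sys a b φ ⟨hφ.smooth, hφ.cpt, hsφ⟩
    have e1 : ∫ x, ∑ c, (√(h x).det)⁻¹ * (∑ d, h x c d * H a b d x) * pderiv c φ x
        = ∫ y, ∑ c, pderiv c φ y * ((√(h y).det)⁻¹ * ∑ d, h y c d * H a b d y) :=
      integral_congr_ae (Eventually.of_forall fun x =>
        Finset.sum_congr rfl fun c _ => mul_comm _ _)
    have e2 : ∫ x, (√(h x).det)⁻¹ * (2 * Sk (h x)⁻¹ (fun a b c => ∑ d, h x c d * H a b d x) a b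
          + 2 * lam * h x a b) * φ x
        = ∫ y, φ y * ((√(h y).det)⁻¹ * (2 * sS (h y) (fun a b c => ∑ d, h y c d * H a b d y) a b +
          2 * lam * h y a b)) := by
      refine integral_congr_ae (Eventually.of_forall fun x => ?_)
      show _ * φ x = φ x * _
      rw [sS_eq_Sk]; ring
    rw [e1, e2]
    exact h1

/-- **`RegStmt`** -/
theorem regStmt : Fin832.RegStmt := by
  intro Ω h H lam C α hΩ hα hα1 _ hs hn hh L
  have E := einW_of hΩ (by linarith) hα1 hs hn hh L
  exact ⟨(E.riem (by norm_num)).contDiffOn, E.ricci (by norm_num)⟩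

end

end Crest.Agent.R249.RegStm_717
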