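import Crest.Agent.R249.LimDef_41

/-!
R249 (S0386), D3: interface between START (397) and the assembly of `SDStmt` (helper308).
-/

set_option autoImplicit false
noncomputable section
open Set Filter Topology Bundle MeasureTheory Metric
open scoped ContDiff Manifold ENNReal NNReal
open Crest.GeometryTopology.CoordMetric Crest.GeometryTopology.ChartCurvature
  Crest.GeometryTopology.RicciEnergy Crest.GeometryTopology.PointedLimit
open Crest.Agent.R247.Bo84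

namespace Crest.Agent.R249.SD308

local notation "𝔼" => EuclideanSpace ℝ (Fin 4)

/-- **START**, scale invariant form, `n = 4`. -/
def StartStmt : Prop := ∀ ε : ℝ, 0 < ε → ∃ δ c : ℝ, 0 < δ ∧ 0 < c ∧ c ≤ 1 / 4 ∧
  ∀ (M : Type) [MetricSpace M] [CompleteSpace M] [ConnectedSpace M]
    [ChartedSpace (EuclideanSpace ℝ (Fin 4)) M]
    [IsManifold 𝓘(ℝ, EuclideanSpace ℝ (Fin 4)) ∞ M]
    [RiemannianBundle (fun x : M => TangentSpace 𝓘(ℝ, EuclideanSpace ℝ (Fin 4)) x)]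
    [IsContMDiffRiemannianBundle 𝓘(ℝ, EuclideanSpace ℝ (Fin 4)) ∞ (EuclideanSpace ℝ (Fin 4))
      (fun x : M => TangentSpace 𝓘(ℝ, EuclideanSpace ℝ (Fin 4)) x)]
    [IsRiemannianManifold 𝓘(ℝ, EuclideanSpace ℝ (Fin 4)) M]
    [MeasurableSpace M] [BorelSpace M], HasRicciLowerBound 4 M 0 →
    ∀ (x : M) (R : ℝ), 0 < R →
    (∀ y ∈ ball x R, ∀ r : ℝ, 0 < r → r ≤ R →
      ENNReal.ofReal (1 - δ) * volume (ball (0 : 𝔼) r) ≤ (μHE[4] : Measure M) (ball y r)) →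
    ∃ u : Fin 4 → M → ℝ,
      (∀ a, ContMDiffOn 𝓘(ℝ, 𝔼) 𝓘(ℝ, ℝ) ∞ (u a) (ball x (2 * (c * R)))) ∧
      (∀ a, ∀ p ∈ ball x (2 * (c * R)), mLap 4 (u a) p = 0 ∧ mGam 4 (u a) (u a) p ≤ 4) ∧
      ∫ z in ball x (c * R), ∑ a, mHessSq 4 (u a) z ∂(μHE[4] : Measure M) ≤ ε * (c * R) ^ 2 ∧
      ∫ z in ball x (c * R), ∑ a, ∑ b, |mGam 4 (u a) (u b) z - if a = b then 1 else 0|
        ∂(μHE[4] : Measure M) ≤ ε * (c * R) ^ 4

end Crest.Agent.R249.SD308
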