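import Crest.Agent.R249.Dec7_308
import Crest.Agent.R249.SDDef_308

/-!
R249 (S0386), D3 (helper308), assembly of `SDStmt`, part 1: the curvature bound `B = (4/3) Scal`.
-/

set_option autoImplicit false
set_option maxSynthPendingDepth 3
set_option linter.unusedSectionVars false

open scoped ContDiff ENNReal NNReal Topology Manifold Bundle RealInnerProductSpace
open MeasureTheory Set Filter Metric Bundle
open Crest.GeometryTopology.CoordMetric Crest.GeometryTopology.ChartCurvature
open Crest.Agent.R247 Crest.Agent.R247.Bo84 Crest.Agent.R247.Ms322 Crest.Agent.R247.Bs84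
open Crest.Agent.R247.Hes124 (F S mv tr idm)
open Crest.GeometryTopology.PointedLimit Crest.Agent.R247.Mcp688
open Crest.Agent.R249.Cod992 Crest.Agent.R249.D1Def104 Crest.Agent.R249.Dec308

noncomputable section

namespace Crest.Agent.R249.SD308

variable {M : Type*} [MetricSpace M] [CompleteSpace M] [ConnectedSpace M]
  [ChartedSpace (EuclideanSpace ℝ (Fin 4)) M]
  [IsManifold 𝓘(ℝ, EuclideanSpace ℝ (Fin 4)) ∞ M]
  [RiemannianBundle (fun x : M => TangentSpace 𝓘(ℝ, EuclideanSpace ℝ (Fin 4)) x)]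
  [IsContMDiffRiemannianBundle 𝓘(ℝ, EuclideanSpace ℝ (Fin 4)) ∞ (EuclideanSpace ℝ (Fin 4))
    (fun x : M => TangentSpace 𝓘(ℝ, EuclideanSpace ℝ (Fin 4)) x)]
  [IsRiemannianManifold 𝓘(ℝ, EuclideanSpace ℝ (Fin 4)) M]
  [MeasurableSpace M] [BorelSpace M] [SecondCountableTopology M] [Nonempty M]

/-- the curvature bound -/
def Bc (M : Type*) [MetricSpace M] [ChartedSpace (EuclideanSpace ℝ (Fin 4)) M]
    [RiemannianBundle (fun x : M => TangentSpace 𝓘(ℝ, EuclideanSpace ℝ (Fin 4)) x)] (z : M) : ℝ :=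
  (4 / 3) * mScal 4 M z

theorem Bc_nonneg (h : HasNonnegSectionalCurvature 4 M) (z : M) : 0 ≤ Bc M z :=
  mul_nonneg (by norm_num) (Alg2_104.mScal_nonneg h z)

theorem continuous_Bc : Continuous (Bc M) := continuous_const.mul Sch1_104.continuous_mScal

theorem curvLe_Bc (h : HasNonnegSectionalCurvature 4 M) (z : M) : MCurvLe 4 z (Bc M z) :=
  (mCurvLe_iff (Bc_nonneg h z)).2 fun u v w y => Alg2_104.curv_bound_M h z u v w y

theorem Bc_sq_le (c : ℝ) (z : M) : Bc M z ^ 2 ≤ 60 * c ^ 2 + 16 * mRicDev 4 M c z := by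
  have h1 := Sch1_104.mRicDev_split (M := M) (n := 4) (by norm_num) c z
  have h2 := Sch1_104.density_nonneg (M := M) (n := 4) z
  have h3 : (mScal 4 M z - 4 * c) ^ 2 ≤ 4 * mRicDev 4 M c z := by
    push_cast at h1
    linarith
  unfold Bc
  nlinarith [sq_nonneg (mScal 4 M z - 8 * c), sq_nonneg (mScal 4 M z)]

/-- the `L²` bound of the curvature on balls -/
theorem int_Bc_le (hRic : HasRicciLowerBound 4 M 0) {x y : M} {r R c η : ℝ} (hr : 0 < r)
    (hsub : ball y r ⊆ ball x R) (hη : 0 ≤ η)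
    (h : ∫⁻ z in ball x R, ENNReal.ofReal (mRicDev 4 M c z) ∂(μHE[4] : Measure M) ≤
      ENNReal.ofReal η) :
    ∫ z in ball y r, Bc M z ^ 2 ∂(μHE[4] : Measure M) ≤ 60 * om4 * (c ^ 2 * r ^ 4) + 16 * η := by
  have := HR216.properSpace_of_riemannian 4 M
  have := isLocallyFinite_muHE 4 M
  have hcd : Continuous (mRicDev 4 M c) := Sch1_104.continuous_mRicDev c
  have hfin : (μHE[4] : Measure M) (ball y r) ≠ ⊤ := measure_ball_lt_top.ne
  have hi : ∀ f : M → ℝ, Continuous f → IntegrableOn f (ball y r) (μHE[4] : Measure M) :=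
    fun f hf => (hf.continuousOn.integrableOn_compact (isCompact_closedBall y r)).mono_set
      ball_subset_closedBall
  have h1 : ∫ z in ball y r, Bc M z ^ 2 ∂(μHE[4] : Measure M) ≤
      ∫ z in ball y r, (60 * c ^ 2 + 16 * mRicDev 4 M c z) ∂(μHE[4] : Measure M) :=
    integral_mono (hi _ (continuous_Bc.pow 2)) (hi _ (continuous_const.add
      (continuous_const.mul hcd))) fun z => Bc_sq_le c z
  have h2 : ∫ z in ball y r, mRicDev 4 M c z ∂(μHE[4] : Measure M) ≤ η := by
    rw [integral_eq_lintegral_of_nonneg_ae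
      (Eventually.of_forall fun z => Sch1_104.mRicDev_nonneg c z) hcd.aestronglyMeasurable]
    refine ENNReal.toReal_le_of_le_ofReal hη (le_trans ?_ h)
    exact lintegral_mono_set hsub
  have i1 : Integrable (fun _ : M => 60 * c ^ 2) ((μHE[4] : Measure M).restrict (ball y r)) :=
    hi _ continuous_const
  have i2 : Integrable (fun z : M => 16 * mRicDev 4 M c z)
      ((μHE[4] : Measure M).restrict (ball y r)) := hi _ (continuous_const.mul hcd)
  rw [integral_add i1 i2, setIntegral_const, integral_const_mul, smul_eq_mul] at h1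
  have h3 := real_up hRic y r hr
  have h4 : (μHE[4] : Measure M).real (ball y r) * (60 * c ^ 2) ≤ (om4 * r ^ 4) * (60 * c ^ 2) :=
    mul_le_mul_of_nonneg_right h3 (by positivity)
  nlinarith

end Crest.Agent.R249.SD308
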