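import Crest.Agent.R249.SD1_308
import Crest.Agent.R249.En2_920

/-!
R249 (S0386), D3 (helper308), assembly of `SDStmt`, part 2: one manifold, all centres and scales.
-/

set_option autoImplicit false
set_option maxSynthPendingDepth 3
set_option linter.unusedSectionVars false

open scoped ContDiff ENNReal NNReal Topology Manifold Bundle RealInnerProductSpace
open MeasureTheory Set Filter Metric Bundle
open Crest.GeometryTopology.CoordMetric Crest.GeometryTopology.ChartCurvature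
open Crest.Agent.R247 Crest.Agent.R247.Bo84 Crest.Agent.R247.Ms322 Crest.Agent.R247.Bs84
open Crest.Agent.R247.Hes124 (F S mv tr idm)
open Crest.GeometryTopology.PointedLimit Crest.Agent.R247.Mcp688
open Crest.Agent.R249.Cod992 Crest.Agent.R249.D1Def104 Crest.Agent.R249.Dec308
open Crest.Agent.R249.SobE_982 Crest.Agent.R249.SobG_982

noncomputable section

namespace Crest.Agent.R249.SD308

theorem norm_le_sum (x : S 4) : ‖x‖ ≤ ∑ a, ∑ b, |x (a, b)| := by
  have h0 : 0 ≤ ∑ a, ∑ b, |x (a, b)| := by positivity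
  refine le_of_sq_le_sq ?_ h0
  rw [Hes124.norm_sq_S]
  have h1 : ∀ a, ∑ b, x (a, b) ^ 2 ≤ (∑ b, |x (a, b)|) ^ 2 := fun a => by
    have := Finset.sum_sq_le_sq_sum_of_nonneg (s := Finset.univ) (f := fun b => |x (a, b)|)
      (fun b _ => abs_nonneg _)
    simpa only [sq_abs] using this
  refine (Finset.sum_le_sum fun a _ => h1 a).trans ?_
  exact Finset.sum_sq_le_sq_sum_of_nonneg (s := Finset.univ) (f := fun a => ∑ b, |x (a, b)|)
    (fun a _ => by positivity)

theorem sum_le_norm (x : S 4) : ∑ a, ∑ b, |x (a, b)| ≤ 4 * ‖x‖ := by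
  refine le_of_sq_le_sq ?_ (by positivity)
  have h1 : (∑ a, ∑ b, |x (a, b)|) ^ 2 ≤ 4 * ∑ a, (∑ b, |x (a, b)|) ^ 2 := by
    have := sq_sum_le_card_mul_sum_sq (s := (Finset.univ : Finset (Fin 4)))
      (f := fun a => ∑ b, |x (a, b)|)
    simpa using this
  have h2 : ∀ a, (∑ b, |x (a, b)|) ^ 2 ≤ 4 * ∑ b, x (a, b) ^ 2 := fun a => by
    have := sq_sum_le_card_mul_sum_sq (s := (Finset.univ : Finset (Fin 4)))
      (f := fun b => |x (a, b)|)
    simpa [sq_abs] using this
  rw [mul_pow, Hes124.norm_sq_S]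
  calc (∑ a, ∑ b, |x (a, b)|) ^ 2 ≤ 4 * ∑ a, (∑ b, |x (a, b)|) ^ 2 := h1
    _ ≤ 4 * ∑ a, 4 * ∑ b, x (a, b) ^ 2 := by
        gcongr with a _
        exact h2 a
    _ = _ := by rw [← Finset.mul_sum]; ring

variable {M : Type} [MetricSpace M] [CompleteSpace M] [ConnectedSpace M]
  [ChartedSpace (EuclideanSpace ℝ (Fin 4)) M]
  [IsManifold 𝓘(ℝ, EuclideanSpace ℝ (Fin 4)) ∞ M]
  [RiemannianBundle (fun x : M => TangentSpace 𝓘(ℝ, EuclideanSpace ℝ (Fin 4)) x)]
  [IsContMDiffRiemannianBundle 𝓘(ℝ, EuclideanSpace ℝ (Fin 4)) ∞ (EuclideanSpace ℝ (Fin 4))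
    (fun x : M => TangentSpace 𝓘(ℝ, EuclideanSpace ℝ (Fin 4)) x)]
  [IsRiemannianManifold 𝓘(ℝ, EuclideanSpace ℝ (Fin 4)) M]
  [MeasurableSpace M] [BorelSpace M] [SecondCountableTopology M] [Nonempty M]

local notation "μM" => (μHE[4] : Measure M)

variable {U : Fin 4 → M → ℝ}

theorem Fm_sub_idm (z : M) (a b : Fin 4) :
    (Fm 4 U z - idm 4) (a, b) = mGam 4 (U a) (U b) z - if a = b then 1 else 0 := rfl

/-- the sum of the deviations of the entries -/
def Dv (U : Fin 4 → M → ℝ) (z : M) : ℝ :=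
  ∑ a, ∑ b, |mGam 4 (U a) (U b) z - if a = b then 1 else 0|

theorem Dv_nonneg (z : M) : 0 ≤ Dv U z := by unfold Dv; positivity

theorem Dv_le (A : S 4) (z : M) : Dv U z ≤ 4 * (‖Fm 4 U z - A‖ + ‖A - idm 4‖) := by
  have h1 := sum_le_norm (Fm 4 U z - idm 4)
  have h2 : ‖Fm 4 U z - idm 4‖ ≤ ‖Fm 4 U z - A‖ + ‖A - idm 4‖ := by
    calc ‖Fm 4 U z - idm 4‖ = ‖(Fm 4 U z - A) + (A - idm 4)‖ := by congr 1; abel
      _ ≤ _ := norm_add_le _ _
  calc Dv U z = ∑ a, ∑ b, |(Fm 4 U z - idm 4) (a, b)| := rfl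
    _ ≤ _ := by linarith

theorem continuous_Dv (hU : ∀ a, ContMDiff (𝓡 4) 𝓘(ℝ, ℝ) ∞ (U a)) : Continuous (Dv U) := by
  unfold Dv
  refine continuous_finsetSum _ fun a _ => continuous_finsetSum _ fun b _ => ?_
  refine ((continuous_iff_continuousAt.2 fun z => ?_).sub continuous_const).abs
  exact (ctF (fun a => hU a z) a b).continuousAt

/-- the average is near the identity -/
theorem Av_near (hU : ∀ a, ContMDiff (𝓡 4) 𝓘(ℝ, ℝ) ∞ (U a)) {y : M} {s v : ℝ} (hs : 0 < s)
    (hv : 0 < v) (hvol : v ≤ (μM).real (ball y s)) :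
    ‖Av U y s - idm 4‖ ≤ v⁻¹ * ∫ z in ball y s, Dv U z ∂μM := by
  have := HR216.properSpace_of_riemannian 4 M
  have := isLocallyFinite_muHE 4 M
  have hfin : (μM) (ball y s) ≠ ⊤ := measure_ball_lt_top.ne
  have hi : ∀ f : M → ℝ, Continuous f → IntegrableOn f (ball y s) (μM) :=
    fun f hf => (hf.continuousOn.integrableOn_compact (isCompact_closedBall y s)).mono_set
      ball_subset_closedBall
  have hc : ∀ a b, Continuous (mGam 4 (U a) (U b)) := fun a b =>
    continuous_iff_continuousAt.2 fun z => (ctF (fun a => hU a z) a b).continuousAt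
  have hV : 0 < (μM).real (ball y s) := hv.trans_le hvol
  have h1 : ∀ a b, |(Av U y s - idm 4) (a, b)| ≤ ((μM).real (ball y s))⁻¹ *
      ∫ z in ball y s, |mGam 4 (U a) (U b) z - if a = b then 1 else 0| ∂μM := by
    intro a b
    have e1 : (Av U y s - idm 4) (a, b) = ((μM).real (ball y s))⁻¹ *
        ∫ z in ball y s, (mGam 4 (U a) (U b) z - if a = b then 1 else 0) ∂μM := by
      have e2 : (Av U y s - idm 4) (a, b) =
        (⨍ z in ball y s, mGam 4 (U a) (U b) z ∂μM) - if a = b then 1 else 0 := rfl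
      have i1 : Integrable (fun z => mGam 4 (U a) (U b) z) ((μM).restrict (ball y s)) :=
        hi _ (hc a b)
      have i2 : Integrable (fun _ : M => if a = b then (1:ℝ) else 0)
        ((μM).restrict (ball y s)) := hi _ continuous_const
      rw [e2, setAverage_eq, integral_sub i1 i2, setIntegral_const, smul_eq_mul, smul_eq_mul]
      field_simp
    rw [e1, abs_mul, abs_of_nonneg (by positivity : 0 ≤ ((μM).real (ball y s))⁻¹)]
    exact mul_le_mul_of_nonneg_left abs_integral_le_integral_abs (by positivity)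
  have hci : ∀ a b, IntegrableOn (fun z => |mGam 4 (U a) (U b) z - if a = b then 1 else 0|)
      (ball y s) (μM) := fun a b => hi _ ((hc a b).sub continuous_const).abs
  have h2 : ∑ a, ∑ b, |(Av U y s - idm 4) (a, b)| ≤ ((μM).real (ball y s))⁻¹ *
      ∫ z in ball y s, Dv U z ∂μM := by
    unfold Dv
    rw [integral_finsetSum _ fun a _ => integrable_finsetSum _ fun b _ => hci a b, Finset.mul_sum]
    refine Finset.sum_le_sum fun a _ => ?_
    rw [integral_finsetSum _ fun b _ => hci a b, Finset.mul_sum]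
    exact Finset.sum_le_sum fun b _ => h1 a b
  have h3 : 0 ≤ ∫ z in ball y s, Dv U z ∂μM := integral_nonneg fun z => Dv_nonneg z
  refine (norm_le_sum _).trans (h2.trans (mul_le_mul_of_nonneg_right ?_ h3))
  exact inv_anti₀ hv hvol

/-- the deviation at the scale `s` from the energy at the scale `2 s` -/
theorem dv_int_le (hRic : HasRicciLowerBound 4 M 0) (hU : ∀ a, ContMDiff (𝓡 4) 𝓘(ℝ, ℝ) ∞ (U a))
    {y : M} {s : ℝ} (hs : 0 < s) {W : Set M} (hWo : IsOpen W) (hW : closedBall y (2 * s) ⊆ W)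
    (hΛ : ∀ a, ∀ z ∈ W, ‖Gr (n := 4) (U a) z‖ ≤ 2) :
    ∫ z in ball y s, Dv U z ∂μM ≤
      4 * om4 * (182 * √(th U y (2 * s)) + ‖Av U y s - idm 4‖) * s ^ 4 := by
  have := HR216.properSpace_of_riemannian 4 M
  have := isLocallyFinite_muHE 4 M
  have h0 := om4_ge
  have hfin : (μM) (ball y s) ≠ ⊤ := measure_ball_lt_top.ne
  have : IsFiniteMeasure ((μM).restrict (ball y s)) := ⟨by
    rw [Measure.restrict_apply_univ]; exact hfin.lt_top⟩
  have hi : ∀ f : M → ℝ, Continuous f → IntegrableOn f (ball y s) (μM) :=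
    fun f hf => (hf.continuousOn.integrableOn_compact (isCompact_closedBall y s)).mono_set
      ball_subset_closedBall
  have hcF : Continuous (fun z => ‖Fm 4 U z - Av U y s‖) := continuous_iff_continuousAt.2 fun z =>
    ((continuousAt_Fm fun a => hU a z).sub continuousAt_const).norm
  have hvol := real_up hRic y s hs
  have h1 : ∫ z in ball y s, Dv U z ∂μM ≤
      ∫ z in ball y s, (4 * ‖Fm 4 U z - Av U y s‖ + 4 * ‖Av U y s - idm 4‖) ∂μM :=
    integral_mono (hi _ (continuous_Dv hU)) (hi _ ((continuous_const.mul hcF).add continuous_const))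
      fun z => by
        have := Dv_le (U := U) (Av U y s) z
        show Dv U z ≤ 4 * ‖Fm 4 U z - Av U y s‖ + 4 * ‖Av U y s - idm 4‖
        linarith
  have i1 : Integrable (fun z => 4 * ‖Fm 4 U z - Av U y s‖) ((μM).restrict (ball y s)) :=
    hi _ (continuous_const.mul hcF)
  have i2 : Integrable (fun _ : M => 4 * ‖Av U y s - idm 4‖) ((μM).restrict (ball y s)) :=
    hi _ continuous_const
  rw [integral_add i1 i2, integral_const_mul, setIntegral_const, smul_eq_mul] at h1
  -- Cauchy-Schwarz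
  have m1 : MemLp (fun z => ‖Fm 4 U z - Av U y s‖) 2 ((μM).restrict (ball y s)) :=
    (memLp_two_iff_integrable_sq hcF.aestronglyMeasurable).2 (hi _ (hcF.pow 2))
  have m2 : MemLp (fun _ : M => (1:ℝ)) 2 ((μM).restrict (ball y s)) := memLp_const 1
  have h2 := (le_abs_self _).trans (Hes124.cs_mul m1 m2)
  simp only [mul_one, one_pow, integral_const, smul_eq_mul] at h2
  have h3 := poinc_Fm hRic hs hWo hW (U := U) (fun a z _ => hU a z) hΛ (A := Av U y s)
    (fun p => rfl)
  have hth : ∫ z in ball y (2 * s), T2 4 U z ∂μM = 4 * s ^ 2 * th U y (2 * s) := by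
    unfold th; field_simp; ring
  have hTn : 0 ≤ ∫ z in ball y (2 * s), T2 4 U z ∂μM :=
    setIntegral_nonneg isOpen_ball.measurableSet fun z _ =>
      T2_nonneg fun a => (hU a z).of_le two_le_infty
  have hth0 : 0 ≤ th U y (2 * s) := by unfold th; positivity
  have h4 : ∫ z in ball y s, ‖Fm 4 U z - Av U y s‖ ^ 2 ∂μM ≤ (182 * √(th U y (2 * s)) * s ^ 2) ^ 2 := by
    refine h3.trans ?_
    rw [hth, mul_pow, mul_pow, Real.sq_sqrt hth0]
    push_cast
    have : 0 ≤ s ^ 4 * th U y (2 * s) := by positivity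
    nlinarith
  have h5 : √(∫ z in ball y s, ‖Fm 4 U z - Av U y s‖ ^ 2 ∂μM) ≤ 182 * √(th U y (2 * s)) * s ^ 2 := by
    rw [Real.sqrt_le_left (by positivity)]; exact h4
  have h6 : √(((μM).restrict (ball y s)).real univ) ≤ om4 * s ^ 2 := by
    rw [Real.sqrt_le_left (by positivity), measureReal_restrict_apply_univ]
    refine hvol.trans ?_
    have : 0 ≤ s ^ 4 := by positivity
    nlinarith
  have h7 : ∫ z in ball y s, ‖Fm 4 U z - Av U y s‖ ∂μM ≤
      182 * √(th U y (2 * s)) * s ^ 2 * (om4 * s ^ 2) :=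
    h2.trans (mul_le_mul h5 h6 (Real.sqrt_nonneg _) (by positivity))
  have h8 : (μM).real (ball y s) * (4 * ‖Av U y s - idm 4‖) ≤
      (om4 * s ^ 4) * (4 * ‖Av U y s - idm 4‖) := mul_le_mul_of_nonneg_right hvol (by positivity)
  nlinarith [h1, h7, h8]

end Crest.Agent.R249.SD308
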