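import Crest.Agent.R249.SD2_308

/-!
R249 (S0386), D3 (helper308), assembly of `SDStmt`, part 3: one manifold, all centres and scales.
-/

set_option autoImplicit false
set_option maxSynthPendingDepth 3
set_option linter.unusedSectionVars false

open scoped ContDiff ENNReal NNReal Topology Manifold Bundle RealInnerProductSpace
open MeasureTheory Set Filter Metric Bundle
open Crest.GeometryTopology.CoordMetric Crest.GeometryTopology.ChartCurvature
open Crest.Agent.R247 Crest.Agent.R247.Bo84 Crest.Agent.R247.Ms322 Crest.Agent.R247.Bs84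
open Crest.Agent.R247.Hes124 (F S mv tr idm)
open Crest.GeometryTopology.PointedLimit Crest.Agent.R247.Mcp688
open Crest.Agent.R249.Cod992 Crest.Agent.R249.D1Def104 Crest.Agent.R249.Dec308
open Crest.Agent.R249.SobE_982 Crest.Agent.R249.SobG_982 Crest.Agent.R249.En920

noncomputable section

namespace Crest.Agent.R249.SD308

/-- choice of the small parameter -/
theorem exists_eta {ε C om : ℝ} (hε : 0 < ε) (hC : 0 < C) (hom : 1 ≤ om) :
    ∃ η : ℝ, 0 < η ∧ η ≤ 1 ∧ ∀ A e a b : ℝ, A ≤ 65600 * η ^ 2 → 0 ≤ e → e ≤ η →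
      b ≤ η → a ≤ 131072 * η ^ 2 →
      4 * om * (182 * √(C * (A + e ^ 2)) + (a + C * (√A + b))) ≤ ε := by
  obtain ⟨Q, hQ⟩ : ∃ Q : ℝ, Q = 4 * om * (182 * (257 * (C + 1)) + (131072 + C * 258)) := ⟨_, rfl⟩
  have hQ0 : 0 < Q := by rw [hQ]; positivity
  refine ⟨min 1 (ε / Q), lt_min one_pos (by positivity), min_le_left _ _, ?_⟩
  intro A e a b hA he heη hb ha
  set η := min 1 (ε / Q) with hη
  have hη0 : 0 < η := lt_min one_pos (by positivity)
  have hη1 : η ≤ 1 := min_le_left _ _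
  have hηQ : Q * η ≤ ε := by
    have : η ≤ ε / Q := min_le_right _ _
    rw [le_div_iff₀ hQ0] at this
    linarith
  have h1 : √A ≤ 257 * η := by
    rw [Real.sqrt_le_left (by positivity)]
    nlinarith [sq_nonneg η]
  have h2 : √(C * (A + e ^ 2)) ≤ 257 * (C + 1) * η := by
    rw [Real.sqrt_le_left (by positivity)]
    have h3 : e ^ 2 ≤ η ^ 2 := pow_le_pow_left₀ he heη 2
    have h4 : C * (A + e ^ 2) ≤ C * (65601 * η ^ 2) := mul_le_mul_of_nonneg_left (by linarith) hC.le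
    have h5 : (257 * (C + 1) * η) ^ 2 = 66049 * (C ^ 2 + 2 * C + 1) * η ^ 2 := by ring
    rw [h5]
    have h6 : 0 ≤ C * η ^ 2 := by positivity
    have h7 : 0 ≤ C ^ 2 * η ^ 2 := by positivity
    have h8 : 0 ≤ η ^ 2 := by positivity
    nlinarith
  have h3 : a ≤ 131072 * η := by nlinarith
  have h4 : C * (√A + b) ≤ C * (258 * η) := mul_le_mul_of_nonneg_left (by linarith) hC.le
  have h5 : 182 * √(C * (A + e ^ 2)) + (a + C * (√A + b)) ≤
      (182 * (257 * (C + 1)) + (131072 + C * 258)) * η := by nlinarith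
  calc 4 * om * (182 * √(C * (A + e ^ 2)) + (a + C * (√A + b)))
      ≤ 4 * om * ((182 * (257 * (C + 1)) + (131072 + C * 258)) * η) :=
        mul_le_mul_of_nonneg_left h5 (by positivity)
    _ = Q * η := by rw [hQ]; ring
    _ ≤ ε := hηQ

set_option maxHeartbeats 2000000 in
/-- **one manifold**: decay at all centres of `ball x (8 ρ)`. -/
theorem sd_one {ε : ℝ} (hε : 0 < ε) : ∃ ε₁ C₁ c₁ : ℝ, 0 < ε₁ ∧ ε₁ ≤ 1 ∧ 0 < C₁ ∧ 0 < c₁ ∧
    ∀ {M : Type} [MetricSpace M] [CompleteSpace M] [ConnectedSpace M]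
      [ChartedSpace (EuclideanSpace ℝ (Fin 4)) M]
      [IsManifold 𝓘(ℝ, EuclideanSpace ℝ (Fin 4)) ∞ M]
      [RiemannianBundle (fun x : M => TangentSpace 𝓘(ℝ, EuclideanSpace ℝ (Fin 4)) x)]
      [IsContMDiffRiemannianBundle 𝓘(ℝ, EuclideanSpace ℝ (Fin 4)) ∞ (EuclideanSpace ℝ (Fin 4))
        (fun x : M => TangentSpace 𝓘(ℝ, EuclideanSpace ℝ (Fin 4)) x)]
      [IsRiemannianManifold 𝓘(ℝ, EuclideanSpace ℝ (Fin 4)) M]
      [MeasurableSpace M] [BorelSpace M] [SecondCountableTopology M] [Nonempty M],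
      HasNonnegSectionalCurvature 4 M → ∀ (x : M) (ρ e lam : ℝ) (U : Fin 4 → M → ℝ), 0 < ρ →
      (∀ y ∈ ball x (64 * ρ), ∀ r : ℝ, 0 < r → r ≤ 64 * ρ →
        ENNReal.ofReal (1 / 2) * volume (ball (0 : EuclideanSpace ℝ (Fin 4)) r) ≤
          (μHE[4] : Measure M) (ball y r)) →
      (∀ a, ContMDiff (𝓡 4) 𝓘(ℝ, ℝ) ∞ (U a)) →
      (∀ a, ∀ z ∈ ball x (64 * ρ), mLap 4 (U a) z = 0) →
      (∀ a, ∀ z ∈ ball x (64 * ρ), mGam 4 (U a) (U a) z ≤ 4) →
      (∀ a, ∫ z in ball x (64 * ρ), mHessSq 4 (U a) z ∂(μHE[4] : Measure M) ≤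
        ε₁ * (64 * ρ) ^ 2) →
      (∀ a c, ∫ z in ball x (64 * ρ), |mGam 4 (U a) (U c) z - if a = c then 1 else 0|
        ∂(μHE[4] : Measure M) ≤ ε₁ * (64 * ρ) ^ 4) →
      ∫⁻ z in ball x (64 * ρ), ENNReal.ofReal (mRicDev 4 M lam z) ∂(μHE[4] : Measure M) ≤
        ENNReal.ofReal (e ^ 2) → 0 ≤ e → e ≤ ε₁ → lam ^ 2 * ρ ^ 4 ≤ ε₁ →
      (∀ y ∈ ball x (8 * ρ), ∀ s : ℝ, 0 < s → s ≤ 8 * ρ → e * (1 + Real.log (8 * ρ / s)) ≤ c₁ →
        ∫ z in ball y s, T2 4 U z ∂(μHE[4] : Measure M) ≤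
          C₁ * s ^ 2 * ((s / ρ) ^ (2 * (3 / 4 : ℝ)) + e ^ 2) ∧
        ∫ z in ball y s, Dv U z ∂(μHE[4] : Measure M) ≤ ε * s ^ 4) ∧
      ∫ z in ball x (8 * ρ), T2 4 U z ^ 2 ∂(μHE[4] : Measure M) ≤ C₁ := by
  have hom := om4_ge
  obtain ⟨ε₂, C, c, hε₂, hC, hc, hdec⟩ := decay_center.{0} (α := 3 / 4) (CE := CE4) (κ := kE)
    (K := 60 * om4 + 16) (by norm_num) (by norm_num) CE4_pos.le kE_pos (by positivity)
  obtain ⟨η, hη0, hη1, hη⟩ := exists_eta (om := om4) hε hC hom
  obtain ⟨ε₁, hε₁⟩ : ∃ ε₁ : ℝ, ε₁ = min (η ^ 2) (min (ε₂ / 65536) (1 / 2097152)) := ⟨_, rfl⟩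
  have hε₁0 : 0 < ε₁ := by
    rw [hε₁]; exact lt_min (by positivity) (lt_min (by positivity) (by norm_num))
  have h1a : ε₁ ≤ η ^ 2 := by rw [hε₁]; exact min_le_left _ _
  have h1b : 65536 * ε₁ ≤ ε₂ := by
    have : ε₁ ≤ ε₂ / 65536 := by
      rw [hε₁]; exact (min_le_right _ _).trans (min_le_left _ _)
    linarith
  have h1c : ε₁ ≤ 1 / 2097152 := by rw [hε₁]; exact (min_le_right _ _).trans (min_le_right _ _)
  have hηη : η ^ 2 ≤ η := by nlinarith
  have hCE := CE4_pos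
  refine ⟨ε₁, (C * 65601 + (CE4 * (4 * 65600 + kE)) ^ 2), min c η, hε₁0, by linarith,
    by positivity, lt_min hc hη0, ?_⟩
  intro M _ _ _ _ _ _ _ _ _ _ _ _ hsec x ρ e lam U hρ hpin hU hL hΛ hH hF hR he heε hlam
  have := HR216.properSpace_of_riemannian 4 M
  have := isLocallyFinite_muHE 4 M
  have hRic : HasRicciLowerBound 4 M 0 := Alg2_104.ricBound_of_sec hsec
  have hcT : Continuous (T2 4 U) := continuous_iff_continuousAt.2 fun z =>
    continuousAt_T2 fun a => (hU a z).of_le two_le_infty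
  have hTn : ∀ z, 0 ≤ T2 4 U z := fun z => T2_nonneg fun a => (hU a z).of_le two_le_infty
  have hi : ∀ (f : M → ℝ), Continuous f → ∀ y r, IntegrableOn f (ball y r) (μHE[4] : Measure M) :=
    fun f hf y r => (hf.continuousOn.integrableOn_compact (isCompact_closedBall y r)).mono_set
      ball_subset_closedBall
  have hgr : ∀ a, ∀ z ∈ ball x (64 * ρ), ‖Gr (n := 4) (U a) z‖ ≤ 2 := by
    intro a z hz
    have h1 := hΛ a z hz
    rw [← sq_norm_Gr] at h1
    nlinarith [norm_nonneg (Gr (n := 4) (U a) z)]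
  -- the data at a centre
  have hB : ∀ y ∈ ball x (8 * ρ), closedBall y (16 * ρ) ⊆ ball x (64 * ρ) := by
    intro y hy z hz
    rw [mem_closedBall] at hz
    rw [mem_ball] at hy ⊢
    linarith [dist_triangle z y x]
  have hPin : ∀ y ∈ ball x (8 * ρ), Pin y (16 * ρ) := by
    intro y hy z hz r hr hr3
    exact hpin z (hB y hy (ball_subset_closedBall hz)) r hr (by linarith)
  have hT0 : ∫ z in ball x (64 * ρ), T2 4 U z ∂(μHE[4] : Measure M) ≤ 4 * (ε₁ * (64 * ρ) ^ 2) := by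
    have e1 : ∫ z in ball x (64 * ρ), T2 4 U z ∂(μHE[4] : Measure M) =
        ∑ a, ∫ z in ball x (64 * ρ), mHessSq 4 (U a) z ∂(μHE[4] : Measure M) := by
      unfold T2
      rw [integral_finsetSum _ fun a _ => ?_]
      exact hi _ (continuous_iff_continuousAt.2 fun z =>
        Bs84.continuousAt_mHessSq ((hU a z).of_le two_le_infty)) _ _
    rw [e1]
    refine (Finset.sum_le_sum fun a _ => hH a).trans (le_of_eq ?_)
    simp
  have hD0 : ∫ z in ball x (64 * ρ), Dv U z ∂(μHE[4] : Measure M) ≤ 16 * (ε₁ * (64 * ρ) ^ 4) := by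
    have hci : ∀ a b, IntegrableOn (fun z => |mGam 4 (U a) (U b) z - if a = b then 1 else 0|)
        (ball x (64 * ρ)) (μHE[4] : Measure M) := fun a b =>
      hi _ (((continuous_iff_continuousAt.2 fun z => (ctF (fun a => hU a z) a b).continuousAt).sub
        continuous_const).abs) _ _
    unfold Dv
    rw [integral_finsetSum _ fun a _ => integrable_finsetSum _ fun b _ => hci a b]
    have h1 : ∀ a, ∫ z in ball x (64 * ρ), ∑ b, |mGam 4 (U a) (U b) z - if a = b then 1 else 0|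
        ∂(μHE[4] : Measure M) ≤ ∑ b : Fin 4, ε₁ * (64 * ρ) ^ 4 := fun a => by
      rw [integral_finsetSum _ fun b _ => hci a b]
      exact Finset.sum_le_sum fun b _ => hF a b
    refine (Finset.sum_le_sum fun a _ => h1 a).trans (le_of_eq ?_)
    simp only [Finset.sum_const, Finset.card_univ, Fintype.card_fin, nsmul_eq_mul]
    push_cast
    ring
  -- energies at the initial scale
  have hth : ∀ y ∈ ball x (8 * ρ), th U y (16 * ρ) ≤ 64 * ε₁ := by
    intro y hy
    have h1 : ∫ z in ball y (16 * ρ), T2 4 U z ∂(μHE[4] : Measure M) ≤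
        ∫ z in ball x (64 * ρ), T2 4 U z ∂(μHE[4] : Measure M) :=
      setIntegral_mono_set (hi _ hcT _ _) (Eventually.of_forall hTn)
        (ball_subset_closedBall.trans (hB y hy)).eventuallyLE
    unfold th
    calc (16 * ρ)⁻¹ ^ 2 * ∫ z in ball y (16 * ρ), T2 4 U z ∂(μHE[4] : Measure M)
        ≤ (16 * ρ)⁻¹ ^ 2 * (4 * (ε₁ * (64 * ρ) ^ 2)) :=
          mul_le_mul_of_nonneg_left (h1.trans hT0) (by positivity)
      _ = 64 * ε₁ := by field_simp; ring
  have hAv : ∀ y ∈ ball x (8 * ρ), ‖Av U y (8 * ρ) - idm 4‖ ≤ 131072 * ε₁ := by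
    intro y hy
    have h1 := Av_near hU (y := y) (s := 8 * ρ) (v := om4 / 2 * (8 * ρ) ^ 4) (by positivity)
      (by positivity) (real_lo hRic (hPin y hy) (mem_ball_self (by positivity)) (by positivity)
        (by linarith))
    have h2 : ∫ z in ball y (8 * ρ), Dv U z ∂(μHE[4] : Measure M) ≤
        ∫ z in ball x (64 * ρ), Dv U z ∂(μHE[4] : Measure M) :=
      setIntegral_mono_set (hi _ (continuous_Dv hU) _ _) (Eventually.of_forall Dv_nonneg)
        (((ball_subset_ball (by linarith)).trans ball_subset_closedBall).trans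
          (hB y hy)).eventuallyLE
    refine h1.trans ?_
    calc (om4 / 2 * (8 * ρ) ^ 4)⁻¹ * ∫ z in ball y (8 * ρ), Dv U z ∂(μHE[4] : Measure M)
        ≤ (om4 / 2 * (8 * ρ) ^ 4)⁻¹ * (16 * (ε₁ * (64 * ρ) ^ 4)) :=
          mul_le_mul_of_nonneg_left (h2.trans hD0) (by positivity)
      _ = 131072 * ε₁ / om4 := by field_simp; ring
      _ ≤ 131072 * ε₁ := div_le_self (by positivity) hom
  have hthn : ∀ y r, 0 ≤ th U y r := fun y r =>
    mul_nonneg (by positivity) (setIntegral_nonneg isOpen_ball.measurableSet fun z _ => hTn z)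
  have hA : ∀ y ∈ ball x (8 * ρ), th U y (16 * ρ) + lam ^ 2 * (16 * ρ) ^ 4 ≤ 65600 * ε₁ := by
    intro y hy
    have h1 := hth y hy
    have h2 : lam ^ 2 * (16 * ρ) ^ 4 = 65536 * (lam ^ 2 * ρ ^ 4) := by ring
    rw [h2]
    linarith
  -- the decay theorem at the centres
  have key : ∀ y ∈ ball x (8 * ρ), ∀ r : ℝ, 0 < r → r ≤ 16 * ρ →
      e * Real.log (16 * ρ / r) ≤ c →
        th U y r ≤ C * ((r / (16 * ρ)) ^ (2 * (3 / 4 : ℝ)) *
          (th U y (16 * ρ) + lam ^ 2 * (16 * ρ) ^ 4) + e ^ 2) ∧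
        ∫ z in ball y r, Bc M z ^ 2 ∂(μHE[4] : Measure M) ≤ kE ∧
        ‖Av U y (r / 2) - idm 4‖ ≤ ‖Av U y (16 * ρ / 2) - idm 4‖ +
          C * (√(th U y (16 * ρ) + lam ^ 2 * (16 * ρ) ^ 4) +
            e * (1 + Real.log (16 * ρ / r))) := by
    intro y hy
    refine hdec hRic y (16 * ρ) e (lam ^ 2) (ball x (64 * ρ)) U (Bc M) (by positivity) (hPin y hy)
      isOpen_ball (hB y hy) (fun a z _ => hU a z) hL hgr (fun z _ => Bc_nonneg hsec z)
      continuous_Bc.continuousOn (fun z _ => curvLe_Bc hsec z) ?_ he (sq_nonneg _) ?_ ?_ ?_ ?_ ?_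
    · intro s hs hsR hBk
      exact En920.hE4 hRic (hPin y hy) hs (by linarith) isOpen_ball
        ((closedBall_subset_closedBall hsR).trans (hB y hy)) (fun a z _ => hU a z) hL hgr
        (fun z _ => Bc_nonneg hsec z) continuous_Bc.continuousOn (fun z _ => curvLe_Bc hsec z) hBk
    · intro r hr hrR
      have h1 := int_Bc_le (x := x) (R := 64 * ρ) hRic hr
        ((ball_subset_ball hrR).trans (ball_subset_closedBall.trans (hB y hy))) (sq_nonneg e) hR
      refine h1.trans ?_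
      have h2 : 0 ≤ lam ^ 2 * r ^ 4 := by positivity
      have h3 : 0 ≤ e ^ 2 := sq_nonneg e
      nlinarith [mul_nonneg (by linarith : 0 ≤ om4) h3]
    · exact (hth y hy).trans (by linarith)
    · rw [show 16 * ρ / 2 = 8 * ρ by ring]
      exact (hAv y hy).trans (by linarith)
    · have h2 : lam ^ 2 * (16 * ρ) ^ 4 = 65536 * (lam ^ 2 * ρ ^ 4) := by ring
      rw [h2]; linarith
    · linarith
  have hkc : ∀ s : ℝ, 0 < s → s ≤ 8 * ρ → 0 ≤ Real.log (8 * ρ / s) := fun s hs hs8 =>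
    Real.log_nonneg ((one_le_div hs).2 hs8)
  refine ⟨fun y hy s hs hs8 hes => ?_, ?_⟩
  · have hlog := hkc s hs hs8
    have hes1 : e * (1 + Real.log (8 * ρ / s)) ≤ c := hes.trans (min_le_left _ _)
    have hes2 : e * (1 + Real.log (8 * ρ / s)) ≤ η := hes.trans (min_le_right _ _)
    constructor
    · -- energy at the scale `s`
      have hl2 : Real.log (16 * ρ / s) ≤ 1 + Real.log (8 * ρ / s) := by
        have e1 : 16 * ρ / s = 2 * (8 * ρ / s) := by ring
        rw [e1, Real.log_mul (by norm_num) (by positivity)]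
        have := Real.log_two_lt_d9
        linarith
      obtain ⟨g1, -, -⟩ := key y hy s hs (by linarith)
        ((mul_le_mul_of_nonneg_left hl2 he).trans hes1)
      have e1 : ∫ z in ball y s, T2 4 U z ∂(μHE[4] : Measure M) = s ^ 2 * th U y s := by
        unfold th; field_simp
      rw [e1]
      have h2 : (s / (16 * ρ)) ^ (2 * (3 / 4 : ℝ)) ≤ (s / ρ) ^ (2 * (3 / 4 : ℝ)) := by
        refine Real.rpow_le_rpow (by positivity) ?_ (by norm_num)
        exact div_le_div_of_nonneg_left hs.le hρ (by linarith)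
      have h3 : 0 ≤ (s / ρ) ^ (2 * (3 / 4 : ℝ)) := by positivity
      have h4 : (s / (16 * ρ)) ^ (2 * (3 / 4 : ℝ)) *
          (th U y (16 * ρ) + lam ^ 2 * (16 * ρ) ^ 4) ≤ (s / ρ) ^ (2 * (3 / 4 : ℝ)) * 65600 := by
        refine mul_le_mul h2 ((hA y hy).trans (by linarith)) ?_ h3
        have := hthn y (16 * ρ)
        positivity
      have h5 : th U y s ≤ C * (65601 * ((s / ρ) ^ (2 * (3 / 4 : ℝ)) + e ^ 2)) := by
        refine g1.trans (mul_le_mul_of_nonneg_left ?_ hC.le)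
        nlinarith [sq_nonneg e]
      calc s ^ 2 * th U y s ≤ s ^ 2 * (C * (65601 * ((s / ρ) ^ (2 * (3 / 4 : ℝ)) + e ^ 2))) :=
            mul_le_mul_of_nonneg_left h5 (by positivity)
        _ = (C * 65601) * s ^ 2 * ((s / ρ) ^ (2 * (3 / 4 : ℝ)) + e ^ 2) := by ring
        _ ≤ _ := by
            have h6 : 0 ≤ s ^ 2 * ((s / ρ) ^ (2 * (3 / 4 : ℝ)) + e ^ 2) := by positivity
            have h7 : 0 ≤ (CE4 * (4 * 65600 + kE)) ^ 2 := sq_nonneg _
            nlinarith [mul_nonneg h7 h6]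
    · -- deviation at the scale `s`
      have e2 : 16 * ρ / (2 * s) = 8 * ρ / s := by
        rw [div_eq_div_iff (by positivity) (by positivity)]; ring
      obtain ⟨g1, -, g3⟩ := key y hy (2 * s) (by positivity) (by linarith) (by
        rw [e2]
        refine le_trans ?_ hes1
        exact mul_le_mul_of_nonneg_left (by linarith) he)
      rw [e2, show 2 * s / 2 = s by ring, show 16 * ρ / 2 = 8 * ρ by ring] at g3
      have h1 := dv_int_le hRic hU (y := y) hs isOpen_ball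
        ((closedBall_subset_closedBall (by linarith)).trans (hB y hy)) hgr
      refine h1.trans (mul_le_mul_of_nonneg_right ?_ (by positivity))
      set A := th U y (16 * ρ) + lam ^ 2 * (16 * ρ) ^ 4 with hAdef
      have hA0 : 0 ≤ A := by have := hthn y (16 * ρ); positivity
      have h2 : √(th U y (2 * s)) ≤ √(C * (A + e ^ 2)) := by
        refine Real.sqrt_le_sqrt (g1.trans (mul_le_mul_of_nonneg_left ?_ hC.le))
        have h3 : (2 * s / (16 * ρ)) ^ (2 * (3 / 4 : ℝ)) ≤ 1 := by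
          refine Real.rpow_le_one (by positivity) ?_ (by norm_num)
          rw [div_le_one (by positivity)]; linarith
        nlinarith
      have h4 := hη A e (131072 * ε₁) (e * (1 + Real.log (8 * ρ / s)))
        ((hA y hy).trans (by linarith)) he (by linarith) hes2 (by linarith)
      refine le_trans (mul_le_mul_of_nonneg_left ?_ (by positivity)) h4
      have h5 := hAv y hy
      linarith
  · -- the `L⁴` bound
    have hx : x ∈ ball x (8 * ρ) := mem_ball_self (by positivity)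
    obtain ⟨-, g2, -⟩ := key x hx (16 * ρ) (by positivity) le_rfl (by
      rw [div_self (by positivity), Real.log_one, mul_zero]; exact hc.le)
    have e1 : 2 * (8 * ρ) = 16 * ρ := by ring
    have h1 := En920.hE4 (U := U) (B := Bc M) hRic (hPin x hx) (s := 8 * ρ) (by positivity)
      (by linarith) isOpen_ball (by rw [e1]; exact hB x hx) (fun a z _ => hU a z) hL hgr
      (fun z _ => Bc_nonneg hsec z) continuous_Bc.continuousOn (fun z _ => curvLe_Bc hsec z)
      (by rw [e1]; exact g2)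
    rw [e1] at h1
    have h2 : (8 * ρ)⁻¹ ^ 2 * ∫ z in ball x (16 * ρ), T2 4 U z ∂(μHE[4] : Measure M) =
        4 * th U x (16 * ρ) := by
      unfold th; field_simp; ring
    rw [h2] at h1
    have h3 : √(∫ z in ball x (8 * ρ), T2 4 U z ^ 2 ∂(μHE[4] : Measure M)) ≤
        CE4 * (4 * 65600 + kE) := by
      refine h1.trans (mul_le_mul_of_nonneg_left ?_ hCE.le)
      have := hth x hx
      linarith
    have h4 : ∫ z in ball x (8 * ρ), T2 4 U z ^ 2 ∂(μHE[4] : Measure M) ≤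
        (CE4 * (4 * 65600 + kE)) ^ 2 := by
      have hn : 0 ≤ ∫ z in ball x (8 * ρ), T2 4 U z ^ 2 ∂(μHE[4] : Measure M) :=
        integral_nonneg fun z => sq_nonneg _
      rw [← Real.sq_sqrt hn]
      exact pow_le_pow_left₀ (Real.sqrt_nonneg _) h3 2
    have h5 : 0 ≤ C * 65601 := by positivity
    linarith

end Crest.Agent.R249.SD308
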