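import Crest.Agent.R249.Sta9_397
import Crest.Agent.R249.SDDef_308

/-!
# R249, leaf D3-START (helper397): `StartStmt` (interface of helper308)
-/

set_option autoImplicit false
set_option maxSynthPendingDepth 3
set_option linter.unusedVariables false

open Bundle Bornology Set MeasureTheory Manifold Filter Metric Topology
open scoped ENNReal ContDiff Topology NNReal RealInnerProductSpace
open Crest.GeometryTopology.CoordMetric Crest.GeometryTopology.ChartCurvature
open Crest.GeometryTopology.PointedLimit

noncomputable section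

namespace Crest.Agent.R249.StaA_397

open Crest.Agent.R247 Crest.Agent.R247.Dir593 Crest.Agent.R247.Dir593.GradS
open Crest.Agent.R247.Hes124 Crest.Agent.R247.Bo84 Crest.Agent.R247.Ms322
open Crest.Agent.R249.Sta6_397

set_option maxHeartbeats 1000000 in
/-- **START** in the form of `SDDef_308`. -/
theorem startStmt : Crest.Agent.R249.SD308.StartStmt := by
  intro ε hε
  have hε'0 : 0 < min (1:ℝ) (ε / 256) := by positivity
  obtain ⟨s, hs0, hs1, δ₀, hδ₀0, hδ₀1, hst⟩ := Sta9_397.start.{0} hε'0
  refine ⟨δ₀, s / 2, hδ₀0, by positivity, by linarith, ?_⟩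
  intro M _ _ _ _ _ _ _ _ _ _ hk x R hR hp
  have := HR216.properSpace_of_riemannian 4 M
  have := HR216.secondCountable_of_riemannian 4 M
  have : Nonempty M := ⟨x⟩
  have := Gs939.finOnCompacts (n := 4) (M := M)
  obtain ⟨u, hus, huc, huL, huH, huG, huM⟩ := hst hR hk hp
  have hsR : 0 < s * R := by positivity
  have hcR : s / 2 * R = s * R / 2 := by ring
  have hcG : ∀ a c, Continuous (mGam 4 (u a) (u c)) := fun a c => by
    rw [← continuousOn_univ]
    exact cont_mGam isOpen_univ (hus a).contMDiffOn (hus c).contMDiffOn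
  have hcH : ∀ a, Continuous (mHessSq 4 (u a)) := fun a => by
    rw [← continuousOn_univ]
    exact cont_mHessSq isOpen_univ (hus a).contMDiffOn
  have hiO : ∀ {f : M → ℝ} (r : ℝ), Continuous f → IntegrableOn f (ball x r)
      (μHE[4] : Measure M) :=
    fun r hf => (hf.continuousOn.integrableOn_compact (isCompact_closedBall x r)).mono_set
      ball_subset_closedBall
  have hsub : ball x (s / 2 * R) ⊆ ball x (s * R) := ball_subset_ball (by rw [hcR]; linarith)
  have hH0 : ∀ a z, 0 ≤ mHessSq 4 (u a) z := fun a z => by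
    rw [← Bs84.norm_Hf_sq ((hus a z).of_le two_le_infty)]
    positivity
  refine ⟨u, fun a => (hus a).contMDiffOn, fun a p hp' => ⟨?_, ?_⟩, ?_, ?_⟩
  · exact huL a p (ball_subset_ball (by rw [hcR]; linarith) hp')
  · have h1 := huM p (ball_subset_ball (by rw [hcR]; linarith) hp') (fun c => if c = a then 1 else 0)
      (by simp)
    have h2 : ∑ b : Fin 4, ∑ c : Fin 4, (if b = a then (1:ℝ) else 0) * (if c = a then (1:ℝ) else 0) *
        mGam 4 (u b) (u c) p = mGam 4 (u a) (u a) p := by
      rw [Finset.sum_eq_single a]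
      · rw [Finset.sum_eq_single a]
        · simp
        · intro c _ hc
          simp [hc]
        · simp
      · intro b _ hb
        simp [hb]
      · simp
    rw [h2] at h1
    have := min_le_left (1:ℝ) (ε / 256)
    linarith
  · have hmin := min_le_right (1:ℝ) (ε / 256)
    calc ∫ z in ball x (s / 2 * R), ∑ a, mHessSq 4 (u a) z ∂(μHE[4] : Measure M)
        ≤ ∫ z in ball x (s * R), ∑ a, mHessSq 4 (u a) z ∂(μHE[4] : Measure M) :=
          setIntegral_mono_set (hiO _ (continuous_finset_sum _ fun a _ => hcH a))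
            (Eventually.of_forall fun z => Finset.sum_nonneg fun a _ => hH0 a z) hsub.eventuallyLE
      _ = ∑ a, ∫ z in ball x (s * R), mHessSq 4 (u a) z ∂(μHE[4] : Measure M) :=
          integral_finset_sum _ fun a _ => hiO _ (hcH a)
      _ ≤ ∑ a : Fin 4, min (1:ℝ) (ε / 256) * (s * R) ^ 2 := Finset.sum_le_sum fun a _ => huH a
      _ = 4 * min (1:ℝ) (ε / 256) * (s * R) ^ 2 := by
          simp only [Finset.sum_const, Finset.card_univ, Fintype.card_fin, nsmul_eq_mul]
          push_cast
          ring
      _ ≤ 4 * (ε / 256) * (s * R) ^ 2 := by gcongr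
      _ ≤ ε * (s / 2 * R) ^ 2 := by
          rw [hcR]
          nlinarith [mul_pos hε (pow_pos hsR 2)]
  · have hmin := min_le_right (1:ℝ) (ε / 256)
    have hcD : ∀ a b, Continuous fun z => |mGam 4 (u a) (u b) z - if a = b then (1:ℝ) else 0| :=
      fun a b => ((hcG a b).sub continuous_const).abs
    calc ∫ z in ball x (s / 2 * R), ∑ a, ∑ b, |mGam 4 (u a) (u b) z - if a = b then (1:ℝ) else 0|
          ∂(μHE[4] : Measure M)
        ≤ ∫ z in ball x (s * R), ∑ a, ∑ b, |mGam 4 (u a) (u b) z - if a = b then (1:ℝ) else 0|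
          ∂(μHE[4] : Measure M) :=
          setIntegral_mono_set (hiO _ (continuous_finset_sum _ fun a _ =>
            continuous_finset_sum _ fun b _ => hcD a b))
            (Eventually.of_forall fun z => Finset.sum_nonneg fun a _ =>
              Finset.sum_nonneg fun b _ => abs_nonneg _) hsub.eventuallyLE
      _ = ∑ a, ∑ b, ∫ z in ball x (s * R), |mGam 4 (u a) (u b) z - if a = b then (1:ℝ) else 0|
          ∂(μHE[4] : Measure M) := by
          rw [integral_finset_sum _ fun a _ => hiO _ (continuous_finset_sum _ fun b _ => hcD a b)]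
          refine Finset.sum_congr rfl fun a _ => ?_
          rw [integral_finset_sum _ fun b _ => hiO _ (hcD a b)]
      _ ≤ ∑ a : Fin 4, ∑ b : Fin 4, min (1:ℝ) (ε / 256) * (s * R) ^ 4 :=
          Finset.sum_le_sum fun a _ => Finset.sum_le_sum fun b _ => huG a b
      _ = 16 * min (1:ℝ) (ε / 256) * (s * R) ^ 4 := by
          simp only [Finset.sum_const, Finset.card_univ, Fintype.card_fin, nsmul_eq_mul]
          push_cast
          ring
      _ ≤ 16 * (ε / 256) * (s * R) ^ 4 := by gcongr
      _ = ε * (s / 2 * R) ^ 4 := by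
          rw [hcR]
          ring

end Crest.Agent.R249.StaA_397
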