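import Crest.Agent.R249.Top1_330
import Crest.Agent.R249.Top2_330
import Crest.Agent.R247.Lc4_582

/-!
R249, leaf TOP (helper330), file 3: **Hessian comparison** `Hess (d_x²/2) ≤ g` for nonnegative
sectional curvature, at every point where the cost is smooth.
-/

set_option autoImplicit false
set_option maxSynthPendingDepth 3
set_option linter.unusedSectionVars false

open Bundle Set Filter Topology Metric
open scoped Manifold ContDiff NNReal
open Crest.GeometryTopology.CoordMetric Crest.GeometryTopology.ChartCurvature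
open Crest.GeometryTopology.MTW Crest.Agent.R244 Crest.Agent.R226
open Crest.Agent.R226.CutSmooth77 (SC)
open Crest.Agent.R202.Tens
open Crest.Agent.R247.Bo84 (grad gam hess hessE bil_grad bil_injective fderiv_gam bil_hessE
  hess_symm hess_apply hessE_apply contDiffAt_grad gam_eq_fderiv_grad inCh mGam mHess mgrad dCh dSy
  mHess_chart' mGam_chart' mGam_chart dCh_mgrad differentiableAt_inCh contDiffAt_inCh mGam_comm
  mGam_self isRiemannianOn_chartMetric inner_eq_bil dCh_dSy dSy_dCh contDiffAt_Gam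
  contMDiffAt_of_inCh contDiffAt_centre)
open Crest.Agent.R247.Sm879 Crest.Agent.R247.Ray97

noncomputable section

namespace Crest.Agent.R249.Top330

section coord
variable {n : ℕ} {g : MetricField n} {U : Set (EuclideanSpace ℝ (Fin n))}
  {x : EuclideanSpace ℝ (Fin n)}

local notation "𝔼" => EuclideanSpace ℝ (Fin n)

lemma continuousAt_hess (hg : IsRiemannianOn g U) (hx : x ∈ U) {f : 𝔼 → ℝ}
    (hf : ContDiffAt ℝ 2 f x) : ContinuousAt (hess g f) x := by
  have h1 : ContDiffAt ℝ 1 (fderiv ℝ f) x := hf.fderiv_right (by norm_num)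
  have h2 : ContDiffAt ℝ 0 (fderiv ℝ (fderiv ℝ f)) x := h1.fderiv_right (by norm_num)
  have h3 : ContinuousAt (fderiv ℝ (fderiv ℝ f)) x := h2.continuousAt
  have h4 : ContinuousAt (Gam g) x := (contDiffAt_Gam hg hx).continuousAt
  have h5 : ContinuousAt (fun z => ContinuousLinearMap.compL ℝ 𝔼 𝔼 ℝ (fderiv ℝ f z)) x :=
    (ContinuousLinearMap.compL ℝ 𝔼 𝔼 ℝ).continuous.continuousAt.comp h1.continuousAt
  exact h3.sub (h5.clm_comp h4)

lemma continuousAt_Gf (hg : IsRiemannianOn g U) (hx : x ∈ U) : ContinuousAt (Gf g) x :=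
  (Crest.Agent.R247.Bo84.differentiableAt_Gf hg hx).continuousAt

/-- the excess of the Hessian over the metric, in coordinates -/
def cE (g : MetricField n) (f : 𝔼 → ℝ) (z : 𝔼) : ℝ :=
  eF (fun u v => hess g f z u v) (fun u v => Gf g z u v)

lemma continuousAt_cE (hg : IsRiemannianOn g U) (hx : x ∈ U) {f : 𝔼 → ℝ}
    (hf : ContDiffAt ℝ 2 f x) : ContinuousAt (cE g f) x := by
  refine continuousAt_eF (continuousAt_hess hg hx hf) (continuousAt_Gf hg hx)
    (fun u hu => bil_pos hg hx hu) ?_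
  filter_upwards [hg.isOpen.mem_nhds hx] with y hy u hu using bil_pos hg hy hu

/-- at a point where `∇f = 0` and `|∇f|² = 2f` nearby: `Hess f ≤ g`. -/
lemma hess_le_of_grad_zero (hg : IsRiemannianOn g U) (hx : x ∈ U) {f : 𝔼 → ℝ}
    (hf : ContDiffAt ℝ 3 f x) (heik : ∀ᶠ y in 𝓝 x, gam g f f y = 2 * f y)
    (h0 : grad g f x = 0) (w : 𝔼) : hess g f x w w ≤ bil (g x) w w := by
  have hf2 : ContDiffAt ℝ 2 f x := hf.of_le (by norm_num)
  have h1 := riccati hg hx hf heik w
  rw [h0] at h1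
  have hc : Crest.Agent.R202.Tens.curv (Gam g) x w 0 0 = 0 := by
    simp [Crest.Agent.R202.Tens.curv]
  rw [hc] at h1
  simp only [map_zero, zero_apply, add_zero, sub_zero] at h1
  have h2 : hessE g f x (hessE g f x w) = hessE g f x w := (sub_eq_zero.1 h1.symm).symm
  have h3 : bil (g x) (hessE g f x w) (hessE g f x w) = hess g f x w w := by
    rw [← bil_hessE hg hx hf2 w w, ← Crest.Agent.R247.Bo84.bil_hessE_symm hg hx hf2,
      h2]
  have h4 : 0 ≤ bil (g x) (hessE g f x w - w) (hessE g f x w - w) :=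
    Crest.Agent.R247.Bo84.bil_self_nonneg hg hx _
  have e3 : bil (g x) (hessE g f x w - w) (hessE g f x w - w) =
      bil (g x) (hessE g f x w) (hessE g f x w) - 2 * hess g f x w w + bil (g x) w w := by
    rw [map_sub, map_sub, sub_apply, sub_apply, bil_hessE hg hx hf2,
      bil_symm hg hx w, bil_hessE hg hx hf2]
    ring
  rw [e3, h3] at h4
  linarith

end coord

section mfd
variable {n : ℕ} {M : Type*} [MetricSpace M] [ChartedSpace (EuclideanSpace ℝ (Fin n)) M]
  [IsManifold (𝓡 n) ∞ M]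
  [RiemannianBundle (fun p : M => TangentSpace (𝓡 n) p)]
  [IsContMDiffRiemannianBundle (𝓡 n) ∞ (EuclideanSpace ℝ (Fin n)) (fun p : M => TangentSpace (𝓡 n) p)]
  [IsRiemannianManifold (𝓡 n) M]

local notation "𝔼" => EuclideanSpace ℝ (Fin n)

/-- the excess of the Hessian over the metric, on the manifold -/
def mE (n : ℕ) {M : Type*} [MetricSpace M] [ChartedSpace (EuclideanSpace ℝ (Fin n)) M]
    [IsManifold (𝓡 n) ∞ M]
    [RiemannianBundle (fun p : M => TangentSpace (𝓡 n) p)]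
    [IsContMDiffRiemannianBundle (𝓡 n) ∞ (EuclideanSpace ℝ (Fin n))
      (fun p : M => TangentSpace (𝓡 n) p)] (f : M → ℝ) (p : M) : ℝ :=
  sInf {c | 0 ≤ c ∧ ∀ v : TangentSpace (𝓡 n) p, mHess n f p v v ≤ (1 + c) * inner ℝ v v}

lemma mE_eq {f : M → ℝ} {x₀ p : M} (hp : p ∈ (chartAt 𝔼 x₀).source)
    (hf : ContMDiffAt (𝓡 n) 𝓘(ℝ, ℝ) 2 f p) :
    mE n f p = cE (chartMetric n M x₀) (inCh n x₀ f) (chartAt 𝔼 x₀ p) := by
  unfold mE cE
  have hL : Function.Surjective (fun v : TangentSpace (𝓡 n) p => dCh x₀ p v) := by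
    intro u
    refine ⟨dSy x₀ (chartAt 𝔼 x₀ p) u, ?_⟩
    have h1 := dCh_dSy (n := n) x₀ ((chartAt 𝔼 x₀).map_source hp) u
    rw [(chartAt 𝔼 x₀).left_inv hp] at h1
    exact h1
  refine eF_comp (E := 𝔼) (E' := TangentSpace (𝓡 n) p) hL
    (H' := fun v w => mHess n f p v w) (G' := fun v w => inner ℝ v w) ?_ ?_
  · intro v
    exact mHess_chart' hp hf v v
  · intro v
    exact inner_eq_bil x₀ hp v v

lemma mE_nonneg (f : M → ℝ) (p : M) : 0 ≤ mE n f p := Real.sInf_nonneg fun _ h => h.1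

/-- the bound given by the excess -/
lemma mHess_le_mE {f : M → ℝ} {p : M} (hf : ContMDiffAt (𝓡 n) 𝓘(ℝ, ℝ) 2 f p)
    (v : TangentSpace (𝓡 n) p) : mHess n f p v v ≤ (1 + mE n f p) * ‖v‖ ^ 2 := by
  have hp := mem_chart_source 𝔼 p
  have hg := isRiemannianOn_chartMetric (n := n) p
  have ha : chartAt 𝔼 p p ∈ (chartAt 𝔼 p).target := mem_chart_target 𝔼 p
  have h1 := eF_mem (H := fun u v => hess (chartMetric n M p) (inCh n p f) (chartAt 𝔼 p p) u v)
    (G := fun u v => Gf (chartMetric n M p) (chartAt 𝔼 p p) u v)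
    (eS_nonempty (H := hess (chartMetric n M p) (inCh n p f) (chartAt 𝔼 p p))
      (G := Gf (chartMetric n M p) (chartAt 𝔼 p p)) (fun u hu => bil_pos hg ha hu)) (dCh p p v)
  have h2 : ‖v‖ ^ 2 = Gf (chartMetric n M p) (chartAt 𝔼 p p) (dCh p p v) (dCh p p v) := by
    rw [← real_inner_self_eq_norm_sq]
    exact inner_eq_bil p hp v v
  calc mHess n f p v v = hess (chartMetric n M p) (inCh n p f) (chartAt 𝔼 p p)
        (dCh p p v) (dCh p p v) := mHess_chart' hp hf v v
    _ ≤ (1 + cE (chartMetric n M p) (inCh n p f) (chartAt 𝔼 p p)) *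
        Gf (chartMetric n M p) (chartAt 𝔼 p p) (dCh p p v) (dCh p p v) := h1
    _ = (1 + mE n f p) * ‖v‖ ^ 2 := by rw [h2, mE_eq hp hf]

/-- the excess is continuous where the function is `C²` -/
lemma continuousAt_mE {f : M → ℝ} {p : M} (hf : ContMDiffAt (𝓡 n) 𝓘(ℝ, ℝ) 2 f p) :
    ContinuousAt (mE n f) p := by
  have hp := mem_chart_source 𝔼 p
  have hg := isRiemannianOn_chartMetric (n := n) p
  have ha : chartAt 𝔼 p p ∈ (chartAt 𝔼 p).target := mem_chart_target 𝔼 p
  have h1 : ContinuousAt (cE (chartMetric n M p) (inCh n p f)) (chartAt 𝔼 p p) :=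
    continuousAt_cE hg ha (contDiffAt_centre Crest.Agent.R247.Bo84.two_le_infty hf)
  have h2 : ContinuousAt (fun q => cE (chartMetric n M p) (inCh n p f) (chartAt 𝔼 p q)) p :=
    ContinuousAt.comp (g := cE (chartMetric n M p) (inCh n p f)) h1
      ((chartAt 𝔼 p).continuousAt hp)
  have : IsManifold (𝓡 n) (2 : WithTop ℕ∞) M :=
    IsManifold.of_le (n := ∞) Crest.Agent.R247.Bo84.two_le_infty
  have h3 : ∀ᶠ q in 𝓝 p, ContMDiffAt (𝓡 n) 𝓘(ℝ, ℝ) 2 f q :=
    (contMDiffAt_iff_contMDiffAt_nhds (n := 2) (by decide)).1 hf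
  refine h2.congr ?_
  filter_upwards [h3, (chartAt 𝔼 p).open_source.mem_nhds hp] with q hq1 hq2
  exact (mE_eq hq2 hq1).symm

variable [ProperSpace M] {x : M} {γ : ℝ → M} {ℓ b s : ℝ}

/-- left Dini estimate of `t ↦ t * excess` along a minimiser -/
lemma dini_ray (hm : ExM M) (hK : HasNonnegSectionalCurvature n M) (h : IsRay x γ ℓ b)
    (hs : s ∈ Ioo 0 b) {ε : ℝ} (hε : 0 < ε) :
    ∀ᶠ t in 𝓝[<] s, s * mE n (halfDistSq x) (γ s) - ε * (s - t) ≤
      t * mE n (halfDistSq x) (γ t) := by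
  have hO := h.mem_Om ⟨hs.1.le, hs.2⟩
  have hpos : ∀ᶠ t in 𝓝[<] s, 0 < t := by
    have : ∀ᶠ t in 𝓝 s, 0 < t := lt_mem_nhds hs.1
    exact this.filter_mono nhdsWithin_le_nhds
  have hp := mem_chart_source 𝔼 (γ s)
  set x₀ := γ s with hx₀
  have hg := isRiemannianOn_chartMetric (n := n) x₀
  have ha : chartAt 𝔼 x₀ x₀ ∈ (chartAt 𝔼 x₀).target := mem_chart_target 𝔼 x₀
  have hsm : ∀ q, (x, q) ∈ Om M → ContMDiffAt (𝓡 n) 𝓘(ℝ, ℝ) 2 (halfDistSq x) q := fun q hq =>
    (Crest.Agent.R247.Lc582.contMDiffAt_cost (sc_of_Om hm hq)).of_le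
      Crest.Agent.R247.Bo84.two_le_infty
  rcases (mE_nonneg (n := n) (halfDistSq x) x₀).eq_or_lt with h0 | h0
  · filter_upwards [hpos, self_mem_nhdsWithin] with t ht1 ht2
    rw [← h0, mul_zero]
    have ht2' : t < s := ht2
    have := mul_nonneg ht1.le (mE_nonneg (n := n) (halfDistSq x) (γ t))
    nlinarith
  · -- the maximal vector
    have hE0 := mE_eq (n := n) hp (hsm x₀ hO)
    have hE : 0 < eF (fun u v => hess (chartMetric n M x₀) (fz x x₀) (chartAt 𝔼 x₀ x₀) u v)
        (fun u v => Gf (chartMetric n M x₀) (chartAt 𝔼 x₀ x₀) u v) := by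
      rw [hE0] at h0; exact h0
    obtain ⟨w, hw0, hw⟩ := eF_attained (fun u hu => bil_pos hg ha hu) hE
    set a := chartAt 𝔼 x₀ x₀ with ha_def
    have hc := h.hasDerivAt_chart (n := n) hm hs x₀ hp
    have hf3 : ContDiffAt ℝ 3 (fz x x₀) (chartAt 𝔼 x₀ (γ s)) :=
      (contDiffAt_fz' hm hO x₀ hp).of_le Crest.Agent.R247.Bo84.three_le_infty
    have heik := eventually_gam_fz hm hO x₀ hp
    have hd := hasDerivAt_quot hg (c := fun t => chartAt 𝔼 x₀ (γ t)) hs.1.ne' ha hf3 heik hc hw0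
    have hsec : 0 ≤ secNumer (chartMetric n M x₀) a w
        (grad (chartMetric n M x₀) (fz x x₀) a) := hK x₀ w _
    have hGw : 0 < bil (chartMetric n M x₀ a) w w := bil_pos hg ha hw0
    have hD : -(bil (chartMetric n M x₀ a) (hessE (chartMetric n M x₀) (fz x x₀) a w - w)
        (hessE (chartMetric n M x₀) (fz x x₀) a w - w) +
        secNumer (chartMetric n M x₀) a w (grad (chartMetric n M x₀) (fz x x₀) a)) /
          bil (chartMetric n M x₀ a) w w < ε := by
      refine lt_of_le_of_lt ?_ hε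
      rw [div_nonpos_iff]
      right
      refine ⟨?_, hGw.le⟩
      have := Crest.Agent.R247.Bo84.bil_self_nonneg hg ha
        (hessE (chartMetric n M x₀) (fz x x₀) a w - w)
      linarith
    have h6 := hasDerivAt_iff_tendsto_slope.1 hd
    have h7 := (h6.eventually (gt_mem_nhds hD)).filter_mono
      (nhdsWithin_mono s fun y (hy : y < s) => ne_of_lt hy)
    have hcont : ContinuousAt γ s := h.continuousAt hs
    have h8 : ∀ᶠ t in 𝓝 s, γ t ∈ (chartAt 𝔼 x₀).source ∧ (x, γ t) ∈ Om M := by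
      have h9 : (chartAt 𝔼 x₀).source ∩ OmA x ∈ 𝓝 (γ s) :=
        inter_mem ((chartAt 𝔼 x₀).open_source.mem_nhds hp) ((isOpen_OmA n hm x).mem_nhds hO)
      exact hcont.eventually h9
    have h8' := h8.filter_mono (nhdsWithin_le_nhds (s := Iio s))
    filter_upwards [hpos, self_mem_nhdsWithin, h7, h8'] with t ht1 ht2 ht3 ht4
    have ht2' : t < s := ht2
    have hgt : (chartAt 𝔼 x₀) (γ t) ∈ (chartAt 𝔼 x₀).target := (chartAt 𝔼 x₀).map_source ht4.1
    have hEt := mE_eq (n := n) ht4.1 (hsm (γ t) ht4.2)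
    -- the value at `s`
    have hvs : s * (hess (chartMetric n M x₀) (fz x x₀) a (ext0 (chartMetric n M x₀) a w a)
        (ext0 (chartMetric n M x₀) a w a) / bil (chartMetric n M x₀ a)
        (ext0 (chartMetric n M x₀) a w a) (ext0 (chartMetric n M x₀) a w a) - 1) =
        s * mE n (halfDistSq x) x₀ := by
      rw [ext0_self, hw]
      rw [mul_div_assoc, div_self hGw.ne', mul_one, hE0]
      unfold cE
      change s * (1 + eF (fun u v => hess (chartMetric n M x₀) (fz x x₀) a u v)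
        (fun u v => Gf (chartMetric n M x₀) a u v) - 1) = s * eF (fun u v =>
          hess (chartMetric n M x₀) (fz x x₀) a u v) (fun u v => Gf (chartMetric n M x₀) a u v)
      ring
    -- the value at `t`
    set W := ext0 (chartMetric n M x₀) a w (chartAt 𝔼 x₀ (γ t)) with hW
    have hvt : t * (hess (chartMetric n M x₀) (fz x x₀) (chartAt 𝔼 x₀ (γ t)) W W /
        bil (chartMetric n M x₀ (chartAt 𝔼 x₀ (γ t))) W W - 1) ≤
        t * mE n (halfDistSq x) (γ t) := by
      refine mul_le_mul_of_nonneg_left ?_ ht1.le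
      have h10 := eF_mem (eS_nonempty (H := hess (chartMetric n M x₀) (fz x x₀)
        (chartAt 𝔼 x₀ (γ t))) (G := Gf (chartMetric n M x₀) (chartAt 𝔼 x₀ (γ t)))
        (fun u hu => bil_pos hg hgt hu)) W
      rcases eq_or_ne W 0 with hW0 | hW0
      · rw [hW0]
        simp only [map_zero, zero_apply, zero_div]
        have := mE_nonneg (n := n) (halfDistSq x) (γ t)
        linarith
      · have hGW : 0 < bil (chartMetric n M x₀ (chartAt 𝔼 x₀ (γ t))) W W := bil_pos hg hgt hW0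
        rw [sub_le_iff_le_add, div_le_iff₀ hGW, add_comm, hEt]
        exact h10
    rw [slope_def_field] at ht3
    have ht5 : t - s < 0 := by linarith
    rw [div_lt_iff_of_neg ht5] at ht3
    have e5 : ∀ A B C D : ℝ, ε * (t - s) < A - B → A ≤ C → B = D → D - ε * (s - t) ≤ C := by
      intro A B C D h1 h2 h3
      rw [← h3]; nlinarith
    exact e5 _ _ _ _ ht3 hvt hvs

/-- the excess vanishes along a minimiser -/
lemma mE_ray (hm : ExM M) (hK : HasNonnegSectionalCurvature n M) (h : IsRay x γ ℓ b)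
    (hs : s ∈ Ioo 0 b) : mE n (halfDistSq x) (γ s) = 0 := by
  have hsm : ∀ q, (x, q) ∈ Om M → ContMDiffAt (𝓡 n) 𝓘(ℝ, ℝ) 2 (halfDistSq x) q := fun q hq =>
    (Crest.Agent.R247.Lc582.contMDiffAt_cost (sc_of_Om hm hq)).of_le
      Crest.Agent.R247.Bo84.two_le_infty
  have hcont : ∀ t ∈ Ioo 0 b, ContinuousAt (fun t => t * mE n (halfDistSq x) (γ t)) t := by
    intro t ht
    have hO := h.mem_Om ⟨ht.1.le, ht.2⟩
    have h1 : ContinuousAt (fun t => mE n (halfDistSq x) (γ t)) t :=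
      ContinuousAt.comp (g := mE n (halfDistSq x)) (continuousAt_mE (hsm _ hO))
        (h.continuousAt ht)
    exact continuousAt_id.mul h1
  have hmono : ∀ a ∈ Ioo 0 s, s * mE n (halfDistSq x) (γ s) ≤ a * mE n (halfDistSq x) (γ a) := by
    intro a ha
    refine antitone_of_dini ha.2.le (fun t ht => (hcont t ⟨by linarith [ha.1, ht.1],
      by linarith [hs.2, ht.2]⟩).continuousWithinAt) fun t ht ε hε => ?_
    exact dini_ray hm hK h ⟨by linarith [ha.1, ht.1], by linarith [hs.2, ht.2]⟩ hε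
  -- bound near `x`
  have hOx : (x, x) ∈ Om M := by
    have := h.mem_Om (s := 0) ⟨le_rfl, h.bpos⟩
    rwa [h.zero] at this
  have hcx : ContinuousAt (mE n (halfDistSq x)) x := continuousAt_mE (hsm _ hOx)
  have hγ0 : Tendsto γ (𝓝[>] 0) (𝓝 x) := by
    have h1 := h.continuousOn 0 ⟨le_rfl, h.bpos.le⟩
    rw [ContinuousWithinAt, h.zero] at h1
    refine h1.mono_left ?_
    have : Icc 0 b ∈ 𝓝[>] (0:ℝ) := Icc_mem_nhdsGT h.bpos
    exact nhdsWithin_le_of_mem this
  have hlim : Tendsto (fun a => a * mE n (halfDistSq x) (γ a)) (𝓝[>] 0)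
      (𝓝 (0 * mE n (halfDistSq x) x)) :=
    (tendsto_id.mono_left nhdsWithin_le_nhds).mul (hcx.tendsto.comp hγ0)
  rw [zero_mul] at hlim
  have hle : s * mE n (halfDistSq x) (γ s) ≤ 0 := by
    refine ge_of_tendsto hlim ?_
    filter_upwards [Ioo_mem_nhdsGT hs.1] with a ha using hmono a ha
  have h0 := mE_nonneg (n := n) (halfDistSq x) (γ s)
  nlinarith [hs.1]

/-- **Hessian comparison**, `K ≥ 0`: `Hess (d_x²/2) ≤ g` wherever the cost is smooth. -/
theorem mHess_halfDistSq_le (hm : ExM M) (hK : HasNonnegSectionalCurvature n M) {x p : M}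
    (h : SC n x p) (v : TangentSpace (𝓡 n) p) : mHess n (halfDistSq x) p v v ≤ ‖v‖ ^ 2 := by
  have hsm : ContMDiffAt (𝓡 n) 𝓘(ℝ, ℝ) 2 (halfDistSq x) p :=
    (Crest.Agent.R247.Lc582.contMDiffAt_cost h).of_le Crest.Agent.R247.Bo84.two_le_infty
  rcases eq_or_ne x p with rfl | hne
  · -- the centre
    obtain ⟨L⟩ := nonempty_localNear (n := n) x
    have hg := isRiemannianOn_chartMetric (n := n) x
    set φ := chartAt 𝔼 x with hφ
    have hsrc : x ∈ φ.source := mem_chart_source 𝔼 x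
    have ha : φ x ∈ φ.target := mem_chart_target 𝔼 x
    have hL : ∀ᶠ b in 𝓝 (φ x), b ∈ φ.target ∧ SC n x (φ.symm b) := by
      have h1 : Tendsto φ.symm (𝓝 (φ x)) (𝓝 x) := by
        have := φ.continuousAt_symm ha
        rw [ContinuousAt, φ.left_inv hsrc] at this
        exact this
      have h2 : Metric.ball x L.r ∈ 𝓝 x := Metric.ball_mem_nhds x L.r_pos
      filter_upwards [h1 h2, φ.open_target.mem_nhds ha] with b hb1 hb2
      refine ⟨hb2, LN_sc L L.mem_W ?_⟩
      rw [dist_comm]; exact hb1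
    have he : ∀ᶠ b in 𝓝 (φ x), gam (chartMetric n M x) (fz x x) (fz x x) b = 2 * fz x x b := by
      filter_upwards [hL] with b hb using gam_fz hm hb.1 hb.2
    have hf : ContDiffAt ℝ ∞ (fz (n := n) x x) (φ x) := contDiffAt_fz ha hL.self_of_nhds.2
    have h0 : gam (chartMetric n M x) (fz x x) (fz x x) (φ x) = 0 := by
      rw [he.self_of_nhds, fz, ← hφ, φ.left_inv hsrc, halfDistSq, dist_self]; ring
    have hgr : grad (chartMetric n M x) (fz x x) (φ x) = 0 := by
      by_contra hne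
      have := bil_pos hg ha hne
      rw [← Crest.Agent.R247.Bo84.gam_eq_bil hg ha, h0] at this
      exact lt_irrefl _ this
    have h2 : ‖v‖ ^ 2 = bil (chartMetric n M x (chartAt 𝔼 x x)) (dCh x x v) (dCh x x v) := by
      rw [← real_inner_self_eq_norm_sq]
      exact inner_eq_bil x hsrc v v
    rw [h2]
    calc mHess n (halfDistSq x) x v v = hess (chartMetric n M x) (inCh n x (halfDistSq x))
          (chartAt 𝔼 x x) (dCh x x v) (dCh x x v) := mHess_chart' hsrc hsm v v
      _ ≤ _ := hess_le_of_grad_zero hg ha (hf.of_le Crest.Agent.R247.Bo84.three_le_infty) he hgr _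
  · obtain ⟨γ, h0, h1, h2⟩ := Crest.Agent.R247.Lc582.exists_unit hm x p
    have hD : 0 < dist x p := dist_pos.2 hne
    have hray : IsRay x γ 1 (dist x p) := ⟨one_pos, hD, h0, fun s hs t ht => by
      rw [h2 s hs t ht, one_mul]⟩
    have hγ : Tendsto γ (𝓝[<] (dist x p)) (𝓝 p) := by
      have h3 := hray.continuousOn (dist x p) ⟨hD.le, le_rfl⟩
      rw [ContinuousWithinAt, h1] at h3
      refine h3.mono_left ?_
      have : Icc 0 (dist x p) ∈ 𝓝[<] (dist x p) := Icc_mem_nhdsLT hD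
      exact nhdsWithin_le_of_mem this
    have h4 : Tendsto (fun s => mE n (halfDistSq x) (γ s)) (𝓝[<] (dist x p))
        (𝓝 (mE n (halfDistSq x) p)) := (continuousAt_mE hsm).tendsto.comp hγ
    have h5 : Tendsto (fun s => mE n (halfDistSq x) (γ s)) (𝓝[<] (dist x p)) (𝓝 0) := by
      refine tendsto_const_nhds.congr' ?_
      filter_upwards [Ioo_mem_nhdsLT hD] with s hs
      exact (mE_ray hm hK hray hs).symm
    have h6 := tendsto_nhds_unique h4 h5
    have h7 := mHess_le_mE hsm v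
    rw [h6, add_zero, one_mul] at h7
    exact h7

end mfd

end Crest.Agent.R249.Top330
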