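import Crest.Agent.R249.Fin_40
import Crest.Agent.R249.Ker57g_57
import Crest.Agent.R249.StJc_912

/-!
# Row 249: S0383, S0384, S0385 from the single statement (ST) of part A

`Top49.ST.{0}` is the only hypothesis; `of_cert` variants start from 912's `CertAC.{0}`.
-/

set_option autoImplicit false
open scoped ContDiff Manifold
open Bundle Crest.GeometryTopology.CoordMetric Crest.GeometryTopology.ChartCurvature
open Crest Crest.GeometryTopology

namespace Crest.Agent.R249.TopS40

theorem oriented_of_st (hST : Top49.ST.{0}) : OriE_285.S0383Oriented :=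
  Bc_285.s0383Oriented_of_TI hST Ker57.tI

theorem st_of_cert (H : StJ_912.CertAC.{0}) : Top49.ST.{0} := StJ_912.st_of_cert H

section
variable (M : Type*) [MetricSpace M] [ChartedSpace (EuclideanSpace ℝ (Fin 4)) M]
    [IsManifold 𝓘(ℝ, EuclideanSpace ℝ (Fin 4)) ∞ M] [CompactSpace M] [ConnectedSpace M]
    [RiemannianBundle (fun x : M => TangentSpace 𝓘(ℝ, EuclideanSpace ℝ (Fin 4)) x)]
    [IsContMDiffRiemannianBundle 𝓘(ℝ, EuclideanSpace ℝ (Fin 4)) ∞ (EuclideanSpace ℝ (Fin 4))
      (fun x : M => TangentSpace 𝓘(ℝ, EuclideanSpace ℝ (Fin 4)) x)]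
    [IsRiemannianManifold 𝓘(ℝ, EuclideanSpace ℝ (Fin 4)) M]

theorem s0383 (hST : Top49.ST.{0}) (c : ℝ) (hc : 0 < c) (hE : IsEinsteinWith 4 M c)
    (hK : HasNonnegSectionalCurvature 4 M) :
    ∃ a : ℝ, 0 < a ∧ (IsLocallyCoveredByRoundSphere M 4 a ∨
      IsLocallyCoveredByComplexProjective M 2 a ∨ IsLocallyCoveredBySphereProduct M a) :=
  OriE_285.s0383_of_oriented (oriented_of_st hST) M c hc hE hK

theorem s0384 (hST : Top49.ST.{0}) (c : ℝ) (hc : 0 < c) (hE : IsEinsteinWith 4 M c)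
    (hK : HasNonnegSectionalCurvature 4 M)
    (h0 : ∃ x : M, ∃ u v : EuclideanSpace ℝ (Fin 4),
      0 < gramDet (chartMetric 4 M x) (chartCentre 4 M x) u v ∧
        secNumer (chartMetric 4 M x) (chartCentre 4 M x) u v = 0) :
    IsLocallyCoveredBySphereProduct M c :=
  Fin40.s0384_of M (oriented_of_st hST) c hc hE hK h0

theorem s0385 (hST : Top49.ST.{0}) (hE : IsEinstein 4 M) (hK : HasPosSectionalCurvature 4 M) :
    ∃ a : ℝ, 0 < a ∧ (IsHomotheticToRoundSphere M 4 a ∨
      IsHomotheticToComplexProjective M 2 a ∨ IsHomotheticToRealProjective M 4 a) :=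
  Fin40.s0385_of M (oriented_of_st hST) hE hK

end

end Crest.Agent.R249.TopS40
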