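import Crest.Agent.R247.Ray5_97
import Crest.Agent.R249.Two1_709

/-!
R249 (helper709), leaf D3-LIM-G2, file 2: the pointwise estimate along a good pair.

For `u : Fin n → M → ℝ` of class `C²` near the ray from `x` to `y`:
`| ‖u y - u x‖ - dist x y | ≤ dist x y * (|⟨du_a, du_b⟩ - δ_ab|(x) + dist x y * ∫₀¹ Σ_a |Hess u_a|)`.
-/

set_option autoImplicit false
set_option maxSynthPendingDepth 3
set_option linter.unusedSectionVars false

open Bundle Set Filter Topology Metric MeasureTheory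
open scoped Manifold ContDiff NNReal ENNReal
open Crest.GeometryTopology.CoordMetric Crest.GeometryTopology.ChartCurvature
open Crest.GeometryTopology.MTW Crest.Agent.R244 Crest.Agent.R226
open Crest.Agent.R226.CutSmooth77 (SC)
open Crest.Agent.R247.Bo84 (mGam mHess mgrad mGam_eq_inner mGam_self mHess_smul_left
  mHess_smul_right mHessSq mHessSq_nonneg abs_mHess_le)
open Crest.Agent.R247.Sm879 Crest.Agent.R247.Mcp688
open Crest.Agent.R247.Ms322 Crest.Agent.R247.Ray97
open Crest.Agent.R247.Ib939 (inner_Gr_mGam)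

noncomputable section

namespace Crest.Agent.R249.Two709

section alg

/-- if the Gram matrix of `n` vectors of `ℝⁿ` is close to the identity then the map
`w ↦ (⟨g_a, w⟩)_a` is close to an isometry. -/
theorem gram_close {n : ℕ} (g : Fin n → EuclideanSpace ℝ (Fin n)) (w : EuclideanSpace ℝ (Fin n)) :
    |∑ a, (inner ℝ (g a) w) ^ 2 - ‖w‖ ^ 2| ≤
      Real.sqrt (∑ a, ∑ b, (inner ℝ (g a) (g b) - if a = b then (1 : ℝ) else 0) ^ 2) *
        ‖w‖ ^ 2 := by
  set A : Matrix (Fin n) (Fin n) ℝ := Matrix.of fun a i => g a i with hA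
  set X := A * A.transpose - 1 with hX
  set Y := A.transpose * A - 1 with hY
  have hin : ∀ a b, inner ℝ (g a) (g b) = (A * A.transpose) a b := by
    intro a b
    rw [PiLp.inner_apply, Matrix.mul_apply]
    refine Finset.sum_congr rfl fun i _ => ?_
    simp [hA, mul_comm]
  have hXe : ∑ a, ∑ b, (inner ℝ (g a) (g b) - if a = b then (1 : ℝ) else 0) ^ 2 =
      (X.transpose * X).trace := by
    rw [Matrix.trace, Finset.sum_comm]
    refine Finset.sum_congr rfl fun b _ => ?_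
    rw [Matrix.diag_apply, Matrix.mul_apply]
    refine Finset.sum_congr rfl fun a _ => ?_
    rw [Matrix.transpose_apply, hX, Matrix.sub_apply, Matrix.one_apply, hin, sq]
  have hYe : ∑ i, ∑ j, (Y i j) ^ 2 = (Y.transpose * Y).trace := by
    rw [Matrix.trace, Finset.sum_comm]
    refine Finset.sum_congr rfl fun b _ => ?_
    rw [Matrix.diag_apply, Matrix.mul_apply]
    refine Finset.sum_congr rfl fun a _ => ?_
    rw [Matrix.transpose_apply, sq]
  have htr : (X.transpose * X).trace = (Y.transpose * Y).trace := by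
    have h1 : X.transpose * X = A * A.transpose * (A * A.transpose) - 2 • (A * A.transpose) + 1 := by
      rw [hX, Matrix.transpose_sub, Matrix.transpose_mul, Matrix.transpose_transpose,
        Matrix.transpose_one]
      noncomm_ring
    have h2 : Y.transpose * Y = A.transpose * A * (A.transpose * A) - 2 • (A.transpose * A) + 1 := by
      rw [hY, Matrix.transpose_sub, Matrix.transpose_mul, Matrix.transpose_transpose,
        Matrix.transpose_one]
      noncomm_ring
    rw [h1, h2, Matrix.trace_add, Matrix.trace_add, Matrix.trace_sub, Matrix.trace_sub,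
      Matrix.trace_smul, Matrix.trace_smul, Matrix.trace_mul_comm A.transpose A]
    congr 2
    rw [Matrix.mul_assoc, Matrix.trace_mul_comm]
    simp only [Matrix.mul_assoc]
  have hq : ∑ a, (inner ℝ (g a) w) ^ 2 - ‖w‖ ^ 2 = ∑ i, ∑ j, Y i j * (w i * w j) := by
    have e1 : ∀ a, inner ℝ (g a) w = ∑ i, A a i * w i := by
      intro a
      rw [PiLp.inner_apply]
      refine Finset.sum_congr rfl fun i _ => ?_
      simp [hA, mul_comm]
    have e2 : ∑ a, (inner ℝ (g a) w) ^ 2 = ∑ i, ∑ j, (A.transpose * A) i j * (w i * w j) := by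
      have e4 : ∀ a, (inner ℝ (g a) w) ^ 2 = ∑ i, ∑ j, A a i * A a j * (w i * w j) := by
        intro a
        rw [e1, sq, Finset.sum_mul_sum]
        refine Finset.sum_congr rfl fun i _ => Finset.sum_congr rfl fun j _ => ?_
        ring
      simp only [e4, Matrix.mul_apply, Matrix.transpose_apply, Finset.sum_mul]
      rw [Finset.sum_comm]
      refine Finset.sum_congr rfl fun i _ => ?_
      rw [Finset.sum_comm]
    have e3 : ‖w‖ ^ 2 = ∑ i, ∑ j, (1 : Matrix (Fin n) (Fin n) ℝ) i j * (w i * w j) := by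
      rw [EuclideanSpace.norm_sq_eq]
      refine Finset.sum_congr rfl fun i _ => ?_
      rw [Finset.sum_eq_single i]
      · rw [Matrix.one_apply_eq, one_mul, Real.norm_eq_abs, sq_abs, sq]
      · intro j _ hj
        rw [Matrix.one_apply_ne (Ne.symm hj), zero_mul]
      · intro h
        exact absurd (Finset.mem_univ i) h
    rw [e2, e3, ← Finset.sum_sub_distrib]
    refine Finset.sum_congr rfl fun i _ => ?_
    rw [← Finset.sum_sub_distrib]
    refine Finset.sum_congr rfl fun j _ => ?_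
    rw [hY, Matrix.sub_apply]
    ring
  rw [hXe, htr, ← hYe, hq]
  -- Cauchy–Schwarz
  have hcs := Finset.sum_mul_sq_le_sq_mul_sq (Finset.univ : Finset (Fin n × Fin n))
    (fun p => Y p.1 p.2) (fun p => w p.1 * w p.2)
  rw [Fintype.sum_prod_type, Fintype.sum_prod_type, Fintype.sum_prod_type] at hcs
  have hw4 : ∑ i, ∑ j, (w i * w j) ^ 2 = (‖w‖ ^ 2) ^ 2 := by
    rw [EuclideanSpace.norm_sq_eq, sq (∑ i, ‖w i‖ ^ 2), Finset.sum_mul_sum]
    refine Finset.sum_congr rfl fun i _ => Finset.sum_congr rfl fun j _ => ?_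
    rw [Real.norm_eq_abs, Real.norm_eq_abs, sq_abs, sq_abs, mul_pow]
  simp only at hcs
  rw [hw4] at hcs
  have hS : 0 ≤ ∑ i, ∑ j, (Y i j) ^ 2 :=
    Finset.sum_nonneg fun i _ => Finset.sum_nonneg fun j _ => sq_nonneg _
  have h5 := Real.abs_le_sqrt hcs
  rw [Real.sqrt_mul hS, Real.sqrt_sq (sq_nonneg _)] at h5
  exact h5

end alg

section mfd

variable {n : ℕ} {M : Type*} [MetricSpace M] [ChartedSpace (EuclideanSpace ℝ (Fin n)) M]
  [IsManifold (𝓡 n) ∞ M]
  [RiemannianBundle (fun p : M => TangentSpace (𝓡 n) p)]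
  [IsContMDiffRiemannianBundle (𝓡 n) ∞ (EuclideanSpace ℝ (Fin n)) (fun p : M => TangentSpace (𝓡 n) p)]
  [IsRiemannianManifold (𝓡 n) M] [ProperSpace M]

local notation "𝔼" => EuclideanSpace ℝ (Fin n)

/-- second order Taylor inequality without the metric term. -/
theorem isRay_taylor0 {x : M} {γ : ℝ → M} {ℓ : ℝ} (hm : ExM M) (h : IsRay x γ ℓ 1)
    (hSC : SC n (γ 1) x) {w : M → ℝ}
    (hw : ∀ t ∈ Icc (0 : ℝ) 1, ContMDiffAt (𝓡 n) 𝓘(ℝ, ℝ) 2 w (γ t)) {K : M → ℝ≥0∞}
    (hK : ∀ t ∈ Ioo (0 : ℝ) 1, ∀ ξ : TangentSpace (𝓡 n) (γ t),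
      ENNReal.ofReal |mHess n w (γ t) ξ ξ| ≤ K (γ t) * ENNReal.ofReal (‖ξ‖ ^ 2)) :
    ENNReal.ofReal |mGam n w (halfDistSq (γ 1)) x - w x + w (γ 1)| ≤
      ENNReal.ofReal (ℓ ^ 2) * ∫⁻ t in Icc (0 : ℝ) 1, K (γ t) := by
  have hwd : ∀ t ∈ Icc (0 : ℝ) 1, MDifferentiableAt (𝓡 n) 𝓘(ℝ, ℝ) w (γ t) := fun t ht =>
    (hw t ht).mdifferentiableAt (by norm_num)
  have hcont : ContinuousOn (fun t => w (γ t)) (Icc 0 1) := fun t ht =>
    ((hw t ht).continuousAt.comp_continuousWithinAt (h.continuousOn t ht))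
  have h1 := taylor_1d (φ := fun t => w (γ t))
    (φ' := fun t => t⁻¹ * mGam n w (halfDistSq x) (γ t))
    (φ'' := fun t => t⁻¹ ^ 2 * mHess n w (γ t) (mgrad n (halfDistSq x) (γ t))
      (mgrad n (halfDistSq x) (γ t)))
    (d0 := -((1 : ℝ)⁻¹ * mGam n w (halfDistSq (γ 1)) x)) (c := 0)
    (K := fun t => K (γ t) * ENNReal.ofReal (ℓ ^ 2)) hcont
    (fun t ht => h.hasDerivAt_comp hm ht (hwd t (Ioo_subset_Icc_self ht)))
    (fun t ht => h.hasDerivAt_mGam hm ht (hw t (Ioo_subset_Icc_self ht)))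
    (h.tendsto_deriv hm hSC (by
      have := hw 0 (by simp)
      rwa [h.zero] at this))
    (fun t ht => by
      have h2 := h.norm_vel (n := n) hm ht
      have h3 := hK t ht (t⁻¹ • mgrad n (halfDistSq x) (γ t))
      have hwt := hw t (Ioo_subset_Icc_self ht)
      rw [mHess_smul_left, mHess_smul_right, h2, ← mul_assoc, ← sq] at h3
      rw [sub_zero]
      exact h3)
  have h0 : γ 0 = x := h.zero
  have e : w (γ 1) - w (γ 0) - -((1 : ℝ)⁻¹ * mGam n w (halfDistSq (γ 1)) x) - 0 / 2 =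
      mGam n w (halfDistSq (γ 1)) x - w x + w (γ 1) := by
    rw [h0, inv_one]; ring
  rw [e] at h1
  refine h1.trans ?_
  rw [← lintegral_const_mul' _ _ ENNReal.ofReal_ne_top]
  refine lintegral_mono_ae ?_
  filter_upwards [ae_restrict_mem measurableSet_Icc] with t ht
  calc ENNReal.ofReal (1 - t) * (K (γ t) * ENNReal.ofReal (ℓ ^ 2))
      ≤ 1 * (K (γ t) * ENNReal.ofReal (ℓ ^ 2)) := by
        gcongr
        exact ENNReal.ofReal_le_one.2 (by linarith [ht.1])
    _ = _ := by rw [one_mul, mul_comm]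

variable [Nonempty M]

theorem norm_Gr_half (hm : ExM M) {x p : M} (h : SC n x p) :
    ‖Gr (n := n) (halfDistSq x) p‖ = dist x p := by
  have h1 := norm_mgrad_halfDistSq (n := n) hm h
  have h2 : ‖Gr (n := n) (halfDistSq x) p‖ ^ 2 = ‖mgrad n (halfDistSq x) p‖ ^ 2 := by
    rw [← real_inner_self_eq_norm_sq, inner_Gr_mGam, mGam_self]
  rw [← h1]
  exact (pow_left_inj₀ (norm_nonneg _) (norm_nonneg _) (by norm_num)).1 h2

variable [MeasurableSpace M] [BorelSpace M] {κ' : ℝ} {μ : Measure M}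

/-- **pointwise Taylor inequality** along a good pair -/
theorem taylor0_pt (hm : ExM M) (C : Rad n κ' M μ) {w : M → ℝ} {x y : M} (hU : (x, y) ∈ C.U)
    (hSC : SC n y x)
    (hw : ∀ t ∈ Icc (0 : ℝ) 1, ContMDiffAt (𝓡 n) 𝓘(ℝ, ℝ) 2 w (C.T x t y)) :
    ENNReal.ofReal |inner ℝ (Gr (n := n) w x) (Gr (n := n) (halfDistSq y) x) - w x + w y| ≤
      ENNReal.ofReal (dist x y ^ 2) *
        ∫⁻ t in Icc (0 : ℝ) 1, ENNReal.ofReal (Real.sqrt (mHessSq n w (C.T x t y))) := by
  rcases eq_or_ne x y with rfl | huv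
  · have h1 := norm_Gr_half (n := n) hm hSC
    rw [dist_self, norm_eq_zero] at h1
    rw [h1, inner_zero_right]
    simp
  · have h := isRay_of_U C hU huv
    have h1 : C.T x 1 y = y := C.T_one x y hU
    have key := isRay_taylor0 (n := n) hm h (by simpa only [h1] using hSC) (w := w) hw
      (K := fun z => ENNReal.ofReal (Real.sqrt (mHessSq n w z))) (fun t ht ξ => by
        rw [← ENNReal.ofReal_mul (Real.sqrt_nonneg _)]
        refine ENNReal.ofReal_le_ofReal ?_
        have h2 := Crest.Agent.R247.Bo84.abs_mHess_le (hw t (Ioo_subset_Icc_self ht)) ξ ξ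
        rwa [mul_assoc, ← sq] at h2)
    simp only [h1] at key
    rw [inner_Gr_mGam]
    exact key

/-- the map with components `u a`. -/
def uv (u : Fin n → M → ℝ) (x : M) : 𝔼 := WithLp.toLp 2 fun a => u a x

omit [ChartedSpace (EuclideanSpace ℝ (Fin n)) M] [IsManifold (𝓡 n) ∞ M]
  [RiemannianBundle (fun p : M => TangentSpace (𝓡 n) p)]
  [IsContMDiffRiemannianBundle (𝓡 n) ∞ (EuclideanSpace ℝ (Fin n)) (fun p : M => TangentSpace (𝓡 n) p)]
  [IsRiemannianManifold (𝓡 n) M] [ProperSpace M] [MeasurableSpace M] [BorelSpace M] [Nonempty M]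
  [MetricSpace M] in
theorem sum_lintegral_le {α ι : Type*} [MeasurableSpace α] {ν : Measure α} (s : Finset ι)
    (f : ι → α → ℝ≥0∞) : ∑ i ∈ s, ∫⁻ x, f i x ∂ν ≤ ∫⁻ x, ∑ i ∈ s, f i x ∂ν := by
  classical
  induction s using Finset.induction_on with
  | empty => simp
  | insert i s hi ih =>
    simp only [Finset.sum_insert hi]
    exact (add_le_add le_rfl ih).trans (le_lintegral_add _ _)

/-- norm of a vector with small components -/
theorem norm_le_sum_abs (e : 𝔼) : ‖e‖ ≤ ∑ a, |e a| := by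
  rw [EuclideanSpace.norm_eq]
  apply Real.sqrt_le_iff.2
  refine ⟨Finset.sum_nonneg fun a _ => abs_nonneg _, ?_⟩
  have h := Finset.sum_sq_le_sq_sum_of_nonneg (s := (Finset.univ : Finset (Fin n)))
    (f := fun a => |e a|) (fun a _ => abs_nonneg _)
  simpa only [Real.norm_eq_abs] using h

/-- **the pointwise two-point estimate along a good pair** -/
theorem pt_pair (hm : ExM M) (C : Rad n κ' M μ) {u : Fin n → M → ℝ} {W : Set M} {D H : M → ℝ≥0∞}
    (hu : ∀ a, ∀ x ∈ W, ContMDiffAt (𝓡 n) 𝓘(ℝ, ℝ) 2 (u a) x)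
    (hD : ∀ x ∈ W, ENNReal.ofReal (Real.sqrt (∑ a, ∑ b,
      (mGam n (u a) (u b) x - if a = b then (1 : ℝ) else 0) ^ 2)) ≤ D x)
    (hH : ∀ x ∈ W, ∑ a, ENNReal.ofReal (Real.sqrt (mHessSq n (u a) x)) ≤ H x)
    {x y : M} (hU : (x, y) ∈ C.U) (hT : ∀ t ∈ Icc (0 : ℝ) 1, C.T x t y ∈ W) (hSC : SC n y x) :
    ENNReal.ofReal |‖uv u y - uv u x‖ - dist x y| ≤
      ENNReal.ofReal (dist x y) *
        (D x + ENNReal.ofReal (dist x y) * ∫⁻ t in Icc (0 : ℝ) 1, H (C.T x t y)) := by
  have hxW : x ∈ W := by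
    have := hT 0 ⟨le_rfl, zero_le_one⟩
    rwa [C.T_zero x y hU] at this
  set δ := dist x y with hδ
  have hδ0 : 0 ≤ δ := dist_nonneg
  set w : 𝔼 := Gr (n := n) (halfDistSq y) x with hw
  have hwn : ‖w‖ = δ := by rw [hw, norm_Gr_half hm hSC, dist_comm]
  set L : 𝔼 := WithLp.toLp 2 fun a => inner ℝ (Gr (n := n) (u a) x) w with hL
  set e : 𝔼 := WithLp.toLp 2 fun a => inner ℝ (Gr (n := n) (u a) x) w - u a x + u a y with he
  have hee : uv u y - uv u x = e - L := by
    ext a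
    simp only [uv, he, hL, PiLp.sub_apply]
    ring
  -- the Hessian term
  have heb : ENNReal.ofReal ‖e‖ ≤ ENNReal.ofReal (δ ^ 2) *
      ∫⁻ t in Icc (0 : ℝ) 1, H (C.T x t y) := by
    calc ENNReal.ofReal ‖e‖ ≤ ENNReal.ofReal (∑ a, |e a|) :=
          ENNReal.ofReal_le_ofReal (norm_le_sum_abs e)
      _ = ∑ a, ENNReal.ofReal |e a| := ENNReal.ofReal_sum_of_nonneg fun a _ => abs_nonneg _
      _ ≤ ∑ a, ENNReal.ofReal (δ ^ 2) *
          ∫⁻ t in Icc (0 : ℝ) 1, ENNReal.ofReal (Real.sqrt (mHessSq n (u a) (C.T x t y))) :=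
          Finset.sum_le_sum fun a _ => taylor0_pt hm C hU hSC fun t ht => hu a _ (hT t ht)
      _ = ENNReal.ofReal (δ ^ 2) * ∑ a,
          ∫⁻ t in Icc (0 : ℝ) 1, ENNReal.ofReal (Real.sqrt (mHessSq n (u a) (C.T x t y))) := by
          rw [Finset.mul_sum]
      _ ≤ _ := by
          refine mul_le_mul_right ((sum_lintegral_le _ _).trans (lintegral_mono_ae ?_)) _
          filter_upwards [ae_restrict_mem measurableSet_Icc] with t ht using hH _ (hT t ht)
  -- the Gram term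
  have hLb : |‖L‖ - δ| ≤ Real.sqrt (∑ a, ∑ b,
      (mGam n (u a) (u b) x - if a = b then (1 : ℝ) else 0) ^ 2) * δ := by
    have h1 := gram_close (fun a => Gr (n := n) (u a) x) w
    simp only [inner_Gr_mGam] at h1
    set S := Real.sqrt (∑ a, ∑ b,
      (mGam n (u a) (u b) x - if a = b then (1 : ℝ) else 0) ^ 2) with hS
    have hS0 : 0 ≤ S := Real.sqrt_nonneg _
    have h2 : ∑ a, (inner ℝ (Gr (n := n) (u a) x) w) ^ 2 = ‖L‖ ^ 2 := by
      rw [EuclideanSpace.norm_sq_eq]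
      refine Finset.sum_congr rfl fun a _ => ?_
      rw [Real.norm_eq_abs, sq_abs]
    rw [h2, hwn] at h1
    rcases hδ0.eq_or_lt with h0 | h0
    · rw [← h0] at h1 ⊢
      have h3 : ‖L‖ ^ 2 = 0 := by
        have : |‖L‖ ^ 2 - 0 ^ 2| ≤ 0 := by simpa using h1
        have := abs_nonpos_iff.1 this
        linarith
      have h4 : ‖L‖ = 0 := by
        rcases pow_eq_zero_iff (two_ne_zero) |>.1 h3 with h
        exact h
      rw [h4]
      simp
    · have h3 : |‖L‖ ^ 2 - δ ^ 2| = |‖L‖ - δ| * (‖L‖ + δ) := by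
        rw [sq_sub_sq, abs_mul, abs_of_nonneg (by positivity : (0:ℝ) ≤ ‖L‖ + δ), mul_comm]
      rw [h3] at h1
      have h4 : |‖L‖ - δ| * δ ≤ (S * δ) * δ := by
        calc |‖L‖ - δ| * δ ≤ |‖L‖ - δ| * (‖L‖ + δ) := by
              apply mul_le_mul_of_nonneg_left _ (abs_nonneg _)
              linarith [norm_nonneg L]
          _ ≤ _ := by linarith
      exact le_of_mul_le_mul_right h4 h0
  have hfin : |‖uv u y - uv u x‖ - δ| ≤ ‖e‖ + Real.sqrt (∑ a, ∑ b,
      (mGam n (u a) (u b) x - if a = b then (1 : ℝ) else 0) ^ 2) * δ := by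
    rw [hee]
    have h1 : |‖e - L‖ - ‖L‖| ≤ ‖e‖ := by
      rw [norm_sub_rev e L]
      have h2 := abs_norm_sub_norm_le (L - e) L
      have h3 : L - e - L = -e := by abel
      rwa [h3, norm_neg] at h2
    have h2 : ‖e - L‖ - δ = (‖e - L‖ - ‖L‖) + (‖L‖ - δ) := by ring
    rw [h2]
    exact (abs_add_le _ _).trans (add_le_add h1 hLb)
  refine (ENNReal.ofReal_le_ofReal hfin).trans ?_
  rw [ENNReal.ofReal_add (norm_nonneg _) (by positivity), mul_add, add_comm]
  refine add_le_add ?_ ?_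
  · rw [ENNReal.ofReal_mul (Real.sqrt_nonneg _), mul_comm]
    exact mul_le_mul_right (hD x hxW) _
  · rw [← mul_assoc, ← ENNReal.ofReal_mul hδ0, ← sq]
    exact heb

end mfd

end Crest.Agent.R249.Two709
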