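import Crest.Agent.R249.Two2_709
import Crest.Agent.R247.Bgr3_546
import Crest.Agent.R247.Ms10_322
import Crest.Agent.R247.Bs2_84
import Crest.Agent.R247.GluM1_923

/-!
R249 (helper709), leaf D3-LIM-G2 / L-NI, file 3: the two-point estimate on manifolds.
-/

set_option autoImplicit false
set_option maxSynthPendingDepth 3
set_option linter.unusedSectionVars false

open Bundle Set Filter Topology Metric MeasureTheory
open scoped Manifold ContDiff NNReal ENNReal
open Crest.GeometryTopology.CoordMetric Crest.GeometryTopology.ChartCurvature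
  Crest.GeometryTopology.PointedLimit
open Crest.GeometryTopology.MTW Crest.Agent.R244 Crest.Agent.R226
open Crest.Agent.R226.CutSmooth77 (SC)
open Crest.Agent.R247.Bo84 (mGam mHess mgrad mGam_eq_inner mGam_self mHessSq mHessSq_nonneg
  contMDiffAt_mGam)
open Crest.Agent.R247.Sm879 Crest.Agent.R247.Mcp688 Crest.Agent.R247.Rdg879
open Crest.Agent.R247.Ms322 Crest.Agent.R247.Ray97
open Crest.Agent.R247.Ib939 (inner_Gr_mGam)
open Crest.Agent.R247

noncomputable section

namespace Crest.Agent.R249.Two709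

section mfd

variable {n : ℕ} {M : Type*} [MetricSpace M] [ChartedSpace (EuclideanSpace ℝ (Fin n)) M]
  [IsManifold (𝓡 n) ∞ M]
  [RiemannianBundle (fun p : M => TangentSpace (𝓡 n) p)]
  [IsContMDiffRiemannianBundle (𝓡 n) ∞ (EuclideanSpace ℝ (Fin n)) (fun p : M => TangentSpace (𝓡 n) p)]
  [IsRiemannianManifold (𝓡 n) M] [ProperSpace M]

local notation "𝔼" => EuclideanSpace ℝ (Fin n)

/-- the map with components `∑ b, B a b * u b`. -/
def bv (B : Matrix (Fin n) (Fin n) ℝ) (u : Fin n → M → ℝ) (x : M) : 𝔼 :=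
  WithLp.toLp 2 fun a => ∑ b, B a b * u b x

/-- the sum of the absolute values of the entries. -/
def nB (B : Matrix (Fin n) (Fin n) ℝ) : ℝ := ∑ a, ∑ b, |B a b|

theorem nB_nonneg (B : Matrix (Fin n) (Fin n) ℝ) : 0 ≤ nB B :=
  Finset.sum_nonneg fun a _ => Finset.sum_nonneg fun b _ => abs_nonneg _

theorem norm_mul_le (B : Matrix (Fin n) (Fin n) ℝ) (e : Fin n → ℝ) :
    ‖(WithLp.toLp 2 fun a => ∑ b, B a b * e b : 𝔼)‖ ≤ nB B * ∑ b, |e b| := by
  refine (norm_le_sum_abs _).trans ?_
  have h1 : ∀ a, |∑ b, B a b * e b| ≤ (∑ b, |B a b|) * ∑ b, |e b| := by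
    intro a
    calc |∑ b, B a b * e b| ≤ ∑ b, |B a b * e b| := Finset.abs_sum_le_sum_abs _ _
      _ = ∑ b, |B a b| * |e b| := by simp only [abs_mul]
      _ ≤ ∑ b, |B a b| * ∑ c, |e c| := by
          refine Finset.sum_le_sum fun b _ => ?_
          refine mul_le_mul_of_nonneg_left ?_ (abs_nonneg _)
          exact Finset.single_le_sum (f := fun c => |e c|) (fun c _ => abs_nonneg _)
            (Finset.mem_univ b)
      _ = _ := by rw [Finset.sum_mul]
  calc ∑ a, |∑ b, B a b * e b| ≤ ∑ a, (∑ b, |B a b|) * ∑ b, |e b| :=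
        Finset.sum_le_sum fun a _ => h1 a
    _ = nB B * ∑ b, |e b| := by rw [nB, Finset.sum_mul]

/-- the Gram deviation of the transformed functions. -/
theorem gram_dev_le {B A F : Matrix (Fin n) (Fin n) ℝ} (hBA : B * A * B.transpose = 1) :
    Real.sqrt (∑ a, ∑ b, ((B * F * B.transpose) a b - if a = b then (1 : ℝ) else 0) ^ 2) ≤
      nB B ^ 2 * ∑ c, ∑ d, |F c d - A c d| := by
  have h1 : ∀ a b, (B * F * B.transpose) a b - (if a = b then (1 : ℝ) else 0) =
      ∑ c, ∑ d, B a c * B b d * (F c d - A c d) := by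
    intro a b
    have h2 : (if a = b then (1 : ℝ) else 0) = (1 : Matrix (Fin n) (Fin n) ℝ) a b := by
      rw [Matrix.one_apply]
    rw [h2, ← hBA, ← Matrix.sub_apply, ← Matrix.sub_mul, ← Matrix.mul_sub, Matrix.mul_apply]
    simp only [Matrix.mul_apply, Matrix.transpose_apply, Finset.sum_mul, Matrix.sub_apply]
    rw [Finset.sum_comm]
    refine Finset.sum_congr rfl fun c _ => Finset.sum_congr rfl fun d _ => ?_
    ring
  have h3 : ∀ a b, |(B * F * B.transpose) a b - if a = b then (1 : ℝ) else 0| ≤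
      (∑ c, |B a c|) * (∑ d, |B b d|) * ∑ c, ∑ d, |F c d - A c d| := by
    intro a b
    rw [h1]
    calc |∑ c, ∑ d, B a c * B b d * (F c d - A c d)|
        ≤ ∑ c, ∑ d, |B a c| * |B b d| * |F c d - A c d| := by
          refine (Finset.abs_sum_le_sum_abs _ _).trans (Finset.sum_le_sum fun c _ => ?_)
          refine (Finset.abs_sum_le_sum_abs _ _).trans (Finset.sum_le_sum fun d _ => ?_)
          rw [abs_mul, abs_mul]
      _ ≤ ∑ c, ∑ d, |B a c| * |B b d| * ∑ c, ∑ d, |F c d - A c d| := by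
          refine Finset.sum_le_sum fun c _ => Finset.sum_le_sum fun d _ => ?_
          refine mul_le_mul_of_nonneg_left ?_ (by positivity)
          calc |F c d - A c d| ≤ ∑ d, |F c d - A c d| :=
                Finset.single_le_sum (f := fun d => |F c d - A c d|) (fun d _ => abs_nonneg _)
                  (Finset.mem_univ d)
            _ ≤ ∑ c, ∑ d, |F c d - A c d| :=
                Finset.single_le_sum (f := fun c => ∑ d, |F c d - A c d|)
                  (fun c _ => Finset.sum_nonneg fun d _ => abs_nonneg _) (Finset.mem_univ c)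
      _ = _ := by
          rw [Finset.sum_mul_sum, Finset.sum_mul]
          refine Finset.sum_congr rfl fun c _ => ?_
          rw [Finset.sum_mul]
  apply Real.sqrt_le_iff.2
  have hS : 0 ≤ ∑ c, ∑ d, |F c d - A c d| :=
    Finset.sum_nonneg fun a _ => Finset.sum_nonneg fun b _ => abs_nonneg _
  refine ⟨mul_nonneg (sq_nonneg _) hS, ?_⟩
  set S := ∑ c, ∑ d, |F c d - A c d| with hSdef
  set x : Fin n → ℝ := fun a => ∑ c, |B a c| with hx
  have hx0 : ∀ a, 0 ≤ x a := fun a => Finset.sum_nonneg fun c _ => abs_nonneg _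
  have hnB : nB B = ∑ a, x a := rfl
  calc ∑ a, ∑ b, ((B * F * B.transpose) a b - if a = b then (1 : ℝ) else 0) ^ 2
      ≤ ∑ a, ∑ b, (x a * x b * S) ^ 2 := by
        refine Finset.sum_le_sum fun a _ => Finset.sum_le_sum fun b _ => ?_
        rw [← sq_abs]
        exact pow_le_pow_left₀ (abs_nonneg _) (h3 a b) 2
    _ = (∑ a, x a ^ 2) * (∑ b, x b ^ 2) * S ^ 2 := by
        rw [Finset.sum_mul_sum, Finset.sum_mul]
        refine Finset.sum_congr rfl fun a _ => ?_
        rw [Finset.sum_mul]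
        refine Finset.sum_congr rfl fun b _ => ?_
        ring
    _ ≤ (∑ a, x a) ^ 2 * (∑ b, x b) ^ 2 * S ^ 2 := by
        have := Finset.sum_sq_le_sq_sum_of_nonneg (s := (Finset.univ : Finset (Fin n))) (f := x)
          (fun a _ => hx0 a)
        gcongr
    _ = (nB B ^ 2 * S) ^ 2 := by rw [hnB]; ring

variable [MeasurableSpace M] [BorelSpace M] {κ' : ℝ} {μ : Measure M} [Nonempty M]

/-- **the pointwise two-point estimate along a good pair, general constant matrix** -/
theorem pt_pair_B (hm : ExM M) (C : Rad n κ' M μ) {A B : Matrix (Fin n) (Fin n) ℝ}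
    (hBA : B * A * B.transpose = 1) {u : Fin n → M → ℝ} {W : Set M} {D H : M → ℝ≥0∞}
    (hu : ∀ a, ∀ x ∈ W, ContMDiffAt (𝓡 n) 𝓘(ℝ, ℝ) 2 (u a) x)
    (hD : ∀ x ∈ W, ENNReal.ofReal (nB B ^ 2 * ∑ a, ∑ b, |mGam n (u a) (u b) x - A a b|) ≤ D x)
    (hH : ∀ x ∈ W, ENNReal.ofReal (nB B * ∑ a, Real.sqrt (mHessSq n (u a) x)) ≤ H x)
    {x y : M} (hU : (x, y) ∈ C.U) (hT : ∀ t ∈ Icc (0 : ℝ) 1, C.T x t y ∈ W) (hSC : SC n y x) :
    ENNReal.ofReal |‖bv B u y - bv B u x‖ - dist x y| ≤
      ENNReal.ofReal (dist x y) *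
        (D x + ENNReal.ofReal (dist x y) * ∫⁻ t in Icc (0 : ℝ) 1, H (C.T x t y)) := by
  have hxW : x ∈ W := by
    have := hT 0 ⟨le_rfl, zero_le_one⟩
    rwa [C.T_zero x y hU] at this
  set δ := dist x y with hδ
  have hδ0 : 0 ≤ δ := dist_nonneg
  set w : 𝔼 := Gr (n := n) (halfDistSq y) x with hw
  have hwn : ‖w‖ = δ := by rw [hw, norm_Gr_half hm hSC, dist_comm]
  set g : Fin n → 𝔼 := fun a => ∑ b, B a b • Gr (n := n) (u b) x with hg
  set L : 𝔼 := WithLp.toLp 2 fun a => inner ℝ (g a) w with hL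
  set e : Fin n → ℝ := fun b => inner ℝ (Gr (n := n) (u b) x) w - u b x + u b y with he
  set Be : 𝔼 := WithLp.toLp 2 fun a => ∑ b, B a b * e b with hBe
  have hgw : ∀ a, inner ℝ (g a) w = ∑ b, B a b * inner ℝ (Gr (n := n) (u b) x) w := by
    intro a
    rw [hg, sum_inner]
    refine Finset.sum_congr rfl fun b _ => ?_
    rw [inner_smul_left]
    simp
  have hee : bv B u y - bv B u x = Be - L := by
    ext a
    simp only [bv, hBe, hL, he, PiLp.sub_apply, hgw]
    rw [← Finset.sum_sub_distrib, ← Finset.sum_sub_distrib]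
    refine Finset.sum_congr rfl fun b _ => ?_
    ring
  -- the Hessian term
  have heb : ENNReal.ofReal ‖Be‖ ≤ ENNReal.ofReal (δ ^ 2) *
      ∫⁻ t in Icc (0 : ℝ) 1, H (C.T x t y) := by
    calc ENNReal.ofReal ‖Be‖ ≤ ENNReal.ofReal (nB B * ∑ b, |e b|) :=
          ENNReal.ofReal_le_ofReal (norm_mul_le B e)
      _ = ENNReal.ofReal (nB B) * ∑ a, ENNReal.ofReal |e a| := by
          rw [ENNReal.ofReal_mul (nB_nonneg B), ENNReal.ofReal_sum_of_nonneg fun a _ => abs_nonneg _]
      _ ≤ ENNReal.ofReal (nB B) * ∑ a, ENNReal.ofReal (δ ^ 2) *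
          ∫⁻ t in Icc (0 : ℝ) 1, ENNReal.ofReal (Real.sqrt (mHessSq n (u a) (C.T x t y))) :=
          mul_le_mul_right (Finset.sum_le_sum fun a _ =>
            taylor0_pt hm C hU hSC fun t ht => hu a _ (hT t ht)) _
      _ = ENNReal.ofReal (δ ^ 2) * (ENNReal.ofReal (nB B) * ∑ a,
          ∫⁻ t in Icc (0 : ℝ) 1, ENNReal.ofReal (Real.sqrt (mHessSq n (u a) (C.T x t y)))) := by
          rw [← Finset.mul_sum]; ring
      _ ≤ _ := by
          refine mul_le_mul_right ?_ _
          calc ENNReal.ofReal (nB B) * ∑ a,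
              ∫⁻ t in Icc (0 : ℝ) 1, ENNReal.ofReal (Real.sqrt (mHessSq n (u a) (C.T x t y)))
              ≤ ENNReal.ofReal (nB B) * ∫⁻ t in Icc (0 : ℝ) 1,
                ∑ a, ENNReal.ofReal (Real.sqrt (mHessSq n (u a) (C.T x t y))) :=
                mul_le_mul_right (sum_lintegral_le _ _) _
            _ = ∫⁻ t in Icc (0 : ℝ) 1, ENNReal.ofReal (nB B) *
                ∑ a, ENNReal.ofReal (Real.sqrt (mHessSq n (u a) (C.T x t y))) := by
                rw [lintegral_const_mul' _ _ ENNReal.ofReal_ne_top]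
            _ ≤ _ := by
                refine lintegral_mono_ae ?_
                filter_upwards [ae_restrict_mem measurableSet_Icc] with t ht
                refine le_trans (le_of_eq ?_) (hH _ (hT t ht))
                rw [ENNReal.ofReal_mul (nB_nonneg B),
                  ENNReal.ofReal_sum_of_nonneg fun a _ => Real.sqrt_nonneg _]
  -- the Gram term
  set S := nB B ^ 2 * ∑ a, ∑ b, |mGam n (u a) (u b) x - A a b| with hS
  have hS0 : 0 ≤ S := mul_nonneg (sq_nonneg _)
    (Finset.sum_nonneg fun a _ => Finset.sum_nonneg fun b _ => abs_nonneg _)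
  have hgram : |‖L‖ ^ 2 - δ ^ 2| ≤ S * δ ^ 2 := by
    have h1 := gram_close g w
    have h2 : ∑ a, (inner ℝ (g a) w) ^ 2 = ‖L‖ ^ 2 := by
      rw [EuclideanSpace.norm_sq_eq]
      refine Finset.sum_congr rfl fun a _ => ?_
      rw [Real.norm_eq_abs, sq_abs]
    rw [h2, hwn] at h1
    refine h1.trans (mul_le_mul_of_nonneg_right ?_ (sq_nonneg _))
    set F : Matrix (Fin n) (Fin n) ℝ := Matrix.of fun a b => mGam n (u a) (u b) x with hF
    have h3 : ∀ a b, inner ℝ (g a) (g b) = (B * F * B.transpose) a b := by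
      intro a b
      rw [hg, Matrix.mul_apply]
      simp only [Matrix.mul_apply, Matrix.transpose_apply]
      rw [sum_inner]
      simp only [inner_sum, inner_smul_left, inner_smul_right, inner_Gr_mGam, Finset.sum_mul]
      rw [Finset.sum_comm]
      refine Finset.sum_congr rfl fun c _ => Finset.sum_congr rfl fun d _ => ?_
      simp [hF]
      ring
    simp only [h3]
    exact gram_dev_le hBA
  have hLb : |‖L‖ - δ| ≤ S * δ := by
    rcases hδ0.eq_or_lt with h0 | h0
    · rw [← h0] at hgram ⊢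
      have h3 : ‖L‖ ^ 2 = 0 := by
        have : |‖L‖ ^ 2 - 0 ^ 2| ≤ 0 := by simpa using hgram
        have := abs_nonpos_iff.1 this
        linarith
      have h4 : ‖L‖ = 0 := (pow_eq_zero_iff (two_ne_zero)).1 h3
      rw [h4]
      simp
    · have h3 : |‖L‖ ^ 2 - δ ^ 2| = |‖L‖ - δ| * (‖L‖ + δ) := by
        rw [sq_sub_sq, abs_mul, abs_of_nonneg (by positivity : (0:ℝ) ≤ ‖L‖ + δ), mul_comm]
      rw [h3] at hgram
      have h4 : |‖L‖ - δ| * δ ≤ (S * δ) * δ := by
        calc |‖L‖ - δ| * δ ≤ |‖L‖ - δ| * (‖L‖ + δ) := by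
              apply mul_le_mul_of_nonneg_left _ (abs_nonneg _)
              linarith [norm_nonneg L]
          _ ≤ _ := by linarith
      exact le_of_mul_le_mul_right h4 h0
  have hfin : |‖bv B u y - bv B u x‖ - δ| ≤ ‖Be‖ + S * δ := by
    rw [hee]
    have h1 : |‖Be - L‖ - ‖L‖| ≤ ‖Be‖ := by
      rw [norm_sub_rev Be L]
      have h2 := abs_norm_sub_norm_le (L - Be) L
      have h3 : L - Be - L = -Be := by abel
      rwa [h3, norm_neg] at h2
    have h2 : ‖Be - L‖ - δ = (‖Be - L‖ - ‖L‖) + (‖L‖ - δ) := by ring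
    rw [h2]
    exact (abs_add_le _ _).trans (add_le_add h1 hLb)
  refine (ENNReal.ofReal_le_ofReal hfin).trans ?_
  rw [ENNReal.ofReal_add (norm_nonneg _) (by positivity), mul_add, add_comm]
  refine add_le_add ?_ ?_
  · rw [ENNReal.ofReal_mul hS0, mul_comm]
    exact mul_le_mul_right (hD x hxW) _
  · rw [← mul_assoc, ← ENNReal.ofReal_mul hδ0, ← sq]
    exact heb

end mfd

end Crest.Agent.R249.Two709
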