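import Crest.Agent.R249.Two3_709

/-!
R249 (helper709), leaf D3-LIM-G2 / L-NI, file 4: the two-point estimate on manifolds.

* `lip_of_grad`: Lipschitz bound from a gradient bound on a ball;
* `two_M`: general form; `two_point_M`: the form with `W = ball z (4 d)`.
-/

set_option autoImplicit false
set_option maxSynthPendingDepth 3
set_option linter.unusedSectionVars false

open Bundle Set Filter Topology Metric MeasureTheory
open scoped Manifold ContDiff NNReal ENNReal
open Crest.GeometryTopology.CoordMetric Crest.GeometryTopology.ChartCurvature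
  Crest.GeometryTopology.PointedLimit
open Crest.GeometryTopology.MTW Crest.Agent.R244 Crest.Agent.R226
open Crest.Agent.R226.CutSmooth77 (SC)
open Crest.Agent.R247.Bo84 (mGam mHess mgrad mGam_eq_inner mGam_self mHessSq mHessSq_nonneg
  contMDiffAt_mGam)
open Crest.Agent.R247.Sm879 Crest.Agent.R247.Mcp688 Crest.Agent.R247.Rdg879
open Crest.Agent.R247.Ms322 Crest.Agent.R247.Ray97
open Crest.Agent.R247.Ib939 (inner_Gr_mGam)
open Crest.Agent.R247

noncomputable section

namespace Crest.Agent.R249.Two709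

theorem measurable_ind {X : Type*} [TopologicalSpace X] [MeasurableSpace X] [OpensMeasurableSpace X]
    {W : Set X} (hW : IsOpen W) {f : X → ℝ} (hf : ContinuousOn f W) :
    Measurable (W.indicator fun x => ENNReal.ofReal (f x)) := by
  classical
  have h1 : Measurable (W.indicator f) := by
    have h2 := hf.measurable_piecewise (g := fun _ => (0:ℝ)) (s := W) continuousOn_const
      hW.measurableSet
    have h3 : W.piecewise f (fun _ => (0:ℝ)) = W.indicator f := by
      ext x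
      by_cases hx : x ∈ W
      · rw [piecewise_eq_of_mem _ _ _ hx, indicator_of_mem hx]
      · rw [piecewise_eq_of_notMem _ _ _ hx, indicator_of_notMem hx]
    rwa [h3] at h2
  have h4 : (W.indicator fun x => ENNReal.ofReal (f x)) =
      fun x => ENNReal.ofReal (W.indicator f x) := by
    ext x
    by_cases hx : x ∈ W
    · rw [indicator_of_mem hx, indicator_of_mem hx]
    · rw [indicator_of_notMem hx, indicator_of_notMem hx, ENNReal.ofReal_zero]
  rw [h4]
  exact ENNReal.measurable_ofReal.comp h1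

section mfd

variable {n : ℕ} {M : Type*} [MetricSpace M] [ChartedSpace (EuclideanSpace ℝ (Fin n)) M]
  [IsManifold (𝓡 n) ∞ M]
  [RiemannianBundle (fun p : M => TangentSpace (𝓡 n) p)]
  [IsContMDiffRiemannianBundle (𝓡 n) ∞ (EuclideanSpace ℝ (Fin n)) (fun p : M => TangentSpace (𝓡 n) p)]
  [IsRiemannianManifold (𝓡 n) M] [ProperSpace M]
  [MeasurableSpace M] [BorelSpace M] {κ : ℝ} {μ : Measure M} [Nonempty M]

local notation "𝔼" => EuclideanSpace ℝ (Fin n)

/-- gradient bound on a ball gives a Lipschitz bound with respect to the centre. -/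
theorem lip_of_grad [μ.IsOpenPosMeasure] (hm : ExM M) (C : Rad n κ M μ) {w : M → ℝ} {p : M}
    {r Λ : ℝ} (hw : ∀ x ∈ ball p r, MDifferentiableAt (𝓡 n) 𝓘(ℝ, ℝ) w x) (hΛ : 0 ≤ Λ)
    (hg : ∀ x ∈ ball p r, mGam n w w x ≤ Λ ^ 2) {y : M} (hy : y ∈ ball p r) :
    |w y - w p| ≤ Λ * dist y p := by
  by_contra hcon
  push Not at hcon
  have hae : ∀ᵐ q ∂μ, q ∈ ball p r → |w q - w p| ≤ Λ * dist q p := by
    filter_upwards [C.ae_U p] with q hU hq
    have hT : ∀ t ∈ Icc (0 : ℝ) 1, C.T p t q ∈ ball p r := by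
      intro t ht
      rw [mem_ball] at hq ⊢
      have h3 := C.dist_T p q hU 0 ⟨le_rfl, zero_le_one⟩ t ht
      rw [C.T_zero p q hU, zero_sub, abs_neg, abs_of_nonneg ht.1] at h3
      rw [dist_comm, h3]
      have h5 : t * dist p q ≤ 1 * dist p q := mul_le_mul_of_nonneg_right ht.2 dist_nonneg
      rw [dist_comm q p] at hq
      linarith
    have h1 := ftc_pt (n := n) hm C hU (w := w) (fun t ht => hw _ (hT t ht))
    have h2 : ∫⁻ t in Icc (0 : ℝ) 1, ENNReal.ofReal ‖Gr (n := n) w (C.T p t q)‖ ≤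
        ENNReal.ofReal Λ := by
      calc ∫⁻ t in Icc (0 : ℝ) 1, ENNReal.ofReal ‖Gr (n := n) w (C.T p t q)‖
          ≤ ∫⁻ _ in Icc (0 : ℝ) 1, ENNReal.ofReal Λ := by
            refine lintegral_mono_ae ?_
            filter_upwards [ae_restrict_mem measurableSet_Icc] with t ht
            apply ENNReal.ofReal_le_ofReal
            have h3 := hg _ (hT t ht)
            rw [← inner_Gr_mGam, real_inner_self_eq_norm_sq] at h3
            exact abs_le_of_sq_le_sq' h3 hΛ |>.2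
        _ = ENNReal.ofReal Λ := by simp
    have h3 : ENNReal.ofReal |w q - w p| ≤ ENNReal.ofReal (dist p q * Λ) := by
      rw [ENNReal.ofReal_mul dist_nonneg]
      exact h1.trans (mul_le_mul_right h2 _)
    have h4 := (ENNReal.ofReal_le_ofReal_iff (by positivity)).1 h3
    rw [dist_comm q p, mul_comm]
    exact h4
  have hev : ∀ᶠ q in 𝓝 y, q ∈ ball p r ∧ Λ * dist q p < |w q - w p| := by
    have hc : ContinuousAt w y := (hw y hy).continuousAt
    have h1 : ContinuousAt (fun q => |w q - w p| - Λ * dist q p) y :=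
      ((hc.sub continuousAt_const).abs).sub
        (continuousAt_const.mul ((continuous_id.dist continuous_const).continuousAt))
    have h2 : ∀ᶠ q in 𝓝 y, 0 < |w q - w p| - Λ * dist q p :=
      h1.eventually (lt_mem_nhds (by linarith))
    filter_upwards [h2, isOpen_ball.mem_nhds hy] with q hq1 hq2 using ⟨hq2, by linarith⟩
  obtain ⟨O, hO1, hO2, hO3⟩ := _root_.eventually_nhds_iff.1 hev
  have hpos : μ O ≠ 0 := (hO2.measure_pos μ ⟨y, hO3⟩).ne'
  apply hpos
  refine measure_mono_null ?_ hae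
  intro q hq
  rw [mem_compl_iff, mem_ofPred_eq]
  intro h
  have := hO1 q hq
  exact absurd (h this.1) (not_le.2 this.2)

theorem lip_bv [μ.IsOpenPosMeasure] (hm : ExM M) (C : Rad n κ M μ) (B : Matrix (Fin n) (Fin n) ℝ)
    {u : Fin n → M → ℝ} {p : M}
    {r Λ : ℝ} (hw : ∀ a, ∀ x ∈ ball p r, MDifferentiableAt (𝓡 n) 𝓘(ℝ, ℝ) (u a) x) (hΛ : 0 ≤ Λ)
    (hg : ∀ a, ∀ x ∈ ball p r, mGam n (u a) (u a) x ≤ Λ ^ 2) {y : M} (hy : y ∈ ball p r) :
    ‖bv B u y - bv B u p‖ ≤ nB B * n * Λ * dist y p := by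
  have h1 : bv B u y - bv B u p = WithLp.toLp 2 fun a => ∑ b, B a b * (u b y - u b p) := by
    ext a
    simp only [bv, PiLp.sub_apply]
    rw [← Finset.sum_sub_distrib]
    refine Finset.sum_congr rfl fun b _ => ?_
    ring
  rw [h1]
  refine (norm_mul_le B fun b => u b y - u b p).trans ?_
  have h2 : ∑ b, |u b y - u b p| ≤ ∑ _b : Fin n, Λ * dist y p :=
    Finset.sum_le_sum fun b _ => lip_of_grad hm C (hw b) hΛ (hg b) hy
  rw [Finset.sum_const, Finset.card_univ, Fintype.card_fin, nsmul_eq_mul] at h2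
  calc nB B * ∑ b, |u b y - u b p| ≤ nB B * (n * (Λ * dist y p)) :=
        mul_le_mul_of_nonneg_left h2 (nB_nonneg B)
    _ = _ := by ring

end mfd

section final

universe u

variable {n : ℕ} {M : Type u} [MetricSpace M] [CompleteSpace M] [ConnectedSpace M]
  [ChartedSpace (EuclideanSpace ℝ (Fin n)) M]
  [IsManifold 𝓘(ℝ, EuclideanSpace ℝ (Fin n)) ∞ M]
  [RiemannianBundle (fun x : M => TangentSpace 𝓘(ℝ, EuclideanSpace ℝ (Fin n)) x)]
  [IsContMDiffRiemannianBundle 𝓘(ℝ, EuclideanSpace ℝ (Fin n)) ∞ (EuclideanSpace ℝ (Fin n))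
    (fun x : M => TangentSpace 𝓘(ℝ, EuclideanSpace ℝ (Fin n)) x)]
  [IsRiemannianManifold 𝓘(ℝ, EuclideanSpace ℝ (Fin n)) M]
  [MeasurableSpace M] [BorelSpace M]

/-- the deviation of the Gram matrix from a constant matrix -/
def gdev (A : Matrix (Fin n) (Fin n) ℝ) (u : Fin n → M → ℝ) (x : M) : ℝ :=
  ∑ a, ∑ b, |mGam n (u a) (u b) x - A a b|

/-- the sum of the norms of the Hessians -/
def hsum (u : Fin n → M → ℝ) (x : M) : ℝ := ∑ a, Real.sqrt (mHessSq n (u a) x)

theorem gdev_nonneg (A : Matrix (Fin n) (Fin n) ℝ) (u : Fin n → M → ℝ) (x : M) : 0 ≤ gdev A u x :=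
  Finset.sum_nonneg fun a _ => Finset.sum_nonneg fun b _ => abs_nonneg _

theorem hsum_nonneg (u : Fin n → M → ℝ) (x : M) : 0 ≤ hsum u x :=
  Finset.sum_nonneg fun a _ => Real.sqrt_nonneg _

theorem continuousOn_gdev (A : Matrix (Fin n) (Fin n) ℝ) {u : Fin n → M → ℝ} {W : Set M}
    (hu : ∀ a, ∀ x ∈ W, ContMDiffAt (𝓡 n) 𝓘(ℝ, ℝ) 2 (u a) x) : ContinuousOn (gdev A u) W := by
  intro x hx
  refine ContinuousAt.continuousWithinAt ?_
  unfold gdev
  refine tendsto_finsetSum _ fun a _ => tendsto_finsetSum _ fun b _ => ?_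
  have h1 : ContMDiffAt (𝓡 n) 𝓘(ℝ, ℝ) 1 (mGam n (u a) (u b)) x :=
    contMDiffAt_mGam (hu a x hx) (hu b x hx) (by norm_num) Crest.Agent.R247.Bo84.two_le_infty
  exact ((h1.continuousAt.sub continuousAt_const).abs)

theorem continuousOn_hsum {u : Fin n → M → ℝ} {W : Set M}
    (hu : ∀ a, ∀ x ∈ W, ContMDiffAt (𝓡 n) 𝓘(ℝ, ℝ) 2 (u a) x) : ContinuousOn (hsum u) W := by
  intro x hx
  refine ContinuousAt.continuousWithinAt ?_
  unfold hsum
  refine tendsto_finsetSum _ fun a _ => ?_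
  exact (Real.continuous_sqrt.continuousAt.comp (Bs84.continuousAt_mHessSq (hu a x hx)))

/-- **the two-point estimate, general form**. -/
theorem two_M {κ : ℝ} (hκ : 0 ≤ κ) (hric : HasRicciLowerBound n M (-κ)) {z z' : M} (hzz : z ≠ z')
    {a Δ Λ : ℝ} (ha : 0 < a) (hΔ : dist z z' + 2 * a ≤ Δ) (hΛ : 0 ≤ Λ)
    {W : Set M} (hWo : IsOpen W) (hWz : ball z a ⊆ W) (hWz' : ball z' a ⊆ W)
    (hWm : ∀ p ∈ ball z a, ∀ q ∈ ball z' a, ∀ m, dist p m + dist m q = dist p q → m ∈ W)
    {A B : Matrix (Fin n) (Fin n) ℝ} (hBA : B * A * B.transpose = 1) {u : Fin n → M → ℝ}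
    (hu : ∀ b, ∀ x ∈ W, ContMDiffAt (𝓡 n) 𝓘(ℝ, ℝ) 2 (u b) x)
    (hg : ∀ b, ∀ x ∈ W, mGam n (u b) (u b) x ≤ Λ ^ 2) :
    ENNReal.ofReal |‖bv B u z' - bv B u z‖ - dist z z'| ≤
      ENNReal.ofReal ((2 * (nB B * n * Λ) + 2) * a) +
      ENNReal.ofReal Δ * ((μHE[n] (ball z a))⁻¹ *
          ∫⁻ x in ball z a, ENNReal.ofReal (nB B ^ 2 * gdev A u x) ∂μHE[n] +
        ENNReal.ofReal Δ * (ENNReal.ofReal (Real.exp (κ * Δ ^ 2 / 2) * 2 ^ n) *
            ((μHE[n] (ball z a))⁻¹ + (μHE[n] (ball z' a))⁻¹) *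
              ∫⁻ x in W, ENNReal.ofReal (nB B * hsum u x) ∂μHE[n])) := by
  have := HR216.properSpace_of_riemannian n M
  have := GluM923.isLocallyFinite n M
  have := Ms322.isOpenPosMeasure n M
  have : Nonempty M := ⟨z⟩
  have : Nontrivial M := ⟨z, z', hzz⟩
  have hm := Bgr546.exM_of_riemannian n M
  obtain ⟨C⟩ := Bgr546.rad_all n κ hκ M hric
  have hfin : ∀ (x : M) r, (μHE[n] : Measure M) (ball x r) ≠ ⊤ := fun x r =>
    (GluM923.ball_lt_top n M x r).ne
  have hpos : ∀ (x : M) (r : ℝ), 0 < r → (μHE[n] : Measure M) (ball x r) ≠ 0 := fun x r hr =>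
    (measure_ball_pos _ _ hr).ne'
  have hTW : ∀ x ∈ ball z a, ∀ y ∈ ball z' a, (x, y) ∈ C.U → ∀ t ∈ Icc (0 : ℝ) 1,
      C.T x t y ∈ W := by
    intro x hx y hy hU t ht
    refine hWm x hx y hy _ ?_
    have h1 := C.dist_T x y hU 0 ⟨le_rfl, zero_le_one⟩ t ht
    have h2 := C.dist_T x y hU t ht 1 ⟨zero_le_one, le_rfl⟩
    rw [C.T_zero x y hU, zero_sub, abs_neg, abs_of_nonneg ht.1] at h1
    rw [C.T_one x y hU, abs_sub_comm, abs_of_nonneg (by linarith [ht.2])] at h2
    rw [h1, h2]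
    ring
  set D : M → ℝ≥0∞ := W.indicator fun x => ENNReal.ofReal (nB B ^ 2 * gdev A u x) with hDdef
  set H : M → ℝ≥0∞ := W.indicator fun x => ENNReal.ofReal (nB B * hsum u x) with hHdef
  have hD : Measurable D :=
    measurable_ind hWo (continuousOn_const.mul (continuousOn_gdev A hu))
  have hH : Measurable H :=
    measurable_ind hWo (continuousOn_const.mul (continuousOn_hsum hu))
  have hmd : ∀ b, ∀ x ∈ W, MDifferentiableAt (𝓡 n) 𝓘(ℝ, ℝ) (u b) x := fun b x hx =>
    (hu b x hx).mdifferentiableAt (by norm_num)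
  have hΛ' : 0 ≤ nB B * n * Λ := mul_nonneg (mul_nonneg (nB_nonneg B) (Nat.cast_nonneg n)) hΛ
  have key := two_point_gen C hκ hfin hpos (U := bv B u) ha hΔ hΛ'
    (fun x hx => lip_bv hm C B (fun b x hx => hmd b x (hWz hx)) hΛ
      (fun b x hx => hg b x (hWz hx)) hx)
    (fun x hx => lip_bv hm C B (fun b x hx => hmd b x (hWz' hx)) hΛ
      (fun b x hx => hg b x (hWz' hx)) hx)
    hWo.measurableSet hTW hD hH
    (fun x hx => by
      filter_upwards [ae_SC C hκ hm x] with y hSC hy hU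
      exact pt_pair_B hm C hBA (W := W) hu
        (fun p hp => by rw [hDdef, indicator_of_mem hp]; exact le_rfl)
        (fun p hp => by rw [hHdef, indicator_of_mem hp]; exact le_rfl) hU (hTW x hx y hy hU) hSC)
  have e1 : ∫⁻ x in ball z a, D x ∂μHE[n] =
      ∫⁻ x in ball z a, ENNReal.ofReal (nB B ^ 2 * gdev A u x) ∂μHE[n] := by
    refine setLIntegral_congr_fun measurableSet_ball fun x hx => ?_
    rw [hDdef, indicator_of_mem (hWz hx)]
  have e2 : ∫⁻ x in W, H x ∂μHE[n] =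
      ∫⁻ x in W, ENNReal.ofReal (nB B * hsum u x) ∂μHE[n] := by
    refine setLIntegral_congr_fun hWo.measurableSet fun x hx => ?_
    rw [hHdef, indicator_of_mem hx]
  rwa [e1, e2] at key

/-- **the two-point estimate** (leaf TWO): `W = ball z (4 d)`, averages over `W`. -/
theorem two_point_M {κ : ℝ} (hκ : 0 ≤ κ) (hric : HasRicciLowerBound n M (-κ)) {z z' : M}
    {a Λ : ℝ} (ha : 0 < a) (ha4 : a ≤ dist z z' / 4) (hκd : κ * (5 * dist z z') ^ 2 ≤ 2)
    (hΛ : 0 ≤ Λ)
    {A B : Matrix (Fin n) (Fin n) ℝ} (hBA : B * A * B.transpose = 1) {u : Fin n → M → ℝ}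
    (hu : ∀ b, ∀ x ∈ ball z (4 * dist z z'), ContMDiffAt (𝓡 n) 𝓘(ℝ, ℝ) 2 (u b) x)
    (hg : ∀ b, ∀ x ∈ ball z (4 * dist z z'), mGam n (u b) (u b) x ≤ Λ ^ 2) :
    ENNReal.ofReal |‖bv B u z' - bv B u z‖ - dist z z'| ≤
      ENNReal.ofReal ((2 * (nB B * n * Λ) + 2) * a) +
      ENNReal.ofReal (72 * dist z z' * (10 * dist z z' / a) ^ n) *
        ((μHE[n] (ball z (4 * dist z z')))⁻¹ *
            ∫⁻ x in ball z (4 * dist z z'), ENNReal.ofReal (nB B ^ 2 * gdev A u x) ∂μHE[n] +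
          ENNReal.ofReal (dist z z') * ((μHE[n] (ball z (4 * dist z z')))⁻¹ *
              ∫⁻ x in ball z (4 * dist z z'), ENNReal.ofReal (nB B * hsum u x) ∂μHE[n])) := by
  have hd0 : 0 < dist z z' := by linarith
  have hzz : z ≠ z' := dist_pos.1 hd0
  have := HR216.properSpace_of_riemannian n M
  have := GluM923.isLocallyFinite n M
  have := Ms322.isOpenPosMeasure n M
  have : Nonempty M := ⟨z⟩
  have : Nontrivial M := ⟨z, z', hzz⟩
  have hm := Bgr546.exM_of_riemannian n M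
  obtain ⟨C⟩ := Bgr546.rad_all n κ hκ M hric
  have hfin : ∀ (x : M) r, (μHE[n] : Measure M) (ball x r) ≠ ⊤ := fun x r =>
    (GluM923.ball_lt_top n M x r).ne
  have hpos : ∀ (x : M) (r : ℝ), 0 < r → (μHE[n] : Measure M) (ball x r) ≠ 0 := fun x r hr =>
    (measure_ball_pos _ _ hr).ne'
  set W : Set M := ball z (4 * dist z z') with hW
  have hWo : IsOpen W := isOpen_ball
  have hWz : ball z a ⊆ W := ball_subset_ball (by linarith)
  have hWz' : ball z' a ⊆ W := by
    intro x hx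
    rw [hW, mem_ball]
    rw [mem_ball] at hx
    have := dist_triangle x z' z
    rw [dist_comm z' z] at this
    linarith
  set D : M → ℝ≥0∞ := W.indicator fun x => ENNReal.ofReal (nB B ^ 2 * gdev A u x) with hDdef
  set H : M → ℝ≥0∞ := W.indicator fun x => ENNReal.ofReal (nB B * hsum u x) with hHdef
  have hD : Measurable D :=
    measurable_ind hWo (continuousOn_const.mul (continuousOn_gdev A hu))
  have hH : Measurable H :=
    measurable_ind hWo (continuousOn_const.mul (continuousOn_hsum hu))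
  have hmd : ∀ b, ∀ x ∈ W, MDifferentiableAt (𝓡 n) 𝓘(ℝ, ℝ) (u b) x := fun b x hx =>
    (hu b x hx).mdifferentiableAt (by norm_num)
  have hΛ' : 0 ≤ nB B * n * Λ := mul_nonneg (mul_nonneg (nB_nonneg B) (Nat.cast_nonneg n)) hΛ
  have key := two_point C hκ hfin hpos (U := bv B u) ha ha4 hκd hΛ'
    (fun x hx => lip_bv hm C B (fun b x hx => hmd b x (hWz hx)) hΛ
      (fun b x hx => hg b x (hWz hx)) hx)
    (fun x hx => lip_bv hm C B (fun b x hx => hmd b x (hWz' hx)) hΛ
      (fun b x hx => hg b x (hWz' hx)) hx)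
    hD hH
    (fun x hx => by
      filter_upwards [ae_SC C hκ hm x] with y hSC hy hU
      exact pt_pair_B hm C hBA (W := W) hu
        (fun p hp => by rw [hDdef, indicator_of_mem hp]; exact le_rfl)
        (fun p hp => by rw [hHdef, indicator_of_mem hp]; exact le_rfl) hU
        (fun t ht => T_mem C ha4 hx hy hU ht) hSC)
  have e1 : ∫⁻ x in W, D x ∂μHE[n] =
      ∫⁻ x in W, ENNReal.ofReal (nB B ^ 2 * gdev A u x) ∂μHE[n] := by
    refine setLIntegral_congr_fun hWo.measurableSet fun x hx => ?_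
    rw [hDdef, indicator_of_mem hx]
  have e2 : ∫⁻ x in W, H x ∂μHE[n] =
      ∫⁻ x in W, ENNReal.ofReal (nB B * hsum u x) ∂μHE[n] := by
    refine setLIntegral_congr_fun hWo.measurableSet fun x hx => ?_
    rw [hHdef, indicator_of_mem hx]
  rwa [e1, e2] at key

end final

end Crest.Agent.R249.Two709
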