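import Crest.Agent.R249.WH1_509
import Crest.Agent.R249.AsmD_832
import Crest.Agent.R249.Ul4_174
import Crest.Agent.R247.Ar4_659

/-!
# R249, D3-LIM/WH (2) (helper509): weak harmonicity in the limit charts

`Link` : data of a limit chart (harmonic maps `U k` converging to the chart `e`, convergence of the
Gram matrices and of the push-forward measures, = output (O1), (O4)-(O6) of helper174's L-H).
* `Link.harmChart` : `HarmChart n e`;
* `Link.coord`     : `∫ Σᵢ ∂ᵢφ Gⁱʲ J = 0`;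
* `Link.wh`        : limits `f` of harmonic functions satisfy `∫ f(e.symm z) Σᵢⱼ Gⁱʲ ∂ᵢ∂ⱼφ J = 0`;
* `Link.coordHarm`, `Link.WH` : the same for an `RChart` with `G = h⁻¹`, `J = √det h`.
-/

set_option autoImplicit false
set_option maxSynthPendingDepth 3
set_option linter.unusedSectionVars false

open Bundle Set MeasureTheory Manifold Filter Metric Topology
open scoped ENNReal ContDiff Topology NNReal RealInnerProductSpace
open Crest.GeometryTopology.CoordMetric Crest.GeometryTopology.ChartCurvature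
open Crest.GeometryTopology.PointedLimit
open Crest.Agent.R247 Crest.Agent.R247.Ms322 Crest.Agent.R247.Bo84
open Crest.Agent.R249.Vf281 Crest.Agent.R247.Bs84 Crest.Agent.R249.Ul174
open Crest.Agent.R249.AsmD832 Crest.Agent.R249.Len47

noncomputable section
namespace Crest.Agent.R249.WH_509

universe u

variable {n : ℕ} {M : ℕ → Type u} [∀ k, MetricSpace (M k)]
  [∀ k, ChartedSpace (EuclideanSpace ℝ (Fin n)) (M k)]
  [∀ k, IsManifold 𝓘(ℝ, EuclideanSpace ℝ (Fin n)) ∞ (M k)]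
  [∀ k, RiemannianBundle (fun x : M k => TangentSpace 𝓘(ℝ, EuclideanSpace ℝ (Fin n)) x)]
  [∀ k, IsContMDiffRiemannianBundle 𝓘(ℝ, EuclideanSpace ℝ (Fin n)) ∞ (EuclideanSpace ℝ (Fin n))
    (fun x : M k => TangentSpace 𝓘(ℝ, EuclideanSpace ℝ (Fin n)) x)]
  [∀ k, MeasurableSpace (M k)]

local notation "𝔼" => EuclideanSpace ℝ (Fin n)

/-- Data of a limit chart. -/
structure Link {q : ∀ k, M k} (x : ∀ k, M k) (hx : Bd q x) (s₀ : ℝ) (U : ∀ k, M k → 𝔼)
    (e : OpenPartialHomeomorph (UL q) 𝔼) (G : 𝔼 → Fin n → Fin n → ℝ) (J : 𝔼 → ℝ)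
    [∀ k, BorelSpace (M k)] : Prop where
  harm : ∀ a, HarmSeq n x s₀ (fun k y => U k y a)
  lim : ∀ a, LimOn (ball (UL.mk x hx) s₀) (fun k y => U k y a) (fun z => e z a)
  sub : e.source ⊆ ball (UL.mk x hx) s₀
  inj : ∀ z ∈ ball (UL.mk x hx) s₀, e z ∈ e.target → z ∈ e.source
  supp : ∀ K : Set 𝔼, IsCompact K → K ⊆ e.target → ∃ s₁ : ℝ, s₁ < s₀ ∧
    ∀ᶠ k in om, ∀ y ∈ ball (x k) s₀, U k y ∈ K → dist (x k) y ≤ s₁
  contG : ∀ a b, ContinuousOn (fun w => G w a b) e.target
  contJ : ContinuousOn J e.target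
  meas : ∀ φ : 𝔼 → ℝ, Continuous φ → HasCompactSupport φ → tsupport φ ⊆ e.target →
    Tendsto (fun k => ∫ y in ball (x k) s₀, φ (U k y) ∂(μHE[n] : Measure (M k))) om
      (𝓝 (∫ w, φ w * J w))
  gram : ∀ φ : 𝔼 → ℝ, Continuous φ → HasCompactSupport φ → tsupport φ ⊆ e.target → ∀ a b,
    Tendsto (fun k => ∫ y in ball (x k) s₀, |φ (U k y)| *
      |mGam n (fun z => U k z a) (fun z => U k z b) y - G (U k y) a b| ∂(μHE[n] : Measure (M k)))
      om (𝓝 0)

section Aux

variable {X : Type*} [MetricSpace X] [ProperSpace X] [MeasurableSpace X] [BorelSpace X]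
  {μ : Measure X} [IsFiniteMeasureOnCompacts μ]

theorem integrableOn_ball_of_bdd {f : X → ℝ} {x : X} {s C : ℝ} (hf : ContinuousOn f (ball x s))
    (hC : ∀ y ∈ ball x s, |f y| ≤ C) : IntegrableOn f (ball x s) μ := by
  have h1 : μ (ball x s) < ⊤ :=
    (measure_mono ball_subset_closedBall).trans_lt
      (isCompact_closedBall x s).measure_lt_top
  have : IsFiniteMeasure (μ.restrict (ball x s)) := ⟨by rwa [Measure.restrict_apply_univ]⟩
  refine Integrable.of_bound (hf.aestronglyMeasurable isOpen_ball.measurableSet) C ?_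
  exact (ae_restrict_mem isOpen_ball.measurableSet).mono fun y hy => hC y hy

end Aux

/-- a continuous function multiplied by a compactly supported one, both on an open set. -/
theorem continuous_mul_of_tsupport {E : Type*} [TopologicalSpace E] {ψ g : E → ℝ} {V : Set E}
    (hV : IsOpen V) (hψ : Continuous ψ) (hs : tsupport ψ ⊆ V) (hg : ContinuousOn g V) :
    Continuous fun w => g w * ψ w := by
  rw [continuous_iff_continuousAt]
  intro w
  by_cases hw : w ∈ tsupport ψ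
  · exact (hg.continuousAt (hV.mem_nhds (hs hw))).mul hψ.continuousAt
  · have h1 : (fun w => g w * ψ w) =ᶠ[𝓝 w] fun _ => (0:ℝ) := by
      filter_upwards [notMem_tsupport_iff_eventuallyEq.1 hw] with y hy
      rw [hy, Pi.zero_apply, mul_zero]
    rw [continuousAt_congr h1]
    exact continuousAt_const

/-- a continuous function on a compact support is bounded. -/
theorem exists_bound_of_compact {E : Type*} [TopologicalSpace E] {ψ : E → ℝ}
    (hψ : Continuous ψ) (hc : HasCompactSupport ψ) : ∃ C : ℝ, 0 ≤ C ∧ ∀ w, |ψ w| ≤ C := by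
  obtain ⟨C, hC⟩ := hψ.bounded_above_of_compact_support hc
  exact ⟨max C 0, le_max_right _ _, fun w => (hC w).trans (le_max_left _ _)⟩

section One

variable {N : Type*} [MetricSpace N] [ChartedSpace (EuclideanSpace ℝ (Fin n)) N]
  [IsManifold 𝓘(ℝ, EuclideanSpace ℝ (Fin n)) ∞ N]
  [RiemannianBundle (fun x : N => TangentSpace 𝓘(ℝ, EuclideanSpace ℝ (Fin n)) x)]
  [IsContMDiffRiemannianBundle 𝓘(ℝ, EuclideanSpace ℝ (Fin n)) ∞ (EuclideanSpace ℝ (Fin n))
    (fun x : N => TangentSpace 𝓘(ℝ, EuclideanSpace ℝ (Fin n)) x)]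

variable {u : N → EuclideanSpace ℝ (Fin n)} {w : N → ℝ} {x : N} {s : ℝ}

theorem smoothAt (hw : ContMDiffOn 𝓘(ℝ, 𝔼) 𝓘(ℝ, ℝ) ∞ w (ball x s)) {y : N} (hy : y ∈ ball x s) :
    ContMDiffAt 𝓘(ℝ, 𝔼) 𝓘(ℝ, ℝ) ∞ w y := hw.contMDiffAt (isOpen_ball.mem_nhds hy)

theorem contU (hu : ∀ a, ContMDiffOn 𝓘(ℝ, 𝔼) 𝓘(ℝ, ℝ) ∞ (fun y => u y a) (ball x s)) :
    ContinuousOn u (ball x s) := by
  have h2 : ContinuousOn (fun q => (WithLp.ofLp (u q) : Fin n → ℝ)) (ball x s) :=
    continuousOn_pi.2 fun a => (hu a).continuousOn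
  exact (PiLp.continuous_toLp 2 _).comp_continuousOn h2

theorem contF (hu : ∀ a, ContMDiffOn 𝓘(ℝ, 𝔼) 𝓘(ℝ, ℝ) ∞ (fun y => u y a) (ball x s))
    (a b : Fin n) :
    ContinuousOn (fun y => mGam n (fun z => u z a) (fun z => u z b) y) (ball x s) := by
  intro y hy
  have h1 : ContMDiffAt 𝓘(ℝ, 𝔼) 𝓘(ℝ, ℝ) 1 (mGam n (fun z => u z a) (fun z => u z b)) y :=
    contMDiffAt_mGam (smoothAt (hu a) hy) (smoothAt (hu b) hy) (by norm_num; exact two_le_infty) le_rfl
  exact h1.continuousAt.continuousWithinAt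

theorem absF (hu : ∀ a, ∀ y ∈ ball x s, mGam n (fun z => u z a) (fun z => u z a) y ≤ 4)
    (a b : Fin n) {y : N} (hy : y ∈ ball x s) :
    |mGam n (fun z => u z a) (fun z => u z b) y| ≤ 4 := by
  have h1 := hu a y hy
  have h2 := hu b y hy
  rw [mGam_self] at h1 h2
  rw [mGam_eq_inner]
  refine (abs_real_inner_le_norm _ _).trans ?_
  nlinarith [sq_nonneg (‖mgrad n (fun z => u z a) y‖ - ‖mgrad n (fun z => u z b) y‖)]

end One

/-! ### sequences -/

/-- a property of points fails eventually uniformly if it fails along every sequence. -/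
theorem ev_forall_not {X : ℕ → Type*} [∀ k, Nonempty (X k)] {P : ∀ k, X k → Prop}
    (h : ∀ z : ∀ k, X k, ¬ ∀ᶠ k in om, P k (z k)) : ∀ᶠ k in om, ∀ z, ¬ P k z := by
  classical
  rcases ev_or_not (fun k => ∀ z, ¬ P k z) with h1 | h1
  · exact h1
  · exfalso
    have h2 : ∀ k, ∃ z : X k, (¬ ∀ z, ¬ P k z) → P k z := by
      intro k
      by_cases hk : ∀ z, ¬ P k z
      · exact ⟨Classical.arbitrary _, fun h => absurd hk h⟩
      · push Not at hk
        obtain ⟨z, hz⟩ := hk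
        exact ⟨z, fun _ => hz⟩
    choose z hz using h2
    exact h z (h1.mono fun k hk => hz k hk)

section Seq

variable [∀ k, BorelSpace (M k)] {q : ∀ k, M k} {x : ∀ k, M k} {hx : Bd q x} {s₀ : ℝ}
  {U : ∀ k, M k → EuclideanSpace ℝ (Fin n)}
  {e : OpenPartialHomeomorph (UL q) (EuclideanSpace ℝ (Fin n))}
  {G : EuclideanSpace ℝ (Fin n) → Fin n → Fin n → ℝ} {J : EuclideanSpace ℝ (Fin n) → ℝ}

theorem bd_of_ball {y z : ∀ k, M k} (hy : Bd q y) {s : ℝ} (h : ∀ᶠ k in om, z k ∈ ball (y k) s) :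
    Bd q z := by
  refine hy.trans (C := s) (h.mono fun k hk => ?_)
  rw [mem_ball, dist_comm] at hk
  exact hk.le

theorem Link.tendsto (L : Link x hx s₀ U e G J) {z : ∀ k, M k} (hz : Bd q z)
    (h : UL.mk z hz ∈ ball (UL.mk x hx) s₀) :
    Tendsto (fun k => U k (z k)) om (𝓝 (e (UL.mk z hz))) := by
  have h1 : Tendsto (fun k => (WithLp.ofLp (U k (z k)) : Fin n → ℝ)) om
      (𝓝 (WithLp.ofLp (e (UL.mk z hz)))) := tendsto_pi_nhds.2 fun a => L.lim a z hz h
  exact ((PiLp.continuous_toLp 2 _).tendsto _).comp h1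

theorem Link.harmChart (L : Link x hx s₀ U e G J) : HarmChart n e := by
  intro y hy hys
  have h1 := L.sub hys
  rw [mem_ball] at h1
  set R := (s₀ - dist (UL.mk y hy) (UL.mk x hx)) / 2 with hR
  have hR0 : 0 < R := by rw [hR]; linarith
  have h2 : ∀ᶠ k in om, dist (y k) (x k) < s₀ - R := by
    refine UL.ev_lt hy hx ?_
    rw [hR]; linarith
  refine ⟨R, hR0, fun a => ⟨fun k z => U k z a, ?_, ?_⟩⟩
  · filter_upwards [L.harm a, h2] with k hk hk2
    have hsub : ball (y k) R ⊆ ball (x k) s₀ := by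
      intro z hz
      rw [mem_ball] at hz ⊢
      have := dist_triangle z (y k) (x k)
      linarith
    exact ⟨hk.1.mono hsub, fun p hp => hk.2 p (hsub hp)⟩
  · intro z hz hzR
    refine L.lim a z hz ?_
    rw [mem_ball] at hzR ⊢
    have := dist_triangle (UL.mk z hz) (UL.mk y hy) (UL.mk x hx)
    linarith

variable [∀ k, Nonempty (M k)]

/-- the sequence argument: points mapped to a compact subset of the target. -/
theorem Link.limit_point (L : Link x hx s₀ U e G J) {K : Set (EuclideanSpace ℝ (Fin n))}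
    (hK : IsCompact K) (hKt : K ⊆ e.target) {z : ∀ k, M k}
    (hz1 : ∀ᶠ k in om, z k ∈ ball (x k) s₀ ∧ U k (z k) ∈ K) :
    ∃ hz : Bd q z, UL.mk z hz ∈ e.source ∧ e (UL.mk z hz) ∈ K ∧
      Tendsto (fun k => U k (z k)) om (𝓝 (e (UL.mk z hz))) := by
  obtain ⟨s₁, hs₁, hev⟩ := L.supp K hK hKt
  have hz : Bd q z := bd_of_ball hx (hz1.mono fun k hk => hk.1)
  have h1 : UL.mk z hz ∈ ball (UL.mk x hx) s₀ := by
    rw [mem_ball]
    refine lt_of_le_of_lt (UL.dist_le hz hx (a := s₁) ?_) hs₁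
    filter_upwards [hev, hz1] with k hk hk1
    rw [dist_comm]
    exact hk _ hk1.1 hk1.2
  have h2 := L.tendsto hz h1
  have h3 : e (UL.mk z hz) ∈ K :=
    hK.isClosed.mem_of_tendsto h2 (hz1.mono fun k hk => hk.2)
  exact ⟨hz, L.inj _ h1 (hKt h3), h3, h2⟩

theorem Link.ev_near (L : Link x hx s₀ U e G J) {K : Set (EuclideanSpace ℝ (Fin n))}
    (hK : IsCompact K) (hKt : K ⊆ e.target) {y : ∀ k, M k} (hy : Bd q y) {r : ℝ}
    (hr : ∀ w ∈ K, e.symm w ∈ ball (UL.mk y hy) r) :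
    ∀ᶠ k in om, ∀ z ∈ ball (x k) s₀, U k z ∈ K → dist (y k) z < r := by
  have h : ∀ᶠ k in om, ∀ z, ¬ ((z ∈ ball (x k) s₀ ∧ U k z ∈ K) ∧ ¬ dist (y k) z < r) := by
    refine ev_forall_not fun z hzP => ?_
    obtain ⟨hz, h1, h2, h3⟩ := L.limit_point hK hKt (hzP.mono fun k hk => hk.1)
    have h4 : UL.mk z hz ∈ ball (UL.mk y hy) r := by
      have := hr _ h2
      rwa [e.left_inv h1] at this
    have h5 : ∀ᶠ k in om, dist (z k) (y k) < r := UL.ev_lt hz hy h4
    obtain ⟨k, hk1, hk2⟩ := (hzP.and h5).exists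
    rw [dist_comm] at hk2
    exact hk1.2 hk2
  filter_upwards [h] with k hk z hz hzK
  by_contra hc
  exact hk z ⟨⟨hz, hzK⟩, hc⟩

theorem Link.ev_approx (L : Link x hx s₀ U e G J) {K : Set (EuclideanSpace ℝ (Fin n))}
    (hK : IsCompact K) (hKt : K ⊆ e.target) {y : ∀ k, M k} (hy : Bd q y) {R : ℝ}
    (hr : ∀ w ∈ K, e.symm w ∈ ball (UL.mk y hy) R) {w : ∀ k, M k → ℝ} {f : UL q → ℝ}
    (hf : LimOn (ball (UL.mk y hy) R) w f)
    (hc : ∀ v ∈ K, ContinuousAt (fun v => f (e.symm v)) v) {ε : ℝ} (hε : 0 < ε) :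
    ∀ᶠ k in om, ∀ z ∈ ball (x k) s₀, U k z ∈ K → |w k z - f (e.symm (U k z))| < ε := by
  have h : ∀ᶠ k in om, ∀ z, ¬ ((z ∈ ball (x k) s₀ ∧ U k z ∈ K) ∧
      ¬ |w k z - f (e.symm (U k z))| < ε) := by
    refine ev_forall_not fun z hzP => ?_
    obtain ⟨hz, h1, h2, h3⟩ := L.limit_point hK hKt (hzP.mono fun k hk => hk.1)
    have h4 : UL.mk z hz ∈ ball (UL.mk y hy) R := by
      have := hr _ h2
      rwa [e.left_inv h1] at this
    have h5 : Tendsto (fun k => w k (z k)) om (𝓝 (f (UL.mk z hz))) := hf z hz h4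
    have h6 : Tendsto (fun k => f (e.symm (U k (z k)))) om (𝓝 (f (UL.mk z hz))) := by
      have := (hc _ h2).tendsto.comp h3
      simp only [e.left_inv h1] at this
      exact this
    have h7 := (h5.sub h6).abs
    rw [sub_self, abs_zero] at h7
    obtain ⟨k, hk1, hk2⟩ := (hzP.and (h7.eventually_lt_const hε)).exists
    exact hk1.2 hk2
  filter_upwards [h] with k hk z hz hzK
  by_contra hc
  exact hk z ⟨⟨hz, hzK⟩, hc⟩

variable [∀ k, CompleteSpace (M k)]
  [∀ k, IsRiemannianManifold 𝓘(ℝ, EuclideanSpace ℝ (Fin n)) (M k)]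

/-- integrability of `ψ(U) F` on one manifold. -/
theorem integrable_pair {N : Type*} [MetricSpace N] [ChartedSpace (EuclideanSpace ℝ (Fin n)) N]
    [IsManifold 𝓘(ℝ, EuclideanSpace ℝ (Fin n)) ∞ N]
    [RiemannianBundle (fun x : N => TangentSpace 𝓘(ℝ, EuclideanSpace ℝ (Fin n)) x)]
    [IsContMDiffRiemannianBundle 𝓘(ℝ, EuclideanSpace ℝ (Fin n)) ∞ (EuclideanSpace ℝ (Fin n))
      (fun x : N => TangentSpace 𝓘(ℝ, EuclideanSpace ℝ (Fin n)) x)]
    [MeasurableSpace N] [BorelSpace N] [CompleteSpace N]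
    [IsRiemannianManifold 𝓘(ℝ, EuclideanSpace ℝ (Fin n)) N]
    {u : N → EuclideanSpace ℝ (Fin n)} {x : N} {s : ℝ}
    (hu : ∀ a, ContMDiffOn 𝓘(ℝ, 𝔼) 𝓘(ℝ, ℝ) ∞ (fun y => u y a) (ball x s))
    (hF : ∀ a, ∀ y ∈ ball x s, mGam n (fun z => u z a) (fun z => u z a) y ≤ 4)
    {ψ : 𝔼 → ℝ} (hψ : Continuous ψ) (hc : HasCompactSupport ψ) (a b : Fin n) :
    IntegrableOn (fun y => ψ (u y)) (ball x s) (μHE[n] : Measure N) ∧
    IntegrableOn (fun y => ψ (u y) * mGam n (fun z => u z a) (fun z => u z b) y) (ball x s)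
      (μHE[n] : Measure N) := by
  have := HR216.properSpace_of_riemannian n N
  have := Mcp688.isLocallyFinite_muHE n N
  obtain ⟨C, hC0, hC⟩ := exists_bound_of_compact hψ hc
  have hcu : ContinuousOn (fun y => ψ (u y)) (ball x s) := hψ.comp_continuousOn (contU hu)
  refine ⟨integrableOn_ball_of_bdd hcu (C := C) fun y _ => hC _,
    integrableOn_ball_of_bdd (hcu.mul (contF hu a b)) (C := C * 4) fun y hy => ?_⟩
  rw [abs_mul]
  exact mul_le_mul (hC _) (absF hF a b hy) (abs_nonneg _) hC0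

theorem Link.int_pair (L : Link x hx s₀ U e G J) {ψ : EuclideanSpace ℝ (Fin n) → ℝ}
    (hψ : Continuous ψ) (hc : HasCompactSupport ψ) (hs : tsupport ψ ⊆ e.target) (a b : Fin n) :
    Tendsto (fun k => ∫ y in ball (x k) s₀, ψ (U k y) *
      mGam n (fun z => U k z a) (fun z => U k z b) y ∂(μHE[n] : Measure (M k))) om
      (𝓝 (∫ w, G w a b * ψ w * J w)) := by
  have hψG : Continuous fun w => G w a b * ψ w :=
    continuous_mul_of_tsupport e.open_target hψ hs (L.contG a b)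
  have hcG : HasCompactSupport fun w => G w a b * ψ w := hc.mul_left
  have hsG : tsupport (fun w => G w a b * ψ w) ⊆ e.target :=
    (tsupport_mul_subset_right).trans hs
  have h1 := L.meas _ hψG hcG hsG
  have h2 := L.gram ψ hψ hc hs a b
  have h3 : Tendsto (fun k => (∫ y in ball (x k) s₀, ψ (U k y) *
      mGam n (fun z => U k z a) (fun z => U k z b) y ∂(μHE[n] : Measure (M k))) -
      ∫ y in ball (x k) s₀, G (U k y) a b * ψ (U k y) ∂(μHE[n] : Measure (M k))) om (𝓝 0) := by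
    refine squeeze_zero_norm' ?_ h2
    filter_upwards [eventually_all.2 L.harm] with k hk
    obtain ⟨-, i1⟩ := integrable_pair (fun a => (hk a).1) (fun a y hy => ((hk a).2 y hy).2) hψ hc
      a b
    obtain ⟨i2, -⟩ := integrable_pair (fun a => (hk a).1) (fun a y hy => ((hk a).2 y hy).2) hψG hcG
      a b
    rw [← integral_sub i1 i2]
    refine (norm_integral_le_integral_norm _).trans (le_of_eq ?_)
    refine integral_congr_ae (Eventually.of_forall fun y => ?_)
    simp only [Real.norm_eq_abs]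
    rw [← abs_mul]
    congr 1
    ring
  have h4 := h3.add h1
  simpa using h4

theorem tendsto_of_sum {ι : Type*} (t : Finset ι) {f : ι → ℕ → ℝ} {l : ι → ℝ}
    (h : ∀ i ∈ t, Tendsto (f i) om (𝓝 (l i))) :
    Tendsto (fun k => ∑ i ∈ t, f i k) om (𝓝 (∑ i ∈ t, l i)) := tendsto_finsetSum t h

/-- convergence of `∫ Σ ψᵢⱼ(U) Fᵢⱼ`. -/
theorem Link.int_sum (L : Link x hx s₀ U e G J) {ψ : Fin n → Fin n → EuclideanSpace ℝ (Fin n) → ℝ}
    (hψ : ∀ i j, Continuous (ψ i j)) (hc : ∀ i j, HasCompactSupport (ψ i j))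
    (hs : ∀ i j, tsupport (ψ i j) ⊆ e.target) :
    Tendsto (fun k => ∫ y in ball (x k) s₀, ∑ i, ∑ j, ψ i j (U k y) *
      mGam n (fun z => U k z i) (fun z => U k z j) y ∂(μHE[n] : Measure (M k))) om
      (𝓝 (∑ i, ∑ j, ∫ w, G w i j * ψ i j w * J w)) := by
  have h1 := tendsto_of_sum Finset.univ (fun i _ => tendsto_of_sum Finset.univ (fun j _ =>
    L.int_pair (hψ i j) (hc i j) (hs i j) i j))
  refine h1.congr' ?_
  filter_upwards [eventually_all.2 L.harm] with k hk
  have hi := fun i j => (integrable_pair (fun a => (hk a).1) (fun a y hy => ((hk a).2 y hy).2)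
    (hψ i j) (hc i j) i j).2
  rw [integral_finsetSum _ fun i _ => integrable_finsetSum _ fun j _ => hi i j]
  refine Finset.sum_congr rfl fun i _ => ?_
  rw [integral_finsetSum _ fun j _ => hi i j]

omit [∀ k, MetricSpace (M k)] in
theorem cd_pderiv {φ : EuclideanSpace ℝ (Fin n) → ℝ} (hφ : ContDiff ℝ ∞ φ) (i : Fin n) :
    ContDiff ℝ ∞ (pderiv i φ) :=
  contDiff_iff_contDiffAt.2 fun w => contDiffAt_pderiv hφ.contDiffAt (by simp) i

theorem tsupport_pd {φ : EuclideanSpace ℝ (Fin n) → ℝ} (i : Fin n) :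
    tsupport (pderiv i φ) ⊆ tsupport φ :=
  closure_minimal (fun w hw => by
    by_contra h
    exact hw (pderiv_eq_zero h i)) (isClosed_tsupport φ)

theorem tsupport_pd2 {φ : EuclideanSpace ℝ (Fin n) → ℝ} (i j : Fin n) :
    tsupport (pderiv i (pderiv j φ)) ⊆ tsupport φ := (tsupport_pd i).trans (tsupport_pd j)

theorem hcs_of_subset {E : Type*} [TopologicalSpace E] {ψ φ : E → ℝ} (hc : HasCompactSupport φ)
    (h : tsupport ψ ⊆ tsupport φ) : HasCompactSupport ψ :=
  hc.isCompact.of_isClosed_subset (isClosed_tsupport _) h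

theorem Link.integrable_pair (L : Link x hx s₀ U e G J) {ψ : EuclideanSpace ℝ (Fin n) → ℝ}
    (hψ : Continuous ψ) (hc : HasCompactSupport ψ) (hs : tsupport ψ ⊆ e.target) (a b : Fin n) :
    Integrable (fun w => G w a b * ψ w * J w) := by
  have h1 : Continuous fun w => G w a b * ψ w :=
    continuous_mul_of_tsupport e.open_target hψ hs (L.contG a b)
  have h2 : Continuous fun w => J w * (G w a b * ψ w) :=
    continuous_mul_of_tsupport e.open_target h1 ((tsupport_mul_subset_right).trans hs) L.contJ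
  have h3 : HasCompactSupport fun w => J w * (G w a b * ψ w) := (hc.mul_left).mul_left
  refine (h2.integrable_of_hasCompactSupport h3).congr (Eventually.of_forall fun w => ?_)
  simp only
  ring

variable [∀ k, ConnectedSpace (M k)]

/-- **the coordinates are weakly harmonic.** -/
theorem Link.coord (L : Link x hx s₀ U e G J) (j : Fin n) {φ : EuclideanSpace ℝ (Fin n) → ℝ}
    (hφ : ContDiff ℝ ∞ φ) (hc : HasCompactSupport φ) (hs : tsupport φ ⊆ e.target) :
    ∫ z, (∑ i, pderiv i φ z * G z i j) * J z = 0 := by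
  have hψ : ∀ i, Continuous (pderiv i φ) := fun i => (cd_pderiv hφ i).continuous
  have hψc : ∀ i, HasCompactSupport (pderiv i φ) := fun i => hcs_of_subset hc (tsupport_pd i)
  have hψs : ∀ i, tsupport (pderiv i φ) ⊆ e.target := fun i => (tsupport_pd i).trans hs
  have h1 := tendsto_of_sum Finset.univ (fun i _ => L.int_pair (hψ i) (hψc i) (hψs i) i j)
  obtain ⟨s₁, hs₁, hev⟩ := L.supp _ hc.isCompact hs
  have h2 : Tendsto (fun k => ∑ i, ∫ y in ball (x k) s₀, pderiv i φ (U k y) *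
      mGam n (fun z => U k z i) (fun z => U k z j) y ∂(μHE[n] : Measure (M k))) om (𝓝 0) := by
    refine tendsto_const_nhds.congr' ?_
    filter_upwards [eventually_all.2 L.harm, hev] with k hk hk2
    have := HR216.properSpace_of_riemannian n (M k)
    have hi := fun i => (WH_509.integrable_pair (fun a => (hk a).1)
      (fun a y hy => ((hk a).2 y hy).2) (hψ i) (hψc i) i j).2
    rw [← integral_finsetSum _ fun i _ => hi i]
    symm
    refine coord_one (U := ball (x k) s₀) (K := closedBall (x k) s₁) isOpen_ball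
      (isCompact_closedBall _ _) (fun z hz => lt_of_le_of_lt hz hs₁)
      (fun a z hz => (smoothAt (hk a).1 hz).of_le two_le_infty) (fun a z hz => ((hk a).2 z hz).1)
      (hφ.of_le two_le_infty) (fun z hz hzK => ?_) j
    rw [mem_closedBall, dist_comm]
    exact hk2 z hz hzK
  have h3 := tendsto_nhds_unique h1 h2
  rw [← h3, ← integral_finsetSum _ fun i _ => L.integrable_pair (hψ i) (hψc i) (hψs i) i j]
  refine integral_congr_ae (Eventually.of_forall fun z => ?_)
  simp only [Finset.sum_mul]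
  exact Finset.sum_congr rfl fun i _ => by ring

end Seq

end Crest.Agent.R249.WH_509
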