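import Crest.Agent.R249.WH2_509

/-!
# R249, D3-LIM/WH (3) (helper509): very weak harmonicity of limits of harmonic functions

* `continuousOn_lim` : the limit of a `HarmSeq` is continuous;
* `Link.wh`, `Link.coordHarm`, `Link.wh_chart`.
-/

set_option autoImplicit false
set_option maxSynthPendingDepth 3
set_option linter.unusedSectionVars false

open Bundle Set MeasureTheory Manifold Filter Metric Topology
open scoped ENNReal ContDiff Topology NNReal RealInnerProductSpace
open Crest.GeometryTopology.CoordMetric Crest.GeometryTopology.ChartCurvature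
open Crest.GeometryTopology.PointedLimit
open Crest.Agent.R247 Crest.Agent.R247.Ms322 Crest.Agent.R247.Bo84
open Crest.Agent.R249.Vf281 Crest.Agent.R247.Bs84 Crest.Agent.R249.Ul174
open Crest.Agent.R249.AsmD832 Crest.Agent.R249.Len47

noncomputable section
namespace Crest.Agent.R249.WH_509

universe u

variable {n : ℕ} {M : ℕ → Type u} [∀ k, MetricSpace (M k)]
  [∀ k, ChartedSpace (EuclideanSpace ℝ (Fin n)) (M k)]
  [∀ k, IsManifold 𝓘(ℝ, EuclideanSpace ℝ (Fin n)) ∞ (M k)]
  [∀ k, RiemannianBundle (fun x : M k => TangentSpace 𝓘(ℝ, EuclideanSpace ℝ (Fin n)) x)]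
  [∀ k, IsContMDiffRiemannianBundle 𝓘(ℝ, EuclideanSpace ℝ (Fin n)) ∞ (EuclideanSpace ℝ (Fin n))
    (fun x : M k => TangentSpace 𝓘(ℝ, EuclideanSpace ℝ (Fin n)) x)]
  [∀ k, IsRiemannianManifold 𝓘(ℝ, EuclideanSpace ℝ (Fin n)) (M k)]
  [∀ k, CompleteSpace (M k)] [∀ k, ConnectedSpace (M k)]

/-- limits of harmonic functions with bounded gradient are Lipschitz. -/
theorem lip_lim {q y : ∀ k, M k} (hy : Bd q y) {R : ℝ} {w : ∀ k, M k → ℝ} {f : UL q → ℝ}
    (hw : HarmSeq n y R w) (hf : LimOn (ball (UL.mk y hy) R) w f) {a b : UL q}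
    (ha : a ∈ ball (UL.mk y hy) (R / 2)) (hb : b ∈ ball (UL.mk y hy) (R / 2)) :
    |f a - f b| ≤ 2 * dist a b := by
  have hR : 0 < R := by
    have := pos_of_mem_ball ha
    linarith
  obtain ⟨a', ha', rfl⟩ := UL.exists_rep a
  obtain ⟨b', hb', rfl⟩ := UL.exists_rep b
  have h1 := hf a' ha' (ball_subset_ball (by linarith) ha)
  have h2 := hf b' hb' (ball_subset_ball (by linarith) hb)
  have h3 := (h1.sub h2).abs
  have h4 := (UL.tendsto_dist ha' hb').const_mul 2
  refine le_of_tendsto_of_tendsto h3 h4 ?_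
  have e1 : ∀ᶠ k in om, dist (a' k) (y k) < R / 2 := UL.ev_lt ha' hy ha
  have e2 : ∀ᶠ k in om, dist (b' k) (y k) < R / 2 := UL.ev_lt hb' hy hb
  filter_upwards [hw, e1, e2] with k hk h5 h6
  exact lip_of_grad (n := n) (Λ := 2) two_pos
    (fun z hz => (hk.1.contMDiffAt (isOpen_ball.mem_nhds hz)).of_le (by exact_mod_cast one_le_infty))
    (fun z hz => ((hk.2 z hz).2).trans (by norm_num)) h5 h6

theorem continuousOn_lim {q y : ∀ k, M k} (hy : Bd q y) {R : ℝ} {w : ∀ k, M k → ℝ}
    {f : UL q → ℝ} (hw : HarmSeq n y R w) (hf : LimOn (ball (UL.mk y hy) R) w f) :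
    ContinuousOn f (ball (UL.mk y hy) (R / 2)) := by
  have h : LipschitzOnWith 2 f (ball (UL.mk y hy) (R / 2)) :=
    LipschitzOnWith.of_dist_le_mul fun a ha b hb => by
      rw [Real.dist_eq]
      exact lip_lim hy hw hf ha hb
  exact h.continuousOn

variable [∀ k, MeasurableSpace (M k)] [∀ k, BorelSpace (M k)]

variable {q : ∀ k, M k} {x : ∀ k, M k} {hx : Bd q x} {s₀ : ℝ}
  {U : ∀ k, M k → EuclideanSpace ℝ (Fin n)}
  {e : OpenPartialHomeomorph (UL q) (EuclideanSpace ℝ (Fin n))}
  {G : EuclideanSpace ℝ (Fin n) → Fin n → Fin n → ℝ} {J : EuclideanSpace ℝ (Fin n) → ℝ}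

theorem Link.wh (L : Link x hx s₀ U e G J) {y : ∀ k, M k} (hy : Bd q y) {R : ℝ} (hR : 0 < R)
    (hys : UL.mk y hy ∈ e.source) {w : ∀ k, M k → ℝ} {f : UL q → ℝ} (hw : HarmSeq n y R w)
    (hf : LimOn (ball (UL.mk y hy) R) w f) :
    ∃ ρ : ℝ, 0 < ρ ∧ ball (e (UL.mk y hy)) ρ ⊆ e.target ∧
      ∀ φ : EuclideanSpace ℝ (Fin n) → ℝ, ContDiff ℝ ∞ φ → HasCompactSupport φ →
        tsupport φ ⊆ ball (e (UL.mk y hy)) ρ →
        ∫ z, f (e.symm z) * (∑ i, ∑ j, G z i j * pderiv i (pderiv j φ) z) * J z = 0 := by
  have := fun k => (inferInstance : Nonempty (M k))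
  set V : Set (EuclideanSpace ℝ (Fin n)) :=
    e.target ∩ e.symm ⁻¹' ball (UL.mk y hy) (R / 2) with hV
  have hVo : IsOpen V := e.isOpen_inter_preimage_symm isOpen_ball
  have hyV : e (UL.mk y hy) ∈ V := ⟨e.map_source hys, by
    rw [mem_preimage, e.left_inv hys]
    exact mem_ball_self (by linarith)⟩
  obtain ⟨ρ, hρ, hρV⟩ := Metric.isOpen_iff.1 hVo _ hyV
  refine ⟨ρ, hρ, hρV.trans inter_subset_left, fun φ hφ hc hs => ?_⟩
  have hsV : tsupport φ ⊆ V := hs.trans hρV
  have hst : tsupport φ ⊆ e.target := hsV.trans inter_subset_left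
  have hg : ContinuousOn (fun v => f (e.symm v)) V :=
    (continuousOn_lim hy hw hf).comp (e.continuousOn_symm.mono inter_subset_left)
      fun v hv => hv.2
  set ψ : Fin n → Fin n → EuclideanSpace ℝ (Fin n) → ℝ := fun i j v =>
    f (e.symm v) * pderiv i (pderiv j φ) v with hψdef
  have hpc : ∀ i j, Continuous (pderiv i (pderiv j φ)) := fun i j =>
    (cd_pderiv (cd_pderiv hφ j) i).continuous
  have hps : ∀ i j, tsupport (pderiv i (pderiv j φ)) ⊆ tsupport φ := fun i j => tsupport_pd2 i j
  have hpk : ∀ i j, HasCompactSupport (pderiv i (pderiv j φ)) := fun i j =>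
    hcs_of_subset hc (hps i j)
  have hψ : ∀ i j, Continuous (ψ i j) := fun i j =>
    continuous_mul_of_tsupport hVo (hpc i j) ((hps i j).trans hsV) hg
  have hψs : ∀ i j, tsupport (ψ i j) ⊆ tsupport φ := fun i j =>
    (tsupport_mul_subset_right).trans (hps i j)
  have hψc : ∀ i j, HasCompactSupport (ψ i j) := fun i j => hcs_of_subset hc (hψs i j)
  have h1 := L.int_sum hψ hψc fun i j => (hψs i j).trans hst
  -- the limit is zero
  have h2 : Tendsto (fun k => ∫ z in ball (x k) s₀, ∑ i, ∑ j, ψ i j (U k z) *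
      mGam n (fun z => U k z i) (fun z => U k z j) z ∂(μHE[n] : Measure (M k))) om (𝓝 0) := by
    have habs : ∀ i j, Continuous fun v => |pderiv i (pderiv j φ) v| := fun i j => (hpc i j).abs
    have habk : ∀ i j, HasCompactSupport fun v => |pderiv i (pderiv j φ) v| := fun i j =>
      (hpk i j).comp_left (g := fun t : ℝ => |t|) abs_zero
    have habs' : ∀ i j, tsupport (fun v => |pderiv i (pderiv j φ) v|) ⊆ e.target := fun i j =>
      ((closure_mono fun v hv => by
        intro h0
        exact hv (by simp only; rw [h0, abs_zero])).trans (hps i j)).trans hst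
    have h3 := tendsto_of_sum Finset.univ (fun i _ => tendsto_of_sum Finset.univ (fun j _ =>
      L.meas _ (habs i j) (habk i j) (habs' i j)))
    set S := ∑ i, ∑ j, ∫ v, |pderiv i (pderiv j φ) v| * J v with hS
    rw [Metric.tendsto_nhds]
    intro ε hε
    set ε' := ε / (4 * (|S| + 1) + 1) with hε'
    have hden : 0 < 4 * (|S| + 1) + 1 := by positivity
    have hε'0 : 0 < ε' := by positivity
    obtain ⟨s₁, hs₁, hev⟩ := L.supp _ hc.isCompact hst
    have hnear := L.ev_near hc.isCompact hst hy (r := R / 2) fun v hv => (hsV hv).2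
    have happ := L.ev_approx hc.isCompact hst hy (R := R)
      (fun v hv => ball_subset_ball (by linarith) (hsV hv).2) hf
      (fun v hv => hg.continuousAt (hVo.mem_nhds (hsV hv))) hε'0
    have hlt : ∀ᶠ k in om, (∑ i, ∑ j, ∫ z in ball (x k) s₀, |pderiv i (pderiv j φ) (U k z)|
        ∂(μHE[n] : Measure (M k))) < |S| + 1 :=
      h3.eventually_lt_const (by linarith [le_abs_self S])
    filter_upwards [eventually_all.2 L.harm, hw, hev, hnear, happ, hlt] with k hk hwk hk1 hk2 hk3 hk4
    have := HR216.properSpace_of_riemannian n (M k)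
    have := Mcp688.isLocallyFinite_muHE n (M k)
    have iA := fun i j => (WH_509.integrable_pair (fun a => (hk a).1)
      (fun a y hy => ((hk a).2 y hy).2) (hψ i j) (hψc i j) i j).2
    have iC := fun i j => (WH_509.integrable_pair (fun a => (hk a).1)
      (fun a y hy => ((hk a).2 y hy).2) (habs i j) (habk i j) i j).1
    set A : M k → ℝ := fun z => ∑ i, ∑ j, ψ i j (U k z) *
      mGam n (fun z => U k z i) (fun z => U k z j) z with hA
    set B : M k → ℝ := fun z => w k z * ∑ i, ∑ j, pderiv i (pderiv j φ) (U k z) *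
      mGam n (fun z => U k z i) (fun z => U k z j) z with hB
    set D : M k → ℝ := fun z => ε' * 4 * ∑ i, ∑ j, |pderiv i (pderiv j φ) (U k z)| with hD
    have iA' : IntegrableOn A (ball (x k) s₀) (μHE[n] : Measure (M k)) :=
      integrable_finsetSum _ fun i _ => integrable_finsetSum _ fun j _ => iA i j
    have iD : IntegrableOn D (ball (x k) s₀) (μHE[n] : Measure (M k)) :=
      (integrable_finsetSum _ fun i _ => integrable_finsetSum _ fun j _ => iC i j).const_mul _
    have hAB : ∀ z ∈ ball (x k) s₀, |A z - B z| ≤ D z := by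
      intro z hz
      have e1 : A z - B z = ∑ i, ∑ j, (f (e.symm (U k z)) - w k z) *
          (pderiv i (pderiv j φ) (U k z) *
            mGam n (fun z => U k z i) (fun z => U k z j) z) := by
        simp only [hA, hB, hψdef, Finset.mul_sum, ← Finset.sum_sub_distrib]
        exact Finset.sum_congr rfl fun i _ => Finset.sum_congr rfl fun j _ => by ring
      rw [e1]
      simp only [hD, Finset.mul_sum]
      refine (Finset.abs_sum_le_sum_abs _ _).trans (Finset.sum_le_sum fun i _ => ?_)
      refine (Finset.abs_sum_le_sum_abs _ _).trans (Finset.sum_le_sum fun j _ => ?_)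
      by_cases hzK : U k z ∈ tsupport φ
      · rw [abs_mul, abs_mul]
        have h5 := absF (fun a y hy => ((hk a).2 y hy).2) i j hz
        have h6 : |f (e.symm (U k z)) - w k z| ≤ ε' := by
          rw [abs_sub_comm]
          exact (hk3 z hz hzK).le
        calc |f (e.symm (U k z)) - w k z| * (|pderiv i (pderiv j φ) (U k z)| *
              |mGam n (fun z => U k z i) (fun z => U k z j) z|)
            ≤ ε' * (|pderiv i (pderiv j φ) (U k z)| * 4) := by gcongr
          _ = ε' * 4 * |pderiv i (pderiv j φ) (U k z)| := by ring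
      · rw [pderiv2_eq_zero hzK i j]
        simp
    have hBm : AEStronglyMeasurable B (Measure.restrict (μHE[n] : Measure (M k))
        (ball (x k) s₀)) := by
      refine ContinuousOn.aestronglyMeasurable (fun z hz => ?_) isOpen_ball.measurableSet
      refine ContinuousAt.continuousWithinAt ?_
      have hUc : ContinuousAt (U k) z :=
        (contU fun a => (hk a).1).continuousAt (isOpen_ball.mem_nhds hz)
      have hFc : ContinuousAt (fun z => ∑ i, ∑ j, pderiv i (pderiv j φ) (U k z) *
          mGam n (fun z => U k z i) (fun z => U k z j) z) z := by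
        refine tendsto_finsetSum _ fun i _ => tendsto_finsetSum _ fun j _ => ?_
        exact ((hpc i j).continuousAt.comp hUc).mul
          ((contF (fun a => (hk a).1) i j).continuousAt (isOpen_ball.mem_nhds hz))
      by_cases hzK : U k z ∈ tsupport φ
      · have h7 : z ∈ ball (y k) R := by
          have := hk2 z hz hzK
          rw [mem_ball, dist_comm]
          linarith
        exact ((smoothAt hwk.1 h7).continuousAt).mul hFc
      · have h8 : B =ᶠ[𝓝 z] fun _ => (0:ℝ) := by
          have h9 : ∀ᶠ z' in 𝓝 z, U k z' ∉ tsupport φ :=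
            hUc.eventually ((isClosed_tsupport φ).isOpen_compl.mem_nhds hzK)
          filter_upwards [h9] with z' hz'
          simp only [hB]
          rw [Finset.sum_eq_zero fun i _ => Finset.sum_eq_zero fun j _ => by
            rw [pderiv2_eq_zero hz' i j, zero_mul], mul_zero]
        rw [continuousAt_congr h8]
        exact continuousAt_const
    have iB : IntegrableOn B (ball (x k) s₀) (μHE[n] : Measure (M k)) := by
      refine Integrable.mono' (iA'.abs.add iD) hBm ?_
      refine (ae_restrict_mem isOpen_ball.measurableSet).mono fun z hz => ?_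
      rw [Real.norm_eq_abs, Pi.add_apply]
      have h5 := hAB z hz
      have h6 : |B z| ≤ |A z| + |A z - B z| := by
        have := abs_sub_abs_le_abs_sub (B z) (A z)
        rw [abs_sub_comm (B z)] at this
        linarith
      linarith
    have hzero : ∫ z in ball (x k) s₀, B z ∂(μHE[n] : Measure (M k)) = 0 := by
      refine wh_one (U := ball (x k) s₀) (W := ball (y k) R)
        (K := closedBall (x k) s₁ ∩ closedBall (y k) (R / 2)) isOpen_ball isOpen_ball
        ((isCompact_closedBall _ _).inter_right isClosed_closedBall)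
        (fun z hz => lt_of_le_of_lt hz.1 hs₁)
        (fun z hz => lt_of_le_of_lt hz.2 (half_lt_self hR))
        (fun a z hz => (smoothAt (hk a).1 hz).of_le two_le_infty)
        (fun a z hz => ((hk a).2 z hz).1)
        (fun z hz => (smoothAt hwk.1 hz).of_le two_le_infty)
        (fun z hz => (hwk.2 z hz).1) (hφ.of_le two_le_infty) (fun z hz hzK => ⟨?_, ?_⟩)
      · rw [mem_closedBall, dist_comm]
        exact hk1 z hz hzK
      · rw [mem_closedBall, dist_comm]
        exact (hk2 z hz hzK).le
    have key : |∫ z in ball (x k) s₀, A z ∂(μHE[n] : Measure (M k))| ≤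
        ∫ z in ball (x k) s₀, D z ∂(μHE[n] : Measure (M k)) := by
      have e2 : ∫ z in ball (x k) s₀, A z ∂(μHE[n] : Measure (M k)) =
          ∫ z in ball (x k) s₀, (A z - B z) ∂(μHE[n] : Measure (M k)) := by
        rw [integral_sub iA' iB, hzero, sub_zero]
      rw [e2]
      exact norm_integral_le_of_norm_le (f := fun z => A z - B z) iD
        ((ae_restrict_mem isOpen_ball.measurableSet).mono fun z hz => hAB z hz)
    have e3 : ∫ z in ball (x k) s₀, D z ∂(μHE[n] : Measure (M k)) =
        ε' * 4 * ∑ i, ∑ j, ∫ z in ball (x k) s₀, |pderiv i (pderiv j φ) (U k z)|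
          ∂(μHE[n] : Measure (M k)) := by
      simp only [hD]
      rw [integral_const_mul,
        integral_finsetSum _ fun i _ => integrable_finsetSum _ fun j _ => iC i j]
      congr 1
      exact Finset.sum_congr rfl fun i _ => integral_finsetSum _ fun j _ => iC i j
    rw [Real.dist_eq, sub_zero]
    refine key.trans_lt ?_
    rw [e3]
    calc ε' * 4 * ∑ i, ∑ j, ∫ z in ball (x k) s₀, |pderiv i (pderiv j φ) (U k z)|
          ∂(μHE[n] : Measure (M k)) ≤ ε' * 4 * (|S| + 1) := by
          gcongr
      _ < ε' * (4 * (|S| + 1) + 1) := by nlinarith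
      _ = ε := by rw [hε']; field_simp
  have h4 := tendsto_nhds_unique h1 h2
  have i5 : ∀ i j, Integrable fun v => G v i j * ψ i j v * J v := fun i j =>
    L.integrable_pair (hψ i j) (hψc i j) ((hψs i j).trans hst) i j
  rw [← h4]
  rw [show (∑ i, ∑ j, ∫ v, G v i j * ψ i j v * J v) =
      ∫ v, ∑ i, ∑ j, G v i j * ψ i j v * J v by
    rw [integral_finsetSum _ fun i _ => integrable_finsetSum _ fun j _ => i5 i j]
    exact Finset.sum_congr rfl fun i _ => (integral_finsetSum _ fun j _ => i5 i j).symm]
  refine integral_congr_ae (Eventually.of_forall fun v => ?_)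
  simp only [hψdef, Finset.mul_sum, Finset.sum_mul]
  exact Finset.sum_congr rfl fun i _ => Finset.sum_congr rfl fun j _ => by ring

/-! ### the clauses of `RThm` -/

/-- **CoordHarm** of `AsmD_832`. -/
theorem Link.coordHarm {lam : ℝ} {C : RChart n (UL q) lam}
    (L : Link x hx s₀ U C.e (fun w i j => inverseField C.h w i j)
      (fun w => Real.sqrt (C.h w).det)) : CoordHarm C := by
  have := fun k => (inferInstance : Nonempty (M k))
  intro j φ hφ hc hs
  exact L.coord j hφ hc hs

/-- **WH** of `AsmD_832`. -/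
theorem Link.wh_chart {lam : ℝ} {C : RChart n (UL q) lam}
    (L : Link x hx s₀ U C.e (fun w i j => inverseField C.h w i j)
      (fun w => Real.sqrt (C.h w).det)) : WH n C := by
  intro y hy R w f hR hys hw hf
  exact L.wh hy hR hys hw hf

end Crest.Agent.R249.WH_509
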