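import Crest.Agent.R249.WH4_509
import Crest.Agent.R249.Fin1_832

/-!
# R249, D3-LIM/WH (5) (helper509): `WhStmt` of `Fin1_832`
-/

set_option autoImplicit false
set_option maxSynthPendingDepth 3
set_option linter.unusedSectionVars false

noncomputable section
namespace Crest.Agent.R249.WH_509

/-- **leaf WH**: the closed statement used by `Fin832.rthm_of`. -/
theorem whStmt : Crest.Agent.R249.Fin832.WhStmt := by
  refine ⟨1 / 8, 1 / 8, by norm_num, by norm_num, ?_⟩
  intro M _ _ _ _ _ _ _ _ _ _ q x hx ρ α C C' ε δ lam lamk u h r₀ U e _ H A Ch Sp Ms St R hRe hRh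
  refine wh_all H A Ch Sp Ms St R hRe fun w hw => ?_
  rw [hRh]
  rfl

end Crest.Agent.R249.WH_509
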